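import Crest.Agent.R141.PM

/-! The finite model as an instance of the measure theoretic definitions (task R141 Law+S0192). -/

set_option autoImplicit false

namespace Crest.Agent.R141

open Finset Crest.ProbabilityR.Diluted MeasureTheory
open scoped BigOperators

/-- the law of `T` under a probability vector -/
noncomputable def PV.law {α β : Type} [Fintype α] [MeasurableSpace β] (p : PV α) (T : α → β) :
    Measure β := ∑ a, ENNReal.ofReal (p.w a) • Measure.dirac (T a)

instance PV.law_prob {α β : Type} [Fintype α] [MeasurableSpace β] (p : PV α) (T : α → β) :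
    IsProbabilityMeasure (p.law T) := by
  constructor
  simp only [PV.law, Measure.finsetSum_apply, Measure.smul_apply, measure_univ, smul_eq_mul, mul_one]
  rw [← ENNReal.ofReal_sum_of_nonneg fun a _ => p.nonneg a, p.sum_one, ENNReal.ofReal_one]

/-- no measurability is needed (`integral_finset_sum_measure`, `integral_smul_measure`,
`integral_dirac`, `integrable_dirac`) -/
theorem PV.integral_law {α β : Type} [Fintype α] [MeasurableSpace β] [MeasurableSingletonClass β]
    (p : PV α) (T : α → β) (f : β → ℝ) : ∫ b, f b ∂p.law T = p.E fun a => f (T a) := by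
  unfold PV.law PV.E
  rw [integral_finsetSum_measure fun a _ =>
    (integrable_dirac (by simp)).smul_measure ENNReal.ofReal_ne_top]
  refine sum_congr rfl fun a _ => ?_
  rw [integral_smul_measure, integral_dirac, ENNReal.toReal_ofReal (p.nonneg a), smul_eq_mul]

theorem PV.integrable_law {α β : Type} [Fintype α] [MeasurableSpace β] [MeasurableSingletonClass β]
    (p : PV α) (T : α → β) (f : β → ℝ) : Integrable f (p.law T) := by
  unfold PV.law
  exact integrable_finsetSum_measure.2 fun a _ =>
    (integrable_dirac (by simp)).smul_measure ENNReal.ofReal_ne_top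

/-- `Measure.pi_eq` on boxes, `Fintype.prod_sum` -/
theorem PV.pi_law {α β ι : Type} [Fintype α] [MeasurableSpace β] [Fintype ι] [DecidableEq ι]
    (p : PV α) (T : α → β) :
    Measure.pi (fun _ : ι => p.law T) = (p.pi ι).law fun θ i => T (θ i) := by
  classical
  refine Measure.pi_eq fun s hs => ?_
  simp only [PV.law, Measure.finsetSum_apply, Measure.smul_apply, smul_eq_mul,
    Measure.dirac_apply' _ (MeasurableSet.univ_pi hs), Measure.dirac_apply' _ (hs _)]
  rw [Fintype.prod_sum]
  refine sum_congr rfl fun θ _ => ?_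
  rw [prod_mul_distrib, ← ENNReal.ofReal_prod_of_nonneg fun i _ => p.nonneg (θ i)]
  congr 1
  simp only [Set.indicator_apply, Set.mem_univ_pi, Pi.one_apply, Fintype.prod_ite_zero,
    prod_const_one]

/-! ### one-spin laws -/

theorem law_tilt_pos (x : ℝ) (b : Bool) : 0 < Crest.ProbabilityR.Diluted.tilt x b := by
  unfold Crest.ProbabilityR.Diluted.tilt
  have := Real.cosh_pos x
  positivity

theorem law_tilt_false (x : ℝ) :
    Crest.ProbabilityR.Diluted.tilt x false = 1 - Crest.ProbabilityR.Diluted.tilt x true := by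
  unfold Crest.ProbabilityR.Diluted.tilt
  have := (Real.cosh_pos x).ne'
  field_simp
  simp only [spinVal, Bool.false_eq_true, if_false, if_true, mul_one, mul_neg, Real.cosh_eq]
  ring

theorem law_tilt_mem (x : ℝ) :
    0 ≤ Crest.ProbabilityR.Diluted.tilt x true ∧ Crest.ProbabilityR.Diluted.tilt x true ≤ 1 := by
  have h := law_tilt_pos x false
  rw [law_tilt_false] at h
  exact ⟨(law_tilt_pos x true).le, by linarith⟩

theorem law_tilt_ite (x : ℝ) (b : Bool) :
    (if b then Crest.ProbabilityR.Diluted.tilt x true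
      else 1 - Crest.ProbabilityR.Diluted.tilt x true) = Crest.ProbabilityR.Diluted.tilt x b := by
  cases b <;> simp [law_tilt_false]

theorem law_measurable_tilt {Z : Type} [MeasurableSpace Z] {X : Z → ℝ} (hX : Measurable X) :
    Measurable fun u => Crest.ProbabilityR.Diluted.tilt (X u) true := by
  unfold Crest.ProbabilityR.Diluted.tilt
  fun_prop

/-- the message whose law gives the probability `q` to `true` -/
theorem law_tilt_logit {q : ℝ} (h0 : 0 < q) (h1 : q < 1) :
    Crest.ProbabilityR.Diluted.tilt (Real.log (q / (1 - q)) / 2) true = q := by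
  have h2 : 0 < 1 - q := by linarith
  set x := Real.log (q / (1 - q)) / 2 with hx
  have he : Real.exp x * Real.exp x = q / (1 - q) := by
    rw [← Real.exp_add, hx, add_halves, Real.exp_log (div_pos h0 h2)]
  have hp := Real.exp_pos x
  unfold Crest.ProbabilityR.Diluted.tilt
  have hc := (Real.cosh_pos x).ne'
  rw [div_eq_iff (by positivity), Real.cosh_eq, Real.exp_neg]
  simp only [spinVal, if_true, mul_one]
  field_simp at he ⊢
  linarith

/-! ### values of measurable trials -/

section mv
variable {L : Type} [Fintype L] [DecidableEq L] {r : ℕ} {m : Fin r → ℝ}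
  {π : (Fin (r + 1) → unitInterval) → ℝ} {W : (L → Bool) → ℝ}

theorem law_measurable_mixW (hπ : Measurable π) :
    Measurable fun u' : L → Fin (r + 1) → unitInterval => mixW W fun l => π (u' l) := by
  unfold mixW
  refine Finset.measurable_sum _ fun τ _ =>
    measurable_const.mul (Finset.measurable_prod _ fun l _ => ?_)
  have : Measurable fun u' : L → Fin (r + 1) → unitInterval => π (u' l) :=
    hπ.comp (measurable_pi_apply l)
  split_ifs
  · exact this
  · exact measurable_const.sub this

theorem law_mixW_mem (h01 : ∀ u, 0 ≤ π u ∧ π u ≤ 1) (hW : ∀ τ, 0 < W τ) {B : ℝ}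
    (hB : ∀ τ, |Real.log (W τ)| ≤ B) (u' : L → Fin (r + 1) → unitInterval) :
    Real.exp (-B) ≤ mixW W (fun l => π (u' l)) ∧ mixW W (fun l => π (u' l)) ≤ Real.exp B := by
  refine mixW_mem (fun l => h01 _) fun τ => ?_
  have h := abs_le.1 (hB τ)
  rw [← Real.exp_log (hW τ)]
  exact ⟨Real.exp_le_exp.2 h.1, Real.exp_le_exp.2 h.2⟩

theorem law_abs_log_pm_le (hm : ∀ d, 0 < m d) (hπ : Measurable π) (h01 : ∀ u, 0 ≤ π u ∧ π u ≤ 1)
    (hW : ∀ τ, 0 < W τ) {B : ℝ} (hB : ∀ τ, |Real.log (W τ)| ≤ B)
    (u : L → Fin (r + 1) → unitInterval) :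
    |Real.log (powerMeans m (fun u' => mixW W fun l => π (u' l)) u)| ≤ B := by
  have h := powerMeans_mem hm (law_measurable_mixW (W := W) hπ) (Real.exp_pos (-B))
    (law_mixW_mem h01 hW hB) u
  have hp := (Real.exp_pos (-B)).trans_le h.1
  exact abs_le.2 ⟨(Real.le_log_iff_exp_le hp).2 h.1, (Real.log_le_iff_le_exp hp).2 h.2⟩

theorem law_abs_MV_le (hm : ∀ d, 0 < m d) (hπ : Measurable π) (h01 : ∀ u, 0 ≤ π u ∧ π u ≤ 1)
    (hW : ∀ τ, 0 < W τ) {B : ℝ} (hB : ∀ τ, |Real.log (W τ)| ≤ B) : |MV m π W| ≤ B := by
  have := norm_integral_le_of_norm_le_const (μ := uniformArrays L r)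
    (f := fun u => Real.log (powerMeans m (fun u' => mixW W fun l => π (u' l)) u)) (C := B)
    (Filter.Eventually.of_forall (law_abs_log_pm_le hm hπ h01 hW hB))
  simpa [MV] using this

theorem law_MV_half (hm : ∀ d, 0 < m d) (hπ : Measurable π) (h01 : ∀ u, 0 ≤ π u ∧ π u ≤ 1)
    (hW : ∀ τ, 0 < W τ) {B : ℝ} (hB : ∀ τ, |Real.log (W τ)| ≤ B) :
    MV m π W - Real.log 2 = ∫ u, Real.log (powerMeans m
      (fun u' => 1 / 2 * mixW W fun l => π (u' l)) u) ∂uniformArrays L r := by
  have hmeas := law_measurable_mixW (W := W) hπ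
  have hmem := law_mixW_mem h01 hW hB
  have he := Real.exp_pos (-B)
  have he' := Real.exp_pos B
  have h1 : ∀ u' : L → Fin (r + 1) → unitInterval, Real.exp (-B) / 2 ≤ mixW W (fun l => π (u' l)) ∧
      mixW W (fun l => π (u' l)) ≤ Real.exp B := fun u' =>
    ⟨by linarith [(hmem u').1], (hmem u').2⟩
  have h2 : ∀ u' : L → Fin (r + 1) → unitInterval,
      Real.exp (-B) / 2 ≤ 1 / 2 * mixW W (fun l => π (u' l)) ∧
      1 / 2 * mixW W (fun l => π (u' l)) ≤ Real.exp B := fun u' =>
    ⟨by linarith [(hmem u').1], by linarith [(hmem u').2]⟩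
  have h3 : ∀ u' : L → Fin (r + 1) → unitInterval, Real.log (1 / 2 * mixW W fun l => π (u' l)) =
      -Real.log 2 + Real.log (mixW W fun l => π (u' l)) := fun u' => by
    rw [Real.log_mul (by norm_num) (he.trans_le (hmem u').1).ne', one_div, Real.log_inv]
  have h4 : ∀ u, Real.log (powerMeans m (fun u' => 1 / 2 * mixW W fun l => π (u' l)) u) =
      Real.log (powerMeans m (fun u' => mixW W fun l => π (u' l)) u) - Real.log 2 := fun u => by
    have a := log_powerMeans_le hm (hmeas.const_mul (1 / 2)) hmeas (half_pos he) h2 h1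
      (c := -Real.log 2) (fun u' => (h3 u').le) u
    have b := log_powerMeans_le hm hmeas (hmeas.const_mul (1 / 2)) (half_pos he) h1 h2
      (c := Real.log 2) (fun u' => by rw [h3]; linarith) u
    linarith
  have hint : Integrable (fun u => Real.log (powerMeans m (fun u' => mixW W fun l => π (u' l)) u))
      (uniformArrays L r) := by
    have hpm : Measurable fun u => powerMeans m (fun u' => mixW W fun l => π (u' l)) u :=
      (measurable_powerMeans (m := m) (Z := Unit) (W := fun _ u' => mixW W fun l => π (u' l))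
        (hmeas.comp measurable_snd)).comp (measurable_prodMk_left (x := ()))
    exact Integrable.of_bound hpm.log.aestronglyMeasurable B
      (Filter.Eventually.of_forall (law_abs_log_pm_le hm hπ h01 hW hB))
  simp only [h4]
  rw [integral_sub hint (integrable_const _)]
  simp [MV]

end mv

namespace FM
variable {p : ℕ} (M : FM p)

instance : IsProbabilityMeasure M.law := PV.law_prob M.pΘ _

instance : IsProbabilityMeasure M.flaw := PV.law_prob M.pH _

theorem law_eq : M.law = M.pΘ.law fun θ s => Real.log (M.w θ s) := rfl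

theorem flaw_eq : M.flaw = M.pH.law M.hv := rfl

theorem law_edgeTerm (θ : M.Θ) (x : Fin p → ℝ) :
    edgeTerm (fun s => Real.log (M.w θ s)) x =
      mixW (M.w θ) fun l => Crest.ProbabilityR.Diluted.tilt (x l) true := by
  unfold edgeTerm mixW
  simp only [law_tilt_ite, Real.exp_log (M.w_pos θ _)]

theorem law_siteTerm {k : ℕ} (h : M.H) (θ : Fin k → M.Θ) (x : Fin k → Fin (p - 1) → ℝ) :
    siteTerm (M.hv h) (fun j s => Real.log (M.w (θ j) s)) x =
      1 / 2 * mixW (M.siteW h θ) fun l => Crest.ProbabilityR.Diluted.tilt (x l.1 l.2) true := by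
  unfold siteTerm mixW siteW
  congr 1
  simp only [law_tilt_ite, sum_mul]
  rw [sum_comm]
  refine sum_congr rfl fun ε _ => ?_
  have h1 : ∀ j, Real.exp (siteMessage (fun s => Real.log (M.w (θ j) s)) (x j) ε) =
      ∑ s' : Fin (p - 1) → Bool,
        M.w (θ j) (fun l => if hl : l.val < p - 1 then s' ⟨l.val, hl⟩ else ε) *
          ∏ l, Crest.ProbabilityR.Diluted.tilt (x j l) (s' l) := by
    intro j
    unfold siteMessage
    simp only [Real.exp_log (M.w_pos _ _)]
    exact Real.exp_log (sum_pos (fun s' _ => mul_pos (M.w_pos _ _)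
      (prod_pos fun l _ => law_tilt_pos _ _)) univ_nonempty)
  rw [Real.exp_add, Real.exp_sum]
  simp only [h1]
  rw [Fintype.prod_sum, mul_sum, ← (Equiv.curry (Fin k) (Fin (p - 1)) Bool).sum_comp]
  refine sum_congr rfl fun τ _ => ?_
  rw [prod_mul_distrib, Fintype.prod_prod_type, mul_assoc]
  rfl

theorem pressure_law (α : ℝ) (N : ℕ) : pressure p α M.law M.flaw N = M.pres α N := by
  unfold pressure pres FZ Dis
  congr 1
  refine tsum_congr fun K => ?_
  congr 1
  rw [law_eq, flaw_eq, PV.pi_law, PV.pi_law, PV.integral_law]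
  congr 1
  funext θ
  rw [PV.integral_law, ← PV.E_expect]
  congr 1
  funext h
  rw [Fintype.expect_eq_sum_div_card, div_eq_inv_mul]
  rfl

/-- `edgeTerm (log ∘ w θ) x = mixW (w θ) (fun l => tilt (x l) true)` (`tilt x false = 1 - tilt x true`),
`siteTerm = mixW (siteW h θ) (..)/2` (product of sums: `Fintype.prod_sum`, currying); the factor
`1/2` leaves the power means (`log_powerMeans_le` twice), and `log 2 = Σ' poi · log 2`. -/
theorem trial_law {α : ℝ} (hα : 0 ≤ α) {r : ℕ} {m : Fin r → ℝ} (hm : AdmissibleExponents m)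
    {X : (Fin (r + 1) → unitInterval) → ℝ} (hX : Measurable X) :
    trialFunctional p α M.law M.flaw r m X = M.MP α m fun u => Crest.ProbabilityR.Diluted.tilt (X u) true := by
  have hm' : ∀ d, 0 < m d := fun d => (hm.2 d).1
  have hπ := law_measurable_tilt hX
  have h01 : ∀ u, 0 ≤ Crest.ProbabilityR.Diluted.tilt (X u) true ∧
      Crest.ProbabilityR.Diluted.tilt (X u) true ≤ 1 := fun u => law_tilt_mem (X u)
  obtain ⟨B, hB⟩ := M.exists_bd
  unfold trialFunctional MP
  congr 1
  · set S : ℕ → ℝ := fun k => (M.pΘ.pi (Fin k)).E fun θ => M.pH.E fun h =>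
      MV m (fun u => Crest.ProbabilityR.Diluted.tilt (X u) true) (M.siteW h θ) with hS
    have hk : ∀ k : ℕ, (∫ θs, ∫ h, ∫ u, Real.log (powerMeans m
          (fun u' : (Fin k × Fin (p - 1)) → Fin (r + 1) → unitInterval =>
            siteTerm h θs (fun j l => X (u' (j, l)))) u)
        ∂(uniformArrays (Fin k × Fin (p - 1)) r) ∂M.flaw ∂(Measure.pi fun _ : Fin k => M.law)) =
        S k - Real.log 2 := by
      intro k
      rw [law_eq, flaw_eq, PV.pi_law, PV.integral_law, hS, ← (M.pΘ.pi (Fin k)).E_const (Real.log 2),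
        ← PV.E_sub]
      congr 1
      funext θ
      rw [PV.integral_law, ← M.pH.E_const (Real.log 2), ← PV.E_sub]
      congr 1
      funext h
      rw [law_MV_half hm' hπ h01 (M.siteW_pos h θ) (M.abs_log_siteW_le hB h θ)]
      simp only [M.law_siteTerm]
    have hsum : Summable fun k => poissonWeight (α * p) k * S k := by
      refine summable_poi (by positivity) (C := B + 1) fun k => ?_
      refine PV.abs_E_le_of _ fun θ => PV.abs_E_le_of _ fun h => ?_
      refine (law_abs_MV_le hm' hπ h01 (M.siteW_pos h θ) (M.abs_log_siteW_le hB h θ)).trans ?_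
      have : (0 : ℝ) ≤ k := Nat.cast_nonneg k
      nlinarith
    simp only [hk, mul_sub]
    rw [(hsum.hasSum.sub ((hasSum_poi (α * p)).mul_right (Real.log 2))).tsum_eq]
    ring
  · congr 1
    rw [law_eq, PV.integral_law]
    congr 1
    funext θ
    simp only [M.law_edgeTerm]
    rfl

end FM

end Crest.Agent.R141
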