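import Crest.Agent.R141.Close
import Crest.Agent.R141.Law
import Crest.Agent.R141.Approx.Fin
import Crest.Agent.R141.Approx.Round

/-! Approximation of a factorised model by finite models (task R141 Approx). -/

set_option autoImplicit false

namespace Crest.Agent.R141

open Finset Crest.ProbabilityR.Diluted MeasureTheory ProbabilityTheory Filter Topology
open scoped BigOperators

/-- Round `x` to a finite set (simple functions are dense in `L¹`:
`MeasureTheory.Integrable.exists_simpleFunc…`/`SimpleFunc.approxOn`, or truncate and take floors);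
`H` is the finite range of `q`, `pH` the law of `q`. -/
theorem approx_field (ν : Measure ℝ) [IsProbabilityMeasure ν] (hν : Integrable (fun x : ℝ => x) ν)
    {η : ℝ} (hη : 0 < η) :
    ∃ (H : Type) (_ : Fintype H) (pH : PV H) (hv : H → ℝ), CloseH ν (pH.law hv) η := by
  have h1 : Tendsto (fun n => ∫ x, |x - rzero n x| ∂ν) atTop (𝓝 (∫ _x : ℝ, (0 : ℝ) ∂ν)) := by
    refine tendsto_integral_of_dominated_convergence (fun x => |x| + |x|) (fun n => ?_)
      (hν.abs.add hν.abs) (fun n => Eventually.of_forall fun x => ?_)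
      (Eventually.of_forall fun x => ?_)
    · exact (measurable_id.sub (measurable_rzero n)).abs.aestronglyMeasurable
    · rw [Real.norm_eq_abs, abs_abs]
      exact (abs_sub _ _).trans (add_le_add le_rfl (abs_rzero_le n x))
    · have := ((tendsto_const_nhds (x := x)).sub (tendsto_rzero x)).abs
      simpa using this
  rw [integral_zero] at h1
  obtain ⟨n, hn⟩ := (h1.eventually (gt_mem_nhds hη)).exists
  obtain ⟨H, _, pH, hv, -, h⟩ := exists_PV_map ν (measurable_rzero n) (finite_range_rzero n)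
  exact ⟨H, inferInstance, pH, hv, rzero n, measurable_rzero n, h.symm, hn.le⟩

section core
variable {p : ℕ} {Ω : Type} [MeasurableSpace Ω] {P : Measure Ω}

/-- the distance of two interactions up to an additive constant -/
noncomputable def errF (s₀ : Fin p → Bool) (T T' : Inter p) : ℝ :=
  ∑ s, |T s - T s₀ - (T' s - T' s₀)|

theorem measurable_errF (s₀ : Fin p → Bool) {T T' : Ω → Inter p} (hT : Measurable T)
    (hT' : Measurable T') : Measurable fun ω => errF s₀ (T ω) (T' ω) := by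
  unfold errF
  refine Finset.measurable_sum _ fun s _ => Measurable.abs ?_
  fun_prop

theorem close_of [IsProbabilityMeasure P] (s₀ : Fin p → Bool) {T T' : Ω → Inter p}
    (hT : Measurable T) (hT' : Measurable T') (hTi : ∀ s, Integrable (fun ω => T ω s) P)
    (hTi' : ∀ s, Integrable (fun ω => T' ω s) P) {η : ℝ}
    (h : ∫ ω, errF s₀ (T ω) (T' ω) ∂P ≤ η) :
    Close (P.map T) (P.map T') (∫ ω, (T ω s₀ - T' ω s₀) ∂P) η := by
  refine ⟨Ω, inferInstance, P, inferInstance, T, T', fun ω => T ω s₀ - T' ω s₀,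
    fun ω => errF s₀ (T ω) (T' ω), hT, hT', rfl, rfl, (hTi s₀).sub (hTi' s₀), ?_, rfl, h,
    Eventually.of_forall fun ω s => ?_⟩
  · unfold errF
    exact integrable_finsetSum _ fun s _ =>
      (((hTi s).sub (hTi s₀)).sub ((hTi' s).sub (hTi' s₀))).abs
  · have h1 : T ω s - (T ω s₀ - T' ω s₀) - T' ω s = T ω s - T ω s₀ - (T' ω s - T' ω s₀) := by ring
    rw [h1]
    exact single_le_sum (f := fun s => |T ω s - T ω s₀ - (T' ω s - T' ω s₀)|)
      (fun _ _ => abs_nonneg _) (mem_univ s)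

theorem tendsto_errF (s₀ : Fin p → Bool) {T : Ω → Inter p} (hT : Measurable T)
    (hTi : ∀ s, Integrable (fun ω => T ω s) P) {T' : ℕ → Ω → Inter p} {T'' : Ω → Inter p}
    (hT' : ∀ n, Measurable (T' n)) {g : (Fin p → Bool) → Ω → ℝ} (hg : ∀ s, Integrable (g s) P)
    (hb : ∀ᶠ n in atTop, ∀ᵐ ω ∂P, ∀ s, |T' n ω s - T' n ω s₀| ≤ g s ω)
    (hl : ∀ᵐ ω ∂P, ∀ s, Tendsto (fun n => T' n ω s) atTop (𝓝 (T'' ω s))) :
    Tendsto (fun n => ∫ ω, errF s₀ (T ω) (T' n ω) ∂P) atTop
      (𝓝 (∫ ω, errF s₀ (T ω) (T'' ω) ∂P)) := by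
  refine tendsto_integral_filter_of_dominated_convergence
    (fun ω => ∑ s, (|T ω s - T ω s₀| + g s ω))
    (Eventually.of_forall fun n => (measurable_errF s₀ hT (hT' n)).aestronglyMeasurable) ?_
    (integrable_finsetSum _ fun s _ => ((hTi s).sub (hTi s₀)).abs.add (hg s)) ?_
  · filter_upwards [hb] with n hn
    filter_upwards [hn] with ω hω
    unfold errF
    rw [Real.norm_eq_abs, abs_of_nonneg (sum_nonneg fun _ _ => abs_nonneg _)]
    exact sum_le_sum fun s _ => (abs_sub _ _).trans (add_le_add le_rfl (hω s))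
  · filter_upwards [hl] with ω hω
    unfold errF
    exact tendsto_finsetSum _ fun s _ => (tendsto_const_nhds.sub ((hω s).sub (hω s₀))).abs

/-- step 1: damping -/
theorem exists_damp (s₀ : Fin p → Bool) {T : Ω → Inter p} (hT : Measurable T)
    (hTi : ∀ s, Integrable (fun ω => T ω s) P) {t : Ω → (Fin p → Bool) → ℝ} (ht : Measurable t)
    (hlt : ∀ᵐ ω ∂P, ∀ s, |t ω s| < 1)
    (hTt : ∀ᵐ ω ∂P, ∀ s, T ω s - T ω s₀ = Real.log (1 + t ω s) - Real.log (1 + t ω s₀))
    {η : ℝ} (hη : 0 < η) :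
    ∃ ρ : ℝ, 0 ≤ ρ ∧ ρ < 1 ∧ ∫ ω, errF s₀ (T ω) (fun s => Real.log (1 + ρ * t ω s)) ∂P < η := by
  have hρ0 : ∀ n : ℕ, (0 : ℝ) ≤ 1 - 1 / ((n : ℝ) + 1) := fun n => by
    have : 1 / ((n : ℝ) + 1) ≤ 1 := by
      rw [div_le_one (by positivity)]
      linarith [(Nat.cast_nonneg n : (0 : ℝ) ≤ n)]
    linarith
  have hρ1 : ∀ n : ℕ, 1 - 1 / ((n : ℝ) + 1) < 1 := fun n => by
    have : 0 < 1 / ((n : ℝ) + 1) := by positivity
    linarith
  have h1 := tendsto_errF (P := P) s₀ hT hTi
    (T' := fun n ω s => Real.log (1 + (1 - 1 / ((n : ℝ) + 1)) * t ω s))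
    (T'' := fun ω s => Real.log (1 + t ω s))
    (fun n => measurable_pi_lambda _ fun s => Real.measurable_log.comp (by fun_prop))
    (g := fun s ω => |T ω s - T ω s₀|) (fun s => ((hTi s).sub (hTi s₀)).abs)
    (Eventually.of_forall fun n => by
      filter_upwards [hlt, hTt] with ω h1 h2 s
      rw [h2 s]
      exact abs_log_damp_le (hρ0 n) (hρ1 n).le (h1 s) (h1 s₀))
    (by
      filter_upwards [hlt] with ω h1 s
      have h2 : Tendsto (fun n : ℕ => 1 + (1 - 1 / ((n : ℝ) + 1)) * t ω s) atTop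
          (𝓝 (1 + (1 - 0) * t ω s)) :=
        tendsto_const_nhds.add
          ((tendsto_const_nhds.sub tendsto_one_div_add_atTop_nhds_zero_nat).mul tendsto_const_nhds)
      rw [sub_zero, one_mul] at h2
      have h3 := (abs_lt.1 (h1 s)).1
      exact h2.log (by linarith))
  have h2 : ∫ ω, errF s₀ (T ω) (fun s => Real.log (1 + t ω s)) ∂P = 0 := by
    refine integral_eq_zero_of_ae ?_
    filter_upwards [hTt] with ω hω
    unfold errF
    exact sum_eq_zero fun s _ => by rw [hω s, sub_self, abs_zero]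
  rw [h2] at h1
  obtain ⟨n, hn⟩ := (h1.eventually (gt_mem_nhds hη)).exists
  exact ⟨_, hρ0 n, hρ1 n, hn⟩

theorem pow_div_le (n : ℕ) : (n : ℝ) ^ p * (1 / ((((n + 1) ^ (p + 1) : ℕ) : ℝ) + 1)) ≤
    1 / ((n : ℝ) + 1) := by
  rw [mul_one_div, div_le_div_iff₀ (by positivity) (by positivity)]
  push_cast
  have h1 : (n : ℝ) ^ p ≤ ((n : ℝ) + 1) ^ p := pow_le_pow_left₀ (Nat.cast_nonneg _) (by linarith) _
  have h2 : (n : ℝ) ^ p * (n + 1) ≤ ((n : ℝ) + 1) ^ p * (n + 1) :=
    mul_le_mul_of_nonneg_right h1 (by positivity)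
  rw [pow_succ]
  linarith

/-- the approximation when `b` is bounded -/
theorem approx_core [IsProbabilityMeasure P] (hp : Even p) (l₀ : Fin p) {T : Ω → Inter p}
    (hT : Measurable T) (hTi : ∀ s, Integrable (fun ω => T ω s) P) {b : Ω → ℝ}
    {f : Fin p → Ω → Bool → ℝ} (hb : Measurable b) (hf : ∀ l, Measurable (f l))
    (hind : iIndepFun f P) (hid : ∀ l, P.map (f l) = P.map (f l₀))
    (hbf : IndepFun b (fun ω l => f l ω) P)
    (hlt : ∀ᵐ ω ∂P, ∀ s : Fin p → Bool, |b ω * ∏ l, f l ω (s l)| < 1) {B : ℝ}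
    (hB : ∀ᵐ ω ∂P, |b ω| ≤ B) (hmom : ∀ n : ℕ, 1 ≤ n → 0 ≤ ∫ ω, (-b ω) ^ n ∂P)
    (hTt : ∀ᵐ ω ∂P, ∀ s s' : Fin p → Bool, T ω s - T ω s' =
      Real.log (1 + b ω * ∏ l, f l ω (s l)) - Real.log (1 + b ω * ∏ l, f l ω (s' l)))
    {η : ℝ} (hη : 0 < η) {H : Type} [Fintype H] (pH : PV H) (hv : H → ℝ) :
    ∃ (M : FM p) (κ₀ : ℝ), M.Pos ∧ Close (P.map T) M.law κ₀ η ∧ M.flaw = pH.law hv := by
  classical
  set s₀ : Fin p → Bool := fun _ => true
  have hfs : ∀ l σ, Measurable fun ω => f l ω σ := fun l σ => (measurable_pi_apply σ).comp (hf l)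
  obtain ⟨ρ, hρ0, hρ1, hρ⟩ := exists_damp (P := P) s₀ hT hTi
    (t := fun ω s => b ω * ∏ l, f l ω (s l))
    (measurable_pi_lambda _ fun s => hb.mul (Finset.measurable_prod _ fun l _ => hfs l _)) hlt
    (by filter_upwards [hTt] with ω h s using h s s₀) hη
  -- the approximations
  set q : ℕ → ℝ → ℝ := fun n x => ρ * rup B ((n + 1) ^ (p + 1)) (-x) with hq
  set r : ℕ → (Bool → ℝ) → Bool → ℝ := fun n φ σ => rzero n (φ σ) with hr
  have hqm : ∀ n, Measurable (q n) := fun n =>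
    ((measurable_rup _ _).comp measurable_neg).const_mul ρ
  have hrm : ∀ n, Measurable (r n) := fun n =>
    measurable_pi_lambda _ fun σ => (measurable_rzero n).comp (measurable_pi_apply σ)
  have hum : ∀ n (s : Fin p → Bool), Measurable fun ω => q n (b ω) * ∏ l, r n (f l ω) (s l) :=
    fun n s => ((hqm n).comp hb).mul (Finset.measurable_prod _ fun l _ =>
      (measurable_rzero n).comp (hfs l _))
  have hT'm : ∀ n, Measurable fun ω (s : Fin p → Bool) =>
      Real.log (1 - q n (b ω) * ∏ l, r n (f l ω) (s l)) := fun n =>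
    measurable_pi_lambda _ fun s => Real.measurable_log.comp (measurable_const.sub (hum n s))
  have hρ' : (1 + ρ) / 2 < 1 := by linarith
  have hbd : ∀ᶠ n : ℕ in atTop, ∀ᵐ ω ∂P, ∀ s : Fin p → Bool,
      |q n (b ω) * ∏ l, r n (f l ω) (s l)| ≤ (1 + ρ) / 2 := by
    have h0 : (0 : ℝ) < (1 - ρ) / 2 := by linarith
    filter_upwards [tendsto_one_div_add_atTop_nhds_zero_nat.eventually (gt_mem_nhds h0)] with n hn
    filter_upwards [hlt, hB] with ω h1 h2 s
    obtain ⟨h3, h4⟩ := rup_spec (B := B) ((n + 1) ^ (p + 1)) (x := -b ω) (by rwa [abs_neg])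
    set ε : ℝ := 1 / ((((n + 1) ^ (p + 1) : ℕ) : ℝ) + 1) with hε
    have hε0 : 0 ≤ ε := by positivity
    have h5 : |rup B ((n + 1) ^ (p + 1)) (-b ω)| ≤ |b ω| + ε := by
      have := neg_abs_le (b ω)
      have := le_abs_self (b ω)
      rw [abs_le]
      constructor <;> linarith
    have h6 : |∏ l, r n (f l ω) (s l)| ≤ |∏ l, f l ω (s l)| := by
      rw [abs_prod, abs_prod]
      exact prod_le_prod (fun _ _ => abs_nonneg _) fun l _ => abs_rzero_le _ _
    have h7 : |∏ l, r n (f l ω) (s l)| ≤ (n : ℝ) ^ p := by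
      rw [abs_prod]
      calc ∏ l, |r n (f l ω) (s l)| ≤ ∏ _l : Fin p, (n : ℝ) :=
            prod_le_prod (fun _ _ => abs_nonneg _) fun l _ => abs_rzero_le_nat _ _
        _ = (n : ℝ) ^ p := by simp
    have h8 := pow_div_le (p := p) n
    rw [← hε] at h8
    have h9 := (h1 s).le
    rw [abs_mul] at h9
    have h10 : |rup B ((n + 1) ^ (p + 1)) (-b ω)| * |∏ l, r n (f l ω) (s l)| ≤ 1 + (1 - ρ) / 2 :=
      calc _ ≤ (|b ω| + ε) * |∏ l, r n (f l ω) (s l)| :=
            mul_le_mul_of_nonneg_right h5 (abs_nonneg _)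
        _ = |b ω| * |∏ l, r n (f l ω) (s l)| + |∏ l, r n (f l ω) (s l)| * ε := by ring
        _ ≤ |b ω| * |∏ l, f l ω (s l)| + (n : ℝ) ^ p * ε :=
            add_le_add (mul_le_mul_of_nonneg_left h6 (abs_nonneg _))
              (mul_le_mul_of_nonneg_right h7 hε0)
        _ ≤ 1 + (1 - ρ) / 2 := by linarith
    simp only [hq]
    rw [abs_mul, abs_mul, abs_of_nonneg hρ0, mul_assoc]
    calc _ ≤ ρ * (1 + (1 - ρ) / 2) := mul_le_mul_of_nonneg_left h10 hρ0
      _ ≤ (1 + ρ) / 2 := by nlinarith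
  set L : ℝ := |Real.log (1 - (1 + ρ) / 2)| + |Real.log (1 + (1 + ρ) / 2)| with hL
  have h1 := tendsto_errF (P := P) s₀ hT hTi
    (T' := fun n ω s => Real.log (1 - q n (b ω) * ∏ l, r n (f l ω) (s l)))
    (T'' := fun ω s => Real.log (1 + ρ * (b ω * ∏ l, f l ω (s l)))) hT'm
    (g := fun _ _ => L + L) (fun _ => integrable_const _)
    (by
      filter_upwards [hbd] with n hn
      filter_upwards [hn] with ω hω s
      exact (abs_sub _ _).trans
        (add_le_add (abs_log_one_sub_le hρ' (hω s)) (abs_log_one_sub_le hρ' (hω s₀))))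
    (by
      filter_upwards [hlt, hB] with ω h1 h2 s
      have h3 : Tendsto (fun n : ℕ => rup B ((n + 1) ^ (p + 1)) (-b ω)) atTop (𝓝 (-b ω)) := by
        have h4 : Tendsto (fun n : ℕ => -b ω + 1 / ((n : ℝ) + 1)) atTop (𝓝 (-b ω + 0)) :=
          tendsto_const_nhds.add tendsto_one_div_add_atTop_nhds_zero_nat
        rw [add_zero] at h4
        refine tendsto_of_tendsto_of_tendsto_of_le_of_le tendsto_const_nhds h4 (fun n => ?_)
          fun n => ?_
        · exact (rup_spec _ (by rwa [abs_neg])).1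
        · refine (rup_spec (B := B) _ (by rwa [abs_neg])).2.trans (add_le_add le_rfl ?_)
          refine one_div_le_one_div_of_le (by positivity) (add_le_add ?_ le_rfl)
          exact_mod_cast (Nat.le_succ n).trans (Nat.le_self_pow (Nat.succ_ne_zero p) _)
      have h4 : Tendsto (fun n : ℕ => 1 - q n (b ω) * ∏ l, r n (f l ω) (s l)) atTop
          (𝓝 (1 - ρ * -b ω * ∏ l, f l ω (s l))) :=
        tendsto_const_nhds.sub ((tendsto_const_nhds.mul h3).mul
          (tendsto_finsetProd _ fun l _ => tendsto_rzero _))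
      have h5 : 1 - ρ * -b ω * ∏ l, f l ω (s l) = 1 + ρ * (b ω * ∏ l, f l ω (s l)) := by ring
      rw [h5] at h4
      refine h4.log (ne_of_gt ?_)
      have h6 := (abs_lt.1 (h1 s)).1
      rcases le_total 0 (b ω * ∏ l, f l ω (s l)) with h | h
      · positivity
      · nlinarith)
  obtain ⟨n, hn, hn'⟩ := ((h1.eventually (gt_mem_nhds hρ)).and hbd).exists
  have hcf : (Set.range fun ω => q n (b ω)).Finite := by
    refine ((finite_range_rup B ((n + 1) ^ (p + 1))).image fun x => ρ * x).subset ?_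
    rintro _ ⟨ω, rfl⟩
    exact ⟨_, ⟨-b ω, rfl⟩, rfl⟩
  have hgf : (Set.range fun ω => r n (f l₀ ω)).Finite := by
    refine (Set.Finite.pi' fun _ : Bool => finite_range_rzero n).subset ?_
    rintro _ ⟨ω, rfl⟩ σ
    exact ⟨_, rfl⟩
  have hcm : Measurable fun ω => q n (b ω) := (hqm n).comp hb
  have hgm : ∀ l, Measurable fun ω => r n (f l ω) := fun l => (hrm n).comp (hf l)
  have hgi : iIndepFun (fun l ω => r n (f l ω)) P := hind.comp (fun _ => r n) fun _ => hrm n
  have hgd : ∀ l, P.map (fun ω => r n (f l ω)) = P.map fun ω => r n (f l₀ ω) := fun l => by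
    have := congrArg (Measure.map (r n)) (hid l)
    rwa [Measure.map_map (hrm n) (hf l), Measure.map_map (hrm n) (hf l₀)] at this
  have hcg : IndepFun (fun ω => q n (b ω)) (fun ω l => r n (f l ω)) P :=
    hbf.comp (hqm n) (ψ := fun (φ : Fin p → Bool → ℝ) l => r n (φ l))
      (measurable_pi_lambda _ fun l => (hrm n).comp (measurable_pi_apply l))
  have hlt' : ∀ᵐ ω ∂P, ∀ s : Fin p → Bool, |q n (b ω) * ∏ l, r n (f l ω) (s l)| < 1 := by
    filter_upwards [hn'] with ω hω s using (hω s).trans_lt hρ'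
  have hmom' : ∀ k : ℕ, 1 ≤ k → 0 ≤ ∫ ω, q n (b ω) ^ k ∂P := by
    intro k hk
    rcases Nat.even_or_odd k with he | ho
    · exact integral_nonneg fun ω => he.pow_nonneg _
    · have e1 : Integrable (fun ω => (-b ω) ^ k) P := by
        refine Integrable.of_bound (hb.neg.pow_const k).aestronglyMeasurable (B ^ k) ?_
        filter_upwards [hB] with ω hω
        rw [Real.norm_eq_abs, abs_pow, abs_neg]
        exact pow_le_pow_left₀ (abs_nonneg _) hω k
      have e2 : Integrable (fun ω => q n (b ω) ^ k) P := by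
        obtain ⟨K, hK⟩ := (hcf.image fun x => |x|).bddAbove
        refine Integrable.of_bound (hcm.pow_const k).aestronglyMeasurable (K ^ k)
          (Eventually.of_forall fun ω => ?_)
        rw [Real.norm_eq_abs, abs_pow]
        exact pow_le_pow_left₀ (abs_nonneg _) (hK ⟨_, ⟨ω, rfl⟩, rfl⟩) k
      calc (0 : ℝ) ≤ ρ ^ k * ∫ ω, (-b ω) ^ k ∂P := mul_nonneg (pow_nonneg hρ0 k) (hmom k hk)
        _ = ∫ ω, ρ ^ k * (-b ω) ^ k ∂P := (integral_const_mul _ _).symm
        _ ≤ ∫ ω, q n (b ω) ^ k ∂P := by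
          refine integral_mono_ae (e1.const_mul _) e2 ?_
          filter_upwards [hB] with ω hω
          simp only [hq, mul_pow]
          exact mul_le_mul_of_nonneg_left
            (ho.strictMono_pow.monotone (rup_spec _ (by rwa [abs_neg])).1) (pow_nonneg hρ0 k)
  obtain ⟨M, hM, hlaw, hfl⟩ := finite_model hp l₀ P (c := fun ω => q n (b ω))
    (g := fun l ω => r n (f l ω)) hcm hgm hcf hgf hgi hgd hcg hlt' hmom' pH hv
  have hTi' : ∀ s : Fin p → Bool,
      Integrable (fun ω => Real.log (1 - q n (b ω) * ∏ l, r n (f l ω) (s l))) P := by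
    intro s
    refine Integrable.of_bound
      (Real.measurable_log.comp (measurable_const.sub (hum n s))).aestronglyMeasurable L ?_
    filter_upwards [hn'] with ω hω
    exact abs_log_one_sub_le hρ' (hω s)
  have hcl := close_of s₀ hT (hT'm n) hTi hTi' hn.le
  rw [hlaw] at hcl
  exact ⟨M, _, hM, hcl, hfl⟩

/-- step 0: `b` is bounded unless all the products vanish -/
theorem bounded_or_zero [IsProbabilityMeasure P] {b : Ω → ℝ} {f : Fin p → Ω → Bool → ℝ}
    (hbf : IndepFun b (fun ω l => f l ω) P)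
    (hlt : ∀ᵐ ω ∂P, ∀ s : Fin p → Bool, |b ω * ∏ l, f l ω (s l)| < 1) :
    (∃ B : ℝ, ∀ᵐ ω ∂P, |b ω| ≤ B) ∨ ∀ᵐ ω ∂P, ∀ s : Fin p → Bool, ∏ l, f l ω (s l) = 0 := by
  by_contra hc
  rw [not_or, not_exists] at hc
  refine hc.2 (ae_all_iff.2 fun s => ?_)
  have key : ∀ k : ℕ, ∀ᵐ ω ∂P, |∏ l, f l ω (s l)| < 1 / ((k : ℝ) + 1) := by
    intro k
    have h1 := hbf.measure_inter_preimage_eq_mul {x | ¬ |x| ≤ (k : ℝ) + 1}
      {φ | ¬ |∏ l, φ l (s l)| < 1 / ((k : ℝ) + 1)}
      (measurableSet_le (f := fun x : ℝ => |x|) (by fun_prop) measurable_const).compl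
      (measurableSet_lt (f := fun φ : Fin p → Bool → ℝ => |∏ l, φ l (s l)|) (by fun_prop)
        measurable_const).compl
    have h2 : P (b ⁻¹' {x | ¬ |x| ≤ (k : ℝ) + 1} ∩
        (fun ω l => f l ω) ⁻¹' {φ | ¬ |∏ l, φ l (s l)| < 1 / ((k : ℝ) + 1)}) = 0 := by
      refine measure_mono_null ?_ (ae_iff.1 hlt)
      rintro ω ⟨h3, h4⟩ h5
      simp only [Set.mem_preimage, Set.mem_ofPred_eq, not_le, not_lt] at h3 h4
      have h6 := h5 s
      rw [abs_mul] at h6
      have h7 : ((k : ℝ) + 1) * (1 / ((k : ℝ) + 1)) ≤ |b ω| * |∏ l, f l ω (s l)| :=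
        mul_le_mul h3.le h4 (by positivity) (abs_nonneg _)
      rw [mul_one_div_cancel (by positivity)] at h7
      linarith
    rw [h2, eq_comm, mul_eq_zero] at h1
    rcases h1 with h1 | h1
    · exact absurd (ae_iff.2 h1) (hc.1 _)
    · exact ae_iff.2 h1
  filter_upwards [ae_all_iff.2 key] with ω hω
  by_contra h0
  obtain ⟨k, hk⟩ := exists_nat_one_div_lt (abs_pos.2 h0)
  exact absurd (hω k) (not_lt.2 hk.le)

end core

/-- Let `t_s ω = b ∏ f_ℓ(s_ℓ) ∈ (-1,1)`, `T ω s = log (a (1 + t_s))`, `s₀` a fixed spin tuple.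
For an approximation `T'` put `κ = T s₀ - T' s₀` and `d = Σ_s |T s - T s₀ - (T' s - T' s₀)|`.
0. If `∏_ℓ f_ℓ(s_ℓ) = 0` a.s. for every `s` (or `p = 0`…) take the trivial model `c = 0`.  Otherwise
   `P(|∏ f_ℓ(s_ℓ)| ≥ δ₀) > 0` for some `s`, `δ₀ > 0`, and independence gives `|b| ≤ 1/δ₀` a.s.
1. `T_ρ s = log (1 + ρ t_s)`, `ρ ↑ 1`: `|T_ρ s - T_ρ s₀| ≤ |T s - T s₀| ≤ 2 supNorm T` (the ratio
   `(1+ρ t)/(1+ρ t')` is monotone in `ρ`), so dominated convergence gives `ρ < 1` with error `≤ η/2`.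
2. For fixed `ρ` let `f_n` be `f` truncated to `[-n, n]` and rounded towards `0` to the grid `1/n`
   (`|f_n| ≤ |f|`, `f_n → f`), and `c_n = ρ ⌈N (-b)⌉/N` with `N = N(n)` so large that
   `n^p/N ≤ (1-ρ)/(2ρ)` and `N ≥ n`: `-b ≤ c_n/ρ ≤ -b + 1/N`, so `E c_n^k ≥ 0` (odd `k`: monotonicity of
   `x^k`; even `k`: trivial) and `|c_n ∏ f_n| ≤ (1+ρ)/2` a.s.; `log (1 - c_n ∏ f_n) → T_ρ s` boundedly.
3. `C`, `Φ` are the finite sets of values of `c_n`, `f_n` that have positive probability (so every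
   combination has positive probability by independence, which gives `lt_one`); `pC`, `pΦ` are the
   laws; `T' ω s = log (1 - c_n ∏ f_n)` has the law `M.law` (independence + identical distribution:
   compute the probability of every atom).
`κ` is integrable because `T s₀` is and `T'` is a.s. bounded. -/
theorem approx_model {p : ℕ} (hp : Even p) (hp2 : 2 ≤ p) (μ : Measure (Inter p))
    [IsProbabilityMeasure μ] (ν : Measure ℝ) [IsProbabilityMeasure ν]
    (hμ : Integrable (fun θ => supNorm θ) μ) (hν : Integrable (fun x : ℝ => x) ν)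
    (hfac : HasFactorization p μ) {η : ℝ} (hη : 0 < η) :
    ∃ (M : FM p) (κ₀ : ℝ), M.Pos ∧ Close μ M.law κ₀ η ∧ CloseH ν M.flaw η := by
  obtain ⟨H, _, pH, hv, hH⟩ := approx_field ν hν hη
  obtain ⟨Ω, _, P, _, a, b, f, ha, hb, hf, hind, hid, hbf, hae, hmom, hlaw⟩ := hfac
  set l₀ : Fin p := ⟨0, by omega⟩
  have hfs : ∀ l σ, Measurable fun ω => f l ω σ := fun l σ => (measurable_pi_apply σ).comp (hf l)
  set T : Ω → Inter p := fun ω s => Real.log (a ω * (1 + b ω * ∏ l, f l ω (s l))) with hTdef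
  have hT : Measurable T := measurable_pi_lambda _ fun s => Real.measurable_log.comp
    (ha.mul (measurable_const.add (hb.mul (Finset.measurable_prod _ fun l _ => hfs l _))))
  have hTi : ∀ s, Integrable (fun ω => T ω s) P := by
    intro s
    have h1 : Integrable (fun θ : Inter p => θ s) μ := by
      refine hμ.mono' (measurable_pi_apply s).aestronglyMeasurable
        (Eventually.of_forall fun θ => ?_)
      exact le_ciSup (f := fun s => |θ s|) (Set.finite_range _).bddAbove s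
    rw [← hlaw] at h1
    exact (integrable_map_measure h1.1 hT.aemeasurable).1 h1
  have hTt : ∀ᵐ ω ∂P, ∀ s s' : Fin p → Bool, T ω s - T ω s' =
      Real.log (1 + b ω * ∏ l, f l ω (s l)) - Real.log (1 + b ω * ∏ l, f l ω (s' l)) := by
    filter_upwards [hae] with ω hω s s'
    have h1 := (abs_lt.1 (hω.2 s)).1
    have h2 := (abs_lt.1 (hω.2 s')).1
    simp only [hTdef]
    rw [Real.log_mul hω.1.ne' (by linarith), Real.log_mul hω.1.ne' (by linarith)]
    ring
  have hlt : ∀ᵐ ω ∂P, ∀ s : Fin p → Bool, |b ω * ∏ l, f l ω (s l)| < 1 := by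
    filter_upwards [hae] with ω hω using hω.2
  have hid' : ∀ l, P.map (f l) = P.map (f l₀) := fun l => (hid l).map_eq
  have key : ∃ (M : FM p) (κ₀ : ℝ), M.Pos ∧ Close (P.map T) M.law κ₀ η ∧ M.flaw = pH.law hv := by
    rcases bounded_or_zero hbf hlt with ⟨B, hB⟩ | h0
    · exact approx_core hp l₀ hT hTi hb hf hind hid' hbf hlt hB (fun n hn => (hmom n hn).2) hTt hη
        pH hv
    · refine approx_core (b := fun _ => 0) (B := 0) hp l₀ hT hTi measurable_const hf hind hid'
        (indepFun_const_left _ _) (by simp) (by simp) (fun n hn => ?_) ?_ hη pH hv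
      · refine integral_nonneg fun ω => ?_
        simp
      · filter_upwards [hTt, h0] with ω h1 h2 s s'
        rw [h1, h2, h2]
        simp
  obtain ⟨M, κ₀, h1, h2, h3⟩ := key
  exact ⟨M, κ₀, h1, hlaw ▸ h2, h3 ▸ hH⟩

end Crest.Agent.R141
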