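import Crest.Prelude.Def_DilutedSpinGlass

/-! Poisson sums (task R141 Conc+Poisson). -/

set_option autoImplicit false

namespace Crest.Agent.R141

open Finset Crest.ProbabilityR.Diluted

theorem poi_nonneg {a : ℝ} (ha : 0 ≤ a) (k : ℕ) : 0 ≤ poissonWeight a k := by
  unfold poissonWeight
  positivity

theorem hasSum_congr' {f g : ℕ → ℝ} {a b : ℝ} (h : HasSum f a) (h1 : ∀ k, g k = f k)
    (h2 : b = a) : HasSum g b := by
  rw [funext h1, h2]; exact h

theorem hasSum_poi (a : ℝ) : HasSum (poissonWeight a) 1 := by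
  have h := (NormedSpace.expSeries_div_hasSum_exp a).mul_left (Real.exp (-a))
  rw [← Real.exp_eq_exp_ℝ, ← Real.exp_add, neg_add_cancel, Real.exp_zero] at h
  refine hasSum_congr' h (fun k => ?_) rfl
  unfold poissonWeight
  ring

/-- `Σ_k poi a k x^k = e^{a (x-1)}` -/
theorem hasSum_poi_pow (a x : ℝ) :
    HasSum (fun k => poissonWeight a k * x ^ k) (Real.exp (a * (x - 1))) := by
  have h := (NormedSpace.expSeries_div_hasSum_exp (a * x)).mul_left (Real.exp (-a))
  rw [← Real.exp_eq_exp_ℝ, ← Real.exp_add, show -a + a * x = a * (x - 1) by ring] at h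
  refine hasSum_congr' h (fun k => ?_) rfl
  unfold poissonWeight
  rw [mul_pow]
  ring

theorem poi_succ (a : ℝ) (k : ℕ) :
    poissonWeight a (k + 1) * ((k : ℝ) + 1) = a * poissonWeight a k := by
  unfold poissonWeight
  have h1 : (k.factorial : ℝ) ≠ 0 := by exact_mod_cast k.factorial_ne_zero
  have h2 : ((k : ℝ) + 1) ≠ 0 := by positivity
  rw [Nat.factorial_succ]
  push_cast
  field_simp
  ring

theorem hasSum_poi_mul (a : ℝ) : HasSum (fun k : ℕ => poissonWeight a k * k) a := by
  rw [← hasSum_nat_add_iff' 1]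
  have h := (hasSum_poi a).mul_left a
  refine hasSum_congr' h (fun k => ?_) ?_
  · rw [← poi_succ]
    push_cast
    ring
  · simp

theorem hasSum_poi_sq (a : ℝ) :
    HasSum (fun k : ℕ => poissonWeight a k * (k : ℝ) ^ 2) (a ^ 2 + a) := by
  rw [← hasSum_nat_add_iff' 1]
  have h := ((hasSum_poi_mul a).add (hasSum_poi a)).mul_left a
  refine hasSum_congr' h (fun k => ?_) ?_
  · have := poi_succ a k
    push_cast
    linear_combination ((k : ℝ) + 1) * this
  · simp
    ring

theorem summable_poi_of_pow {a : ℝ} (ha : 0 ≤ a) {f : ℕ → ℝ} {C x : ℝ}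
    (hf : ∀ k, |f k| ≤ C * x ^ k) : Summable fun k => poissonWeight a k * f k := by
  refine Summable.of_norm_bounded ((hasSum_poi_pow a x).summable.mul_left C) fun k => ?_
  rw [Real.norm_eq_abs, abs_mul, abs_of_nonneg (poi_nonneg ha k)]
  have := mul_le_mul_of_nonneg_left (hf k) (poi_nonneg ha k)
  linarith

theorem summable_poi {a : ℝ} (ha : 0 ≤ a) {f : ℕ → ℝ} {C : ℝ} (hf : ∀ k, |f k| ≤ C * (k + 1)) :
    Summable fun k => poissonWeight a k * f k := by
  refine Summable.of_norm_bounded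
    (((hasSum_poi_mul a).add (hasSum_poi a)).summable.mul_left C) fun k => ?_
  rw [Real.norm_eq_abs, abs_mul, abs_of_nonneg (poi_nonneg ha k)]
  have := mul_le_mul_of_nonneg_left (hf k) (poi_nonneg ha k)
  linarith

theorem abs_tsum_poi_le {a : ℝ} (ha : 0 ≤ a) {f : ℕ → ℝ} {C D : ℝ}
    (hf : ∀ k, |f k| ≤ C * k + D) : |∑' k, poissonWeight a k * f k| ≤ C * a + D := by
  have h := ((hasSum_poi_mul a).mul_left C).add ((hasSum_poi a).mul_left D)
  rw [mul_one] at h
  rw [← Real.norm_eq_abs]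
  refine tsum_of_norm_bounded h fun k => ?_
  rw [Real.norm_eq_abs, abs_mul, abs_of_nonneg (poi_nonneg ha k)]
  have := mul_le_mul_of_nonneg_left (hf k) (poi_nonneg ha k)
  linarith

theorem tsum_poi_mono {a : ℝ} (ha : 0 ≤ a) {f g : ℕ → ℝ} {C : ℝ} (hf : ∀ k, |f k| ≤ C * (k + 1))
    (hg : ∀ k, |g k| ≤ C * (k + 1)) (h : ∀ k, f k ≤ g k) :
    ∑' k, poissonWeight a k * f k ≤ ∑' k, poissonWeight a k * g k :=
  (summable_poi ha hf).tsum_le_tsum
    (fun k => mul_le_mul_of_nonneg_left (h k) (poi_nonneg ha k)) (summable_poi ha hg)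

theorem poi_mul_poi (a b : ℝ) {n j : ℕ} (hj : j ≤ n) :
    poissonWeight a j * poissonWeight b (n - j) =
      Real.exp (-(a + b)) / (n.factorial : ℝ) * (a ^ j * b ^ (n - j) * n.choose j) := by
  unfold poissonWeight
  have h1 : (j.factorial : ℝ) ≠ 0 := by exact_mod_cast j.factorial_ne_zero
  have h2 : ((n - j).factorial : ℝ) ≠ 0 := by exact_mod_cast (n - j).factorial_ne_zero
  have h3 : (n.choose j : ℝ) ≠ 0 := by exact_mod_cast (Nat.choose_pos hj).ne'
  rw [← Nat.choose_mul_factorial_mul_factorial hj, neg_add, Real.exp_add]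
  push_cast
  field_simp

theorem poi_double {a b : ℝ} (ha : 0 ≤ a) (hb : 0 ≤ b) {f : ℕ → ℕ → ℝ} {C : ℝ}
    (hf : ∀ j k, |f j k| ≤ C * (j + k + 1)) :
    ∑' j, poissonWeight a j * ∑' k, poissonWeight b k * f j k =
      ∑' n, ∑ j ∈ range (n + 1), poissonWeight a j * poissonWeight b (n - j) * f j (n - j) := by
  have hC : 0 ≤ C := by simpa using (abs_nonneg _).trans (hf 0 0)
  have hs1 : ∀ {c : ℝ}, 0 ≤ c → Summable fun k : ℕ => poissonWeight c k * ((k : ℝ) + 1) :=
    fun hc => summable_poi hc (C := 1) fun k => by rw [abs_of_nonneg (by positivity), one_mul]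
  have hsum : Summable fun p : ℕ × ℕ => poissonWeight a p.1 * poissonWeight b p.2 * f p.1 p.2 := by
    refine Summable.of_norm_bounded (((hs1 ha).mul_of_nonneg (hs1 hb)
      (fun k => mul_nonneg (poi_nonneg ha k) (by positivity))
      (fun k => mul_nonneg (poi_nonneg hb k) (by positivity))).mul_left C) fun p => ?_
    have h0 := mul_nonneg (poi_nonneg ha p.1) (poi_nonneg hb p.2)
    rw [Real.norm_eq_abs, abs_mul, abs_of_nonneg h0]
    have h1 : |f p.1 p.2| ≤ C * (((p.1 : ℝ) + 1) * ((p.2 : ℝ) + 1)) := by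
      refine (hf _ _).trans (mul_le_mul_of_nonneg_left ?_ hC)
      have : (0 : ℝ) ≤ (p.1 : ℝ) * p.2 := by positivity
      nlinarith
    refine (mul_le_mul_of_nonneg_left h1 h0).trans (le_of_eq ?_)
    ring
  have e1 : ∑' j, poissonWeight a j * ∑' k, poissonWeight b k * f j k =
      ∑' p : ℕ × ℕ, poissonWeight a p.1 * poissonWeight b p.2 * f p.1 p.2 := by
    rw [hsum.tsum_prod]
    refine tsum_congr fun j => ?_
    rw [← tsum_mul_left]
    exact tsum_congr fun k => by ring
  rw [e1, ← HasAntidiagonal.sigmaAntidiagonalEquivProd.tsum_eq]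
  refine (HasAntidiagonal.sigmaAntidiagonalEquivProd.summable_iff.2 hsum).tsum_sigma.trans
    (tsum_congr fun n => ?_)
  rw [← Finset.Nat.sum_antidiagonal_eq_sum_range_succ
    fun j k => poissonWeight a j * poissonWeight b k * f j k, ← Finset.sum_finset_coe,
    ← tsum_fintype (L := .unconditional _)]
  rfl

/-- Thinning: `poi a (j+k) binom(j+k, j) q^j (1-q)^k = poi (a q) j · poi (a (1-q)) k`; the double
family is summable on `ℕ × ℕ` (`summable_mul_of_summable_norm`-type bound with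
`1 + j + k ≤ (1+j)(1+k)`), `Summable.tsum_prod`, `Finset.sigmaAntidiagonalEquivProd`. -/
theorem poi_split {a q : ℝ} (ha : 0 ≤ a) (h0 : 0 ≤ q) (h1 : q ≤ 1) {f : ℕ → ℕ → ℝ} {C : ℝ}
    (hf : ∀ j k, |f j k| ≤ C * (j + k + 1)) :
    ∑' n, poissonWeight a n * ∑ j ∈ range (n + 1),
        (n.choose j : ℝ) * q ^ j * (1 - q) ^ (n - j) * f j (n - j) =
      ∑' j, poissonWeight (a * q) j * ∑' k, poissonWeight (a * (1 - q)) k * f j k := by
  rw [poi_double (mul_nonneg ha h0) (mul_nonneg ha (by linarith)) hf]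
  refine tsum_congr fun n => ?_
  rw [mul_sum]
  refine sum_congr rfl fun j hj => ?_
  rw [poi_mul_poi _ _ (Nat.lt_succ_iff.1 (mem_range.1 hj)), show a * q + a * (1 - q) = a by ring]
  obtain ⟨k, rfl⟩ := Nat.exists_eq_add_of_le (Nat.lt_succ_iff.1 (mem_range.1 hj))
  unfold poissonWeight
  rw [Nat.add_sub_cancel_left, mul_pow, mul_pow, pow_add]
  ring

/-- superposition (`poi_split` with `q = a/(a+b)` and the binomial theorem; `a + b = 0` apart) -/
theorem poi_add {a b : ℝ} (ha : 0 ≤ a) (hb : 0 ≤ b) {g : ℕ → ℝ} {C : ℝ}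
    (hg : ∀ n, |g n| ≤ C * (n + 1)) :
    ∑' n, poissonWeight (a + b) n * g n =
      ∑' j, poissonWeight a j * ∑' k, poissonWeight b k * g (j + k) := by
  rw [poi_double ha hb (f := fun j k => g (j + k)) (C := C)
    (fun j k => by have := hg (j + k); push_cast at this; exact this)]
  refine tsum_congr fun n => ?_
  have h : ∀ j ∈ range (n + 1), poissonWeight a j * poissonWeight b (n - j) * g (j + (n - j)) =
      Real.exp (-(a + b)) / (n.factorial : ℝ) * g n * (a ^ j * b ^ (n - j) * n.choose j) := by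
    intro j hj
    have hj' := Nat.lt_succ_iff.1 (mem_range.1 hj)
    rw [poi_mul_poi _ _ hj', Nat.add_sub_cancel' hj']
    ring
  rw [sum_congr rfl h, ← mul_sum, ← add_pow]
  unfold poissonWeight
  ring

theorem poi_lip {a b : ℝ} (ha : 0 ≤ a) (hb : 0 ≤ b) {f : ℕ → ℝ} (hf : ∀ k, |f k| ≤ k + 1) :
    |∑' k, poissonWeight (a + b) k * f k - ∑' k, poissonWeight a k * f k| ≤ (2 * a + 3) * b := by
  have hf1 : ∀ k, |f k| ≤ 1 * (k + 1) := fun k => by rw [one_mul]; exact hf k
  have hd : ∀ j : ℕ, |∑' k, poissonWeight b k * f (j + k) - f j| ≤ 2 * b * j + 3 * b := by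
    intro j
    have hs : Summable fun k => poissonWeight b k * f (j + k) :=
      summable_poi hb (C := (j : ℝ) + 1) fun k => by
        have := hf (j + k)
        push_cast at this
        have h2 : (0 : ℝ) ≤ (j : ℝ) * k := by positivity
        nlinarith
    have e : ∑' k, poissonWeight b k * f (j + k) - f j =
        ∑' k, poissonWeight b k * (f (j + k) - f j) := by
      have h1 := ((hasSum_poi b).mul_right (f j))
      rw [one_mul] at h1
      rw [← (hs.hasSum.sub h1).tsum_eq]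
      exact tsum_congr fun k => by ring
    rw [e]
    refine (abs_tsum_poi_le hb (C := 2 * j + 3) (D := 0) fun k => ?_).trans (le_of_eq (by ring))
    rcases k with _ | k
    · simp
    · have h1 := hf (j + (k + 1))
      have h2 := hf j
      have h3 := abs_sub (f (j + (k + 1))) (f j)
      have h4 : (0 : ℝ) ≤ (j : ℝ) * k := by positivity
      have h5 : (0 : ℝ) ≤ k := by positivity
      push_cast at h1 ⊢
      nlinarith
  have hs2 : Summable fun j : ℕ =>
      poissonWeight a j * (∑' k, poissonWeight b k * f (j + k) - f j) :=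
    summable_poi ha (C := 3 * b) fun j => (hd j).trans (by
      have : 0 ≤ b * j := by positivity
      linarith)
  have hs3 := summable_poi ha hf1
  have e : ∑' j, poissonWeight a j * ∑' k, poissonWeight b k * f (j + k) =
      ∑' j, poissonWeight a j * (∑' k, poissonWeight b k * f (j + k) - f j) +
        ∑' k, poissonWeight a k * f k := by
    rw [← hs2.tsum_add hs3]
    exact tsum_congr fun j => by ring
  rw [poi_add ha hb hf1, e, add_sub_cancel_right]
  exact (abs_tsum_poi_le ha hd).trans (le_of_eq (by ring))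

/-- `a' ↦ Σ' |poi a' k - poi a k| (k+1)` is continuous (`continuous_tsum` on a bounded set, or
`tendsto_tsum_of_dominated_convergence`) and vanishes at `a` -/
theorem poi_cont {a η : ℝ} (ha : 0 ≤ a) (hη : 0 < η) : ∃ δ : ℝ, 0 < δ ∧ ∀ a' : ℝ, 0 ≤ a' →
    |a' - a| ≤ δ → ∀ f : ℕ → ℝ, (∀ k, |f k| ≤ k + 1) →
    |∑' k, poissonWeight a' k * f k - ∑' k, poissonWeight a k * f k| ≤ η := by
  have hpos : 0 < 2 * a + 3 := by linarith
  refine ⟨η / (2 * a + 3), div_pos hη hpos, fun a' ha' hd f hf => ?_⟩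
  have e : (2 * a + 3) * (η / (2 * a + 3)) = η := by field_simp
  rcases le_total a a' with h | h
  · have := poi_lip ha (b := a' - a) (by linarith) hf
    rw [add_sub_cancel] at this
    rw [abs_of_nonneg (by linarith)] at hd
    have h2 := mul_le_mul_of_nonneg_left hd hpos.le
    linarith
  · have := poi_lip ha' (b := a - a') (by linarith) hf
    rw [add_sub_cancel, abs_sub_comm] at this
    rw [abs_sub_comm, abs_of_nonneg (by linarith)] at hd
    have h2 := mul_le_mul_of_nonneg_left hd hpos.le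
    have h3 : (2 * a' + 3) * (a - a') ≤ (2 * a + 3) * (a - a') :=
      mul_le_mul_of_nonneg_right (by linarith) (by linarith)
    linarith

/-- uniform tails: for `k ≥ k₀`, `k + 1 ≤ (k+1)²/k₀` -/
theorem poi_tail (A : ℝ) {η : ℝ} (hη : 0 < η) : ∃ k₀ : ℕ, ∀ a : ℝ, 0 ≤ a → a ≤ A →
    ∀ (f : ℕ → ℝ) (e : ℝ), 0 ≤ e → (∀ k, |f k| ≤ k + 1) → (∀ k < k₀, |f k| ≤ e) →
    |∑' k, poissonWeight a k * f k| ≤ e + η := by
  obtain ⟨N, hN⟩ := exists_nat_ge ((A ^ 2 + 3 * A + 1) / η)
  refine ⟨N + 1, fun a ha haA f e he hf hf' => ?_⟩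
  have hN0 : (0 : ℝ) < N + 1 := by positivity
  have h := ((hasSum_poi a).mul_left e).add
    ((((hasSum_poi_sq a).add ((hasSum_poi_mul a).mul_left 2)).add (hasSum_poi a)).div_const
      ((N : ℝ) + 1))
  rw [← Real.norm_eq_abs]
  refine (tsum_of_norm_bounded h fun k => ?_).trans ?_
  · rw [Real.norm_eq_abs, abs_mul, abs_of_nonneg (poi_nonneg ha k)]
    have h1 : |f k| ≤ e + ((k : ℝ) + 1) ^ 2 / (N + 1) := by
      by_cases hk : k < N + 1
      · have : 0 ≤ ((k : ℝ) + 1) ^ 2 / (N + 1) := by positivity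
        linarith [hf' k hk]
      · have hk' : (N : ℝ) + 1 ≤ k := by exact_mod_cast not_lt.1 hk
        have : (k : ℝ) + 1 ≤ ((k : ℝ) + 1) ^ 2 / (N + 1) := by
          rw [le_div_iff₀ hN0]
          nlinarith
        linarith [hf k]
    refine (mul_le_mul_of_nonneg_left h1 (poi_nonneg ha k)).trans (le_of_eq ?_)
    ring
  · rw [mul_one, add_le_add_iff_left, div_le_iff₀ hN0]
    rw [div_le_iff₀ hη] at hN
    nlinarith

/-- Cauchy–Schwarz, or `|y| ≤ (y²/√a + √a)/2` -/
theorem poi_dev {a : ℝ} (ha : 0 ≤ a) :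
    ∑' k : ℕ, poissonWeight a k * |(k : ℝ) - a| ≤ Real.sqrt a := by
  rcases ha.eq_or_lt with rfl | hpos
  · simp only [sub_zero, Nat.abs_cast, Real.sqrt_zero]
    exact (hasSum_poi_mul 0).tsum_eq.le
  · have hs : 0 < Real.sqrt a := Real.sqrt_pos.2 hpos
    have hs2 : Real.sqrt a * Real.sqrt a = a := Real.mul_self_sqrt ha
    have h := ((((hasSum_poi_sq a).sub ((hasSum_poi_mul a).mul_left (2 * a))).add
      ((hasSum_poi a).mul_left (a ^ 2))).div_const (2 * Real.sqrt a)).add
      ((hasSum_poi a).mul_left (Real.sqrt a / 2))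
    refine (Real.le_norm_self _).trans ((tsum_of_norm_bounded h fun k => ?_).trans (le_of_eq ?_))
    · rw [Real.norm_eq_abs, abs_mul, abs_of_nonneg (poi_nonneg ha k), abs_abs]
      have h1 : |(k : ℝ) - a| ≤ ((k : ℝ) - a) ^ 2 / (2 * Real.sqrt a) + Real.sqrt a / 2 := by
        rw [← sq_abs, ← sub_nonneg]
        have : |(k : ℝ) - a| ^ 2 / (2 * Real.sqrt a) + Real.sqrt a / 2 - |(k : ℝ) - a| =
            (|(k : ℝ) - a| - Real.sqrt a) ^ 2 / (2 * Real.sqrt a) := by
          field_simp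
          ring
        rw [this]
        positivity
      refine (mul_le_mul_of_nonneg_left h1 (poi_nonneg ha k)).trans (le_of_eq ?_)
      ring
    · have : a ^ 2 + a - 2 * a * a + a ^ 2 * 1 = Real.sqrt a * Real.sqrt a := by
        rw [hs2]; ring
      rw [this]
      field_simp
      ring

end Crest.Agent.R141
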