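import Crest.Agent.R141.Term

/-! Extraction of the multilinear coefficient (task R141 OneTerm). -/

set_option autoImplicit false

namespace Crest.Agent.R141

open Finset
open scoped BigOperators

theorem ot_abs_sg {R E : ℕ} (y : Path R (Fin E → Bool)) (c i : ℕ) : |sg y c i| = 1 := by
  unfold sg
  split_ifs <;> simp

theorem ot_abs_fac_le {R E : ℕ} (h : Stp) (r : ℕ) (y : Path R (Fin E → Bool)) :
    |fac h r y| ≤ 1 := by
  have h1 := abs_le.1 (ot_abs_sg y h.c (h.lv - 1)).le
  have h2 := abs_le.1 (ot_abs_sg y h.c h.lv).le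
  unfold fac
  split_ifs
  · rw [abs_le]; constructor <;> linarith [h1.1, h1.2, h2.1, h2.2]
  · rw [abs_le]; constructor <;> linarith [h1.1, h1.2, h2.1, h2.2]
  · simp

theorem ot_abs_mark_le {R E : ℕ} (hs : List Stp) (r : ℕ) (y : Path R (Fin E → Bool)) :
    |mark hs r y| ≤ 1 := by
  unfold mark
  induction hs with
  | nil => simp
  | cons h hs ih =>
    rw [List.map_cons, List.prod_cons, abs_mul]
    exact mul_le_one₀ (ot_abs_fac_le h r y) (abs_nonneg _) ih

theorem ot_abs_ind_le (a b : Bool) : |ind a b| ≤ 1 := by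
  unfold ind
  split_ifs <;> simp

theorem abs_gv_le {R E : ℕ} (hs : List Stp) (c : ℕ × Bool) (s : Bool)
    (y : Path R (Fin E → Bool)) : |gv hs c s y| ≤ 1 := by
  unfold gv
  rw [abs_mul]
  exact mul_le_one₀ (ot_abs_mark_le hs _ y) (abs_nonneg _) (ot_abs_ind_le _ _)

theorem ot_sum_range' (f : ℕ → ℝ) (k : ℕ) :
    ∑ c ∈ range (k + 1), f c = f 0 + ((List.range' 1 k).map f).sum := by
  induction k with
  | zero => simp
  | succ k ih =>
    rw [sum_range_succ, ih, List.range'_concat, List.map_append, List.sum_append]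
    simp [add_assoc, add_comm 1 k]

theorem ot_sum_range (P : Tr Bool) (f : ℕ → ℝ) :
    ∑ c ∈ range P.size, f c = f 0 + ((hist P 0 1).map fun h => f h.c).sum := by
  have h1 : ((hist P 0 1).map fun h => f h.c) = ((hist P 0 1).map Stp.c).map f := by
    rw [List.map_map]; rfl
  rw [h1, hist_c, ← ot_sum_range']
  have := P.size_pos
  rw [Nat.sub_add_cancel this]

theorem ot_list_sub_le {α : Type} (l : List α) (a b g : α → ℝ) (hg : ∀ h, |g h| ≤ 1) :
    |(l.map fun h => a h * g h).sum - (l.map fun h => b h * g h).sum| ≤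
      (l.map fun h => |a h - b h|).sum := by
  induction l with
  | nil => simp
  | cons h l ih =>
    simp only [List.map_cons, List.sum_cons]
    have h1 : |a h * g h - b h * g h| ≤ |a h - b h| := by
      rw [← sub_mul, abs_mul]
      exact mul_le_of_le_one_right (abs_nonneg _) (hg h)
    refine le_trans (le_of_eq ?_) ((abs_add_le _ _).trans (add_le_add h1 ih))
    congr 1
    ring

/-- `|termW θ - termW θ'| ≤ Σ_{c < size} |θ c - θ' c|` (`hist_c`); `termW P 0 = 1` -/
theorem abs_termW_sub_le {R E : ℕ} (P : Tr Bool) (θ θ' : ℕ → ℝ) (s : Bool)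
    (y : Path R (Fin E → Bool)) :
    |termW P θ s y - termW P θ' s y| ≤ ∑ c ∈ range P.size, |θ c - θ' c| := by
  rw [ot_sum_range P fun c => |θ c - θ' c|]
  unfold termW
  have h1 : |θ 0 * gv (hist P 0 1) (0, P.first) s y - θ' 0 * gv (hist P 0 1) (0, P.first) s y| ≤
      |θ 0 - θ' 0| := by
    rw [← sub_mul, abs_mul]
    exact mul_le_of_le_one_right (abs_nonneg _) (abs_gv_le _ _ _ _)
  have h2 := ot_list_sub_le (hist P 0 1) (fun h => θ h.c) (fun h => θ' h.c)
    (fun h => gv (hist P 0 1) (h.c, h.b) s y) fun h => abs_gv_le _ _ _ _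
  refine le_trans (le_of_eq ?_) ((abs_add_le _ _).trans (add_le_add h1 h2))
  congr 1
  ring

theorem ot_termW_zero {R E : ℕ} (P : Tr Bool) (s : Bool) (y : Path R (Fin E → Bool)) :
    termW P (fun _ => 0) s y = 1 := by
  simp [termW]

theorem ot_termW_sub_one {R E : ℕ} (P : Tr Bool) (θ : ℕ → ℝ) (s : Bool)
    (y : Path R (Fin E → Bool)) : |termW P θ s y - 1| ≤ ∑ c ∈ range P.size, |θ c| := by
  have h := abs_termW_sub_le P θ (fun _ => 0) s y
  rw [ot_termW_zero] at h
  simpa using h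

theorem ot_termW_ge {R E : ℕ} (P : Tr Bool) {θ : ℕ → ℝ} (hθ : ∑ c ∈ range P.size, |θ c| ≤ 1 / 2)
    (s : Bool) (y : Path R (Fin E → Bool)) : 1 / 2 ≤ termW P θ s y := by
  have h := abs_le.1 ((ot_termW_sub_one P θ s y).trans hθ)
  linarith [h.1]

theorem ot_sum_coef_le (P : Tr Bool) (lam eps : ℝ) :
    ∑ c ∈ range P.size, |coef lam eps c| ≤ |lam| + |eps| * P.size := by
  have h1 : ∀ c ∈ range P.size, |coef lam eps c| ≤ (if c = 0 then |lam| else 0) + |eps| := by
    intro c _
    unfold coef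
    split_ifs
    · linarith [abs_nonneg eps]
    · linarith
  refine (sum_le_sum h1).trans ?_
  rw [sum_add_distrib, sum_ite_eq', sum_const, card_range, nsmul_eq_mul, mul_comm,
    if_pos (mem_range.2 P.size_pos)]

theorem ot_log_sub_le {x y : ℝ} (hx : 1 / 2 ≤ x) (hy : 1 / 2 ≤ y) :
    Real.log x - Real.log y ≤ 2 * |x - y| := by
  have hx' : 0 < x := by linarith
  have hy' : 0 < y := by linarith
  rw [← Real.log_div hx'.ne' hy'.ne']
  refine (Real.log_le_sub_one_of_pos (div_pos hx' hy')).trans ?_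
  rw [div_sub_one hy'.ne', div_le_iff₀ hy']
  nlinarith [le_abs_self (x - y), abs_nonneg (x - y)]

theorem ot_abs_log_sub {x y : ℝ} (hx : 1 / 2 ≤ x) (hy : 1 / 2 ≤ y) :
    |Real.log x - Real.log y| ≤ 2 * |x - y| := by
  have h1 := ot_log_sub_le hx hy
  have h2 := ot_log_sub_le hy hx
  rw [abs_sub_comm] at h2
  rw [abs_le]
  constructor <;> linarith

theorem termW_coef_mem {R E : ℕ} (P : Tr Bool) {lam eps : ℝ} (h : |lam| + |eps| * P.size ≤ 1 / 2)
    (s : Bool) (y : Path R (Fin E → Bool)) :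
    1 / 2 ≤ termW P (coef lam eps) s y ∧ termW P (coef lam eps) s y ≤ 3 / 2 ∧
      |Real.log (termW P (coef lam eps) s y)| ≤ 2 * (|lam| + |eps| * P.size) := by
  have h1 := ot_termW_sub_one P (coef lam eps) s y
  have h2 := ot_sum_coef_le P lam eps
  have h3 := abs_le.1 (h1.trans (h2.trans h))
  refine ⟨by linarith [h3.1], by linarith [h3.2], ?_⟩
  have h4 := ot_abs_log_sub (x := termW P (coef lam eps) s y) (y := 1) (by linarith [h3.1])
    (by norm_num)
  rw [Real.log_one, sub_zero] at h4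
  linarith

/-- Iterated mean value inequality.  `Q` is the open cube `θ 0 = 0`, `|θ c| < 2ε`.  First, by
induction on `i`, `F i θ = 0` if `θ ∈ Q` and `θ c = 0` for some `i < c ≤ k` (a function that vanishes
near `t` has derivative `0`, `HasDerivAt.unique`).  Then, by downward induction on `i ≤ k`, for
`θ ∈ Q` with `0 ≤ θ c ≤ ε`: `|F i θ - A ∏_{i<c≤k} θ c| ≤ e ∏_{i<c≤k} θ c`
(`Convex.norm_image_sub_le_of_norm_hasDerivWithin_le` on `[0, θ (i+1)]`). -/
theorem iter_mvt (k : ℕ) {ε A e : ℝ} (hε : 0 < ε) (F : ℕ → (ℕ → ℝ) → ℝ)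
    (hd : ∀ i < k, ∀ θ : ℕ → ℝ, θ 0 = 0 → (∀ c, |θ c| < 2 * ε) →
      HasDerivAt (fun t => F i (Function.update θ (i + 1) t)) (F (i + 1) θ) (θ (i + 1)))
    (h0 : ∀ θ : ℕ → ℝ, θ 0 = 0 → (∀ c, |θ c| < 2 * ε) → ∀ c, 1 ≤ c → c ≤ k → θ c = 0 → F 0 θ = 0)
    (hk : ∀ θ : ℕ → ℝ, θ 0 = 0 → (∀ c, |θ c| < 2 * ε) → |F k θ - A| ≤ e) :
    |F 0 (coef 0 ε) - ε ^ k * A| ≤ ε ^ k * e := by
  have hup0 : ∀ (θ : ℕ → ℝ) (i : ℕ) (t : ℝ), θ 0 = 0 → Function.update θ (i + 1) t 0 = 0 := by
    intro θ i t h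
    rw [Function.update_of_ne (by omega), h]
  have hup1 : ∀ (θ : ℕ → ℝ) (i : ℕ) (t : ℝ), (∀ c, |θ c| < 2 * ε) → |t| < 2 * ε →
      ∀ c, |Function.update θ (i + 1) t c| < 2 * ε := by
    intro θ i t h ht c
    by_cases hc : c = i + 1
    · rw [hc, Function.update_self]; exact ht
    · rw [Function.update_of_ne hc]; exact h c
  have H1 : ∀ i, ∀ θ : ℕ → ℝ, θ 0 = 0 → (∀ c, |θ c| < 2 * ε) → ∀ c, i < c → c ≤ k → θ c = 0 →
      F i θ = 0 := by
    intro i
    induction i with
    | zero => exact h0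
    | succ i ih =>
      intro θ h1 h2 c hc1 hc2 hc
      have h3 := hd i (by omega) θ h1 h2
      have h4 : (fun t => F i (Function.update θ (i + 1) t)) =ᶠ[nhds (θ (i + 1))] fun _ => 0 := by
        have : ∀ᶠ t in nhds (θ (i + 1)), |t| < 2 * ε :=
          continuous_abs.continuousAt.eventually_lt continuousAt_const (h2 (i + 1))
        filter_upwards [this] with t ht
        refine ih _ (hup0 θ i t h1) (hup1 θ i t h2 ht) c (by omega) hc2 ?_
        rw [Function.update_of_ne (by omega), hc]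
      exact h3.unique ((hasDerivAt_const _ (0 : ℝ)).congr_of_eventuallyEq h4)
  have H2 : ∀ j i, i + j = k → ∀ θ : ℕ → ℝ, θ 0 = 0 → (∀ c, |θ c| < 2 * ε) →
      (∀ c, i < c → θ c = ε) → |F i θ - ε ^ j * A| ≤ ε ^ j * e := by
    intro j
    induction j with
    | zero =>
      intro i hi θ h1 h2 _
      have : i = k := by omega
      subst this
      simpa using hk θ h1 h2
    | succ j ih =>
      intro i hi θ h1 h2 h3
      have habs : ∀ t ∈ Set.Icc (0 : ℝ) ε, |t| < 2 * ε := fun t ht => by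
        rw [abs_of_nonneg ht.1]; linarith [ht.2]
      have hder : ∀ t ∈ Set.Icc (0 : ℝ) ε,
          HasDerivWithinAt (fun t => F i (Function.update θ (i + 1) t) - t * (ε ^ j * A))
            (F (i + 1) (Function.update θ (i + 1) t) - ε ^ j * A) (Set.Icc (0 : ℝ) ε) t := by
        intro t ht
        have h4 := hd i (by omega) _ (hup0 θ i t h1) (hup1 θ i t h2 (habs t ht))
        simp only [Function.update_idem, Function.update_self] at h4
        exact (h4.sub (hasDerivAt_mul_const (ε ^ j * A))).hasDerivWithinAt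
      have hb : ∀ t ∈ Set.Icc (0 : ℝ) ε,
          ‖F (i + 1) (Function.update θ (i + 1) t) - ε ^ j * A‖ ≤ ε ^ j * e := by
        intro t ht
        refine ih (i + 1) (by omega) _ (hup0 θ i t h1) (hup1 θ i t h2 (habs t ht)) fun c hc => ?_
        rw [Function.update_of_ne (by omega), h3 c (by omega)]
      have h5 := (convex_Icc (0 : ℝ) ε).norm_image_sub_le_of_norm_hasDerivWithin_le hder hb
        (Set.left_mem_Icc.2 hε.le) (Set.right_mem_Icc.2 hε.le)
      have h6 : F i (Function.update θ (i + 1) 0) = 0 :=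
        H1 i _ (hup0 θ i 0 h1) (hup1 θ i 0 h2 (by simpa using hε)) (i + 1) (by omega) (by omega)
          (Function.update_self _ _ _)
      have h7 : Function.update θ (i + 1) ε = θ := by
        rw [← h3 (i + 1) (by omega), Function.update_eq_self]
      rw [h6, h7, Real.norm_eq_abs, Real.norm_eq_abs, sub_zero ε, abs_of_pos hε] at h5
      calc |F i θ - ε ^ (j + 1) * A| = |F i θ - ε * (ε ^ j * A) - (0 - 0 * (ε ^ j * A))| := by
            congr 1; ring
        _ ≤ ε ^ j * e * ε := h5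
        _ = _ := by ring
  refine H2 k 0 (by omega) _ (by simp [coef]) (fun c => ?_) fun c hc => ?_
  · unfold coef
    split_ifs
    · simpa using hε
    · rw [abs_of_pos hε]; linarith
  · unfold coef
    rw [if_neg (by omega)]

section aux
variable {R : ℕ} [NeZero R] {Ξ V : Type} (E : ℕ) (σ : Path R Ξ → V → Bool) (P : Tr Bool)

omit [NeZero R] in
theorem ot_abs_old_le (u : V) (l : Lb) (y : Path R (Ξ × (V × (Fin E → Bool)))) :
    |oldF (fun b y => spinF σ u b (pmap Prod.fst y)) l y| ≤ 1 := by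
  obtain ⟨_ | b, c⟩ := l
  · simp [oldF]
  · exact ot_abs_ind_le _ _

theorem ot_abs_xlf_le {θ : ℕ → ℝ} (hW : ∀ y, 1 / 2 ≤ xW E σ P θ y) (u : V) (l : Lb)
    (y : Path R (Ξ × (V × (Fin E → Bool)))) : |xlf E σ P θ u l y| ≤ 2 := by
  unfold xlf
  rw [abs_mul]
  refine (mul_le_of_le_one_left (abs_nonneg _) (ot_abs_old_le E σ u l y)).trans ?_
  obtain ⟨b, _ | c⟩ := l
  · simp [roleF]
  · have h1 := hW y
    have h2 := abs_gv_le (hist P 0 1) c (xs E σ y) (xm E y)
    simp only [roleF, Option.elim]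
    rw [abs_div, abs_of_pos (by linarith : 0 < xW E σ P θ y), div_le_iff₀ (by linarith)]
    linarith

theorem ot_xlf_sub_le {θ θ' : ℕ → ℝ} (hW : ∀ y, 1 / 2 ≤ xW E σ P θ y)
    (hW' : ∀ y, 1 / 2 ≤ xW E σ P θ' y) {δ : ℝ} (hδ : 0 ≤ δ)
    (hWW : ∀ y, |xW E σ P θ y - xW E σ P θ' y| ≤ δ) (u : V) (l : Lb)
    (y : Path R (Ξ × (V × (Fin E → Bool)))) :
    |xlf E σ P θ u l y - xlf E σ P θ' u l y| ≤ 4 * δ := by
  unfold xlf
  rw [← mul_sub, abs_mul]
  refine (mul_le_of_le_one_left (abs_nonneg _) (ot_abs_old_le E σ u l y)).trans ?_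
  obtain ⟨b, _ | c⟩ := l
  · simp [roleF, hδ]
  · have h1 := hW y
    have h1' := hW' y
    have h2 := abs_gv_le (hist P 0 1) c (xs E σ y) (xm E y)
    have h3 := hWW y
    simp only [roleF, Option.elim]
    generalize gv (hist P 0 1) c (xs E σ y) (xm E y) = g at h2 ⊢
    generalize xW E σ P θ y = a at h1 h3 ⊢
    generalize xW E σ P θ' y = b at h1' h3 ⊢
    have ha : 0 < a := by linarith
    have hb : 0 < b := by linarith
    have e : g / a - g / b = g * (b - a) / (a * b) := by field_simp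
    rw [e, abs_div, abs_mul, abs_of_pos (mul_pos ha hb), div_le_iff₀ (mul_pos ha hb),
      abs_sub_comm]
    have h4 : |g| * |a - b| ≤ δ := (mul_le_of_le_one_left (abs_nonneg _) h2).trans h3
    have h5 : 1 / 2 * (1 / 2) ≤ a * b := mul_le_mul h1 h1' (by norm_num) ha.le
    nlinarith

end aux

/-- Stability of `Psi` in the coefficients.  If both weights are in `[1/2, 3/2]` then
`|log W - log W'| ≤ 2 δ` and `|g/W - g/W'| ≤ 4 δ`, `δ = Σ |θ c - θ' c| ≤ 1/2`;
`xker θ = tilt (xker θ') (log W - log W')` (`tilt_tilt`), `tilt_close`, `ev_close` with `B = 2`. -/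
theorem psi_close (R n : ℕ) [NeZero R] : ∃ C : ℝ, 0 ≤ C ∧ ∀ (Ξ V : Type) [Fintype Ξ] [Nonempty Ξ]
    [Fintype V] [Nonempty V] (E : ℕ) (κ : Ker R Ξ) (σ : Path R Ξ → V → Bool) (m : ℕ → ℝ)
    (_ : Adm m R 0) (P : Tr Bool) (θ θ' : ℕ → ℝ) (u : V) (T : Tr Lb), T.size ≤ n → T.Valid R 0 →
    ∑ c ∈ range P.size, |θ c| ≤ 1 / 2 → ∑ c ∈ range P.size, |θ' c| ≤ 1 / 2 →
    ∑ c ∈ range P.size, |θ c - θ' c| ≤ 1 / 2 →
    |Psi E κ σ m P θ u T - Psi E κ σ m P θ' u T| ≤ C * ∑ c ∈ range P.size, |θ c - θ' c| := by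
  refine ⟨2 * n * 2 ^ n * (R * 30 + 4), by positivity, ?_⟩
  intro Ξ V _ _ _ _ E κ σ m hm P θ θ' u T hn hT h1 h2 h3
  set δ := ∑ c ∈ range P.size, |θ c - θ' c| with hδ
  have hδ0 : 0 ≤ δ := sum_nonneg fun _ _ => abs_nonneg _
  have hW : ∀ y, 1 / 2 ≤ xW E σ P θ y := fun y => ot_termW_ge P h1 _ _
  have hW' : ∀ y, 1 / 2 ≤ xW E σ P θ' y := fun y => ot_termW_ge P h2 _ _
  have hWW : ∀ y, |xW E σ P θ y - xW E σ P θ' y| ≤ δ := fun y => abs_termW_sub_le P θ θ' _ _
  have hker : xker E κ σ m P θ = tilt (xker E κ σ m P θ') m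
      fun y => Real.log (xW E σ P θ y) - Real.log (xW E σ P θ' y) := by
    unfold xker
    rw [tilt_tilt _ hm]
    congr 1
    funext y
    ring
  have hk : ∀ s, 0 ≤ s → s < R → ∀ x,
      ∑ ξ, |(xker E κ σ m P θ).k s x ξ - (xker E κ σ m P θ').k s x ξ| ≤ 15 * (2 * δ) := by
    intro s hs0 hs x
    rw [hker]
    refine tilt_close _ hm (by linarith) (fun y => ?_) hs0 hs x
    exact (ot_abs_log_sub (hW y) (hW' y)).trans (by linarith [hWW y])
  have h4 := ev_close (xker E κ σ m P θ) (xker E κ σ m P θ') (δ' := 4 * δ) (B := 2) (by linarith)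
    one_le_two hk (ot_abs_xlf_le E σ P hW u) (ot_abs_xlf_le E σ P hW' u)
    (ot_xlf_sub_le E σ P hW hW' hδ0 hWW u) le_rfl hT (pt R _)
  refine h4.trans ?_
  have h5 : (T.size : ℝ) ≤ n := by exact_mod_cast hn
  have h6 : (2 : ℝ) ^ T.size ≤ 2 ^ n := pow_le_pow_right₀ one_le_two hn
  calc 2 * (T.size : ℝ) * 2 ^ T.size * (R * (15 * (2 * δ)) + 4 * δ)
      ≤ 2 * (n : ℝ) * 2 ^ n * (R * (15 * (2 * δ)) + 4 * δ) := by gcongr
    _ = _ := by ring

/-- flip the sign of the edge `e` -/
def otFlip (E e : ℕ) : (Fin E → Bool) ≃ (Fin E → Bool) :=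
  Function.Involutive.toPerm (fun a c => if c.val = e then !(a c) else a c) fun a => by
    funext c
    by_cases h : c.val = e <;> simp [h]

theorem otFlip_apply (E e : ℕ) (a : Fin E → Bool) (c : Fin E) :
    otFlip E e a c = if c.val = e then !(a c) else a c := rfl

/-- `-1` at `a` and `b` -/
def otS (a b r : ℕ) : ℝ := if r = a ∨ r = b then -1 else 1

theorem ot_sg_flip_ne {R E e : ℕ} (y : Path R (Fin E → Bool)) {c : ℕ} (hc : c ≠ e) (i : ℕ) :
    sg (pmap (otFlip E e) y) c i = sg y c i := by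
  unfold sg
  split_ifs with h h1 h2 h2 <;> simp_all [pmap, otFlip_apply]

theorem ot_sg_flip {R E e : ℕ} (y : Path R (Fin E → Bool)) (he : e < E) {i : ℕ} (hi : i < R) :
    sg (pmap (otFlip E e) y) e i = -sg y e i := by
  unfold sg
  rw [dif_pos ⟨hi, he⟩, dif_pos ⟨hi, he⟩]
  split_ifs with h1 h2 h2 <;> simp_all [pmap, otFlip_apply]

theorem ot_mark_flip_not {R E e : ℕ} (y : Path R (Fin E → Bool)) (r : ℕ) {hs : List Stp}
    (he : e ∉ hs.map Stp.c) : mark hs r (pmap (otFlip E e) y) = mark hs r y := by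
  unfold mark
  congr 1
  refine List.map_congr_left fun h hh => ?_
  have : h.c ≠ e := fun h' => he (List.mem_map.2 ⟨h, hh, h'⟩)
  unfold fac
  rw [ot_sg_flip_ne y this, ot_sg_flip_ne y this]

theorem ot_mark_flip {R E : ℕ} (y : Path R (Fin E → Bool)) (r : ℕ) {h : Stp} (hE : h.c < E)
    (hR : h.lv < R) {hs : List Stp} (hnd : (hs.map Stp.c).Nodup) (hh : h ∈ hs) :
    mark hs r (pmap (otFlip E h.c) y) = otS h.c h.par r * mark hs r y := by
  induction hs with
  | nil => simp at hh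
  | cons h' hs ih =>
    rw [List.map_cons, List.nodup_cons] at hnd
    have e : ∀ y : Path R (Fin E → Bool), mark (h' :: hs) r y = fac h' r y * mark hs r y :=
      fun y => by simp [mark]
    rw [e, e]
    rcases List.mem_cons.1 hh with rfl | hh'
    · rw [ot_mark_flip_not y r hnd.1, ← mul_assoc]
      congr 1
      unfold fac otS
      rw [ot_sg_flip y hE hR, ot_sg_flip y hE (by omega : h.lv - 1 < R)]
      by_cases e1 : r = h.c
      · rw [if_pos e1, if_pos e1, if_pos (Or.inl e1)]; ring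
      · by_cases e2 : r = h.par
        · rw [if_neg e1, if_neg e1, if_pos e2, if_pos e2, if_pos (Or.inr e2)]; ring
        · rw [if_neg e1, if_neg e1, if_neg e2, if_neg e2, if_neg (by tauto)]; ring
    · have hne : h'.c ≠ h.c := fun h1 => hnd.1 (List.mem_map.2 ⟨h, hh', h1.symm⟩)
      rw [ih hnd.2 hh']
      have : fac h' r (pmap (otFlip E h.c) y) = fac h' r y := by
        unfold fac
        rw [ot_sg_flip_ne y hne, ot_sg_flip_ne y hne]
      rw [this]; ring

theorem ot_ev_sign {R : ℕ} {Ξ : Type} [Fintype Ξ] (κ : Ker R Ξ) (s : ℕ → ℝ)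
    (φ : Lb → Path R Ξ → ℝ) (T : Tr Lb) :
    ev κ (fun a y => (a.2.elim 1 fun c => s c.1) * φ a y) T =
      fun x => ((roleL T).map fun c => s c.1).prod * ev κ φ T x := by
  induction T with
  | leaf l =>
    obtain ⟨b, _ | c⟩ := l <;> simp [ev, roleL]
  | node u a b iha ihb =>
    funext x
    simp only [ev, roleL, iha, ihb, Ex_mul_left, List.map_append, List.prod_append]
    ring

theorem ot_hist_nodup (P : Tr Bool) : ((hist P 0 1).map Stp.c).Nodup := by
  rw [hist_c]; exact List.nodup_range' _ (by norm_num)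

theorem ot_hist_c_mem {P : Tr Bool} {h : Stp} (hh : h ∈ hist P 0 1) : 1 ≤ h.c ∧ h.c < P.size := by
  have : h.c ∈ (hist P 0 1).map Stp.c := List.mem_map.2 ⟨h, hh, rfl⟩
  rw [hist_c, List.mem_range'_1] at this
  omega

section par
variable {R : ℕ} [NeZero R] {Ξ V : Type} [Fintype Ξ] [Nonempty Ξ] [Fintype V]
  [Nonempty V] (E : ℕ) (κ : Ker R Ξ) (σ : Path R Ξ → V → Bool) (m : ℕ → ℝ)

/-- the signs `s` are a symmetry -/
def OtPar (P : Tr Bool) (u : V) (T : Tr Lb) (s : ℕ → ℝ) : Prop :=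
  ∀ θ : ℕ → ℝ, Psi E κ σ m P θ u T = s 0 * Psi E κ σ m P (fun r => s r * θ r) u T

variable {E κ σ m} in
theorem OtPar.mul {P : Tr Bool} {u : V} {T : Tr Lb} {s s' : ℕ → ℝ} (h : OtPar E κ σ m P u T s)
    (h' : OtPar E κ σ m P u T s') : OtPar E κ σ m P u T fun r => s r * s' r := by
  intro θ
  rw [h' θ, h]
  simp only [mul_assoc]
  ring

theorem ot_par_flip {P : Tr Bool} (hP : P.Valid R 1) (hE : P.size ≤ E) (u : V) {T : Tr Lb}
    (hT : T.Valid R 0) (hr : roleL T = [(0, P.first)]) {h : Stp} (hh : h ∈ hist P 0 1) :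
    OtPar E κ σ m P u T (otS h.c h.par) := by
  intro θ
  have hc := ot_hist_c_mem hh
  have hlv : h.lv < R := by
    have : h.lv ∈ P.levels := by rw [← hist_lv P 0 1]; exact List.mem_map.2 ⟨h, hh, rfl⟩
    exact (valid_levels hP _ this).2
  set s := otS h.c h.par with hs
  set Φ : Path R (Ξ × (V × (Fin E → Bool))) → Path R (Ξ × (V × (Fin E → Bool))) :=
    pmap (Prod.map id ((Equiv.refl V).prodCongr (otFlip E h.c))) with hΦ
  have hsim : Sim (κ.prod (Ker.unif R _)) (κ.prod (Ker.unif R _)) Φ 0 :=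
    (sim_refl κ 0).prod_map (sim_unif_equiv _ 0)
  have hg : ∀ c y, gv (hist P 0 1) c (xs E σ (Φ y)) (xm E (Φ y)) =
      s c.1 * gv (hist P 0 1) c (xs E σ y) (xm E y) := by
    intro c y
    have e1 : xs E σ (Φ y) = xs E σ y := rfl
    have e2 : xm E (Φ y) = pmap (otFlip E h.c) (xm E y) := rfl
    rw [e1, e2]
    unfold gv
    rw [ot_mark_flip _ _ (by omega) hlv (ot_hist_nodup P) hh, mul_assoc]
  have hW : ∀ y, xW E σ P θ (Φ y) = xW E σ P (fun r => s r * θ r) y := by
    intro y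
    unfold xW termW
    simp only [hg]
    congr 1
    · ring
    · congr 1
      refine List.map_congr_left fun h' _ => ?_
      ring
  have hsim2 : Sim (xker E κ σ m P fun r => s r * θ r) (xker E κ σ m P θ) Φ 0 := by
    have := hsim.tilt (m := m) fun y => Real.log (xW E σ P θ y)
    simp only [hW] at this
    exact this
  have hlf : (fun a y => xlf E σ P θ u a (Φ y)) =
      fun a y => (a.2.elim 1 fun c => s c.1) * xlf E σ P (fun r => s r * θ r) u a y := by
    funext a y
    have e : oldF (fun b y => spinF σ u b (pmap Prod.fst y)) a (Φ y) =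
        oldF (fun b y => spinF σ u b (pmap Prod.fst y)) a y := rfl
    unfold xlf
    rw [e]
    obtain ⟨b, _ | c⟩ := a
    · simp [roleF]
    · simp only [roleF, Option.elim, hg, hW]
      ring
  unfold Psi
  rw [← hsim2.E0]
  simp only [← hsim2.ev _ hT]
  rw [hlf, ot_ev_sign, hr]
  unfold E0
  rw [Ex_mul_left]
  simp

end par

/-- Parity.  Flip all signs of the edge `e = h.c` (`1 ≤ e < size P ≤ E`): this bijection of the
alphabet preserves the uniform kernel (`sim_unif_equiv`, `Sim.prod_map`, `sim_refl`, `Sim.tilt`,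
`Sim.ev`); it multiplies `gv _ (r, _)` by `-1` exactly for `r ∈ {h.c, h.par}` (levels are in
`[1, R)`, ids are distinct, `h.par < h.c`).  As `T` has exactly one role leaf, with id `0`,
`Psi θ = ± Psi θ'`, `θ'` = `θ` negated at `h.c` and `h.par`, with the sign `-` iff `h.par = 0`.
Strong induction on `c`: `Psi θ = - Psi (θ negated at c and at 0)` for all `θ`.  If `θ 0 = θ c = 0`
this says `Psi θ = - Psi θ`. -/
theorem psi_eq_zero {R : ℕ} [NeZero R] {Ξ V : Type} [Fintype Ξ] [Nonempty Ξ] [Fintype V]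
    [Nonempty V] (E : ℕ) (κ : Ker R Ξ) (σ : Path R Ξ → V → Bool) (m : ℕ → ℝ) {P : Tr Bool}
    (hP : P.Valid R 1) (hE : P.size ≤ E) (u : V) {T : Tr Lb} (hT : T.Valid R 0)
    (hr : roleL T = [(0, P.first)]) {θ : ℕ → ℝ} (h0 : θ 0 = 0) {c : ℕ} (hc1 : 1 ≤ c)
    (hc2 : c < P.size) (hc : θ c = 0) : Psi E κ σ m P θ u T = 0 := by
  have key : ∀ c, 1 ≤ c → c < P.size → OtPar E κ σ m P u T (otS c 0) := by
    intro c
    induction c using Nat.strong_induction_on with
    | _ c ih =>
      intro hc1 hc2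
      have hmem : c ∈ (hist P 0 1).map Stp.c := by
        rw [hist_c, List.mem_range'_1]; omega
      obtain ⟨h, hh, rfl⟩ := List.mem_map.1 hmem
      have h1 := ot_par_flip E κ σ m hP hE u hT hr hh
      by_cases hp : h.par = 0
      · rwa [hp] at h1
      · have h2 : h.par < h.c := by
          rcases hist_par P 0 1 h hh with h2 | h2
          · exact absurd h2 hp
          · exact h2.2
        have h3 := h1.mul (ih h.par h2 (by omega) (by omega))
        convert h3 using 1
        funext r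
        unfold otS
        by_cases e1 : r = h.c
        · rw [if_pos (Or.inl e1), if_pos (Or.inl e1), if_neg (by omega)]; ring
        · by_cases e2 : r = h.par
          · rw [if_neg (by omega), if_pos (Or.inr e2), if_pos (Or.inl e2)]; ring
          · by_cases e3 : r = 0
            · rw [if_pos (Or.inr e3), if_neg (by omega), if_pos (Or.inr e3)]; ring
            · rw [if_neg (by omega), if_neg (by omega), if_neg (by omega)]; ring
  have h1 := key c hc1 hc2 θ
  have h2 : (fun r => otS c 0 r * θ r) = θ := by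
    funext r
    unfold otS
    split_ifs with h
    · rcases h with rfl | rfl
      · rw [hc, mul_zero]
      · rw [h0, mul_zero]
    · rw [one_mul]
  have h3 : otS c 0 0 = -1 := by simp [otS]
  rw [h2, h3] at h1
  linarith

theorem ot_list_update (θ : ℕ → ℝ) (t : ℝ) (g : Stp → ℝ) {h : Stp} {hs : List Stp}
    (hnd : (hs.map Stp.c).Nodup) (hh : h ∈ hs) :
    (hs.map fun h' => Function.update θ h.c t h'.c * g h').sum =
      (hs.map fun h' => θ h'.c * g h').sum + (t - θ h.c) * g h := by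
  induction hs with
  | nil => simp at hh
  | cons h' hs ih =>
    rw [List.map_cons, List.nodup_cons] at hnd
    simp only [List.map_cons, List.sum_cons]
    rcases List.mem_cons.1 hh with rfl | hh'
    · have : (hs.map fun h' => Function.update θ h.c t h'.c * g h') =
          hs.map fun h' => θ h'.c * g h' := by
        refine List.map_congr_left fun h' hh' => ?_
        rw [Function.update_of_ne fun e => hnd.1 (List.mem_map.2 ⟨h', hh', e⟩)]
      rw [this, Function.update_self]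
      ring
    · rw [ih hnd.2 hh',
        Function.update_of_ne fun e => hnd.1 (List.mem_map.2 ⟨h, hh', Eq.symm e⟩)]
      ring

theorem ot_hasDerivAt_termW {R E : ℕ} (P : Tr Bool) {h : Stp} (hh : h ∈ hist P 0 1) (θ : ℕ → ℝ)
    (s : Bool) (y : Path R (Fin E → Bool)) :
    HasDerivAt (fun t => termW P (Function.update θ h.c t) s y)
      (gv (hist P 0 1) (h.c, h.b) s y) (θ h.c) := by
  have hc := ot_hist_c_mem hh
  have e : (fun t => termW P (Function.update θ h.c t) s y) =
      fun t => termW P θ s y + (t - θ h.c) * gv (hist P 0 1) (h.c, h.b) s y := by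
    funext t
    unfold termW
    rw [ot_list_update θ t (fun h' => gv (hist P 0 1) (h'.c, h'.b) s y) (ot_hist_nodup P) hh,
      Function.update_of_ne (by omega)]
    ring
  rw [e]
  simpa using (((hasDerivAt_id (θ h.c)).sub_const (θ h.c)).mul_const
    (gv (hist P 0 1) (h.c, h.b) s y)).const_add (termW P θ s y)

/-- The derivative in the coefficient of the role of `h`: `hasDerivAt_Ex_ev` with `γ = g_h / W`,
`f = h.asgF`, `z = h.newL`, `a0 = 0`, `s = 0`.  A free leaf has `φ' = 0` and `φ γ` is the value with the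
role `h`; on a leaf with a role `c`, `φ' = - old · g_c g_h / W²` cancels `φ γ`. -/
theorem hasDerivAt_psi {R : ℕ} [NeZero R] {Ξ V : Type} [Fintype Ξ] [Nonempty Ξ] [Fintype V]
    [Nonempty V] (E : ℕ) (κ : Ker R Ξ) (σ : Path R Ξ → V → Bool) {m : ℕ → ℝ} (hm : Adm m R 0)
    (P : Tr Bool) {h : Stp} (hh : h ∈ hist P 0 1) {θ : ℕ → ℝ}
    (hθ : ∑ c ∈ range P.size, |θ c| ≤ 1 / 2) (u : V) {T : Tr Lb} (hT : T.Valid R 0) :
    HasDerivAt (fun t => Psi E κ σ m P (Function.update θ h.c t) u T)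
      (wsum (sopts m R h 0 0 T) (Psi E κ σ m P θ u)) (θ h.c) := by
  have hW : ∀ y, xW E σ P θ y ≠ 0 := fun y => by
    have : 1 / 2 ≤ xW E σ P θ y := ot_termW_ge P hθ _ _
    linarith
  have hdW : ∀ y, HasDerivAt (fun t => xW E σ P (Function.update θ h.c t) y)
      (gv (hist P 0 1) (h.c, h.b) (xs E σ y) (xm E y)) (θ h.c) := fun y =>
    ot_hasDerivAt_termW P hh θ _ _
  have hW' : ∀ y, xW E σ P (Function.update θ h.c (θ h.c)) y ≠ 0 := by
    rw [Function.update_eq_self]; exact hW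
  have key := hasDerivAt_Ex_ev (κ.prod (Ker.unif R (V × (Fin E → Bool)))) hm
    (G := fun t y => Real.log (xW E σ P (Function.update θ h.c t) y))
    (γ := fun y => gv (hist P 0 1) (h.c, h.b) (xs E σ y) (xm E y) / xW E σ P θ y) (t := θ h.c)
    (fun y => by simpa only [Function.update_eq_self] using (hdW y).log (hW' y))
    (φ := fun t => xlf E σ P (Function.update θ h.c t) u)
    (φ' := fun a y => oldF (fun b y => spinF σ u b (pmap Prod.fst y)) a y *
      a.2.elim 0 fun c => -(gv (hist P 0 1) c (xs E σ y) (xm E y) *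
        gv (hist P 0 1) (h.c, h.b) (xs E σ y) (xm E y)) / xW E σ P θ y ^ 2)
    (fun a y => ?_) (f := h.asgF) (z := h.newL) ?_ (fun a y => ?_) T le_rfl hm.lt hT 0 (pt R _)
  · simp only [Function.update_eq_self, zero_mul, sub_zero] at key
    exact key
  · unfold xlf
    refine HasDerivAt.const_mul _ ?_
    obtain ⟨b, _ | c⟩ := a
    · exact hasDerivAt_const _ _
    · have := (hasDerivAt_const (θ h.c) (gv (hist P 0 1) c (xs E σ y) (xm E y))).div (hdW y) (hW' y)
      simp only [Function.update_eq_self, zero_mul, zero_sub] at this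
      exact this
  · funext y
    simp [xlf, Stp.newL, oldF, roleF]
  · have := hW y
    obtain ⟨b, _ | c⟩ := a
    · simp [xlf, Stp.asgF, oldF, roleF]
    · simp only [xlf, Stp.asgF, roleF, Option.elim, Function.update_eq_self]
      field_simp
      ring

theorem ot_wsum_useq_append {m : ℕ → ℝ} {R : ℕ} (a0 : ℝ) (s : ℕ) (hs hs' : List Stp) (T : Tr Lb)
    (Φ : Tr Lb → ℝ) : wsum (useq m R a0 s (hs ++ hs') T) Φ =
      wsum (useq m R a0 s hs T) fun T' => wsum (useq m R a0 s hs' T') Φ := by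
  induction hs generalizing T with
  | nil => simp [useq]
  | cons h hs ih => simp only [List.cons_append, useq, wsum_wbind, ih]

theorem ot_hasDerivAt_wsum {α : Type} (l : WL α) {Φ : ℝ → α → ℝ} {Φ' : α → ℝ} {t : ℝ}
    (h : ∀ a, wmem a l → HasDerivAt (fun t => Φ t a) (Φ' a) t) :
    HasDerivAt (fun t => wsum l (Φ t)) (wsum l Φ') t := by
  induction l with
  | nil => simpa using hasDerivAt_const t (0 : ℝ)
  | cons p l ih =>
    simp only [wsum_cons]
    exact ((h p.2 (by simp)).const_mul p.1).add (ih fun a ha => h a (by simp [ha]))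

/-- `k = size P - 1`, `hs = hist P 0 1` (its `i`-th step has the id `i+1`, `hist_c`),
`F i θ = wsum (useq (hs.take i) T) (Psi θ)` (`useq (l ++ [h])` is a `wbind`).  `iter_mvt` with
`A = F k 0`, `e = wabs (useq hs T) · C · 2 ε size` (`psi_close`, `wabs_useq_le`, `useq_mem`), then
`psi_close` from `coef 0 ε` to `coef λ ε`. -/
theorem psi_expand (R d : ℕ) [NeZero R] : ∃ C : ℝ, 0 ≤ C ∧ ∀ (Ξ V : Type) [Fintype Ξ] [Nonempty Ξ]
    [Fintype V] [Nonempty V] (E : ℕ) (κ : Ker R Ξ) (σ : Path R Ξ → V → Bool) (m : ℕ → ℝ)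
    (_ : Adm m R 0) (P : Tr Bool) (u : V) (T : Tr Lb) (lam eps : ℝ), P.depth ≤ d → P.Valid R 1 →
    P.size ≤ E → T.size ≤ 2 ^ d → T.Valid R 0 → roleL T = [(0, P.first)] → 0 < eps →
    |lam| + 2 * eps * P.size ≤ 1 / 2 →
    |Psi E κ σ m P (coef lam eps) u T - eps ^ (P.size - 1) *
        wsum (useq m R 0 0 (hist P 0 1) T) (Psi E κ σ m P (fun _ => 0) u)| ≤
      C * (|lam| + eps ^ P.size) := by
  obtain ⟨C, hC0, hC⟩ := psi_close R (2 ^ d + 2 ^ d)
  set Wd : ℝ := (2 * (2 ^ d + 2 ^ d : ℝ)) ^ (2 ^ d) with hWd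
  have hWd0 : 0 ≤ Wd := by positivity
  refine ⟨C + Wd * (C * (2 * 2 ^ d)), by positivity, ?_⟩
  intro Ξ V _ _ _ _ E κ σ m hm P u T lam eps hd hP hE hT1 hT hr heps hsm
  have hsz : P.size ≤ 2 ^ d := P.size_le_two_pow.trans (Nat.pow_le_pow_right (by norm_num) hd)
  have hsz' : (P.size : ℝ) ≤ 2 ^ d := by exact_mod_cast hsz
  have hT1' : (T.size : ℝ) ≤ 2 ^ d := by exact_mod_cast hT1
  have hpos := P.size_pos
  have hlen := hist_length P 0 1
  have hQ : ∀ θ : ℕ → ℝ, (∀ c, |θ c| < 2 * eps) →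
      ∑ c ∈ range P.size, |θ c| ≤ 2 * eps * P.size := by
    intro θ hθ
    refine (sum_le_card_nsmul _ _ _ fun c _ => (hθ c).le).trans ?_
    rw [card_range, nsmul_eq_mul, mul_comm]
  have hsm1 : 2 * eps * P.size ≤ 1 / 2 := by linarith [abs_nonneg lam]
  have h1 := iter_mvt (P.size - 1) heps
    (A := wsum (useq m R 0 0 (hist P 0 1) T) (Psi E κ σ m P (fun _ => 0) u))
    (e := Wd * (C * (2 * eps * 2 ^ d)))
    (fun i θ => wsum (useq m R 0 0 ((hist P 0 1).take i) T) (Psi E κ σ m P θ u))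
    (fun i hi θ _ hθ => ?_) (fun θ h0 hθ c hc1 hc2 hc => ?_) (fun θ _ hθ => ?_)
  · simp only [List.take_zero, useq, wsum_cons, wsum_nil, one_mul, add_zero] at h1
    have hb : ∀ l : ℝ, |l| ≤ |lam| → ∑ c ∈ range P.size, |coef l eps c| ≤ 1 / 2 := by
      intro l hl
      refine (ot_sum_coef_le P l eps).trans ?_
      rw [abs_of_pos heps]
      have : 0 ≤ eps * P.size := by positivity
      linarith
    have hdiff : ∑ c ∈ range P.size, |coef lam eps c - coef 0 eps c| = |lam| := by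
      rw [sum_eq_single 0]
      · simp [coef]
      · intro c _ hc; simp [coef, hc]
      · intro h; exact absurd (mem_range.2 hpos) h
    have h2 := hC Ξ V E κ σ m hm P (coef lam eps) (coef 0 eps) u T
      (hT1.trans (Nat.le_add_right _ _)) hT (hb _ le_rfl) (hb _ (by simp))
      (by rw [hdiff]; have : 0 ≤ 2 * eps * P.size := by positivity
          linarith)
    rw [hdiff] at h2
    have h3 : eps ^ P.size = eps ^ (P.size - 1) * eps := by
      rw [← pow_succ, Nat.sub_add_cancel hpos]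
    have h4 : 0 ≤ eps ^ P.size := by positivity
    have h5 : 0 ≤ Wd * (C * (2 * 2 ^ d)) := by positivity
    refine (abs_sub_le _ (Psi E κ σ m P (coef 0 eps) u T) _).trans ((add_le_add h2 h1).trans ?_)
    have h6 : eps ^ (P.size - 1) * (Wd * (C * (2 * eps * 2 ^ d))) =
        Wd * (C * (2 * 2 ^ d)) * eps ^ P.size := by rw [h3]; ring
    rw [h6]
    nlinarith [mul_nonneg hC0 h4, mul_nonneg h5 (abs_nonneg lam)]
  · have hi' : i < (hist P 0 1).length := by omega
    have hh : (hist P 0 1)[i] ∈ hist P 0 1 := List.getElem_mem _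
    have hc : ((hist P 0 1)[i]).c = i + 1 := by
      have e1 : ((hist P 0 1).map Stp.c)[i]'(by simpa using hi') = ((hist P 0 1)[i]).c := by simp
      rw [← e1]
      simp only [hist_c, List.getElem_range']
      omega
    rw [List.take_succ_eq_append_getElem hi', ot_wsum_useq_append, ← hc]
    refine ot_hasDerivAt_wsum _ fun T' hT' => ?_
    have := hasDerivAt_psi E κ σ hm P hh ((hQ θ hθ).trans hsm1) u (useq_mem hT hT').1
    simpa [useq] using this
  · simp only [List.take_zero, useq, wsum_cons, wsum_nil, one_mul, add_zero]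
    exact psi_eq_zero E κ σ m hP hE u hT hr h0 hc1 (by omega) hc
  · rw [List.take_of_length_le (by omega), ← wsum_sub]
    refine (abs_wsum_le (B := C * (2 * eps * 2 ^ d)) fun T' hT' => ?_).trans ?_
    · obtain ⟨hv, hs⟩ := useq_mem hT hT'
      have h2 := hC Ξ V E κ σ m hm P θ (fun _ => 0) u T' (by omega) hv ((hQ θ hθ).trans hsm1)
        (by simp) (by simpa using (hQ θ hθ).trans hsm1)
      refine h2.trans (mul_le_mul_of_nonneg_left ?_ hC0)
      simp only [sub_zero]
      exact (hQ θ hθ).trans (mul_le_mul_of_nonneg_left hsz' (by positivity))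
    · refine mul_le_mul_of_nonneg_right ((wabs_useq_le hm _ hT).trans ?_) (by positivity)
      have hl : ((hist P 0 1).length : ℝ) ≤ 2 ^ d := by
        exact_mod_cast (by omega : (hist P 0 1).length ≤ 2 ^ d)
      have h2 : (1 : ℝ) ≤ 2 ^ d := one_le_pow₀ one_le_two
      calc (2 * (T.size + (hist P 0 1).length : ℝ)) ^ (hist P 0 1).length
          ≤ (2 * (2 ^ d + 2 ^ d : ℝ)) ^ (hist P 0 1).length := by gcongr
        _ ≤ Wd := pow_le_pow_right₀ (by linarith) (by omega)

end Crest.Agent.R141
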