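import Crest.Agent.R141.Cavity
import Crest.Agent.R141.OneTerm
import Crest.Agent.R141.Ass.Ops

/-! The Aizenman–Sims–Starr step (task R141 Ass).

Notation: `V = Fin (N+1)`, `V' = Fin (N+2)`, `q = ((N+1)/(N+2))^p`, `b = α (N+2) q`,
`a₁ = rate1 = α (N+2)(1-q)`, `a₂ = rate2 = α (N+1) - b ≥ 0`, `n = |P.J|`, `B` with `M.Bd B`.
For `K` clauses with data `D = (θ, idx, h)` put `κ_{a,D} = P.ker R V a (M.Ham θ idx h)`. -/

set_option autoImplicit false

namespace Crest.Agent.R141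

open Finset Crest.ProbabilityR.Diluted Filter Topology
open scoped BigOperators

theorem Ass.q_mem (p N : ℕ) :
    0 ≤ (((N : ℝ) + 1) / (N + 2)) ^ p ∧ (((N : ℝ) + 1) / (N + 2)) ^ p ≤ 1 :=
  ⟨by positivity, pow_le_one₀ (by positivity) (by rw [div_le_one (by positivity)]; linarith)⟩

theorem rate1_nonneg {α : ℝ} (hα : 0 ≤ α) (p N : ℕ) : 0 ≤ rate1 α p N := by
  unfold rate1
  exact mul_nonneg (by positivity) (sub_nonneg.2 (Ass.q_mem p N).2)

theorem rate2_nonneg {α : ℝ} (hα : 0 ≤ α) {p : ℕ} (hp : 1 ≤ p) (N : ℕ) : 0 ≤ rate2 α p N := by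
  unfold rate2
  have hn : (0 : ℝ) < N + 2 := by positivity
  have h1 : (((N : ℝ) + 1) / (N + 2)) ^ p ≤ ((N : ℝ) + 1) / (N + 2) :=
    pow_le_of_le_one (by positivity) (by rw [div_le_one hn]; linarith) (by omega)
  have h2 : α * (N + 1) = α * (N + 2) * (((N : ℝ) + 1) / (N + 2)) := by field_simp
  rw [h2, sub_nonneg]
  exact mul_le_mul_of_nonneg_left h1 (by positivity)

/-- `n (1 - (1 - 1/n)^p) → p` (geometric sum: `1 - x^p = (1-x) Σ_{i<p} x^i`) -/
theorem tendsto_rate1 (α : ℝ) (p : ℕ) : Tendsto (rate1 α p) atTop (𝓝 (α * p)) := by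
  have hx : Tendsto (fun N : ℕ => ((N : ℝ) + 1) / (N + 2)) atTop (𝓝 1) := by
    have h1 : Tendsto (fun N : ℕ => 1 - ((N : ℝ) + 2)⁻¹) atTop (𝓝 (1 - 0)) :=
      (tendsto_inv_atTop_zero.comp
        (tendsto_atTop_add_const_right _ 2 tendsto_natCast_atTop_atTop)).const_sub 1
    rw [sub_zero] at h1
    refine h1.congr fun N => ?_
    have hn : (0 : ℝ) < N + 2 := by positivity
    field_simp
    ring
  have h2 : Tendsto (fun N : ℕ => α * ∑ i ∈ range p, (((N : ℝ) + 1) / (N + 2)) ^ i) atTop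
      (𝓝 (α * ∑ i ∈ range p, (1 : ℝ) ^ i)) :=
    (tendsto_finsetSum _ fun i _ => hx.pow i).const_mul α
  simp only [one_pow, sum_const, card_range, nsmul_eq_mul, mul_one] at h2
  refine h2.congr fun N => ?_
  have hn : (0 : ℝ) < N + 2 := by positivity
  unfold rate1
  rw [← geom_sum_mul_neg]
  have h3 : 1 - ((N : ℝ) + 1) / (N + 2) = 1 / (N + 2) := by field_simp; ring
  rw [h3]
  field_simp

theorem tendsto_rate2 (α : ℝ) (p : ℕ) : Tendsto (rate2 α p) atTop (𝓝 (α * (p - 1))) := by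
  have h := (tendsto_rate1 α p).sub_const α
  rw [mul_sub, mul_one]
  refine h.congr fun N => ?_
  unfold rate1 rate2
  ring

theorem abs_pertG_le {R : ℕ} [NeZero R] (P : Pert) {V : Type} (a : P.Λ)
    (x : Path R (Al V P.J P.E)) : |pertG P.ty (P.lam a) P.eps x| ≤ Fintype.card P.J := by
  unfold pertG
  refine (abs_sum_le_sum_abs _ _).trans ?_
  refine (sum_le_card_nsmul _ _ 1 fun j _ => ?_).trans (by simp)
  have h1 := P.small a j
  have h2 := (termW_coef_mem (P.ty j) h1 (spin x (siteOf x j)) (marksOf x j)).2.2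
  linarith

/-- `abs_Fr_sub_le` and `Fr_unif_last` -/
theorem abs_F0_sub_le (R : ℕ) [NeZero R] (P : Pert) (V : Type) [Fintype V] [DecidableEq V]
    [Nonempty V] (a : P.Λ) (H : (V → Bool) → ℝ) :
    |F0 (Ker.unif R _) (grid R) (P.G R V a H) - Real.log (𝔼 σ, Real.exp (H σ))| ≤
      Fintype.card P.J := by
  have hm : Adm (grid R) R 0 := adm_grid (NeZero.pos R)
  have h1 := Fr_unif_last (Ξ := Al V P.J P.E) hm (lastI R) rfl (fun ξ => H ξ.1) (pt R _)
  have h2 : 𝔼 ξ : Al V P.J P.E, Real.exp (H ξ.1) = 𝔼 σ, Real.exp (H σ) := by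
    rw [← PV.unif_prod_E, PV.E_prod, PV.unif_E]
    simp only [PV.E_const]
  rw [h2] at h1
  rw [← h1]
  refine abs_Fr_sub_le _ hm (fun y => ?_) _
  have := abs_pertG_le P a y
  simpa [Pert.G, spin] using this

namespace Ass

section
variable {α : Type} [Fintype α] (p : PV α)

theorem abs_E_sub_const_le {f : α → ℝ} {c B : ℝ} (h : ∀ a, |f a - c| ≤ B) : |p.E f - c| ≤ B := by
  have := p.abs_E_sub_le (g := fun _ => c) h
  rwa [PV.E_const] at this

theorem E_eq_const_add {f g : α → ℝ} {c : ℝ} (h : ∀ a, g a = c + f a) : p.E g = c + p.E f := by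
  rw [E_congr p h, PV.E_add, PV.E_const]

theorem const_add_E_le {f g : α → ℝ} {c d : ℝ} (h : ∀ a, c + f a - d ≤ g a) :
    c + p.E f - d ≤ p.E g := by
  have := p.E_mono h
  rwa [PV.E_sub, PV.E_add, PV.E_const, PV.E_const] at this

end

theorem abs_log_expect_le {α : Type} [Fintype α] [Nonempty α] {f : α → ℝ} {C : ℝ}
    (h : ∀ a, |f a| ≤ C) : |Real.log (𝔼 a, Real.exp (f a))| ≤ C := by
  have h1 : Real.exp (-C) ≤ 𝔼 a, Real.exp (f a) :=
    le_expect univ_nonempty fun a _ => Real.exp_le_exp.2 (abs_le.1 (h a)).1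
  have h2 : 𝔼 a, Real.exp (f a) ≤ Real.exp C :=
    expect_le univ_nonempty fun a _ => Real.exp_le_exp.2 (abs_le.1 (h a)).2
  have h3 := (Real.exp_pos _).trans_le h1
  exact abs_le.2 ⟨(Real.le_log_iff_exp_le h3).2 h1, (Real.log_le_iff_le_exp h3).2 h2⟩

theorem log_expect_eq {N : ℕ} (f : (Fin N → Bool) → ℝ) :
    Real.log (𝔼 σ, Real.exp (f σ)) = Real.log (∑ σ, Real.exp (f σ)) - N * Real.log 2 := by
  rw [Fintype.expect_eq_sum_div_card,
    Real.log_div (sum_pos (fun _ _ => Real.exp_pos _) univ_nonempty).ne'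
      (by exact_mod_cast Fintype.card_ne_zero)]
  simp

theorem abs_binom_le {q C : ℝ} (h0 : 0 ≤ q) (h1 : q ≤ 1) {f : ℕ → ℕ → ℝ}
    (hf : ∀ j k, |f j k| ≤ C * (j + k + 1)) (n : ℕ) :
    |∑ j ∈ range (n + 1), (n.choose j : ℝ) * q ^ j * (1 - q) ^ (n - j) * f j (n - j)| ≤
      C * (n + 1) := by
  have h2 : 0 ≤ 1 - q := by linarith
  have h3 : ∑ j ∈ range (n + 1), (n.choose j : ℝ) * q ^ j * (1 - q) ^ (n - j) = 1 := by
    have := add_pow q (1 - q) n
    rw [add_sub_cancel, one_pow] at this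
    exact (sum_congr rfl fun j _ => by ring).trans this.symm
  have h4 : C * (n + 1) =
      (∑ j ∈ range (n + 1), (n.choose j : ℝ) * q ^ j * (1 - q) ^ (n - j)) * (C * (n + 1)) := by
    rw [h3, one_mul]
  refine (abs_sum_le_sum_abs _ _).trans ?_
  rw [h4, sum_mul]
  refine sum_le_sum fun j hj => ?_
  rw [abs_mul, abs_of_nonneg (by positivity)]
  refine mul_le_mul_of_nonneg_left ((hf _ _).trans (le_of_eq ?_)) (by positivity)
  rw [Nat.cast_sub (Nat.lt_succ_iff.1 (mem_range.1 hj))]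
  ring

theorem unif_dom {R : ℕ} {Ξ₁ Ξ₂ : Type} [Fintype Ξ₁] [Fintype Ξ₂] [Nonempty Ξ₁] [Nonempty Ξ₂]
    {f : Ξ₁ → Ξ₂} (hf : Function.Injective f) (t : ℕ) {F : Path R Ξ₂ → ℝ} (hF : ∀ y, 0 ≤ F y)
    (x : Path R Ξ₁) :
    (Fintype.card Ξ₁ : ℝ) / Fintype.card Ξ₂ * step (Ker.unif R Ξ₁) t (fun y => F (pmap f y)) x ≤
      step (Ker.unif R Ξ₂) t F (pmap f x) := by
  have h1 : (Fintype.card Ξ₁ : ℝ) ≠ 0 := by exact_mod_cast Fintype.card_ne_zero
  simp only [step, Ker.unif, ← mul_sum, pmap_upd]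
  rw [← mul_assoc, div_mul_eq_mul_div, mul_inv_cancel₀ h1, one_div]
  refine mul_le_mul_of_nonneg_left ?_ (by positivity)
  refine le_trans (le_of_eq (sum_map univ ⟨f, hf⟩ fun ξ => F (upd (pmap f x) t ξ)).symm) ?_
  exact sum_le_sum_of_subset_of_nonneg (subset_univ _) fun i _ _ => hF _

section G
variable (R : ℕ) [NeZero R] (P : Pert) (V : Type) [Fintype V] [DecidableEq V] [Nonempty V]

theorem F0G_lip (a : P.Λ) {H H' : (V → Bool) → ℝ} {d : ℝ} (h : ∀ σ, |H σ - H' σ| ≤ d) :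
    |F0 (Ker.unif R _) (grid R) (P.G R V a H) - F0 (Ker.unif R _) (grid R) (P.G R V a H')| ≤ d :=
  abs_Fr_sub_le _ (adm_grid (NeZero.pos R)) (fun y => by simpa [Pert.G] using h (spin y)) _

theorem abs_F0G_le (a : P.Λ) {H : (V → Bool) → ℝ} {C : ℝ} (h : ∀ σ, |H σ| ≤ C) :
    |F0 (Ker.unif R _) (grid R) (P.G R V a H)| ≤ C + Fintype.card P.J :=
  abs_Fr_le _ (adm_grid (NeZero.pos R))
    (fun y => (abs_add_le _ _).trans (add_le_add (h _) (abs_pertG_le P a y))) _

theorem F0G_add (a : P.Λ) (H W : (V → Bool) → ℝ) :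
    F0 (Ker.unif R _) (grid R) (P.G R V a fun σ => H σ + W σ) =
      F0 (Ker.unif R _) (grid R) (P.G R V a H) +
        F0 (P.ker R V a H) (grid R) fun y => W (spin y) := by
  unfold F0 Pert.ker
  rw [← Fr_add _ (adm_grid (NeZero.pos R))]
  congr 1
  funext y
  unfold Pert.G
  ring

end G

/-- the embedding of the alphabets -/
def emb (P : Pert) (N : ℕ) (x : Al (Fin (N + 1)) P.J P.E × Bool) : Al (Fin (N + 2)) P.J P.E :=
  (Fin.snoc (α := fun _ => Bool) x.1.1 x.2, fun j => ((x.1.2 j).1.castSucc, (x.1.2 j).2))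

theorem emb_injective (P : Pert) (N : ℕ) : Function.Injective (emb P N) := by
  rintro ⟨⟨σ, t⟩, ε⟩ ⟨⟨σ', t'⟩, ε'⟩ h
  simp only [emb, Prod.mk.injEq] at h
  obtain ⟨h1, h2⟩ := h
  have h3 : σ = σ' := by
    funext i
    simpa using congrFun h1 i.castSucc
  have h4 : ε = ε' := by simpa using congrFun h1 (Fin.last _)
  have h5 : t = t' := by
    funext j
    have := congrFun h2 j
    simp only [Prod.mk.injEq, Fin.castSucc_inj] at this
    exact Prod.ext this.1 this.2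
  rw [h3, h4, h5]

theorem cavity_point (R : ℕ) [NeZero R] (P : Pert) (N : ℕ) (a : P.Λ)
    (H : (Fin (N + 1) → Bool) → ℝ) (U : (Fin (N + 1) → Bool) → Bool → ℝ) :
    F0 (Ker.unif R _) (grid R) (P.G R (Fin (N + 1)) a fun σ =>
        H σ + Real.log (𝔼 ε, Real.exp (U σ ε))) - (R : ℝ) ^ 2 * Fintype.card P.J / (N + 1) ≤
      F0 (Ker.unif R _) (grid R) (P.G R (Fin (N + 2)) a fun σ =>
        H (fun i => σ i.castSucc) + U (fun i => σ i.castSucc) (σ (Fin.last _))) := by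
  have hm : Adm (grid R) R 0 := adm_grid (NeZero.pos R)
  have hR : (0 : ℝ) < R := by exact_mod_cast NeZero.pos R
  set c : ℝ := (Fintype.card (Al (Fin (N + 1)) P.J P.E × Bool) : ℝ) /
    Fintype.card (Al (Fin (N + 2)) P.J P.E) with hc
  have hc' : c = (((N : ℝ) + 1) / (N + 2)) ^ Fintype.card P.J := by
    rw [hc]
    simp only [Fintype.card_prod, Fintype.card_fun, Fintype.card_fin, Fintype.card_bool]
    push_cast
    rw [div_pow, mul_pow, mul_pow]
    field_simp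
    ring
  have hc0 : 0 < c := by rw [hc']; positivity
  have hc1 : c ≤ 1 := by rw [hc']; exact (q_mem _ N).2
  have hlog : -(Fintype.card P.J / ((N : ℝ) + 1)) ≤ Real.log c := by
    rw [hc', Real.log_pow]
    have h1 := Real.one_sub_inv_le_log_of_pos (x := ((N : ℝ) + 1) / (N + 2)) (by positivity)
    have h2 : 1 - (((N : ℝ) + 1) / (N + 2))⁻¹ = -(1 / (N + 1)) := by field_simp; ring
    rw [h2] at h1
    calc -(Fintype.card P.J / ((N : ℝ) + 1)) = Fintype.card P.J * -(1 / ((N : ℝ) + 1)) := by ring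
      _ ≤ _ := mul_le_mul_of_nonneg_left h1 (Nat.cast_nonneg _)
  have key := Fr_sub (Ker.unif R (Al (Fin (N + 1)) P.J P.E × Bool))
    (Ker.unif R (Al (Fin (N + 2)) P.J P.E)) (pmap (emb P N)) hm hc0 hc1
    (fun t _ _ F hF _ x => unif_dom (emb_injective P N) t hF x)
    (P.G R (Fin (N + 2)) a fun σ =>
        H (fun i => σ i.castSucc) + U (fun i => σ i.castSucc) (σ (Fin.last _))) (pt R _)
  rw [Fr_zero, Fr_zero] at key
  refine le_trans ?_ key
  have e1 : (fun y : Path R (Al (Fin (N + 1)) P.J P.E × Bool) => P.G R (Fin (N + 2)) a (fun σ =>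
        H (fun i => σ i.castSucc) + U (fun i => σ i.castSucc) (σ (Fin.last _)))
        (pmap (emb P N) y)) =
      fun y => Real.log ((fun (z : Path R (Al (Fin (N + 1)) P.J P.E)) (b : Bool) =>
        Real.exp (P.G R (Fin (N + 1)) a H z + U (spin z) b)) (pmap Prod.fst y) (y (lastI R)).2) := by
    funext y
    rw [Real.log_exp]
    have h1 : (fun i : Fin (N + 1) => spin (pmap (emb P N) y) i.castSucc) =
        spin (pmap Prod.fst y) := by
      funext i
      simp [spin, pmap, emb]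
    have h2 : spin (pmap (emb P N) y) (Fin.last _) = (y (lastI R)).2 := by
      simp [spin, pmap, emb]
    have h3 : pertG P.ty (P.lam a) P.eps (pmap (emb P N) y) =
        pertG P.ty (P.lam a) P.eps (pmap Prod.fst y) := by
      unfold pertG
      refine sum_congr rfl fun j _ => ?_
      congr 2
      exact congrFun h1 _
    simp only [Pert.G, h1, h2, h3]
    ring
  have e2 := Fr_prod_last (Ker.unif R (Al (Fin (N + 1)) P.J P.E)) hm (lastI R) rfl
    (fun (z : Path R (Al (Fin (N + 1)) P.J P.E)) (b : Bool) =>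
        Real.exp (P.G R (Fin (N + 1)) a H z + U (spin z) b)) (fun _ _ => Real.exp_pos _) (pt R _)
  rw [Fr_zero, Fr_zero] at e2
  rw [e1, unif_prod (Ξ₁ := Al (Fin (N + 1)) P.J P.E) (Ξ₂ := Bool), e2]
  have e3 : (fun z : Path R (Al (Fin (N + 1)) P.J P.E) =>
      Real.log (𝔼 b : Bool, Real.exp (P.G R (Fin (N + 1)) a H z + U (spin z) b))) =
      P.G R (Fin (N + 1)) a fun σ => H σ + Real.log (𝔼 ε, Real.exp (U σ ε)) := by
    funext z
    simp only [Real.exp_add]
    rw [← mul_expect, Real.log_mul (Real.exp_pos _).ne'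
      (expect_pos (fun _ _ => Real.exp_pos _) univ_nonempty).ne', Real.log_exp]
    unfold Pert.G
    ring
  rw [e3]
  have e4 : R * Real.log c / grid R (0 + 1) = (R : ℝ) ^ 2 * Real.log c := by
    unfold grid
    push_cast
    field_simp
  rw [e4, mul_div_assoc]
  have := mul_le_mul_of_nonneg_left hlog (sq_nonneg (R : ℝ))
  linarith

variable {p : ℕ} (M : FM p)

/-- the disorder as a probability vector -/
noncomputable def disPV (V : Type) [Fintype V] [DecidableEq V] [Nonempty V] (K : ℕ) :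
    PV ((Fin K → M.Θ) × ((Fin K → Fin p → V) × (V → M.H))) :=
  (M.pΘ.pi (Fin K)).prod ((PV.unif _).prod (M.pH.pi V))

theorem Dis_eq (V : Type) [Fintype V] [DecidableEq V] [Nonempty V] (K : ℕ)
    (F : (Fin K → M.Θ) → (Fin K → Fin p → V) → (V → M.H) → ℝ) :
    M.Dis V K F = (disPV M V K).E fun d => F d.1 d.2.1 d.2.2 := by
  unfold FM.Dis disPV
  rw [PV.E_prod]
  refine E_congr _ fun θ => ?_
  rw [PV.E_prod, PV.unif_E]

theorem aDis_eq (P : Pert) (V : Type) [Fintype V] [DecidableEq V] [Nonempty V] (K : ℕ)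
    (F : P.Λ → (Fin K → M.Θ) → (Fin K → Fin p → V) → (V → M.H) → ℝ) :
    𝔼 a, M.Dis V K (F a) =
      ((PV.unif P.Λ).prod (disPV M V K)).E fun d => F d.1 d.2.1 d.2.2.1 d.2.2.2 := by
  rw [PV.E_prod, PV.unif_E]
  simp only [Dis_eq]

theorem Dis_split (V : Type) [Fintype V] [DecidableEq V] [Nonempty V] (K k : ℕ)
    (F : (Fin (K + k) → M.Θ) → (Fin (K + k) → Fin p → V) → (V → M.H) → ℝ) :
    M.Dis V (K + k) F = M.Dis V K fun θ idx h => (M.pΘ.pi (Fin k)).E fun θ' =>
      𝔼 idx' : Fin k → Fin p → V, F (Fin.append θ θ') (Fin.append idx idx') h := by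
  unfold FM.Dis
  rw [E_pi_append]
  refine E_congr _ fun θ => ?_
  simp only [expect_append K k]
  rw [PV.E_expect]
  refine expect_congr rfl fun idx _ => ?_
  rw [PV.E_comm (M.pH.pi V)]
  refine E_congr _ fun θ' => ?_
  rw [PV.E_expect]

theorem abs_field_le {B : ℝ} (hB : M.Bd B) (h : M.H) (b : Bool) : |M.hv h * spinVal b| ≤ B := by
  have : |spinVal b| = 1 := by cases b <;> simp [spinVal]
  rw [abs_mul, this, mul_one]
  exact hB.2.2 h

theorem abs_Ham_le {B : ℝ} (hB : M.Bd B) {V : Type} [Fintype V] {K : ℕ} (θ : Fin K → M.Θ)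
    (idx : Fin K → Fin p → V) (h : V → M.H) (σ : V → Bool) :
    |M.Ham θ idx h σ| ≤ B * K + B * Fintype.card V := by
  unfold FM.Ham
  refine (abs_add_le _ _).trans (add_le_add ?_ ?_)
  · refine (abs_sum_le_sum_abs _ _).trans ?_
    refine (sum_le_card_nsmul _ _ B fun j _ => hB.2.1 _ _).trans (by simp [mul_comm])
  · refine (abs_sum_le_sum_abs _ _).trans ?_
    refine (sum_le_card_nsmul _ _ B fun j _ => abs_field_le M hB _ _).trans (by simp [mul_comm])

variable (R : ℕ) [NeZero R] (P : Pert)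

theorem abs_AF_le {B : ℝ} (hB : M.Bd B) (N K : ℕ) :
    |M.AF R P N K| ≤ (B + (B * (N + 1) + Fintype.card P.J)) * (K + 1) := by
  unfold FM.AF
  rw [aDis_eq]
  refine PV.abs_E_le_of _ fun d => (abs_F0G_le R P _ _ (abs_Ham_le M hB _ _ _)).trans ?_
  have h0 := hB.1
  have h1 : (0 : ℝ) ≤ K := Nat.cast_nonneg _
  have h2 : 0 ≤ B * (N + 1) + Fintype.card P.J := by positivity
  rw [Fintype.card_fin]
  push_cast
  nlinarith

theorem abs_SV_le {Ξ V L : Type} [Fintype Ξ] [Nonempty Ξ] [Fintype V] [Nonempty V] [Fintype L]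
    [DecidableEq L] (κ : Ker R Ξ) (σ : Path R Ξ → V → Bool) {W : (L → Bool) → ℝ} {C : ℝ}
    (h : ∀ τ, |Real.log (W τ)| ≤ C) : |SV κ σ (grid R) W| ≤ C := by
  unfold SV
  rw [← PV.unif_E]
  exact PV.abs_E_le_of _ fun v => abs_Fr_le _ (adm_grid (NeZero.pos R)) (fun _ => h _) _

theorem site_tsum {B : ℝ} (hB : M.Bd B) (N K : ℕ) {a₁ : ℝ} (h₁ : 0 ≤ a₁) :
    (Summable fun k => poissonWeight a₁ k *
      𝔼 a : P.Λ, M.Dis (Fin (N + 1)) K fun θ idx h => (M.pΘ.pi (Fin k)).E fun θ' =>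
      M.pH.E fun h' => SV (P.ker R (Fin (N + 1)) a (M.Ham θ idx h)) spin (grid R) (M.siteW h' θ')) ∧
    ∑' k, poissonWeight a₁ k *
      (𝔼 a : P.Λ, M.Dis (Fin (N + 1)) K fun θ idx h => (M.pΘ.pi (Fin k)).E fun θ' =>
      M.pH.E fun h' => SV (P.ker R (Fin (N + 1)) a (M.Ham θ idx h)) spin (grid R) (M.siteW h' θ')) =
      𝔼 a : P.Λ, M.Dis (Fin (N + 1)) K fun θ idx h =>
        M.Site (P.ker R (Fin (N + 1)) a (M.Ham θ idx h)) spin (grid R) a₁ := by
  have hb : ∀ (κ : Ker R (Al (Fin (N + 1)) P.J P.E)) (k : ℕ), |(M.pΘ.pi (Fin k)).E fun θ' =>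
      M.pH.E fun h' => SV κ spin (grid R) (M.siteW h' θ')| ≤ (B + 1) * (k + 1) := by
    intro κ k
    refine PV.abs_E_le_of _ fun θ' => PV.abs_E_le_of _ fun h' => abs_SV_le R κ _ fun τ =>
      (M.abs_log_siteW_le hB h' θ' τ).trans ?_
    have h1 : (0 : ℝ) ≤ k := Nat.cast_nonneg _
    nlinarith
  simp only [aDis_eq]
  refine ⟨summable_poi h₁ fun k => PV.abs_E_le_of _ fun d => hb _ k, ?_⟩
  unfold FM.Site
  rw [E_tsum _ _ fun d => summable_poi h₁ (hb _)]

theorem edge_tsum {B : ℝ} (hB : M.Bd B) (N K : ℕ) {a₂ : ℝ} (h₂ : 0 ≤ a₂) :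
    (Summable fun k => poissonWeight a₂ k *
      𝔼 a : P.Λ, M.Dis (Fin (N + 1)) K fun θ idx h => (M.pΘ.pi (Fin k)).E fun θ' =>
      SV (P.ker R (Fin (N + 1)) a (M.Ham θ idx h)) spin (grid R) (M.edgesW θ')) ∧
    ∑' k, poissonWeight a₂ k *
      (𝔼 a : P.Λ, M.Dis (Fin (N + 1)) K fun θ idx h => (M.pΘ.pi (Fin k)).E fun θ' =>
      SV (P.ker R (Fin (N + 1)) a (M.Ham θ idx h)) spin (grid R) (M.edgesW θ')) =
      𝔼 a : P.Λ, M.Dis (Fin (N + 1)) K fun θ idx h =>
        M.Edge (P.ker R (Fin (N + 1)) a (M.Ham θ idx h)) spin (grid R) a₂ := by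
  have hb : ∀ (κ : Ker R (Al (Fin (N + 1)) P.J P.E)) (k : ℕ), |(M.pΘ.pi (Fin k)).E fun θ' =>
      SV κ spin (grid R) (M.edgesW θ')| ≤ B * (k + 1) := by
    intro κ k
    refine PV.abs_E_le_of _ fun θ' => abs_SV_le R κ _ fun τ =>
      (M.abs_log_edgesW_le hB θ' τ).trans ?_
    have h1 := hB.1
    nlinarith
  simp only [aDis_eq]
  refine ⟨summable_poi h₂ fun k => PV.abs_E_le_of _ fun d => hb _ k, ?_⟩
  unfold FM.Edge
  rw [E_tsum _ _ fun d => summable_poi h₂ (hb _)]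

/-- energy of one clause -/
noncomputable def en (N : ℕ) (c : M.Θ × (Fin p → Fin (N + 2))) (σ : Fin (N + 2) → Bool) : ℝ :=
  Real.log (M.w c.1 fun l => σ (c.2 l))

noncomputable def en₀ (N : ℕ) (c : M.Θ × (Fin p → Fin (N + 1))) : (Fin (N + 2) → Bool) → ℝ :=
  en M N (c.1, fun l => (c.2 l).castSucc)

noncomputable def en₁ (N : ℕ) (c : M.Θ × (Fin (p - 1) → Fin (N + 1))) :
    (Fin (N + 2) → Bool) → ℝ :=
  en M N (c.1, ext c.2)

/-- free energy as a function of the energy of the clauses -/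
noncomputable def Z (N : ℕ) (Hc : (Fin (N + 2) → Bool) → ℝ) : ℝ :=
  𝔼 a : P.Λ, (M.pH.pi (Fin (N + 2))).E fun h =>
    F0 (Ker.unif R _) (grid R) (P.G R (Fin (N + 2)) a fun σ =>
      Hc σ + ∑ i, M.hv (h i) * spinVal (σ i))

theorem lip_Z (N : ℕ) : Lip (Z M R P N) := by
  intro H H' d hd
  unfold Z
  rw [← PV.unif_E, ← PV.unif_E]
  exact PV.abs_E_sub_le _ fun a => PV.abs_E_sub_le _ fun h =>
    F0G_lip R P _ a fun σ => by simpa using hd σ

theorem AF_eq_op (N n : ℕ) :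
    M.AF R P (N + 1) n = (op (M.pΘ.prod (PV.unif _)) (en M N) ^ n) (Z M R P N) 0 := by
  rw [op_pow, PV.E_pi_prodPV]
  unfold FM.AF FM.Dis Z
  rw [← PV.E_expect]
  refine E_congr _ fun θ => ?_
  rw [PV.unif_pi_E, expect_comm]
  refine expect_congr rfl fun idx _ => expect_congr rfl fun a _ => E_congr _ fun h => ?_
  refine congrArg (fun H => F0 (Ker.unif R _) (grid R) (P.G R (Fin (N + 2)) a H)) ?_
  funext σ
  simp [FM.Ham, en]

theorem one_clause (hp : 1 ≤ p) {B : ℝ} (hB : M.Bd B) (N : ℕ)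
    {Ψ : ((Fin (N + 2) → Bool) → ℝ) → ℝ} (hΨ : Lip Ψ) (H : (Fin (N + 2) → Bool) → ℝ) :
    (((N : ℝ) + 1) / (N + 2)) ^ p * op (M.pΘ.prod (PV.unif _)) (en₀ M N) Ψ H +
      (1 - (((N : ℝ) + 1) / (N + 2)) ^ p) * op (M.pΘ.prod (PV.unif _)) (en₁ M N) Ψ H -
      2 * B * p ^ 2 / (N + 2) ^ 2 ≤ op (M.pΘ.prod (PV.unif _)) (en M N) Ψ H := by
  simp only [op_apply, PV.E_prod, PV.unif_E, PV.E_expect, en₀, en₁]
  refine sites_ge hp (fun i => M.pΘ.E fun θ => Ψ (H + en M N (θ, i))) (fun i i' => ?_)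
    fun i π => ?_
  · refine PV.abs_E_sub_le _ fun θ => hΨ _ _ _ fun σ => ?_
    simp only [Pi.add_apply, add_sub_add_left_eq_sub, en]
    refine (abs_sub _ _).trans ?_
    linarith [hB.2.1 θ fun l => σ (i l), hB.2.1 θ fun l => σ (i' l)]
  · unfold FM.pΘ
    rw [PV.E_prod, PV.E_prod]
    refine E_congr _ fun c => ?_
    rw [← PV.E_pi_comp M.pΦ π.symm π.symm.injective fun φ => Ψ (H + en M N ((c, φ), i))]
    refine E_congr _ fun φ => ?_
    congr 2
    funext σ
    simp only [en, FM.w, Function.comp_apply]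
    rw [← Equiv.prod_comp π fun l => M.φ (φ (π.symm l)) (σ (i l))]
    simp only [Equiv.symm_apply_apply]

end Ass

namespace FM
variable {p : ℕ} (M : FM p) (R : ℕ) [NeZero R] (P : Pert)

theorem abs_FZ_le {B : ℝ} (hB : M.Bd B) {N : ℕ} (hN : 0 < N) (K : ℕ) :
    |M.FZ N K| ≤ B * K + (B + 1) * N := by
  have : Nonempty (Fin N) := ⟨⟨0, hN⟩⟩
  unfold FZ
  rw [Ass.Dis_eq]
  refine PV.abs_E_le_of _ fun d => ?_
  have h1 := Ass.abs_log_expect_le fun σ => Ass.abs_Ham_le M hB d.1 d.2.1 d.2.2 σ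
  rw [Ass.log_expect_eq, Fintype.card_fin] at h1
  have h2 : Real.log 2 ≤ 1 := by
    have := Real.log_le_sub_one_of_pos (x := 2) (by norm_num)
    linarith
  have h3 : 0 ≤ Real.log 2 := Real.log_nonneg (by norm_num)
  have h4 : (0 : ℝ) ≤ N := Nat.cast_nonneg _
  have h5 := abs_le.1 h1
  rw [abs_le]
  constructor <;> nlinarith

theorem abs_AF_sub_le (N K : ℕ) :
    |M.AF R P N K - (M.FZ (N + 1) K - (N + 1) * Real.log 2)| ≤ Fintype.card P.J := by
  unfold AF FZ
  rw [← PV.unif_E]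
  refine Ass.abs_E_sub_const_le _ fun a => ?_
  rw [Ass.Dis_eq, Ass.Dis_eq,
    ← (Ass.disPV M (Fin (N + 1)) K).E_const (((N : ℝ) + 1) * Real.log 2), ← PV.E_sub]
  refine PV.abs_E_sub_le _ fun d => ?_
  have h1 := abs_F0_sub_le R P (Fin (N + 1)) a (M.Ham d.1 d.2.1 d.2.2)
  rw [Ass.log_expect_eq] at h1
  push_cast at h1
  exact h1

theorem Abar_le {α : ℝ} (hα : 0 ≤ α) (N : ℕ) :
    M.Abar R P α N ≤ (N + 1) * (M.pres α (N + 1) - Real.log 2) + Fintype.card P.J := by
  obtain ⟨B, hB⟩ := M.exists_bd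
  have ha : 0 ≤ α * (N + 1) := by positivity
  have hB0 := hB.1
  have hs : Summable fun K => poissonWeight (α * (N + 1)) K * M.FZ (N + 1) K := by
    refine summable_poi ha (C := B + (B + 1) * (N + 1 : ℕ)) fun K => ?_
    refine (M.abs_FZ_le hB (Nat.succ_pos N) K).trans ?_
    have h1 : (0 : ℝ) ≤ K := Nat.cast_nonneg _
    have h2 : (0 : ℝ) ≤ (B + 1) * (N + 1 : ℕ) := by positivity
    nlinarith
  have hs' : Summable fun K => poissonWeight (α * (N + 1)) K * M.AF R P N K :=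
    summable_poi ha (Ass.abs_AF_le M R P hB N)
  have h1 : M.Abar R P α N ≤ ∑' K, poissonWeight (α * (N + 1)) K *
      (M.FZ (N + 1) K + (Fintype.card P.J - (N + 1) * Real.log 2)) := by
    refine hs'.tsum_le_tsum (fun K => mul_le_mul_of_nonneg_left ?_ (poi_nonneg ha K)) ?_
    · linarith [(abs_le.1 (M.abs_AF_sub_le R P N K)).2]
    · exact Ass.summable_poi_add_const hs _
  rw [Ass.tsum_poi_add_const hs] at h1
  have h2 : ((N : ℝ) + 1) * M.pres α (N + 1) =
      ∑' K, poissonWeight (α * (N + 1)) K * M.FZ (N + 1) K := by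
    unfold pres
    push_cast
    field_simp
  rw [mul_sub, h2]
  linarith

/-- Split `Fin (K + k)` into the first `K` and the last `k` clauses (`PV.E_pi_two`, also for the
uniform indices; `Fin.sum_univ_add`), `Fr_add`, and curry `Fin k → Fin p → V` to `Fin k × Fin p → V`. -/
theorem AF_add (N K k : ℕ) : M.AF R P N (K + k) = M.AF R P N K +
    𝔼 a : P.Λ, M.Dis (Fin (N + 1)) K fun θ idx h => (M.pΘ.pi (Fin k)).E fun θ' =>
      SV (P.ker R (Fin (N + 1)) a (M.Ham θ idx h)) spin (grid R) (M.edgesW θ') := by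
  unfold AF
  rw [← expect_add_distrib]
  refine expect_congr rfl fun a _ => ?_
  rw [Ass.Dis_split, Ass.Dis_eq, Ass.Dis_eq, Ass.Dis_eq, ← PV.E_add]
  refine Ass.E_congr _ fun d => ?_
  refine Ass.E_eq_const_add _ fun θ' => ?_
  unfold SV
  rw [Ass.expect_curry, ← PV.unif_E, ← PV.unif_E]
  refine Ass.E_eq_const_add _ fun idx' => ?_
  rw [← Ass.F0G_add R P (Fin (N + 1)) a _
    fun σ => Real.log (M.edgesW θ' fun l => σ (idx' l.1 l.2))]
  refine congrArg (fun H => F0 (Ker.unif R _) (grid R) (P.G R (Fin (N + 1)) a H)) ?_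
  funext σ
  unfold Ham edgesW
  rw [Fin.sum_univ_add, Real.log_prod fun j _ => (M.w_pos _ _).ne']
  simp only [Fin.append_left, Fin.append_right]
  ring

/-- free energy of the system with `N + 2` spins, `K` clauses that avoid the last spin and `k`
clauses that contain it in the last position only -/
noncomputable def AF2 (N K k : ℕ) : ℝ :=
  𝔼 a : P.Λ, M.Dis (Fin (N + 1)) K fun θ idx h => (M.pΘ.pi (Fin k)).E fun θ' =>
    𝔼 v : Fin k × Fin (p - 1) → Fin (N + 1), M.pH.E fun h' =>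
      F0 (Ker.unif R _) (grid R) (P.G R (Fin (N + 2)) a fun σ =>
        M.Ham θ idx h (fun i => σ i.castSucc) + M.hv h' * spinVal (σ (Fin.last _)) +
          ∑ j, Real.log (M.w (θ' j) fun l =>
            if hl : l.val < p - 1 then σ (v (j, ⟨l.val, hl⟩)).castSucc else σ (Fin.last _)))

/-- The map `Φ = pmap f`, `f : Al V × Bool → Al V'`, `((σ, t), ε) ↦ (Fin.snoc σ ε, fun j => ((t j).1.castSucc, (t j).2))`
is injective, so the uniform kernel on `Al V'` dominates `c = ((N+1)/(N+2))^n` times the image of the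
uniform kernel (ratio of the cardinalities).  `Fr_sub` (`log c ≥ -n/(N+1)`, `grid R 1 = 1/R`),
`unif_prod`, `Fr_prod_last` (the weight `exp` of the perturbed Hamiltonian is positive;
`𝔼_ε = siteW/2`), `Fr_add`, `Fr_const_add`. -/
theorem AF2_ge (N K k : ℕ) : M.AF R P N K +
    (𝔼 a : P.Λ, M.Dis (Fin (N + 1)) K fun θ idx h => (M.pΘ.pi (Fin k)).E fun θ' =>
      M.pH.E fun h' => SV (P.ker R (Fin (N + 1)) a (M.Ham θ idx h)) spin (grid R) (M.siteW h' θ')) -
    Real.log 2 - (R : ℝ) ^ 2 * Fintype.card P.J / (N + 1) ≤ M.AF2 R P N K k := by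
  unfold AF AF2
  rw [Ass.aDis_eq, Ass.aDis_eq, Ass.aDis_eq, ← PV.E_add, sub_sub, ← zero_add (PV.E _ _)]
  refine Ass.const_add_E_le _ fun d => ?_
  rw [zero_add]
  refine Ass.const_add_E_le _ fun θ' => ?_
  rw [← PV.E_expect]
  refine Ass.const_add_E_le _ fun h' => ?_
  unfold SV
  rw [← PV.unif_E, ← PV.unif_E]
  refine Ass.const_add_E_le _ fun v => ?_
  have key := Ass.cavity_point R P N d.1 (M.Ham d.2.1 d.2.2.1 d.2.2.2)
    fun σ ε => M.hv h' * spinVal ε + ∑ j, Real.log (M.w (θ' j) fun l =>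
      if hl : l.val < p - 1 then σ (v (j, ⟨l.val, hl⟩)) else ε)
  have e1 : ∀ σ : Fin (N + 1) → Bool, Real.log (𝔼 ε : Bool, Real.exp (M.hv h' * spinVal ε +
      ∑ j, Real.log (M.w (θ' j) fun l =>
        if hl : l.val < p - 1 then σ (v (j, ⟨l.val, hl⟩)) else ε))) =
      -Real.log 2 + Real.log (M.siteW h' θ' fun l => σ (v l)) := by
    intro σ
    have h1 : ∑ ε : Bool, Real.exp (M.hv h' * spinVal ε + ∑ j, Real.log (M.w (θ' j) fun l =>
        if hl : l.val < p - 1 then σ (v (j, ⟨l.val, hl⟩)) else ε)) =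
        M.siteW h' θ' fun l => σ (v l) := by
      unfold siteW hw
      refine sum_congr rfl fun ε _ => ?_
      rw [Real.exp_add, Real.exp_sum]
      simp only [Real.exp_log (M.w_pos _ _)]
    rw [Fintype.expect_eq_sum_div_card, h1, Fintype.card_bool,
      Real.log_div (M.siteW_pos _ _ _).ne' (by norm_num)]
    push_cast
    ring
  simp only [e1] at key
  rw [Ass.F0G_add] at key
  have e2 := Fr_const_add (P.ker R (Fin (N + 1)) d.1 (M.Ham d.2.1 d.2.2.1 d.2.2.2))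
    (adm_grid (NeZero.pos R)) (-Real.log 2)
    (fun y => Real.log (M.siteW h' θ' fun l => spin y (v l))) (pt R _)
  unfold F0 at key ⊢
  rw [e2] at key
  simp only [add_assoc] at key ⊢
  linarith

theorem abs_AF2_le {B : ℝ} (hB : M.Bd B) (N K k : ℕ) :
    |M.AF2 R P N K k| ≤ (B + B * (N + 2) + Fintype.card P.J) * (K + k + 1) := by
  unfold AF2
  rw [Ass.aDis_eq]
  refine PV.abs_E_le_of _ fun d => PV.abs_E_le_of _ fun θ' => ?_
  rw [← PV.unif_E]
  refine PV.abs_E_le_of _ fun v => PV.abs_E_le_of _ fun h' =>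
    (Ass.abs_F0G_le R P _ _ (C := B * K + B * (N + 1) + B + B * k) fun σ => ?_).trans ?_
  · refine (abs_add_le _ _).trans (add_le_add ((abs_add_le _ _).trans (add_le_add ?_ ?_)) ?_)
    · simpa using Ass.abs_Ham_le M hB d.2.1 d.2.2.1 d.2.2.2 fun i => σ i.castSucc
    · exact Ass.abs_field_le M hB _ _
    · refine (abs_sum_le_sum_abs _ _).trans ?_
      refine (sum_le_card_nsmul _ _ B fun j _ => hB.2.1 _ _).trans (by simp [mul_comm])
  · have h0 := hB.1
    have h1 : (0 : ℝ) ≤ K + k := by positivity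
    have h2 : 0 ≤ B * (N + 2) + Fintype.card P.J := by positivity
    nlinarith

theorem AF2_eq_op (N K k : ℕ) : M.AF2 R P N K k =
    (Ass.op (M.pΘ.prod (PV.unif _)) (Ass.en₀ M N) ^ K)
      ((Ass.op (M.pΘ.prod (PV.unif _)) (Ass.en₁ M N) ^ k) (Ass.Z M R P N)) 0 := by
  rw [Ass.op_pow, PV.E_pi_prodPV]
  unfold AF2 Dis
  rw [← PV.E_expect]
  refine Ass.E_congr _ fun θ => ?_
  rw [PV.unif_pi_E, expect_comm]
  refine expect_congr rfl fun idx _ => ?_
  rw [Ass.op_pow, PV.E_pi_prodPV]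
  simp only [PV.E_comm (M.pH.pi (Fin (N + 1))) (M.pΘ.pi (Fin k))]
  rw [← PV.E_expect]
  refine Ass.E_congr _ fun θ' => ?_
  simp only [PV.E_expect (M.pH.pi (Fin (N + 1)))]
  rw [PV.unif_pi_E, expect_comm,
    Ass.expect_curry (α := Fin (N + 1)) (ι := Fin k) (ι' := Fin (p - 1))]
  refine expect_congr rfl fun v _ => ?_
  unfold Ass.Z
  refine expect_congr rfl fun a _ => ?_
  rw [Ass.E_pi_snoc M.pH (N + 1)]
  refine Ass.E_congr _ fun h => ?_
  refine Ass.E_congr M.pH fun h' => ?_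
  refine congrArg (fun H => F0 (Ker.unif R _) (grid R) (P.G R (Fin (N + 2)) a H)) ?_
  funext σ
  rw [Fin.sum_univ_castSucc (n := N + 1)]
  simp only [Ham, Ass.en₀, Ass.en₁, Ass.en, Ass.ext, Pi.add_apply, Pi.zero_apply, zero_add,
    Finset.sum_apply, Fin.snoc_castSucc, Fin.snoc_last, apply_dite σ]
  ring

/-- Let `Y (c : Fin n → Θ × (Fin p → V'))` be the free energy averaged over `a` and the fields; it is
invariant under permutations of `Fin n` and changes by at most `2B` when one clause changes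
(`abs_Fr_sub_le`).  The law of one clause `ν = pΘ ⊗ uniform` is `q ν₀ + (1-q) ν'` (`ν₀`: the last site
is avoided).  `ν' = (1-r) ν₁ + r ν₂` (`ν₁`: the last site occurs exactly once), `(1-q) r ≤ p²/(N+2)²`.
Under `ν₁` the position is uniform; permuting the positions together with the `Φ`-components of `θ`
(`pΘ` is invariant, `M.w` is unchanged) shows that `ν₁` may be replaced by the law `ν₁'` "last position".
So for every `2B`-Lipschitz permutation-respecting `F`: `ν F ≥ q ν₀ F + (1-q) ν₁' F - 2B p²/(N+2)²`.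
Iterate: a convenient way is to define the expectation over lists of clauses with a list of laws,
`E [ν_1,…,ν_n] Y` (recursion on the list), show invariance under permutations of the list and
`e (K, k; n+1) ≥ q e(K+1,k;n) + (1-q) e(K,k+1;n) - 2Bp²/(N+2)²`, and conclude by Pascal's rule. -/
theorem AF_succ_ge (hp : 1 ≤ p) {B : ℝ} (hB : M.Bd B) (N n : ℕ) :
    ∑ K ∈ range (n + 1), (n.choose K : ℝ) * ((((N : ℝ) + 1) / (N + 2)) ^ p) ^ K *
        (1 - (((N : ℝ) + 1) / (N + 2)) ^ p) ^ (n - K) * M.AF2 R P N K (n - K) -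
      n * (2 * B * p ^ 2 / (N + 2) ^ 2) ≤ M.AF R P (N + 1) n := by
  have h := Ass.op_iter (M.pΘ.prod (PV.unif _)) (Ass.en M N) (M.pΘ.prod (PV.unif _)) (Ass.en₀ M N)
    (M.pΘ.prod (PV.unif _)) (Ass.en₁ M N) (Ass.q_mem p N).1 (Ass.q_mem p N).2
    (fun Ψ hΨ H => Ass.one_clause M hp hB N hΨ H) (Ass.lip_Z M R P N) n 0
  rw [Ass.AF_eq_op]
  simp only [M.AF2_eq_op]
  exact h

/-- `AF_succ_ge`, `poi_split` (rate `α (N+2)`), `AF2_ge` on one side; `poi_add` (`α (N+1) = b + a₂`),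
`AF_add` on the other.  Finite averages commute with the Poisson sums; everything is bounded linearly
in the number of clauses (`abs_FZ_le`, `abs_AF_sub_le`, `abs_F0_sub_le`, `abs_Fr_le`). -/
theorem ass_step (hp : 1 ≤ p) {B : ℝ} (hB : M.Bd B) {α : ℝ} (hα : 0 ≤ α) (N : ℕ) {I : ℝ}
    (h : ∀ H : (Fin (N + 1) → Bool) → ℝ, I ≤ 𝔼 a : P.Λ,
      (M.Site (P.ker R (Fin (N + 1)) a H) spin (grid R) (rate1 α p N) -
        M.Edge (P.ker R (Fin (N + 1)) a H) spin (grid R) (rate2 α p N))) :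
    I - Real.log 2 - ((R : ℝ) ^ 2 * Fintype.card P.J + 2 * B * p ^ 2 * α) / (N + 1) ≤
      M.Abar R P α (N + 1) - M.Abar R P α N := by
  have hB0 := hB.1
  set q : ℝ := (((N : ℝ) + 1) / (N + 2)) ^ p with hq
  have hq0 : 0 ≤ q := (Ass.q_mem p N).1
  have hq1 : q ≤ 1 := (Ass.q_mem p N).2
  set a : ℝ := α * (N + 2) with ha
  have ha0 : 0 ≤ a := by positivity
  have hb0 : 0 ≤ a * q := mul_nonneg ha0 hq0
  have h₁ := rate1_nonneg hα p N
  have h₂ := rate2_nonneg hα hp N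
  set δ : ℝ := 2 * B * p ^ 2 / (N + 2) ^ 2 with hδ
  set c₀ : ℝ := Real.log 2 + (R : ℝ) ^ 2 * Fintype.card P.J / (N + 1) with hc₀
  set C : ℝ := B + B * (N + 2) + Fintype.card P.J with hC
  have hC0 : 0 ≤ C := by positivity
  have hAF2 : ∀ K k : ℕ, |M.AF2 R P N K k| ≤ C * (K + k + 1) := M.abs_AF2_le R P hB N
  set C' : ℝ := B + (B * (N + 1) + Fintype.card P.J) with hC'
  have hC'0 : 0 ≤ C' := by positivity
  have hAF : ∀ K : ℕ, |M.AF R P N K| ≤ C' * (K + 1) := Ass.abs_AF_le M R P hB N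
  set u : ℕ → ℝ := fun K => ∑' k, poissonWeight (rate1 α p N) k * M.AF2 R P N K k with hu
  set w : ℕ → ℝ := fun K => ∑' k, poissonWeight (rate2 α p N) k * M.AF R P N (K + k) with hw
  -- the larger system
  have s1 : ∑' K, poissonWeight (a * q) K * u K - a * δ ≤ M.Abar R P α (N + 1) := by
    have e1 : M.Abar R P α (N + 1) = ∑' n, poissonWeight a n * M.AF R P (N + 1) n := by
      unfold Abar
      have : α * (((N + 1 : ℕ) : ℝ) + 1) = a := by rw [ha]; push_cast; ring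
      rw [this]
    have e2 := poi_split ha0 hq0 hq1 hAF2
    have e3 : a * (1 - q) = rate1 α p N := rfl
    rw [e3] at e2
    have hS := summable_poi ha0 (Ass.abs_binom_le hq0 hq1 hAF2)
    have hm := (hasSum_poi_mul a).mul_right δ
    rw [e1, ← e2, ← hm.tsum_eq, ← hS.tsum_sub hm.summable]
    refine (hS.sub hm.summable).tsum_le_tsum (fun n => ?_)
      (summable_poi ha0 (Ass.abs_AF_le M R P hB (N + 1)))
    rw [mul_assoc, ← mul_sub]
    exact mul_le_mul_of_nonneg_left (M.AF_succ_ge R P hp hB N n) (poi_nonneg ha0 n)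
  -- the smaller system
  have s2 : M.Abar R P α N = ∑' K, poissonWeight (a * q) K * w K := by
    have e1 : α * ((N : ℝ) + 1) = a * q + rate2 α p N := by
      unfold rate2; rw [ha, hq]; ring
    unfold Abar
    rw [e1]
    exact poi_add hb0 h₂ hAF
  -- comparison for a fixed number of old clauses
  have s3 : ∀ K, w K + (I - c₀) ≤ u K := by
    intro K
    obtain ⟨t1, t2⟩ := Ass.site_tsum M R P hB N K h₁
    obtain ⟨t3, t4⟩ := Ass.edge_tsum M R P hB N K h₂
    have e1 : w K = (𝔼 b : P.Λ, M.Dis (Fin (N + 1)) K fun θ idx h =>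
        M.Edge (P.ker R (Fin (N + 1)) b (M.Ham θ idx h)) spin (grid R) (rate2 α p N)) +
        M.AF R P N K := by
      rw [← t4, ← Ass.tsum_poi_add_const t3]
      refine tsum_congr fun k => ?_
      rw [M.AF_add, add_comm (M.AF R P N K)]
    have e2 : (𝔼 b : P.Λ, M.Dis (Fin (N + 1)) K fun θ idx h =>
        M.Site (P.ker R (Fin (N + 1)) b (M.Ham θ idx h)) spin (grid R) (rate1 α p N)) +
        (M.AF R P N K - c₀) ≤ u K := by
      rw [← t2, ← Ass.tsum_poi_add_const t1]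
      refine Summable.tsum_le_tsum (fun k => mul_le_mul_of_nonneg_left ?_ (poi_nonneg h₁ k)) ?_ ?_
      · have := M.AF2_ge R P N K k
        rw [hc₀]
        linarith
      · exact Ass.summable_poi_add_const t1 _
      · refine summable_poi h₁ (C := C * (K + 1)) fun k => (hAF2 K k).trans ?_
        have h1 : (0 : ℝ) ≤ K := Nat.cast_nonneg _
        have h2 : (0 : ℝ) ≤ k := Nat.cast_nonneg _
        rw [mul_assoc]
        exact mul_le_mul_of_nonneg_left (by nlinarith) hC0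
    have e3 : I ≤ (𝔼 b : P.Λ, M.Dis (Fin (N + 1)) K fun θ idx h =>
        M.Site (P.ker R (Fin (N + 1)) b (M.Ham θ idx h)) spin (grid R) (rate1 α p N)) -
        (𝔼 b : P.Λ, M.Dis (Fin (N + 1)) K fun θ idx h =>
        M.Edge (P.ker R (Fin (N + 1)) b (M.Ham θ idx h)) spin (grid R) (rate2 α p N)) := by
      simp only [Ass.Dis_eq]
      rw [← PV.E_expect, ← PV.E_expect, ← PV.E_sub, ← (Ass.disPV M (Fin (N + 1)) K).E_const I]
      refine PV.E_mono _ fun d => ?_
      rw [← expect_sub_distrib]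
      exact h _
    linarith
  have hus : Summable fun K => poissonWeight (a * q) K * u K := by
    refine summable_poi hb0 (C := C * rate1 α p N + C) fun K => ?_
    refine (abs_tsum_poi_le h₁ (C := C) (D := C * (K + 1)) fun k =>
      (hAF2 K k).trans (le_of_eq (by ring))).trans ?_
    have h1 : (0 : ℝ) ≤ K := Nat.cast_nonneg _
    have h2 := mul_nonneg (mul_nonneg hC0 h₁) h1
    nlinarith
  have hws : Summable fun K => poissonWeight (a * q) K * w K := by
    refine summable_poi hb0 (C := C' * rate2 α p N + C') fun K => ?_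
    refine (abs_tsum_poi_le h₂ (C := C') (D := C' * (K + 1)) fun k =>
      (hAF (K + k)).trans (le_of_eq (by push_cast; ring))).trans ?_
    have h1 : (0 : ℝ) ≤ K := Nat.cast_nonneg _
    have h2 := mul_nonneg (mul_nonneg hC'0 h₂) h1
    nlinarith
  have s4 : ∑' K, poissonWeight (a * q) K * w K + (I - c₀) ≤
      ∑' K, poissonWeight (a * q) K * u K := by
    rw [← Ass.tsum_poi_add_const hws]
    refine Summable.tsum_le_tsum
      (fun K => mul_le_mul_of_nonneg_left (s3 K) (poi_nonneg hb0 K))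
      (Ass.summable_poi_add_const hws _) hus
  have s5 : a * δ ≤ 2 * B * p ^ 2 * α / (N + 1) := by
    have e1 : a * δ = 2 * B * p ^ 2 * α / (N + 2) := by
      rw [ha, hδ]; field_simp
    rw [e1]
    exact div_le_div_of_nonneg_left (by positivity) (by positivity) (by linarith)
  rw [add_div, s2]
  linarith

end FM

end Crest.Agent.R141
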