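import Mathlib

/-!
Row 141 (S0192, also used for S0218): finite hierarchical systems.  DO NOT EDIT (owner: helper18).

A path has `R` coordinates in a finite alphabet `Ξ`.  A kernel `κ` gives, for every level `s`, the
conditional law of coordinate `s` given the coordinates `< s`.  `Ex κ s F` integrates the
coordinates `s, …, R-1`; `Fr κ m s G` is the nested functional in which coordinate `i` is integrated
by `(1/m (i+1)) log E exp (m (i+1) ·)`; `tilt κ m G` is the associated Gibbs kernel.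
-/

set_option autoImplicit false

namespace Crest.Agent.R141

open Finset
open scoped BigOperators

abbrev Path (R : ℕ) (Ξ : Type) : Type := Fin R → Ξ

section defs
variable {R : ℕ} {Ξ : Type}

/-- replace coordinate `s` (nothing happens if `R ≤ s`) -/
def upd (x : Path R Ξ) (s : ℕ) (ξ : Ξ) : Path R Ξ := fun i => if i.val = s then ξ else x i

def Agree (s : ℕ) (x y : Path R Ξ) : Prop := ∀ i : Fin R, i.val < s → x i = y i

/-- `F` depends only on the coordinates `< s` -/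
def Meas {β : Type} (s : ℕ) (F : Path R Ξ → β) : Prop := ∀ x y, Agree s x y → F x = F y

theorem Agree.upd {s : ℕ} {x y : Path R Ξ} (h : Agree s x y) (ξ : Ξ) :
    Agree (s + 1) (upd x s ξ) (upd y s ξ) := by
  intro i hi
  unfold R141.upd
  split_ifs with h'
  · rfl
  · exact h i (by omega)

theorem agree_upd (x : Path R Ξ) {s t : ℕ} (h : s ≤ t) (ξ : Ξ) : Agree s (upd x t ξ) x := by
  intro i hi
  unfold upd
  rw [if_neg (by omega)]

theorem Agree.mono {s t : ℕ} {x y : Path R Ξ} (h : Agree t x y) (hst : s ≤ t) : Agree s x y :=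
  fun i hi => h i (by omega)

theorem Agree.symm {s : ℕ} {x y : Path R Ξ} (h : Agree s x y) : Agree s y x :=
  fun i hi => (h i hi).symm

theorem Meas.mono {β : Type} {s t : ℕ} {F : Path R Ξ → β} (h : Meas s F) (hst : s ≤ t) :
    Meas t F := fun x y hxy => h x y (hxy.mono hst)

theorem meas_of_le {β : Type} {s : ℕ} (h : R ≤ s) (F : Path R Ξ → β) : Meas s F := by
  intro x y hxy
  have : x = y := funext fun i => hxy i (by omega)
  rw [this]

theorem upd_of_le {s : ℕ} (h : R ≤ s) (x : Path R Ξ) (ξ : Ξ) : upd x s ξ = x := by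
  funext i
  unfold upd
  rw [if_neg (by omega)]

end defs

/-- downward induction on the level -/
theorem down_ind (R : ℕ) {P : ℕ → Prop} (h0 : ∀ s, R ≤ s → P s)
    (h1 : ∀ s, s < R → P (s + 1) → P s) : ∀ s, P s := by
  intro s
  by_cases hs : R ≤ s
  · exact h0 s hs
  · have : ∀ d s, s + d = R → P s := by
      intro d
      induction d with
      | zero => intro s h; exact h0 s (by omega)
      | succ d ih => intro s h; exact h1 s (by omega) (ih (s + 1) (by omega))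
    exact this (R - s) s (by omega)

structure Ker (R : ℕ) (Ξ : Type) [Fintype Ξ] where
  k : ℕ → Path R Ξ → Ξ → ℝ
  nonneg : ∀ s x ξ, 0 ≤ k s x ξ
  sum_one : ∀ s x, ∑ ξ, k s x ξ = 1
  adapted : ∀ s, Meas s (k s)

section ker
variable {R : ℕ} {Ξ : Type} [Fintype Ξ]

@[ext] theorem Ker.ext' {κ κ' : Ker R Ξ} (h : ∀ s x ξ, κ.k s x ξ = κ'.k s x ξ) : κ = κ' := by
  cases κ; cases κ'
  congr
  funext s x ξ
  exact h s x ξ

def step (κ : Ker R Ξ) (s : ℕ) (F : Path R Ξ → ℝ) (x : Path R Ξ) : ℝ :=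
  ∑ ξ, κ.k s x ξ * F (upd x s ξ)

def ExN (κ : Ker R Ξ) : ℕ → ℕ → (Path R Ξ → ℝ) → Path R Ξ → ℝ
  | 0, _, F => F
  | d + 1, s, F => step κ s (ExN κ d (s + 1) F)

/-- conditional expectation given the coordinates `< s` -/
def Ex (κ : Ker R Ξ) (s : ℕ) (F : Path R Ξ → ℝ) : Path R Ξ → ℝ := ExN κ (R - s) s F

theorem Ex_of_le (κ : Ker R Ξ) {s : ℕ} (h : R ≤ s) (F : Path R Ξ → ℝ) : Ex κ s F = F := by
  unfold Ex; rw [Nat.sub_eq_zero_of_le h]; rfl

theorem Ex_succ (κ : Ker R Ξ) {s : ℕ} (h : s < R) (F : Path R Ξ → ℝ) :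
    Ex κ s F = step κ s (Ex κ (s + 1) F) := by
  unfold Ex
  have : R - s = (R - (s + 1)) + 1 := by omega
  rw [this]; rfl

noncomputable def lstep (κ : Ker R Ξ) (m : ℕ → ℝ) (s : ℕ) (G : Path R Ξ → ℝ) (x : Path R Ξ) : ℝ :=
  (m (s + 1))⁻¹ * Real.log (step κ s (fun y => Real.exp (m (s + 1) * G y)) x)

noncomputable def FrN (κ : Ker R Ξ) (m : ℕ → ℝ) : ℕ → ℕ → (Path R Ξ → ℝ) → Path R Ξ → ℝ
  | 0, _, G => G
  | d + 1, s, G => lstep κ m s (FrN κ m d (s + 1) G)

/-- nested free energy; coordinate `i ≥ s` is integrated with exponent `m (i+1)` -/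
noncomputable def Fr (κ : Ker R Ξ) (m : ℕ → ℝ) (s : ℕ) (G : Path R Ξ → ℝ) : Path R Ξ → ℝ :=
  FrN κ m (R - s) s G

theorem Fr_of_le (κ : Ker R Ξ) (m : ℕ → ℝ) {s : ℕ} (h : R ≤ s) (G : Path R Ξ → ℝ) :
    Fr κ m s G = G := by
  unfold Fr; rw [Nat.sub_eq_zero_of_le h]; rfl

theorem Fr_succ (κ : Ker R Ξ) (m : ℕ → ℝ) {s : ℕ} (h : s < R) (G : Path R Ξ → ℝ) :
    Fr κ m s G = lstep κ m s (Fr κ m (s + 1) G) := by
  unfold Fr
  have : R - s = (R - (s + 1)) + 1 := by omega
  rw [this]; rfl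

theorem step_meas (κ : Ker R Ξ) {s : ℕ} {F : Path R Ξ → ℝ} (h : Meas (s + 1) F) :
    Meas s (step κ s F) := by
  intro x y hxy
  unfold step
  refine sum_congr rfl fun ξ _ => ?_
  rw [κ.adapted s x y hxy, h _ _ (hxy.upd ξ)]

theorem Ex_meas (κ : Ker R Ξ) (F : Path R Ξ → ℝ) : ∀ s, Meas s (Ex κ s F) :=
  down_ind R (fun _ h => meas_of_le h _) fun s hs ih => by
    rw [Ex_succ κ hs]; exact step_meas κ ih

theorem lstep_meas (κ : Ker R Ξ) (m : ℕ → ℝ) {s : ℕ} {G : Path R Ξ → ℝ} (h : Meas (s + 1) G) :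
    Meas s (lstep κ m s G) := by
  intro x y hxy
  unfold lstep
  rw [step_meas κ (F := fun y => Real.exp (m (s + 1) * G y))
    (fun a b hab => by simp only [h a b hab]) x y hxy]

theorem Fr_meas (κ : Ker R Ξ) (m : ℕ → ℝ) (G : Path R Ξ → ℝ) : ∀ s, Meas s (Fr κ m s G) :=
  down_ind R (fun _ h => meas_of_le h _) fun s hs ih => by
    rw [Fr_succ κ m hs]; exact lstep_meas κ m ih

theorem step_pos (κ : Ker R Ξ) (s : ℕ) {F : Path R Ξ → ℝ} (h : ∀ y, 0 < F y) (x : Path R Ξ) :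
    0 < step κ s F x := by
  unfold step
  obtain ⟨ξ, hξ⟩ : ∃ ξ, 0 < κ.k s x ξ := by
    by_contra hc
    push Not at hc
    have : ∑ ξ, κ.k s x ξ ≤ 0 := sum_nonpos fun ξ _ => hc ξ
    rw [κ.sum_one] at this
    linarith
  exact sum_pos' (fun ξ _ => mul_nonneg (κ.nonneg _ _ _) (h _).le)
    ⟨ξ, mem_univ _, mul_pos hξ (h _)⟩

/-- the Gibbs kernel of `G` -/
noncomputable def tilt (κ : Ker R Ξ) (m : ℕ → ℝ) (G : Path R Ξ → ℝ) : Ker R Ξ where
  k s x ξ := κ.k s x ξ * Real.exp (m (s + 1) * (Fr κ m (s + 1) G (upd x s ξ) - Fr κ m s G x))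
  nonneg s x ξ := mul_nonneg (κ.nonneg _ _ _) (Real.exp_pos _).le
  sum_one s x := by
    by_cases hs : R ≤ s
    · simp only [Fr_of_le κ m hs, Fr_of_le κ m (Nat.le_succ_of_le hs), upd_of_le hs, sub_self,
        mul_zero, Real.exp_zero, mul_one, κ.sum_one]
    · by_cases hm : m (s + 1) = 0
      · simp only [hm, zero_mul, Real.exp_zero, mul_one, κ.sum_one]
      · have hp := step_pos κ s (F := fun y => Real.exp (m (s + 1) * Fr κ m (s + 1) G y))
          (fun y => Real.exp_pos _) x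
        have h1 : Real.exp (m (s + 1) * Fr κ m s G x) =
            step κ s (fun y => Real.exp (m (s + 1) * Fr κ m (s + 1) G y)) x := by
          rw [Fr_succ κ m (by omega)]
          unfold lstep
          rw [← mul_assoc, mul_inv_cancel₀ hm, one_mul, Real.exp_log hp]
        simp only [mul_sub, Real.exp_sub, h1, ← mul_div_assoc, ← sum_div]
        exact div_self hp.ne'
  adapted s x y hxy := by
    funext ξ
    beta_reduce
    rw [κ.adapted s x y hxy, Fr_meas κ m G (s + 1) _ _ (hxy.upd ξ), Fr_meas κ m G s x y hxy]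

/-- every coordinate uniform and independent -/
noncomputable def Ker.unif (R : ℕ) (Ξ : Type) [Fintype Ξ] [Nonempty Ξ] : Ker R Ξ where
  k _ _ _ := (Fintype.card Ξ : ℝ)⁻¹
  nonneg _ _ _ := by positivity
  sum_one _ _ := by
    have : (Fintype.card Ξ : ℝ) ≠ 0 := by exact_mod_cast Fintype.card_ne_zero
    simp [this]
  adapted _ _ _ _ := rfl

/-- coordinatewise image of a path -/
def pmap {Ξ₁ Ξ₂ : Type} (f : Ξ₁ → Ξ₂) (x : Path R Ξ₁) : Path R Ξ₂ := fun i => f (x i)

/-- independent product of two systems -/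
def Ker.prod {Ξ₁ Ξ₂ : Type} [Fintype Ξ₁] [Fintype Ξ₂] (κ₁ : Ker R Ξ₁) (κ₂ : Ker R Ξ₂) :
    Ker R (Ξ₁ × Ξ₂) where
  k s x ξ := κ₁.k s (pmap Prod.fst x) ξ.1 * κ₂.k s (pmap Prod.snd x) ξ.2
  nonneg _ _ _ := mul_nonneg (κ₁.nonneg _ _ _) (κ₂.nonneg _ _ _)
  sum_one s x := by
    rw [Fintype.sum_prod_type]
    simp only [← mul_sum, κ₂.sum_one, mul_one, κ₁.sum_one]
  adapted s x y hxy := by
    funext ξ
    beta_reduce
    rw [κ₁.adapted s _ (pmap Prod.fst y) fun i hi => by simp [pmap, hxy i hi],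
      κ₂.adapted s _ (pmap Prod.snd y) fun i hi => by simp [pmap, hxy i hi]]

/-- the path of the label `l` -/
def comp {L : Type} (x : Path R (L → Ξ)) (l : L) : Path R Ξ := fun i => x i l

/-- independent product of a family of systems -/
def Ker.pi {L : Type} [Fintype L] [DecidableEq L] (κ : L → Ker R Ξ) : Ker R (L → Ξ) where
  k s x ξ := ∏ l, (κ l).k s (comp x l) (ξ l)
  nonneg _ _ _ := prod_nonneg fun l _ => (κ l).nonneg _ _ _
  sum_one s x := by
    rw [← Fintype.prod_sum (fun l ξ => (κ l).k s (comp x l) ξ)]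
    simp only [Ker.sum_one, prod_const_one]
  adapted s x y hxy := by
    funext ξ
    refine prod_congr rfl fun l _ => ?_
    rw [(κ l).adapted s _ (comp y l) fun i hi => by simp [comp, hxy i hi]]

/-- `Φ` maps the system `κ₁` onto the system `κ₂` (levels `≥ s₀`) -/
def Sim {Ξ₁ Ξ₂ : Type} [Fintype Ξ₁] [Fintype Ξ₂] (κ₁ : Ker R Ξ₁) (κ₂ : Ker R Ξ₂)
    (Φ : Path R Ξ₁ → Path R Ξ₂) (s₀ : ℕ) : Prop :=
  ∀ s, s₀ ≤ s → s < R → ∀ F : Path R Ξ₂ → ℝ, Meas (s + 1) F →
    ∀ x, step κ₁ s (fun y => F (Φ y)) x = step κ₂ s F (Φ x)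

/-- some fixed path -/
noncomputable def pt (R : ℕ) (Ξ : Type) [Nonempty Ξ] : Path R Ξ := fun _ => Classical.arbitrary Ξ

/-- full expectation -/
noncomputable def E0 [Nonempty Ξ] (κ : Ker R Ξ) (F : Path R Ξ → ℝ) : ℝ := Ex κ 0 F (pt R Ξ)

/-- full nested free energy -/
noncomputable def F0 [Nonempty Ξ] (κ : Ker R Ξ) (m : ℕ → ℝ) (G : Path R Ξ → ℝ) : ℝ :=
  Fr κ m 0 G (pt R Ξ)

end ker

/-- admissible exponents for the levels `≥ s`: `0 < m (s+1) ≤ ⋯ ≤ m R = 1`, `s < R` -/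
structure Adm (m : ℕ → ℝ) (R s : ℕ) : Prop where
  lt : s < R
  pos : 0 < m (s + 1)
  mono : ∀ i j, s < i → i ≤ j → j ≤ R → m i ≤ m j
  top : m R = 1

/-- the uniform grid -/
noncomputable def grid (R : ℕ) (i : ℕ) : ℝ := (i : ℝ) / R

theorem adm_grid {R s : ℕ} (h : s < R) : Adm (grid R) R s where
  lt := h
  pos := by
    unfold grid
    have : (0 : ℝ) < R := by exact_mod_cast (by omega : 0 < R)
    positivity
  mono i j _ hij _ := by
    unfold grid
    exact div_le_div_of_nonneg_right (by exact_mod_cast hij) (Nat.cast_nonneg _)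
  top := by
    unfold grid
    exact div_self (by exact_mod_cast (by omega : R ≠ 0))

theorem Adm.pos' {m : ℕ → ℝ} {R s : ℕ} (h : Adm m R s) {i : ℕ} (h1 : s < i) (h2 : i ≤ R) :
    0 < m i := h.pos.trans_le (h.mono _ _ (by omega) h1 h2)

theorem Adm.le_one {m : ℕ → ℝ} {R s : ℕ} (h : Adm m R s) {i : ℕ} (h1 : s < i) (h2 : i ≤ R) :
    m i ≤ 1 := h.top ▸ h.mono _ _ h1 h2 le_rfl

theorem Adm.of_le {m : ℕ → ℝ} {R s : ℕ} (h : Adm m R s) {t : ℕ} (h1 : s ≤ t) (h2 : t < R) :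
    Adm m R t where
  lt := h2
  pos := h.pos' (by omega) h2
  mono i j a b c := h.mono i j (by omega) b c
  top := h.top

/-- a probability vector on a finite type -/
structure PV (α : Type) [Fintype α] where
  w : α → ℝ
  nonneg : ∀ a, 0 ≤ w a
  sum_one : ∑ a, w a = 1

def PV.E {α : Type} [Fintype α] (p : PV α) (f : α → ℝ) : ℝ := ∑ a, p.w a * f a

def PV.prod {α β : Type} [Fintype α] [Fintype β] (p : PV α) (q : PV β) : PV (α × β) where
  w a := p.w a.1 * q.w a.2
  nonneg _ := mul_nonneg (p.nonneg _) (q.nonneg _)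
  sum_one := by
    rw [Fintype.sum_prod_type]
    simp only [← mul_sum, q.sum_one, mul_one, p.sum_one]

/-- `ι` independent copies -/
def PV.pi {α : Type} [Fintype α] (p : PV α) (ι : Type) [Fintype ι] [DecidableEq ι] :
    PV (ι → α) where
  w f := ∏ i, p.w (f i)
  nonneg _ := prod_nonneg fun _ _ => p.nonneg _
  sum_one := by
    rw [← Fintype.prod_sum (fun (_ : ι) a => p.w a)]
    simp only [p.sum_one, prod_const_one]

/-- indicator of `a = b` -/
def ind (a b : Bool) : ℝ := if a = b then 1 else 0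

end Crest.Agent.R141
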