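import Crest.Agent.R141.Hist

/-! The roles placed by a history form the target tree (task R141 Proj).

Suggested proof.  Define the inductive predicate `Proj : Tr Lb → Tr (ℕ × Bool) → Prop`
("the leaves with roles form the tree `Q`, up to swaps"):
`Proj (leaf (o, some r)) (leaf r)`; `Proj a Q → roles b = [] → Proj (node u a b) Q` and the mirror
image; `Proj a Q → Proj b Q' → Proj (node u a b) (node u Q Q')` and `… → Proj (node u a b) (node u Q' Q)`.
1. `Proj T Q → Valid s T → Ex κ s (ev κ (roleF ψ) T) = Ex κ s (ev κ ψ Q)` (a tree without roles has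
   the value `1`; `Ex_Ex`), `Proj T Q → Valid s T → lev T ≤ lev Q`, `roles T ~ ids Q`;
   `roleL T = [r] → Proj T (leaf r)`.
2. Let `Above ρ t Q` say that all nodes of `Q` above a leaf with id `ρ` have level `< t`, and let
   `subst ρ S Q` replace the leaves with id `ρ` by `S`.  Step lemma, by induction on `Proj T Q`, for all
   `a0, s`: if `Valid s T`, `s ≤ h.lv < R`, `ids Q` has no duplicates, `(h.par, b)` is a leaf of `Q`,
   `Above h.par h.lv Q`, then
   `wsum (fopts h a0 s T) 1 = -(m (lv+1) - if lv = s then a0 else m lv)` and every option `T'` has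
   `Proj T' (subst h.par (node lv (leaf (h.par, b)) (leaf (h.c, h.b))) Q)`.
   (If `lv < lev T` only `fstem` contributes [inner options need `lev T ≤ lv`: prove
   `Valid s T → lv < s → fopts … s T = []`] and `Q` is the leaf, because `lev Q ≥ lev T > lv`.
   If the root level equals `lv`, the sibling has no role since `Above`; use `sopts_tot`, and an option
   of a tree without roles projects to `leaf (h.c, h.b)`.)
3. History lemma, by induction on `P`, for all `ρ n T Q t`: `Valid s T`, `Proj T Q`, ids of `Q` without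
   duplicates and `< n`, `(ρ, P.first)` a leaf of `Q`, `Above ρ (t+1) Q`, `s ≤ t`, `SValid R t P`:
   the total weight is `(-Δ)^{size P - 1}` and every result projects to `subst ρ (idtree P ρ n) Q`
   (`wsum_fseq_append`, `wmem_fseq_append`, composition rules for `subst`). -/

set_option autoImplicit false

namespace Crest.Agent.R141

open Finset
open scoped BigOperators

/-- the roles of a tree, with their spin values -/
def roleL : Tr Lb → List (ℕ × Bool)
  | .leaf l => l.2.toList
  | .node _ a b => roleL a ++ roleL b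

theorem roles_eq (T : Tr Lb) : roles T = (roleL T).map Prod.fst := by
  induction T with
  | leaf l => rcases l with ⟨o, _ | r⟩ <;> rfl
  | node u a b iha ihb => simp only [roles, roleL, List.map_append, iha, ihb]

theorem roleL_eq_nil {T : Tr Lb} : roleL T = [] ↔ roles T = [] := by
  rw [roles_eq, List.map_eq_nil_iff]

theorem roleL_rootT (b : Bool) (O : Tr Bool) : roleL (rootT b O) = [(0, b)] := by
  induction O with
  | leaf o => rfl
  | node u a c iha _ =>
    simp only [rootT, roleL, iha, roleL_eq_nil.2 (roles_oldT c), List.append_nil]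

namespace PJ

theorem roleL_asg {h : Stp} {T T' : Tr Lb} (hT' : wmem T' (asg h.asgF T)) :
    (roleL T').Perm ((h.c, h.b) :: roleL T) := by
  induction T generalizing T' with
  | leaf l =>
    rcases l with ⟨o, _ | r⟩
    · simp only [asg, Stp.asgF, Option.elim, wmem_cons, not_wmem_nil, or_false] at hT'
      subst hT'
      exact List.Perm.refl _
    · simp [asg, Stp.asgF] at hT'
  | node u a b iha ihb =>
    simp only [asg, wmem_append, wmem_wmap] at hT'
    rcases hT' with ⟨a', ha', rfl⟩ | ⟨b', hb', rfl⟩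
    · exact (iha ha').append_right _
    · exact ((ihb hb').append_left _).trans List.perm_middle

theorem roleL_stem {m : ℕ → ℝ} {R : ℕ} {h : Stp} {T T' : Tr Lb} {a0 : ℝ} {s : ℕ}
    (hT' : wmem T' (stem m R h.newL a0 s T)) : (roleL T').Perm ((h.c, h.b) :: roleL T) := by
  obtain ⟨u, -, -, rfl⟩ := wmem_stem.1 hT'
  exact List.perm_append_singleton _ _

theorem roleL_ins {m : ℕ → ℝ} {R : ℕ} {h : Stp} {T T' : Tr Lb} {a0 : ℝ} {s : ℕ}
    (hT' : wmem T' (ins m R h.newL a0 s T)) : (roleL T').Perm ((h.c, h.b) :: roleL T) := by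
  induction T generalizing T' a0 s with
  | leaf l => exact roleL_stem hT'
  | node u a b iha ihb =>
    simp only [ins, wmem_append, wmem_wmap] at hT'
    rcases hT' with h1 | ⟨a', ha', rfl⟩ | ⟨b', hb', rfl⟩
    · exact roleL_stem h1
    · exact (iha ha').append_right _
    · exact ((ihb hb').append_left _).trans List.perm_middle

end PJ

theorem roleL_sopts {m : ℕ → ℝ} {R : ℕ} {h : Stp} {T T' : Tr Lb} {a0 : ℝ} {s : ℕ}
    (hT : roles T = []) (hT' : wmem T' (sopts m R h a0 s T)) : roleL T' = [(h.c, h.b)] := by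
  have h1 : (roleL T').Perm ((h.c, h.b) :: roleL T) := by
    simp only [sopts, opts, wmem_append, wmem_wneg] at hT'
    rcases hT' with h1 | h1
    · exact PJ.roleL_asg h1
    · exact PJ.roleL_ins h1
  rw [roleL_eq_nil.2 hT] at h1
  exact List.perm_singleton.1 h1

namespace PJ

/-- the leaves with roles form the tree `Q`, up to swaps -/
inductive Proj : Tr Lb → Tr (ℕ × Bool) → Prop
  | leaf (o : Option Bool) (r : ℕ × Bool) : Proj (.leaf (o, some r)) (.leaf r)
  | left (u : ℕ) {a b : Tr Lb} {Q : Tr (ℕ × Bool)} :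
      Proj a Q → roles b = [] → Proj (.node u a b) Q
  | right (u : ℕ) {a b : Tr Lb} {Q : Tr (ℕ × Bool)} :
      roles a = [] → Proj b Q → Proj (.node u a b) Q
  | both (u : ℕ) {a b : Tr Lb} {Q Q' : Tr (ℕ × Bool)} :
      Proj a Q → Proj b Q' → Proj (.node u a b) (.node u Q Q')
  | swap (u : ℕ) {a b : Tr Lb} {Q Q' : Tr (ℕ × Bool)} :
      Proj a Q → Proj b Q' → Proj (.node u a b) (.node u Q' Q)

/-- the leaves -/
def lvs : Tr (ℕ × Bool) → List (ℕ × Bool)
  | .leaf r => [r]
  | .node _ a b => lvs a ++ lvs b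

/-- the ids of the leaves -/
def ids : Tr (ℕ × Bool) → List ℕ
  | .leaf r => [r.1]
  | .node _ a b => ids a ++ ids b

/-- all nodes above a leaf with id `ρ` have level `< t` -/
def Above (ρ t : ℕ) : Tr (ℕ × Bool) → Prop
  | .leaf _ => True
  | .node u a b => (ρ ∈ ids a ++ ids b → u < t) ∧ Above ρ t a ∧ Above ρ t b

/-- replace the leaves with id `ρ` by `S` -/
def subst (ρ : ℕ) (S : Tr (ℕ × Bool)) : Tr (ℕ × Bool) → Tr (ℕ × Bool)
  | .leaf r => if r.1 = ρ then S else .leaf r
  | .node u a b => .node u (subst ρ S a) (subst ρ S b)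

theorem mem_ids {Q : Tr (ℕ × Bool)} {r : ℕ × Bool} (h : r ∈ lvs Q) : r.1 ∈ ids Q := by
  induction Q with
  | leaf r' => simp only [lvs, List.mem_singleton] at h; simp [ids, h]
  | node u a b iha ihb =>
    simp only [lvs, ids, List.mem_append] at h ⊢
    exact h.imp iha ihb

theorem Above.mono {ρ t t' : ℕ} {Q : Tr (ℕ × Bool)} (h : Above ρ t Q) (ht : t ≤ t') :
    Above ρ t' Q := by
  induction Q with
  | leaf r => trivial
  | node u a b iha ihb => exact ⟨fun hm => (h.1 hm).trans_le ht, iha h.2.1, ihb h.2.2⟩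

theorem above_of_not_mem {ρ t : ℕ} {Q : Tr (ℕ × Bool)} (h : ρ ∉ ids Q) : Above ρ t Q := by
  induction Q with
  | leaf r => trivial
  | node u a b iha ihb =>
    refine ⟨fun hm => absurd hm h, iha fun h' => h ?_, ihb fun h' => h ?_⟩
    · exact List.mem_append_left _ h'
    · exact List.mem_append_right _ h'

theorem subst_of_not_mem {ρ : ℕ} (S : Tr (ℕ × Bool)) {Q : Tr (ℕ × Bool)} (h : ρ ∉ ids Q) :
    subst ρ S Q = Q := by
  induction Q with
  | leaf r =>
    simp only [ids, List.mem_singleton] at h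
    simp only [subst, if_neg (Ne.symm h)]
  | node u a b iha ihb =>
    simp only [ids, List.mem_append, not_or] at h
    simp only [subst, iha h.1, ihb h.2]

theorem subst_leaf_self (ρ : ℕ) (b : Bool) (S : Tr (ℕ × Bool)) :
    subst ρ S (.leaf (ρ, b)) = S := by simp [subst]

theorem subst_self {ρ : ℕ} {b : Bool} {Q : Tr (ℕ × Bool)} (hn : (ids Q).Nodup)
    (h : (ρ, b) ∈ lvs Q) : subst ρ (.leaf (ρ, b)) Q = Q := by
  induction Q with
  | leaf r =>
    simp only [lvs, List.mem_singleton] at h
    rw [← h, subst_leaf_self]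
  | node u a c iha ihc =>
    simp only [ids, List.nodup_append] at hn
    simp only [lvs, List.mem_append] at h
    rcases h with h | h
    · rw [subst, iha hn.1 h, subst_of_not_mem _ fun h' => hn.2.2 _ (mem_ids h) _ h' rfl]
    · rw [subst, ihc hn.2.1 h, subst_of_not_mem _ fun h' => hn.2.2 _ h' _ (mem_ids h) rfl]

theorem subst_subst {ρ ρ' : ℕ} (S S' : Tr (ℕ × Bool)) {Q : Tr (ℕ × Bool)}
    (h : ρ = ρ' ∨ ρ ∉ ids Q) : subst ρ S (subst ρ' S' Q) = subst ρ' (subst ρ S S') Q := by
  induction Q with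
  | leaf r =>
    by_cases h1 : r.1 = ρ'
    · simp only [subst, if_pos h1]
    · have h2 : r.1 ≠ ρ := by
        rcases h with rfl | h
        · exact h1
        · simp only [ids, List.mem_singleton] at h
          exact Ne.symm h
      simp only [subst, if_neg h1, if_neg h2]
  | node u a b iha ihb =>
    simp only [ids, List.mem_append, not_or] at h
    simp only [subst, iha (h.imp id And.left), ihb (h.imp id And.right)]

theorem mem_ids_subst {ρ x : ℕ} {S Q : Tr (ℕ × Bool)} (h : x ∈ ids (subst ρ S Q)) :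
    (x ∈ ids Q ∧ x ≠ ρ) ∨ (ρ ∈ ids Q ∧ x ∈ ids S) := by
  induction Q with
  | leaf r =>
    by_cases h1 : r.1 = ρ
    · simp only [subst, if_pos h1] at h
      exact Or.inr ⟨by simp [ids, h1], h⟩
    · simp only [subst, if_neg h1] at h
      refine Or.inl ⟨h, ?_⟩
      simp only [ids, List.mem_singleton] at h
      rwa [h]
  | node u a b iha ihb =>
    simp only [subst, ids, List.mem_append] at h ⊢
    rcases h with h | h
    · have := iha h; tauto
    · have := ihb h; tauto

theorem nodup_subst {ρ : ℕ} {S Q : Tr (ℕ × Bool)} (hQ : (ids Q).Nodup) (hS : (ids S).Nodup)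
    (h : ∀ x ∈ ids S, x = ρ ∨ x ∉ ids Q) : (ids (subst ρ S Q)).Nodup := by
  induction Q with
  | leaf r =>
    unfold subst
    split_ifs
    · exact hS
    · exact hQ
  | node u a b iha ihb =>
    simp only [ids, List.nodup_append, List.mem_append, not_or] at hQ h
    simp only [subst, ids, List.nodup_append]
    refine ⟨iha hQ.1 fun x hx => (h x hx).imp id And.left,
      ihb hQ.2.1 fun x hx => (h x hx).imp id And.right, ?_⟩
    rintro x hx _ hx' rfl
    rcases mem_ids_subst hx with h1 | h1 <;> rcases mem_ids_subst hx' with h2 | h2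
    · exact hQ.2.2 _ h1.1 _ h2.1 rfl
    · rcases h x h2.2 with h3 | h3
      · exact h1.2 h3
      · exact h3.1 h1.1
    · rcases h x h1.2 with h3 | h3
      · exact h2.2 h3
      · exact h3.2 h2.1
    · exact hQ.2.2 _ h1.1 _ h2.1 rfl

theorem mem_lvs_subst {ρ : ℕ} {r : ℕ × Bool} {S Q : Tr (ℕ × Bool)} (hr : r ∈ lvs S)
    (h : ρ ∈ ids Q) : r ∈ lvs (subst ρ S Q) := by
  induction Q with
  | leaf r' =>
    simp only [ids, List.mem_singleton] at h
    simp only [subst, if_pos h.symm, hr]
  | node u a b iha ihb =>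
    simp only [ids, subst, lvs, List.mem_append] at h ⊢
    exact h.imp iha ihb

theorem above_subst {ρ x t : ℕ} {S Q : Tr (ℕ × Bool)} (hQ : Above ρ t Q) (hS : Above x t S)
    (h : x = ρ ∨ x ∉ ids Q) : Above x t (subst ρ S Q) := by
  induction Q with
  | leaf r =>
    unfold subst
    split_ifs
    · exact hS
    · trivial
  | node u a b iha ihb =>
    have h' := h
    simp only [ids, List.mem_append, not_or] at h'
    refine ⟨fun hx => ?_, iha hQ.2.1 (h'.imp id And.left), ihb hQ.2.2 (h'.imp id And.right)⟩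
    rcases mem_ids_subst (Q := .node u a b) hx with h1 | h1
    · rcases h with h | h
      · exact absurd h h1.2
      · exact absurd h1.1 h
    · exact hQ.1 h1.1

theorem mem_ids_idtree {P : Tr Bool} {ρ n x : ℕ} (h : x ∈ ids (idtree P ρ n)) :
    x = ρ ∨ (n ≤ x ∧ x + 1 < n + P.size) := by
  induction P generalizing ρ n with
  | leaf b => left; simpa [idtree, ids] using h
  | node u a c iha ihc =>
    simp only [idtree, ids, List.mem_append] at h
    have ha := a.size_pos
    have hc := c.size_pos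
    simp only [Tr.size]
    rcases h with h | h
    · have := iha h; omega
    · have := ihc h; omega

theorem nodup_idtree {P : Tr Bool} {ρ n : ℕ} (h : ρ < n) : (ids (idtree P ρ n)).Nodup := by
  induction P generalizing ρ n with
  | leaf b => simp [idtree, ids]
  | node u a c iha ihc =>
    have ha := a.size_pos
    simp only [idtree, ids, List.nodup_append]
    refine ⟨iha (by omega), ihc (by omega), ?_⟩
    rintro x hx _ hx' rfl
    have h1 := mem_ids_idtree hx
    have h2 := mem_ids_idtree hx'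
    omega

theorem Proj.perm {T : Tr Lb} {Q : Tr (ℕ × Bool)} (h : Proj T Q) : (roles T).Perm (ids Q) := by
  induction h with
  | leaf o r => exact List.Perm.refl _
  | left u _ hb ih => simpa only [roles, hb, List.append_nil] using ih
  | right u ha _ ih => simpa only [roles, ha, List.nil_append] using ih
  | both u _ _ ih ih' => exact ih.append ih'
  | swap u _ _ ih ih' => exact (ih.append ih').trans List.perm_append_comm

theorem Proj.lev_le {R : ℕ} {T : Tr Lb} {Q : Tr (ℕ × Bool)} (h : Proj T Q) {s : ℕ}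
    (hT : T.Valid R s) : T.lev R ≤ Q.lev R := by
  induction h generalizing s with
  | leaf o r => exact le_rfl
  | left u _ _ ih => exact (hT.2.2.1.le_lev hT.2.1.le).trans (ih hT.2.2.1)
  | right u _ _ ih => exact (hT.2.2.2.le_lev hT.2.1.le).trans (ih hT.2.2.2)
  | both u _ _ _ _ => exact le_rfl
  | swap u _ _ _ _ => exact le_rfl

theorem proj_of_roleL {T : Tr Lb} {r : ℕ × Bool} (h : roleL T = [r]) : Proj T (.leaf r) := by
  induction T with
  | leaf l =>
    rcases l with ⟨o, _ | r'⟩
    · simp [roleL] at h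
    · simp only [roleL, Option.toList_some, List.cons.injEq, and_true] at h
      subst h
      exact Proj.leaf o r'
  | node u a b iha ihb =>
    simp only [roleL] at h
    rcases List.append_eq_singleton_iff.1 h with ⟨h1, h2⟩ | ⟨h1, h2⟩
    · exact Proj.right u (roleL_eq_nil.1 h1) (ihb h2)
    · exact Proj.left u (iha h1) (roleL_eq_nil.1 h2)

section ev
variable {R : ℕ} {Ξ : Type} [Fintype Ξ] (κ : Ker R Ξ) (ψ : ℕ × Bool → Path R Ξ → ℝ)

theorem ev_no_role {T : Tr Lb} (h : roles T = []) : ev κ (roleF ψ) T = fun _ => 1 := by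
  induction T with
  | leaf l =>
    rcases l with ⟨o, _ | r⟩
    · rfl
    · simp [roles] at h
  | node u a b iha ihb =>
    simp only [roles, List.append_eq_nil_iff] at h
    funext x
    simp only [ev, iha h.1, ihb h.2, Ex_const, mul_one]

theorem Proj.ev_eq {T : Tr Lb} {Q : Tr (ℕ × Bool)} (h : Proj T Q) {s : ℕ} (hT : T.Valid R s) :
    Ex κ s (ev κ (roleF ψ) T) = Ex κ s (ev κ ψ Q) := by
  induction h generalizing s with
  | leaf o r => rfl
  | left u _ hb ih =>
    simp only [ev, ev_no_role κ ψ hb, Ex_const, mul_one, ih hT.2.2.1]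
    exact Ex_Ex κ hT.1 _
  | right u ha _ ih =>
    simp only [ev, ev_no_role κ ψ ha, Ex_const, one_mul, ih hT.2.2.2]
    exact Ex_Ex κ hT.1 _
  | both u _ _ ih ih' => simp only [ev, ih hT.2.2.1, ih' hT.2.2.2]
  | swap u _ _ ih ih' => simp only [ev, ih hT.2.2.1, ih' hT.2.2.2, mul_comm]

end ev

section step
variable {m : ℕ → ℝ} {R : ℕ} {h : Stp}

theorem fopts_nil {T : Tr Lb} {a0 : ℝ} {s : ℕ} (hT : T.Valid R s) (hs : h.lv < s) :
    fopts m R h a0 s T = [] := by
  induction T generalizing a0 s with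
  | leaf l => simp only [fopts, fstem, hs.not_ge, false_and, if_false]
  | node u a b iha ihb =>
    have hu := hT.1
    simp only [fopts, fstem, hs.not_ge, false_and, if_false,
      iha hT.2.2.1 (by omega : h.lv < u), ihb hT.2.2.2 (by omega : h.lv < u),
      if_neg (show ¬ u = h.lv by omega), wmap, List.map_nil, List.append_nil, ite_self]

theorem fopts_stem {T : Tr Lb} {a0 : ℝ} {s : ℕ} (hT : T.Valid R s) (hs : s ≤ h.lv)
    (hl : h.lv < T.lev R) : fopts m R h a0 s T =
      [(-(m (h.lv + 1) - (if h.lv = s then a0 else m h.lv)), .node h.lv T (.leaf h.newL))] := by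
  cases T with
  | leaf l => simp only [fopts, fstem, if_pos (And.intro hs hl)]
  | node u a b =>
    have hu : h.lv < u := hl
    simp only [fopts, fstem, if_pos (And.intro hs hl), fopts_nil hT.2.2.1 hu,
      fopts_nil hT.2.2.2 hu, if_neg (show ¬ u = h.lv by omega), wmap, List.map_nil,
      List.append_nil, ite_self]

theorem fstem_nil {T : Tr Lb} {a0 : ℝ} {s : ℕ} (hl : T.lev R ≤ h.lv) :
    fstem m R h a0 s T = [] := by
  simp only [fstem, if_neg (show ¬ (s ≤ h.lv ∧ h.lv < T.lev R) by omega)]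

theorem eq_leaf {ρ t : ℕ} {b : Bool} {Q : Tr (ℕ × Bool)} (hQ : (ρ, b) ∈ lvs Q)
    (hA : Above ρ t Q) (ht : t ≤ Q.lev R) : Q = .leaf (ρ, b) := by
  cases Q with
  | leaf r =>
    simp only [lvs, List.mem_singleton] at hQ
    rw [hQ]
  | node u a c =>
    have h1 : u < t := hA.1 (mem_ids (Q := .node u a c) hQ)
    have h2 : t ≤ u := ht
    omega

/-- the cherry made by one step -/
def cherry (h : Stp) (b : Bool) : Tr (ℕ × Bool) :=
  .node h.lv (.leaf (h.par, b)) (.leaf (h.c, h.b))

theorem step_lemma {T : Tr Lb} {Q : Tr (ℕ × Bool)} (hP : Proj T Q) {b : Bool} (hR : h.lv < R) :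
    ∀ (a0 : ℝ) (s : ℕ), T.Valid R s → s ≤ h.lv → (ids Q).Nodup → (h.par, b) ∈ lvs Q →
      Above h.par h.lv Q →
      (m R = 1 → wsum (fopts m R h a0 s T) (fun _ => 1) =
        -(m (h.lv + 1) - (if h.lv = s then a0 else m h.lv))) ∧
      ∀ T', wmem T' (fopts m R h a0 s T) → Proj T' (subst h.par (cherry h b) Q) := by
  -- the case of the stem
  have stemc : ∀ {T : Tr Lb} {Q : Tr (ℕ × Bool)}, Proj T Q → ∀ (a0 : ℝ) (s : ℕ), T.Valid R s →
      s ≤ h.lv → (h.par, b) ∈ lvs Q → Above h.par h.lv Q → h.lv < T.lev R →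
      (m R = 1 → wsum (fopts m R h a0 s T) (fun _ => 1) =
        -(m (h.lv + 1) - (if h.lv = s then a0 else m h.lv))) ∧
      ∀ T', wmem T' (fopts m R h a0 s T) → Proj T' (subst h.par (cherry h b) Q) := by
    intro T Q hP a0 s hT hs hb hA hl
    rw [fopts_stem hT hs hl]
    refine ⟨fun _ => by simp, fun T' hT' => ?_⟩
    simp only [wmem_cons, not_wmem_nil, or_false] at hT'
    have hQ := eq_leaf hb hA (hl.le.trans (hP.lev_le hT))
    subst hT' hQ
    rw [subst_leaf_self]
    exact Proj.both _ hP (Proj.leaf _ _)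
  induction hP with
  | leaf o r => exact fun a0 s hT hs _ hb hA => stemc (Proj.leaf o r) a0 s hT hs hb hA hR
  | @left u a c Q ha hc ih =>
    intro a0 s hT hs hn hb hA
    rcases lt_or_ge h.lv u with hl | hl
    · exact stemc (Proj.left u ha hc) a0 s hT hs hb hA hl
    have hρ : h.par ∈ roles a := ha.perm.mem_iff.2 (mem_ids hb)
    obtain ⟨ih1, ih2⟩ := ih (if u = s then a0 else m u) u hT.2.2.1 hl hn hb hA
    have hsu := hT.1
    simp only [fopts, fstem_nil (T := .node u a c) hl, if_pos hρ, List.nil_append]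
    refine ⟨fun hm => ?_, fun T' hT' => ?_⟩
    · rw [wsum_append, wsum_wmap, ih1 hm]
      by_cases hu : u = h.lv
      · rw [if_pos hu, wsum_wmap, sopts_tot hm 0 hT.2.1 hT.2.2.2, hc, if_pos hu.symm, hu]
        simp
      · rw [if_neg hu, if_neg (Ne.symm hu), if_neg (show ¬ h.lv = s by omega)]
        simp
    · rw [wmem_append, wmem_wmap] at hT'
      rcases hT' with ⟨a', ha', rfl⟩ | hT'
      · exact Proj.left u (ih2 a' ha') hc
      · by_cases hu : u = h.lv
        · rw [if_pos hu, wmem_wmap] at hT'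
          obtain ⟨c', hc', rfl⟩ := hT'
          have hQ := eq_leaf (R := R) hb hA
            (hu ▸ (hT.2.2.1.le_lev hT.2.1.le).trans (ha.lev_le hT.2.2.1))
          subst hQ
          rw [subst_leaf_self, cherry, ← hu]
          exact Proj.both u ha (proj_of_roleL (roleL_sopts hc hc'))
        · rw [if_neg hu] at hT'
          exact absurd hT' (not_wmem_nil _)
  | @right u a c Q ha hc ih =>
    intro a0 s hT hs hn hb hA
    rcases lt_or_ge h.lv u with hl | hl
    · exact stemc (Proj.right u ha hc) a0 s hT hs hb hA hl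
    have hρ : h.par ∉ roles a := by simp [ha]
    obtain ⟨ih1, ih2⟩ := ih 0 u hT.2.2.2 hl hn hb hA
    have hsu := hT.1
    simp only [fopts, fstem_nil (T := .node u a c) hl, if_neg hρ, List.nil_append]
    refine ⟨fun hm => ?_, fun T' hT' => ?_⟩
    · rw [wsum_append, wsum_wmap, ih1 hm]
      by_cases hu : u = h.lv
      · rw [if_pos hu, wsum_wmap, sopts_tot hm _ hT.2.1 hT.2.2.1, ha, if_pos hu.symm, hu]
        simp only [List.length_nil, Nat.cast_zero]
        ring
      · rw [if_neg hu, if_neg (Ne.symm hu), if_neg (show ¬ h.lv = s by omega)]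
        simp
    · rw [wmem_append, wmem_wmap] at hT'
      rcases hT' with ⟨c', hc', rfl⟩ | hT'
      · exact Proj.right u ha (ih2 c' hc')
      · by_cases hu : u = h.lv
        · rw [if_pos hu, wmem_wmap] at hT'
          obtain ⟨a', ha', rfl⟩ := hT'
          have hQ := eq_leaf (R := R) hb hA
            (hu ▸ (hT.2.2.2.le_lev hT.2.1.le).trans (hc.lev_le hT.2.2.2))
          subst hQ
          rw [subst_leaf_self, cherry, ← hu]
          exact Proj.swap u (proj_of_roleL (roleL_sopts ha ha')) hc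
        · rw [if_neg hu] at hT'
          exact absurd hT' (not_wmem_nil _)
  | @both u a c Q Q' ha hc iha ihc =>
    intro a0 s hT hs hn hb hA
    have hu : u < h.lv := hA.1 (mem_ids (Q := .node u Q Q') hb)
    have hsu := hT.1
    simp only [ids, List.nodup_append] at hn
    simp only [lvs, List.mem_append] at hb
    simp only [fopts, fstem_nil (T := .node u a c) hu.le, if_neg hu.ne, List.nil_append,
      List.append_nil, if_neg (show ¬ h.lv = s by omega), subst]
    rcases hb with hb | hb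
    · obtain ⟨ih1, ih2⟩ := iha (if u = s then a0 else m u) u hT.2.2.1 hu.le hn.1 hb hA.2.1
      rw [if_pos (ha.perm.mem_iff.2 (mem_ids hb)),
        subst_of_not_mem _ (Q := Q') fun h' => hn.2.2 _ (mem_ids hb) _ h' rfl]
      refine ⟨fun hm => by rw [wsum_wmap, ih1 hm, if_neg hu.ne'], fun T' hT' => ?_⟩
      obtain ⟨a', ha', rfl⟩ := (wmem_wmap _ _ _).1 hT'
      exact Proj.both u (ih2 a' ha') hc
    · obtain ⟨ih1, ih2⟩ := ihc 0 u hT.2.2.2 hu.le hn.2.1 hb hA.2.2
      have hρ : h.par ∉ ids Q := fun h' => hn.2.2 _ h' _ (mem_ids hb) rfl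
      rw [if_neg (fun h' => hρ (ha.perm.mem_iff.1 h')), subst_of_not_mem _ hρ]
      refine ⟨fun hm => by rw [wsum_wmap, ih1 hm, if_neg hu.ne'], fun T' hT' => ?_⟩
      obtain ⟨c', hc', rfl⟩ := (wmem_wmap _ _ _).1 hT'
      exact Proj.both u ha (ih2 c' hc')
  | @swap u a c Q Q' ha hc iha ihc =>
    intro a0 s hT hs hn hb hA
    have hu : u < h.lv := hA.1 (mem_ids (Q := .node u Q' Q) hb)
    have hsu := hT.1
    simp only [ids, List.nodup_append] at hn
    simp only [lvs, List.mem_append] at hb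
    simp only [fopts, fstem_nil (T := .node u a c) hu.le, if_neg hu.ne, List.nil_append,
      List.append_nil, if_neg (show ¬ h.lv = s by omega), subst]
    rcases hb with hb | hb
    · obtain ⟨ih1, ih2⟩ := ihc 0 u hT.2.2.2 hu.le hn.1 hb hA.2.1
      have hρ : h.par ∉ ids Q := fun h' => hn.2.2 _ (mem_ids hb) _ h' rfl
      rw [if_neg (fun h' => hρ (ha.perm.mem_iff.1 h')), subst_of_not_mem _ hρ]
      refine ⟨fun hm => by rw [wsum_wmap, ih1 hm, if_neg hu.ne'], fun T' hT' => ?_⟩
      obtain ⟨c', hc', rfl⟩ := (wmem_wmap _ _ _).1 hT'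
      exact Proj.swap u ha (ih2 c' hc')
    · obtain ⟨ih1, ih2⟩ := iha (if u = s then a0 else m u) u hT.2.2.1 hu.le hn.2.1 hb hA.2.2
      rw [if_pos (ha.perm.mem_iff.2 (mem_ids hb)),
        subst_of_not_mem _ (Q := Q') fun h' => hn.2.2 _ h' _ (mem_ids hb) rfl]
      refine ⟨fun hm => by rw [wsum_wmap, ih1 hm, if_neg hu.ne'], fun T' hT' => ?_⟩
      obtain ⟨a', ha', rfl⟩ := (wmem_wmap _ _ _).1 hT'
      exact Proj.swap u (ih2 a' ha') hc

end step

theorem wsum_const {α : Type} {l : WL α} {Φ : α → ℝ} {c : ℝ} (h : ∀ a, wmem a l → Φ a = c) :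
    wsum l Φ = wsum l (fun _ => 1) * c := by
  rw [wsum_congr h, ← wsum_mul_right]
  simp only [one_mul]

theorem hist_lemma {m : ℕ → ℝ} {R s : ℕ} (a0 : ℝ) (P : Tr Bool) :
    ∀ (ρ n : ℕ) (T : Tr Lb) (Q : Tr (ℕ × Bool)) (t : ℕ), T.Valid R s → Proj T Q →
      (ids Q).Nodup → (∀ x ∈ ids Q, x < n) → (ρ, P.first) ∈ lvs Q → Above ρ (t + 1) Q → s ≤ t →
      SValid R t P →
      (∀ Δ : ℝ, m R = 1 → (∀ i, m (i + 1) - m i = Δ) →
        wsum (fseq m R a0 s (hist P ρ n) T) (fun _ => 1) = (-Δ) ^ (P.size - 1)) ∧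
      ∀ T', wmem T' (fseq m R a0 s (hist P ρ n) T) →
        T'.Valid R s ∧ Proj T' (subst ρ (idtree P ρ n) Q) := by
  induction P with
  | leaf b =>
    intro ρ n T Q t hT hP hn _ hb _ _ _
    refine ⟨fun Δ _ _ => by simp [hist, fseq, Tr.size], fun T' hT' => ?_⟩
    simp only [hist, fseq, wmem_cons, not_wmem_nil, or_false] at hT'
    subst hT'
    refine ⟨hT, ?_⟩
    rw [idtree, subst_self (b := b) hn hb]
    exact hP
  | node u a c iha ihc =>
    intro ρ n T Q t hT hP hn hlt hb hA hst hS
    obtain ⟨htu, huR, hSa, hSc⟩ := hS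
    have hρ : ρ ∈ ids Q := mem_ids hb
    have hρn : ρ < n := hlt ρ hρ
    have hnQ : n ∉ ids Q := fun h' => lt_irrefl _ (hlt n h')
    have hpa := a.size_pos
    have hpc := c.size_pos
    set h : Stp := ⟨n, ρ, u, c.first⟩ with hh
    obtain ⟨st1, st2⟩ := step_lemma (m := m) (h := h) hP (b := a.first) huR a0 s hT
      (show s ≤ u by omega) hn hb (hA.mono (show t + 1 ≤ u by omega))
    -- the first intermediate tree
    set S1 : Tr (ℕ × Bool) := .node u (.leaf (ρ, a.first)) (.leaf (n, c.first)) with hS1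
    set S2 : Tr (ℕ × Bool) := .node u (idtree a ρ (n + 1)) (.leaf (n, c.first)) with hS2
    have hAu : Above ρ (u + 1) Q := hA.mono (by omega)
    have n1 : (ids (subst ρ S1 Q)).Nodup := by
      refine nodup_subst hn (by simp [hS1, ids]; omega) fun x hx => ?_
      simp only [hS1, ids, List.mem_append, List.mem_singleton] at hx
      rcases hx with rfl | rfl
      · exact Or.inl rfl
      · exact Or.inr hnQ
    have l1 : ∀ x ∈ ids (subst ρ S1 Q), x < n + 1 := by
      intro x hx
      rcases mem_ids_subst hx with h1 | h1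
      · have := hlt x h1.1; omega
      · have h2 := h1.2
        simp only [hS1, ids, List.mem_append, List.mem_singleton] at h2
        omega
    have b1 : (ρ, a.first) ∈ lvs (subst ρ S1 Q) := mem_lvs_subst (by simp [hS1, lvs]) hρ
    have A1 : Above ρ (u + 1) (subst ρ S1 Q) :=
      above_subst hAu ⟨fun _ => Nat.lt_succ_self _, trivial, trivial⟩ (Or.inl rfl)
    have e2 : subst ρ (idtree a ρ (n + 1)) (subst ρ S1 Q) = subst ρ S2 Q := by
      rw [subst_subst _ _ (Or.inl rfl)]
      congr 1
      simp only [hS1, hS2, subst, if_true, if_neg hρn.ne']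
    have hna : n ∉ ids (idtree a ρ (n + 1)) := fun h' => by
      have := mem_ids_idtree h'; omega
    have mS2 : ∀ x ∈ ids S2, x = ρ ∨ (n ≤ x ∧ x < n + a.size) := by
      intro x hx
      simp only [hS2, ids, List.mem_append, List.mem_singleton] at hx
      rcases hx with hx | hx
      · have := mem_ids_idtree hx; omega
      · omega
    have n2 : (ids (subst ρ S2 Q)).Nodup := by
      refine nodup_subst hn ?_ fun x hx => ?_
      · simp only [hS2, ids, List.nodup_append, List.mem_singleton]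
        refine ⟨nodup_idtree (by omega), List.nodup_singleton _, ?_⟩
        rintro x hx _ rfl rfl
        exact hna hx
      · rcases mS2 x hx with h1 | h1
        · exact Or.inl h1
        · exact Or.inr fun h' => by have := hlt x h'; omega
    have l2 : ∀ x ∈ ids (subst ρ S2 Q), x < n + a.size := by
      intro x hx
      rcases mem_ids_subst hx with h1 | h1
      · have := hlt x h1.1; omega
      · have := mS2 x h1.2; omega
    have b2 : (n, c.first) ∈ lvs (subst ρ S2 Q) := mem_lvs_subst (by simp [hS2, lvs]) hρ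
    have A2 : Above n (u + 1) (subst ρ S2 Q) :=
      above_subst hAu ⟨fun _ => Nat.lt_succ_self _, above_of_not_mem hna, trivial⟩ (Or.inr hnQ)
    have e3 : subst n (idtree c n (n + a.size)) (subst ρ S2 Q) =
        subst ρ (idtree (.node u a c) ρ n) Q := by
      rw [subst_subst _ _ (Or.inr hnQ)]
      congr 1
      simp only [hS2, subst, if_true, subst_of_not_mem _ hna, idtree]
    have hsu : s ≤ u := by omega
    have v1 : ∀ T1, wmem T1 (fopts m R h a0 s T) → T1.Valid R s := fun T1 h1 =>
      fopts_valid h1 hsu hT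
    have ia := fun T1 (h1 : wmem T1 (fopts m R h a0 s T)) =>
      iha ρ (n + 1) T1 _ u (v1 T1 h1) (st2 T1 h1) n1 l1 b1 A1 hsu hSa
    have ic := fun T2 (h2 : T2.Valid R s) (h3 : Proj T2 (subst ρ S2 Q)) =>
      ihc n (n + a.size) T2 _ u h2 h3 n2 l2 b2 A2 hsu hSc
    simp only [hist, fseq, ← hh]
    refine ⟨fun Δ hm hΔ => ?_, fun T' hT' => ?_⟩
    · rw [wsum_wbind, wsum_const (c := (-Δ) ^ (a.size - 1) * (-Δ) ^ (c.size - 1)), st1 hm,
        if_neg (show ¬ h.lv = s by show ¬ u = s; omega), hΔ, ← pow_add, ← pow_succ']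
      · congr 1
        simp only [Tr.size]
        omega
      · intro T1 h1
        rw [wsum_fseq_append, wsum_const (c := (-Δ) ^ (c.size - 1)), (ia T1 h1).1 Δ hm hΔ]
        intro T2 h2
        obtain ⟨v2, p2⟩ := (ia T1 h1).2 T2 h2
        exact (ic T2 v2 (e2 ▸ p2)).1 Δ hm hΔ
    · obtain ⟨T1, h1, hT'⟩ := (wmem_wbind _ _ _).1 hT'
      obtain ⟨T2, h2, h3⟩ := wmem_fseq_append.1 hT'
      obtain ⟨v2, p2⟩ := (ia T1 h1).2 T2 h2
      obtain ⟨v3, p3⟩ := (ic T2 v2 (e2 ▸ p2)).2 T' h3
      exact ⟨v3, e3 ▸ p3⟩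

end PJ

theorem fseq_hist_tot {R : ℕ} {P : Tr Bool} {ρ n s : ℕ} {X : Tr Lb} (a0 : ℝ) (hX : X.Valid R s)
    (hr : roleL X = [(ρ, P.first)]) (hn : ρ < n) (hP : SValid R s P) :
    wsum (fseq (grid R) R a0 s (hist P ρ n) X) (fun _ => 1) = (-(1 / (R : ℝ))) ^ (P.size - 1) := by
  cases P with
  | leaf b => simp [hist, fseq, Tr.size]
  | node u a c =>
    have hR : s < R := hP.1.trans hP.2.1
    refine (PJ.hist_lemma a0 _ ρ n X _ s hX (PJ.proj_of_roleL hr) (by simp [PJ.ids])
      (by simpa [PJ.ids] using hn) (by simp [PJ.lvs]) trivial le_rfl hP).1 _ (adm_grid hR).top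
      fun i => ?_
    unfold grid
    push_cast
    ring

/-- (`X'` is valid from `t` by `fseq_valid`) -/
theorem fseq_hist_role {R : ℕ} {m : ℕ → ℝ} (hm : m R = 1) {P : Tr Bool} {ρ n s : ℕ} {X X' : Tr Lb}
    {a0 : ℝ} (hX : X.Valid R s) (hr : roleL X = [(ρ, P.first)]) (hn : ρ < n) (hP : SValid R s P)
    (h : wmem X' (fseq m R a0 s (hist P ρ n) X)) {t : ℕ} (ht : X'.Valid R t)
    {Ξ : Type} [Fintype Ξ] (κ : Ker R Ξ) (ψ : ℕ × Bool → Path R Ξ → ℝ) :
    Ex κ t (ev κ (roleF ψ) X') = Ex κ t (ev κ ψ (idtree P ρ n)) := by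
  have _ := hm
  have h1 := ((PJ.hist_lemma a0 P ρ n X _ s hX (PJ.proj_of_roleL hr) (by simp [PJ.ids])
      (by simpa [PJ.ids] using hn) (by simp [PJ.lvs]) trivial le_rfl hP).2 X' h).2
  rw [PJ.subst_leaf_self] at h1
  exact h1.ev_eq κ ψ ht

end Crest.Agent.R141
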