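import Crest.Agent.R141.HS
import Crest.Agent.R141.Proj

/-! The estimate of the covariance along a stem (owner: helper18). -/

set_option autoImplicit false

namespace Crest.Agent.R141

open Finset
open scoped BigOperators

section comb
variable {m : ℕ → ℝ} {R : ℕ} {h : Stp}

theorem fopts_eq_nil : ∀ {T : Tr Lb} {a0 : ℝ} {s : ℕ}, T.Valid R s → h.lv < s →
    fopts m R h a0 s T = []
  | .leaf l, a0, s, _, hs => by
      simp only [fopts, fstem]
      rw [if_neg (by omega)]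
  | .node u a b, a0, s, hT, hs => by
      have h1 : h.lv < u := lt_of_lt_of_le hs hT.1
      simp only [fopts, fstem]
      rw [if_neg (by omega), fopts_eq_nil hT.2.2.1 h1, fopts_eq_nil hT.2.2.2 h1,
        if_neg (by omega : ¬ u = h.lv), if_neg (by omega : ¬ u = h.lv)]
      simp [wmap]

theorem fopts_of_lt_lev {T : Tr Lb} {a0 : ℝ} {s : ℕ} (hT : T.Valid R s) (h1 : s ≤ h.lv)
    (h2 : h.lv < T.lev R) : fopts m R h a0 s T =
      [(-(m (h.lv + 1) - (if h.lv = s then a0 else m h.lv)), .node h.lv T (.leaf h.newL))] := by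
  cases T with
  | leaf l =>
    simp only [fopts, fstem]
    rw [if_pos ⟨h1, h2⟩]
  | node u a b =>
    have h3 : h.lv < u := h2
    simp only [fopts, fstem]
    rw [if_pos ⟨h1, h2⟩, fopts_eq_nil hT.2.2.1 h3, fopts_eq_nil hT.2.2.2 h3,
      if_neg (by omega : ¬ u = h.lv), if_neg (by omega : ¬ u = h.lv)]
    simp [wmap]

theorem stem_self {α : Type} (z : α) (a0 : ℝ) (T : Tr α) : stem m R z a0 (T.lev R) T = [] := by
  simp [stem]

theorem wsum_sopts_split {T : Tr Lb} (a0 : ℝ) {s : ℕ} (hs : s < T.lev R) (Φ : Tr Lb → ℝ) :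
    wsum (sopts m R h a0 s T) Φ = wsum (sopts m R h (m (T.lev R)) (T.lev R) T) Φ -
      wsum (stem m R h.newL a0 s T) Φ := by
  cases T with
  | leaf l =>
    simp only [sopts, opts, ins, wsum_append, wsum_wneg, stem_self, wsum_nil]
    ring
  | node u a b =>
    have h1 : ¬ u = s := by
      have : s < u := hs
      omega
    have h2 : (Tr.node u a b).lev R = u := rfl
    have h3 := stem_self (m := m) (R := R) h.newL (m u) (Tr.node u a b)
    rw [h2] at h3
    simp only [sopts, opts, ins, wsum_append, wsum_wneg, h2, h3, wsum_nil, if_neg h1, if_true]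
    ring

theorem wmem_sopts_split {T Y : Tr Lb} {a0 : ℝ} {s : ℕ} (hs : s < T.lev R)
    (hY : wmem Y (sopts m R h a0 s T)) :
    wmem Y (sopts m R h (m (T.lev R)) (T.lev R) T) ∨ wmem Y (stem m R h.newL a0 s T) := by
  cases T with
  | leaf l =>
    simp only [sopts, opts, ins, wmem_append, wmem_wneg] at hY ⊢
    tauto
  | node u a b =>
    have h1 : ¬ u = s := by
      have : s < u := hs
      omega
    have h2 : (Tr.node u a b).lev R = u := rfl
    simp only [sopts, opts, ins, wmem_append, wmem_wneg, h2, if_neg h1, if_true] at hY ⊢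
    tauto

/-- no old labels -/
def NoOld : Tr Lb → Prop
  | .leaf l => l.1 = none
  | .node _ a b => NoOld a ∧ NoOld b

theorem NoOld.ins {z : Lb} (hz : z.1 = none) : ∀ {T T' : Tr Lb} {a0 : ℝ} {s : ℕ}, NoOld T →
    wmem T' (ins m R z a0 s T) → NoOld T'
  | .leaf l, T', a0, s, hT, hm => by
      simp only [R141.ins] at hm
      obtain ⟨u, -, -, rfl⟩ := wmem_stem.1 hm
      exact ⟨hT, hz⟩
  | .node u a b, T', a0, s, hT, hm => by
      simp only [R141.ins, wmem_append, wmem_wmap] at hm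
      rcases hm with hm | ⟨a', ha, rfl⟩ | ⟨b', hb, rfl⟩
      · obtain ⟨u, -, -, rfl⟩ := wmem_stem.1 hm
        exact ⟨hT, hz⟩
      · exact ⟨NoOld.ins hz hT.1 ha, hT.2⟩
      · exact ⟨hT.1, NoOld.ins hz hT.2 hb⟩

theorem NoOld.asg : ∀ {T T' : Tr Lb}, NoOld T → wmem T' (asg h.asgF T) → NoOld T'
  | .leaf (o, r), T', hT, hm => by
      cases r with
      | none =>
        simp only [R141.asg, Stp.asgF, Option.elim, wmem_cons, not_wmem_nil, or_false] at hm
        subst hm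
        exact hT
      | some r => simp [R141.asg, Stp.asgF] at hm
  | .node u a b, T', hT, hm => by
      simp only [R141.asg, wmem_append, wmem_wmap] at hm
      rcases hm with ⟨a', ha, rfl⟩ | ⟨b', hb, rfl⟩
      · exact ⟨NoOld.asg hT.1 ha, hT.2⟩
      · exact ⟨hT.1, NoOld.asg hT.2 hb⟩

theorem NoOld.fseq {a0 : ℝ} {s : ℕ} : ∀ {hs : List Stp} {T T' : Tr Lb}, NoOld T →
    wmem T' (fseq m R a0 s hs T) → NoOld T'
  | [], T, T', hT, hm => by
      simp only [R141.fseq, wmem_cons, not_wmem_nil, or_false] at hm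
      exact hm ▸ hT
  | h :: hs, T, T', hT, hm => by
      simp only [R141.fseq, wmem_wbind] at hm
      obtain ⟨T₁, h1, h2⟩ := hm
      have h3 := fopts_mem h1
      simp only [sopts, opts, wmem_append, wmem_wneg] at h3
      refine NoOld.fseq ?_ h2
      rcases h3 with h3 | h3
      · exact hT.asg h3
      · exact hT.ins rfl h3

theorem NoOld.ev {Ξ : Type} [Fintype Ξ] (κ : Ker R Ξ) (φ : Bool → Path R Ξ → ℝ)
    (ψ : ℕ × Bool → Path R Ξ → ℝ) : ∀ {T : Tr Lb}, NoOld T →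
    ev κ (fun l x => oldF φ l x * roleF ψ l x) T = ev κ (roleF ψ) T
  | .leaf (o, r), hT => by
      have : o = none := hT
      subst this
      funext x
      simp [R141.ev, oldF]
  | .node u a b, hT => by
      simp only [R141.ev]
      rw [NoOld.ev κ φ ψ hT.1, NoOld.ev κ φ ψ hT.2]

theorem wsum_wpos_wmap {α β : Type} (f : α → β) (l : WL α) (Φ : β → ℝ) :
    wsum (wpos (wmap f l)) Φ = wsum (wpos l) fun a => Φ (f a) := by
  simp [wsum, wpos, wmap, List.map_map, Function.comp_def]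

theorem Sep.mono {D : ℕ} {Λ Λ' : List ℕ} (h : Sep D Λ) (h' : Λ' ⊆ Λ) : Sep D Λ' :=
  fun a ha b hb => h a (h' ha) b (h' hb)

theorem countP_eq_length_of {hs : List Stp} {L : List ℕ} (h : ∀ x ∈ hs, x.lv ∉ L) :
    (hs.countP fun x => decide (x.lv ∉ L)) = hs.length :=
  List.countP_eq_length.2 fun x hx => by simpa using h x hx

end comb

section
variable {R : ℕ} {Ξ : Type} [Fintype Ξ] [Nonempty Ξ] {V : Type} [Fintype V] [Nonempty V]
  (κ : Ker R Ξ) (σ : Path R Ξ → V → Bool)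

/-- the kernel `K_v` seen from level `l` -/
noncomputable def Kat (τ : Tr Bool) (l v : ℕ) (u w : V) (x : Path R Ξ) : ℝ :=
  Ex κ l (fun y => Ex κ v (yv κ σ τ u) y * Ex κ v (yv κ σ τ w) y) x

omit [Nonempty Ξ] [Fintype V] [Nonempty V] in
theorem yv_meas (τ : Tr Bool) (u : V) : Meas (τ.lev R) (yv κ σ τ u) := ev_meas κ _ τ

omit [Nonempty Ξ] [Fintype V] [Nonempty V] in
theorem Kat_of_le {τ : Tr Bool} (l : ℕ) {v : ℕ} (hv : τ.lev R ≤ v) (u w : V) :
    Kat κ σ τ l v u w = Ex κ l fun y => yv κ σ τ u y * yv κ σ τ w y := by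
  unfold Kat
  rw [Ex_of_meas κ ((yv_meas κ σ τ u).mono hv), Ex_of_meas κ ((yv_meas κ σ τ w).mono hv)]

theorem abs_Kat_le (τ : Tr Bool) (l v : ℕ) (u w : V) (x : Path R Ξ) :
    |Kat κ σ τ l v u w x| ≤ 1 := by
  refine abs_Ex_le_of κ l (fun y => ?_) x
  rw [abs_mul]
  exact mul_le_one₀ (abs_Ex_le_of κ v (abs_yv_le κ σ τ u) y) (abs_nonneg _)
    (abs_Ex_le_of κ v (abs_yv_le κ σ τ w) y)

theorem EE_shift_le (D : ℕ) (τ : Tr Bool) (n : ℕ) (hn : n + τ.size ≤ D + 2) (v : ℕ)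
    (c : V → Path R Ξ → ℝ) (hc : ∀ u x, |c u x| ≤ 1) :
    EE κ (fun u w x => |c u x * Ex κ v (yv κ σ (shf τ n) w) x - c u x * Ex κ v (yv κ σ τ w) x|) ≤
      Om κ σ D τ := by
  refine le_trans (EE_mono κ (G := fun _ w x =>
    |Ex κ v (fun y => yv κ σ (shf τ n) w y - yv κ σ τ w y) x|) fun u w x => ?_) ?_
  · rw [← mul_sub, abs_mul, Ex_sub]
    exact mul_le_of_le_one_left (abs_nonneg _) (hc u x)
  · refine (EE_abs_Ex_le κ v fun _ w y => yv κ σ (shf τ n) w y - yv κ σ τ w y).trans ?_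
    rw [EE_right κ fun w y => |yv κ σ (shf τ n) w y - yv κ σ τ w y|]
    exact shift_le κ σ D τ n hn

theorem merge_le {X : Tr Lb} {τ : Tr Bool} {Q : Tr (ℕ × Bool)} {D n l : ℕ} (hl : l ≤ τ.lev R)
    (hn : n + τ.size ≤ D + 2) (hQ : Q.map Prod.snd = shf τ n)
    (hold : ∀ φ, Ex κ (τ.lev R) (ev κ (oldF φ) X) = ev κ φ τ)
    (hrole : ∀ ψ, Ex κ (τ.lev R) (ev κ (roleF ψ) X) = Ex κ (τ.lev R) (ev κ ψ Q)) {δ : ℝ}
    (hδ : 0 < δ) :
    EE κ (fun u w x => |Ex κ l (ev κ (lfv σ u w) X) x - Kat κ σ τ l (τ.lev R) u w x|) ≤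
      δ + iota κ σ τ / δ ^ 3 + Om κ σ D τ := by
  have h1 := cross_le κ σ hold hrole hδ
  rw [hQ] at h1
  have h2 := EE_shift_le κ σ D τ n hn (τ.lev R) (yv κ σ τ) (abs_yv_le κ σ τ)
  refine le_trans ?_ (add_le_add h1 h2)
  rw [← EE_add]
  refine le_trans (le_of_eq ?_) ((EE_abs_Ex_le κ l fun u w y =>
    Ex κ (τ.lev R) (ev κ (lfv σ u w) X) y - yv κ σ τ u y * yv κ σ τ w y).trans
      (EE_mono κ fun u w x => ?_))
  · congr 1
    funext u w x
    rw [Ex_sub, Ex_Ex κ hl, Kat_of_le κ σ l le_rfl]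
  · rw [Ex_of_meas κ (yv_meas κ σ τ w)]
    exact abs_sub_le _ _ _

theorem inner_nonneg (τ : Tr Bool) {l v : ℕ} (v' : ℕ) (hlv : l ≤ v) :
    0 ≤ EE κ fun u w x => Kat κ σ τ l v' u w x *
      (Kat κ σ τ l (τ.lev R) u w x - Kat κ σ τ l v u w x) := by
  rw [EE_eq]
  refine Ex_nonneg κ 0 (fun x => ?_) _
  have := psd_inner κ (fun u => Ex κ v' (yv κ σ τ u))
    (fun u y => yv κ σ τ u y - Ex κ v (yv κ σ τ u) y) l x
  refine this.trans (le_of_eq ?_)
  congr 1; funext u; congr 1; funext w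
  rw [Kat_of_le κ σ l le_rfl, ← Ex_mul_sub_Ex κ hlv]
  rfl

omit [Nonempty Ξ] [Fintype V] [Nonempty V] in
theorem Kat_self (τ : Tr Bool) (l : ℕ) (u w : V) (x : Path R Ξ) :
    Kat κ σ τ l l u w x = Ex κ l (yv κ σ τ u) x * Ex κ l (yv κ σ τ w) x := by
  unfold Kat
  rw [Ex_meas_mul κ (Ex_meas κ _ l), Ex_Ex κ le_rfl]

theorem val_node_sub_le (l : ℕ) (X Y : Tr Lb) (K K' : V → V → Path R Ξ → ℝ)
    (hK : ∀ u w x, |K u w x| ≤ 1) {e : ℝ}
    (hX : EE κ (fun u w x => |Ex κ l (ev κ (lfv σ u w) X) x - K u w x|) ≤ e)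
    (hY : EE κ (fun u w x => |Ex κ l (ev κ (lfv σ u w) Y) x - K' u w x|) ≤ e) :
    |val κ σ (.node l X Y) - EE κ fun u w x => K u w x * K' u w x| ≤ 2 * e := by
  have h0 : val κ σ (.node l X Y) = EE κ fun u w x =>
    Ex κ l (ev κ (lfv σ u w) X) x * Ex κ l (ev κ (lfv σ u w) Y) x := rfl
  rw [h0, ← EE_sub, two_mul]
  refine (abs_EE_le κ _).trans (le_trans ?_ (add_le_add hX hY))
  rw [← EE_add]
  refine EE_mono κ fun u w x => ?_
  have hb : |Ex κ l (ev κ (lfv σ u w) Y) x| ≤ 1 :=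
    abs_Ex_le_of κ l (abs_ev_le_one κ (abs_lfv_le σ u w) Y) x
  set a := Ex κ l (ev κ (lfv σ u w) X) x
  set b := Ex κ l (ev κ (lfv σ u w) Y) x
  have : a * b - K u w x * K' u w x = (a - K u w x) * b + K u w x * (b - K' u w x) := by ring
  rw [this]
  refine (abs_add_le _ _).trans (add_le_add ?_ ?_)
  · rw [abs_mul]; exact mul_le_of_le_one_right (abs_nonneg _) hb
  · rw [abs_mul]; exact mul_le_of_le_one_left (abs_nonneg _) (hK u w x)

end

end Crest.Agent.R141
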