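import Crest.Agent.R141.Beta

/-! The estimate of the covariance along a stem, part 2 (owner: helper18). -/

set_option autoImplicit false

namespace Crest.Agent.R141

open Finset
open scoped BigOperators

/-- standing hypotheses on a tree and a level -/
structure Good (R D l : ℕ) (τ : Tr Bool) : Prop where
  lt : l < τ.lev R
  valid : τ.Valid R l
  sep : Sep D (l :: R :: τ.levels)
  size : 2 * τ.size ≤ D

namespace Good
variable {R D l : ℕ} {τ : Tr Bool} (G : Good R D l τ)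
include G

theorem lev_le : τ.lev R ≤ R := G.valid.lev_le

theorem ltR : l < R := G.lt.trans_le G.lev_le

theorem validt : τ.Valid R (τ.lev R) := G.valid.of_le_lev le_rfl

theorem add_lt (u : ℕ) (hu : u ∈ τ.levels) : u + D < R := by
  have h1 := (valid_levels G.valid u hu).2
  have h2 := G.sep u (by simp [hu]) R (by simp)
  omega

theorem svalidt {n : ℕ} (h0 : 0 < n) (hn : n + τ.size ≤ D + 2) :
    SValid R (τ.lev R) (shf τ n) :=
  shf_svalid (i := 0) G.validt G.add_lt h0 hn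

theorem svalid {n : ℕ} (h0 : 0 < n) (hn : n + τ.size ≤ D + 2) {s : ℕ} (hs : s ≤ τ.lev R) :
    SValid R s (shf τ n) := (G.svalidt h0 hn).mono hs

theorem lv_gt {n : ℕ} (h0 : 0 < n) (hn : n + τ.size ≤ D + 2) (ρ n' : ℕ) :
    ∀ h ∈ hist (shf τ n) ρ n', τ.lev R < h.lv := by
  intro h hh
  have h1 : h.lv ∈ (shf τ n).levels := by
    rw [← hist_lv (shf τ n) ρ n']
    exact List.mem_map_of_mem hh
  exact (valid_levels (G.svalidt h0 hn).valid _ h1).1

theorem n1 : 2 + τ.size ≤ D + 2 := by have := G.size; omega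

theorem n2 : 1 + τ.size + τ.size ≤ D + 2 := by have := G.size; omega

end Good

/-- the first step -/
def stp1 (l : ℕ) (τ : Tr Bool) : Stp := ⟨1, 0, l, τ.first⟩

def hsA (τ : Tr Bool) : List Stp := hist (shf τ 2) 0 2

def hsB (τ : Tr Bool) : List Stp := hist (shf τ (1 + τ.size)) 1 (1 + τ.size)

def target (l : ℕ) (τ : Tr Bool) : Tr Bool := .node l (shf τ 2) (shf τ (1 + τ.size))

theorem hist_target (l : ℕ) (τ : Tr Bool) :
    hist (target l τ) 0 1 = stp1 l τ :: (hsA τ ++ hsB τ) := by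
  simp only [target, hist, stp1, hsA, hsB, (shf_facts τ _).1, (shf_facts τ _).2.2]

theorem target_first (l : ℕ) (τ : Tr Bool) : (target l τ).first = τ.first := (shf_facts τ _).2.2

theorem length_hsAB (τ : Tr Bool) : (hsA τ ++ hsB τ).length = 2 * (τ.size - 1) := by
  simp only [hsA, hsB, List.length_append, hist_length, (shf_facts τ _).1]
  omega

theorem lv_hsAB (τ : Tr Bool) : (hsA τ ++ hsB τ).map Stp.lv =
    (shf τ 2).levels ++ (shf τ (1 + τ.size)).levels := by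
  simp only [hsA, hsB, List.map_append, hist_lv]

section
variable {R : ℕ} {Ξ : Type} [Fintype Ξ] [Nonempty Ξ] {V : Type} [Fintype V] [Nonempty V]
  (κ : Ker R Ξ) (σ : Path R Ξ → V → Bool) {D l : ℕ} {τ : Tr Bool}

theorem grid_top (hR : 0 < R) : grid R R = 1 := (adm_grid hR).top

theorem left_est (G : Good R D l τ) {X : Tr Lb} {a0 : ℝ}
    (hX : wmem X (fseq (grid R) R a0 l (hsA τ) (rootT τ.first τ))) {δ : ℝ} (hδ : 0 < δ) :
    EE κ (fun u w x => |Ex κ l (ev κ (lfv σ u w) X) x - Kat κ σ τ l (τ.lev R) u w x|) ≤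
      δ + iota κ σ τ / δ ^ 3 + Om κ σ D τ := by
  have hlv : ∀ h ∈ hsA τ, τ.lev R ≤ h.lv := fun h hh => (G.lv_gt two_pos G.n1 0 2 h hh).le
  have hA := (rootT_facts (R := R) τ.first τ).2.2.2
  refine merge_le κ σ G.lt.le G.n1 (idtree_map (shf τ 2) 0 2) (fun φ => ?_) (fun ψ => ?_) hδ
  · rw [fseq_old κ φ hX hlv, ev_oldF_rootT, Ex_of_meas κ (ev_meas κ φ τ)]
  · refine fseq_hist_role (grid_top (by have := G.ltR; omega)) ((hA l).2 G.valid) ?_ two_pos
      (G.svalid two_pos G.n1 G.lt.le) hX (fseq_valid hX hlv ((hA _).2 G.validt)) κ ψ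
    rw [roleL_rootT, (shf_facts τ 2).2.2]

theorem right_est (G : Good R D l τ) {Y Y' : Tr Lb}
    (hY : wmem Y (sopts (grid R) R (stp1 l τ) 0 l (oldT τ)))
    (hY' : wmem Y' (fseq (grid R) R 0 l (hsB τ) Y)) {δ : ℝ} (hδ : 0 < δ) :
    EE κ (fun u w x => |Ex κ l (ev κ (lfv σ u w) Y') x - Kat κ σ τ l (Y.lev R) u w x|) ≤
      δ + iota κ σ τ / δ ^ 3 + Om κ σ D τ := by
  have hs := τ.size_pos
  have h0 : 0 < 1 + τ.size := by omega
  have hlv : ∀ h ∈ hsB τ, τ.lev R < h.lv := G.lv_gt h0 G.n2 1 _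
  obtain ⟨-, -, hlev, hB⟩ := oldT_facts (R := R) τ
  have hR : 0 < R := by have := G.ltR; omega
  rcases wmem_sopts_split (by rw [hlev]; exact G.lt) hY with hY2 | hY2
  · rw [hlev] at hY2
    have hv : Y.Valid R (τ.lev R) := (opts_mem ((hB _).2 G.validt) hY2).1
    have hK : Kat κ σ τ l (Y.lev R) = Kat κ σ τ l (τ.lev R) := by
      funext u w
      rw [Kat_of_le κ σ l (hv.le_lev G.lev_le), Kat_of_le κ σ l le_rfl]
    rw [hK]
    refine merge_le κ σ G.lt.le G.n2 (idtree_map (shf τ (1 + τ.size)) 1 (1 + τ.size))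
      (fun φ => ?_) (fun ψ => ?_) hδ
    · rw [fseq_old κ φ hY' fun h hh => (hlv h hh).le,
        opts_ev κ (φ := oldF φ) (fun _ => rfl) ?_ hY2, ev_oldF_oldT,
        Ex_of_meas κ (ev_meas κ φ τ)]
      rintro ⟨o, r⟩ a' ha
      cases r with
      | none =>
        simp only [Stp.asgF, Option.some.injEq] at ha
        subst ha
        rfl
      | some r => simp [Stp.asgF] at ha
    · refine fseq_hist_role (grid_top hR) (hv.mono G.lt.le) ?_ (by omega)
        (G.svalid h0 G.n2 G.lt.le) hY' (fseq_valid hY' (fun h hh => (hlv h hh).le) hv) κ ψ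
      rw [roleL_sopts (roles_oldT τ) hY, (shf_facts τ _).2.2]
      rfl
  · obtain ⟨v, hv1, hv2, rfl⟩ := wmem_stem.1 hY2
    rw [hlev] at hv2
    rw [fseq_right 0 l v (hsB τ) _ _ (fun h hh => hv2.trans (hlv h hh))
      (fun h _ => by simp [roles_oldT])] at hY'
    obtain ⟨Z, hZ, rfl⟩ := (wmem_wmap _ _ _).1 hY'
    have hZv : Z.Valid R v :=
      fseq_valid hZ (fun h hh => (hv2.trans (hlv h hh)).le) trivial
    have hZ1 : ∀ u w, Ex κ v (ev κ (lfv σ u w) Z) = Ex κ v (yv κ σ (shf τ (1 + τ.size)) w) := by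
      intro u w
      have e1 : ev κ (lfv σ u w) Z = ev κ (roleF fun c => spinF σ w c.2) Z :=
        NoOld.ev κ _ _ (NoOld.fseq (T := .leaf (stp1 l τ).newL) rfl hZ)
      rw [e1, fseq_hist_role (X := .leaf (stp1 l τ).newL) (grid_top hR) trivial
        (by rw [(shf_facts τ _).2.2]; rfl) (by omega) (G.svalid h0 G.n2 hv2.le) hZ hZv κ _,
        ← ev_map κ (spinF σ w) Prod.snd, idtree_map]
      rfl
    have hB1 : ∀ u w, ev κ (lfv σ u w) (oldT τ) = yv κ σ τ u := by
      intro u w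
      rw [oldT, ev_map]
      unfold yv
      congr 1
      funext b x
      simp [lfv, oldF, roleF]
    have h3 := EE_shift_le κ σ D τ (1 + τ.size) G.n2 v (fun u => Ex κ v (yv κ σ τ u))
      fun u x => abs_Ex_le_of κ v (abs_yv_le κ σ τ u) x
    have h4 : 0 ≤ δ + iota κ σ τ / δ ^ 3 := by
      have := iota_nonneg κ σ τ
      positivity
    refine le_trans (le_trans (le_of_eq ?_) ((EE_abs_Ex_le κ l _).trans h3)) (by linarith)
    congr 1
    funext u w x
    rw [Ex_sub]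
    simp only [ev, hZ1, hB1]
    rfl

theorem seq_est (G : Good R D l τ) {Y : Tr Lb}
    (hY : wmem Y (sopts (grid R) R (stp1 l τ) 0 l (oldT τ))) {δ : ℝ} (hδ : 0 < δ) :
    |wsum (fseq (grid R) R 0 0 (hsA τ ++ hsB τ) (.node l (rootT τ.first τ) Y)) (val κ σ) -
        (1 / (R : ℝ)) ^ (2 * (τ.size - 1)) * EE κ fun u w x =>
          Kat κ σ τ l (τ.lev R) u w x * Kat κ σ τ l (Y.lev R) u w x| ≤
      wabs (fseq (grid R) R 0 0 (hsA τ ++ hsB τ) (.node l (rootT τ.first τ) Y)) *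
        (2 * (δ + iota κ σ τ / δ ^ 3 + Om κ σ D τ)) := by
  have hs := τ.size_pos
  have h0 : 0 < 1 + τ.size := by omega
  have hlvA : ∀ h ∈ hsA τ, l < h.lv := fun h hh => G.lt.trans (G.lv_gt two_pos G.n1 0 2 h hh)
  have hlvB : ∀ h ∈ hsB τ, l < h.lv := fun h hh => G.lt.trans (G.lv_gt h0 G.n2 1 _ h hh)
  have hL := fseq_left (m := grid R) (R := R) 0 0 l (hsA τ) (rootT τ.first τ) Y hlvA
    (by rw [roles_rootT]; exact hist_wf _ _ _)
  have hRt : ∀ X, wmem X (fseq (grid R) R (if l = 0 then 0 else grid R l) l (hsA τ)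
      (rootT τ.first τ)) → fseq (grid R) R 0 0 (hsB τ) (.node l X Y) =
        wmap (fun Y' => .node l X Y') (fseq (grid R) R 0 l (hsB τ) Y) := by
    intro X hX
    refine fseq_right 0 0 l (hsB τ) X Y hlvB fun h hh hp => ?_
    have h2 := (fseq_roles hX).subset hp
    rw [roles_rootT, hsA, hist_c, (shf_facts τ 2).1] at h2
    have h3 := hist_par _ _ _ h hh
    simp only [List.mem_append, List.mem_range'_1, List.mem_singleton] at h2
    omega
  have hYv : Y.Valid R l := (opts_mem (((oldT_facts (R := R) τ).2.2.2 l).2 G.valid) hY).1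
  have htot : wsum (fseq (grid R) R 0 0 (hsA τ ++ hsB τ) (.node l (rootT τ.first τ) Y))
      (fun _ => 1) = (1 / (R : ℝ)) ^ (2 * (τ.size - 1)) := by
    have eA := fseq_hist_tot (P := shf τ 2) (ρ := 0) (n := 2) (if l = 0 then 0 else grid R l)
      (((rootT_facts (R := R) τ.first τ).2.2.2 l).2 G.valid)
      (by rw [roleL_rootT, (shf_facts τ 2).2.2]) two_pos (G.svalid two_pos G.n1 G.lt.le)
    have eB := fseq_hist_tot (P := shf τ (1 + τ.size)) (ρ := 1) (n := 1 + τ.size) 0 hYv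
      (by rw [roleL_sopts (roles_oldT τ) hY, (shf_facts τ _).2.2]; rfl) (by omega)
      (G.svalid h0 G.n2 G.lt.le)
    rw [(shf_facts τ _).1] at eA eB
    rw [wsum_fseq_append, hL, wsum_wmap,
      wsum_congr (Ψ := fun _ => (-(1 / (R : ℝ))) ^ (τ.size - 1) * 1) fun X hX => by
        rw [hRt X hX, wsum_wmap, mul_one]; exact eB,
      wsum_mul_left]
    erw [eA]
    rw [← pow_add, ← two_mul, pow_mul, pow_mul, neg_sq]
  rw [← htot, ← wsum_mul_right, ← wsum_sub]
  refine abs_wsum_le fun T hT => ?_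
  obtain ⟨T', hT1, hT2⟩ := wmem_fseq_append.1 hT
  rw [hL] at hT1
  obtain ⟨X, hX, rfl⟩ := (wmem_wmap _ _ _).1 hT1
  rw [hRt X hX] at hT2
  obtain ⟨Y', hY', rfl⟩ := (wmem_wmap _ _ _).1 hT2
  rw [one_mul]
  exact val_node_sub_le κ σ l X Y' _ _ (abs_Kat_le κ σ τ l _) (left_est κ σ G hX hδ)
    (right_est κ σ G hY hY' hδ)

noncomputable def cK (τ : Tr Bool) (l v : ℕ) : ℝ :=
  EE κ fun u w x => Kat κ σ τ l (τ.lev R) u w x * Kat κ σ τ l v u w x

theorem cK_sub_nonneg (τ : Tr Bool) {l v : ℕ} (hv : l ≤ v) :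
    0 ≤ cK κ σ τ l (τ.lev R) - cK κ σ τ l v := by
  have := inner_nonneg κ σ τ (τ.lev R) hv
  unfold cK
  rw [← EE_sub]
  refine this.trans (le_of_eq ?_)
  congr 1; funext u w x; ring

theorem sq_le_cK (τ : Tr Bool) (l : ℕ) :
    EE κ (fun u w x => (Kat κ σ τ l (τ.lev R) u w x - Kat κ σ τ l l u w x) ^ 2) ≤
      cK κ σ τ l (τ.lev R) - cK κ σ τ l l := by
  have h2 := inner_nonneg κ σ τ l (le_refl l)
  unfold cK
  rw [← EE_sub, ← sub_nonneg, ← EE_sub]
  refine h2.trans (le_of_eq ?_)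
  congr 1; funext u w x; ring

omit [Nonempty V] in
theorem cK_of_le (τ : Tr Bool) (l : ℕ) {v : ℕ} (hv : τ.lev R ≤ v) :
    cK κ σ τ l v = cK κ σ τ l (τ.lev R) := by
  unfold cK
  congr 1
  funext u w x
  rw [Kat_of_le κ σ l hv, Kat_of_le κ σ l le_rfl]

theorem single_aux {l t : ℕ} (hlt : l < t) (w c : ℕ → ℝ) (c0 : ℝ)
    (hw : ∀ v, 0 ≤ w v) (hc : ∀ v, l ≤ v → 0 ≤ c0 - c v) :
    w l * (c0 - c l) ≤ c0 * ∑ v ∈ Finset.Ico l t, w v - ∑ v ∈ Finset.Ico l t, w v * c v := by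
  rw [mul_sum, ← sum_sub_distrib]
  refine le_trans (le_of_eq (by ring)) (single_le_sum (f := fun v => c0 * w v - w v * c v)
    (fun v hv => ?_) (mem_Ico.2 ⟨le_rfl, hlt⟩))
  have := mul_nonneg (hw v) (hc v (mem_Ico.1 hv).1)
  linarith

/-- the main term -/
theorem main_ge (G : Good R D l τ) :
    grid R (l + 1) * EE κ (fun u w x =>
        (Kat κ σ τ l (τ.lev R) u w x - Kat κ σ τ l l u w x) ^ 2) ≤
      wsum (sopts (grid R) R (stp1 l τ) 0 l (oldT τ)) fun Y => cK κ σ τ l (Y.lev R) := by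
  obtain ⟨-, -, hlev, hB⟩ := oldT_facts (R := R) τ
  have hR : 0 < R := by have := G.ltR; omega
  have hlt : l < (oldT τ).lev R := by rw [hlev]; exact G.lt
  have htot := sopts_tot (h := stp1 l τ) (grid_top hR) 0 G.ltR ((hB l).2 G.valid)
  rw [wsum_sopts_split 0 hlt, roles_oldT, wsum_stem] at htot
  have e1 : wsum (sopts (grid R) R (stp1 l τ) (grid R ((oldT τ).lev R)) ((oldT τ).lev R)
      (oldT τ)) (fun Y => cK κ σ τ l (Y.lev R)) = cK κ σ τ l (τ.lev R) *
      wsum (sopts (grid R) R (stp1 l τ) (grid R ((oldT τ).lev R)) ((oldT τ).lev R)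
      (oldT τ)) (fun _ => 1) := by
    rw [← wsum_mul_left]
    refine wsum_congr fun Y hY => ?_
    rw [hlev] at hY
    have hv : Y.Valid R (τ.lev R) := (opts_mem ((hB _).2 G.validt) hY).1
    rw [mul_one, cK_of_le κ σ τ l (hv.le_lev G.lev_le)]
  have htot' : wsum (sopts (grid R) R (stp1 l τ) (grid R ((oldT τ).lev R)) ((oldT τ).lev R)
      (oldT τ)) (fun _ => 1) = ∑ u ∈ Finset.Ico l ((oldT τ).lev R),
        (grid R (u + 1) - if u = l then 0 else grid R u) := by
    simp only [mul_one, List.length_nil, Nat.cast_zero, sub_zero] at htot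
    linarith
  have hw : ∀ v, 0 ≤ grid R (v + 1) - if v = l then 0 else grid R v := by
    intro v
    have h0 : (0 : ℝ) < R := by exact_mod_cast hR
    unfold grid
    split_ifs
    · simp only [sub_zero]; positivity
    · rw [← sub_div]; push_cast; apply div_nonneg <;> linarith
  have h5 := single_aux hlt (fun v => grid R (v + 1) - if v = l then 0 else grid R v)
    (cK κ σ τ l) (cK κ σ τ l (τ.lev R)) hw fun v hv => cK_sub_nonneg κ σ τ hv
  rw [wsum_sopts_split 0 hlt, wsum_stem, e1, htot']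
  refine le_trans ?_ h5
  simp only [if_true, sub_zero]
  exact mul_le_mul_of_nonneg_left (sq_le_cK κ σ τ l) (adm_grid G.ltR).pos.le

end

theorem beta_sq_le (d : ℕ) : ∃ C : ℝ, 0 ≤ C ∧ ∀ (R : ℕ) (Ξ V : Type) [Fintype Ξ] [Nonempty Ξ]
    [Fintype V] [Nonempty V] (κ : Ker R Ξ) (σ : Path R Ξ → V → Bool) (τ : Tr Bool) (l : ℕ)
    (e δ : ℝ), 0 ≤ e → 0 < δ → τ.depth ≤ d → 1 ≤ l → Good R (2 ^ (d + 1)) l τ →
    Ident κ σ (grid R) (d + 1) e →
    grid R (l + 1) * EE κ (fun u w x =>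
        (Kat κ σ τ l (τ.lev R) u w x - Kat κ σ τ l l u w x) ^ 2) ≤
      2 * C * (1 / R + (δ + iota κ σ τ / δ ^ 3 + Om κ σ (2 ^ (d + 1)) τ)) + e * R ^ (2 ^ (d + 1)) := by
  obtain ⟨C, hC1, hC⟩ := wabs_fseq_pot (2 * 2 ^ (d + 1) + 1)
  refine ⟨C, by linarith, ?_⟩
  intro R Ξ V _ _ _ _ κ σ τ l e δ he hδ hd h1 G hI
  set D := 2 ^ (d + 1) with hD
  have hR : 0 < R := by have := G.ltR; omega
  have hR' : (1 : ℝ) ≤ R := by exact_mod_cast hR
  have hs := τ.size_pos
  have hsz := G.size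
  have h0 : 0 < 1 + τ.size := by omega
  set N := 2 * (τ.size - 1) with hN
  set Δ : ℝ := 1 / R with hΔ
  have hΔ0 : 0 < Δ := by positivity
  set err := δ + iota κ σ τ / δ ^ 3 + Om κ σ D τ with herr
  have herr0 : 0 ≤ err := by
    have := iota_nonneg κ σ τ
    have := Om_nonneg κ σ D τ
    positivity
  obtain ⟨hA1, hA2, hA3, hA4⟩ := rootT_facts (R := R) τ.first τ
  obtain ⟨hB1, hB2, hB3, hB4⟩ := oldT_facts (R := R) τ
  obtain ⟨hnd, hav⟩ := shf_nodup G.sep (τ := τ) (fun u hu => by simp [hu]) (by omega)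
  have hav' : ∀ h ∈ hsA τ ++ hsB τ, h.lv ∉ l :: R :: τ.levels := fun h hh =>
    hav _ (by rw [← lv_hsAB]; exact List.mem_map_of_mem hh)
  have hnd1 : ((hsA τ ++ hsB τ).map Stp.lv).Nodup := by rw [lv_hsAB]; exact hnd
  have hnd2 : ((stp1 l τ :: (hsA τ ++ hsB τ)).map Stp.lv).Nodup := by
    rw [List.map_cons, List.nodup_cons]
    refine ⟨fun hm => ?_, hnd1⟩
    obtain ⟨h, hh, he⟩ := List.mem_map.1 hm
    exact hav' h hh (by rw [he]; simp [stp1])
  have hI' := hI (target l τ) (.node l τ τ)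
    (by simp only [target, Tr.depth, (shf_facts τ _).2.1]; omega)
    (by simp only [Tr.depth]; omega)
    ⟨h1, G.ltR, (G.svalid two_pos G.n1 G.lt.le).valid.mono (by omega),
      (G.svalid h0 G.n2 G.lt.le).valid.mono (by omega)⟩
    ⟨h1, G.ltR, G.valid, G.valid⟩
  rw [hist_target, target_first] at hI'
  -- the right side
  have hdot : |wsum (fseq (grid R) R 0 0 (stp1 l τ :: (hsA τ ++ hsB τ)) (dotT τ.first))
      (val κ σ)| ≤ C * Δ ^ (N + 1) := by
    refine (abs_wsum_le fun T _ => abs_val_le κ σ T).trans ?_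
    have := hC R hR (stp1 l τ :: (hsA τ ++ hsB τ)) (dotT τ.first)
      (by simp only [dotT, Tr.size, List.length_cons, length_hsAB]; omega) trivial hnd2
    rw [countP_eq_length_of (by simp [dotT, Tr.levels]), List.length_cons, length_hsAB] at this
    rwa [mul_one]
  -- the options of the first step
  have hf : fopts (grid R) R (stp1 l τ) 0 0 (rootT τ.first (.node l τ τ)) =
      (-Δ, .node l (.node l (rootT τ.first τ) (.leaf (stp1 l τ).newL)) (oldT τ)) ::
        wmap (fun b' => .node l (rootT τ.first τ) b') (sopts (grid R) R (stp1 l τ) 0 l (oldT τ)) := by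
    have e1 : (stp1 l τ).par ∈ roles (rootT τ.first τ) := by simp [roles_rootT, stp1]
    have e2 : (stp1 l τ).lv = l := rfl
    simp only [rootT, fopts, fstem, if_pos e1, e2, Tr.lev, lt_irrefl, and_false, if_false, if_true]
    rw [fopts_of_lt_lev ((hA4 l).2 G.valid) le_rfl (by rw [hA3]; exact G.lt)]
    simp only [e2, if_true, if_neg (by omega : ¬ l = 0), wmap, List.map_cons, List.map_nil,
      List.nil_append, List.cons_append]
    congr 2
    simp only [grid, hΔ]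
    push_cast
    ring
  set Tb : Tr Lb := .node l (.node l (rootT τ.first τ) (.leaf (stp1 l τ).newL)) (oldT τ) with hTb
  have hb : |wsum (fseq (grid R) R 0 0 (hsA τ ++ hsB τ) Tb) (val κ σ)| ≤ C * Δ ^ N := by
    refine (abs_wsum_le fun T _ => abs_val_le κ σ T).trans ?_
    have := hC R hR (hsA τ ++ hsB τ) Tb
      (by simp only [hTb, Tr.size, length_hsAB, hA1, hB1]; omega)
      ⟨Nat.zero_le _, G.ltR, ⟨le_rfl, G.ltR, (hA4 l).2 G.valid, trivial⟩, (hB4 l).2 G.valid⟩ hnd1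
    rw [countP_eq_length_of fun h hh hm => hav' h hh ?_, length_hsAB] at this
    · rwa [mul_one]
    · simp only [hTb, Tr.levels, hA2, hB2, List.mem_cons, List.mem_append, List.append_nil] at hm ⊢
      tauto
  have hw : wsum (wpos (sopts (grid R) R (stp1 l τ) 0 l (oldT τ))) (fun Y =>
      wabs (fseq (grid R) R 0 0 (hsA τ ++ hsB τ) (.node l (rootT τ.first τ) Y))) ≤ C * Δ ^ N := by
    have := hC R hR (stp1 l τ :: (hsA τ ++ hsB τ)) (rootT τ.first (.node l τ τ))
      (by simp only [rootT, Tr.size, List.length_cons, length_hsAB, hA1, hB1]; omega)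
      ⟨Nat.zero_le _, G.ltR, (hA4 l).2 G.valid, (hB4 l).2 G.valid⟩ hnd2
    rw [List.countP_cons_of_neg (by simp [rootT, Tr.levels, stp1]),
      countP_eq_length_of fun h hh hm => hav' h hh ?_, length_hsAB] at this
    · rw [fseq, wabs_wbind, hf, wpos_cons, wsum_cons, wsum_wpos_wmap] at this
      refine le_trans ?_ this
      have := wabs_nonneg (fseq (grid R) R 0 0 (hsA τ ++ hsB τ) Tb)
      have h5 : 0 ≤ |(-Δ)| * wabs (fseq (grid R) R 0 0 (hsA τ ++ hsB τ) Tb) := by positivity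
      exact le_add_of_nonneg_left h5
    · simp only [rootT, Tr.levels, hA2, hB2, List.mem_cons, List.mem_append] at hm ⊢
      tauto
  have hmain := main_ge κ σ G
  set Mn := wsum (sopts (grid R) R (stp1 l τ) 0 l (oldT τ)) fun Y => cK κ σ τ l (Y.lev R)
    with hMn
  have hE : |wsum (sopts (grid R) R (stp1 l τ) 0 l (oldT τ)) (fun Y =>
      wsum (fseq (grid R) R 0 0 (hsA τ ++ hsB τ) (.node l (rootT τ.first τ) Y)) (val κ σ)) -
      Δ ^ N * Mn| ≤ C * Δ ^ N * (2 * err) := by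
    rw [hMn, ← wsum_mul_left, ← wsum_sub]
    refine (abs_wsum_le' _ _).trans ((wsum_wpos_le fun Y hY => seq_est κ σ G hY hδ).trans ?_)
    rw [wsum_mul_right]
    exact mul_le_mul_of_nonneg_right hw (by positivity)
  rw [fseq, wsum_wbind, hf, wsum_cons, wsum_wmap] at hI'
  simp only at hI'
  set S1 := wsum (sopts (grid R) R (stp1 l τ) 0 l (oldT τ)) (fun Y =>
      wsum (fseq (grid R) R 0 0 (hsA τ ++ hsB τ) (.node l (rootT τ.first τ) Y)) (val κ σ))
  set S2 := wsum (fseq (grid R) R 0 0 (hsA τ ++ hsB τ) Tb) (val κ σ)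
  have hpos : 0 < Δ ^ N := by positivity
  have h6 : Δ ^ N * Mn ≤ Δ ^ N * (2 * C * (Δ + err)) + e := by
    have a1 := (abs_le.1 hE).1
    have a2 := (abs_le.1 hb).2
    have a3 := (le_abs_self _).trans (hI'.trans (add_le_add hdot le_rfl))
    have a4 : Δ * S2 ≤ Δ * (C * Δ ^ N) := mul_le_mul_of_nonneg_left a2 hΔ0.le
    rw [pow_succ] at a3
    nlinarith
  have h7 : e ≤ Δ ^ N * (e * R ^ D) := by
    have : (1 : ℝ) ≤ Δ ^ N * R ^ D := by
      have e1 : Δ ^ N * (R : ℝ) ^ N = 1 := by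
        rw [← mul_pow, hΔ, one_div, inv_mul_cancel₀ (by positivity), one_pow]
      rw [← e1]
      exact mul_le_mul_of_nonneg_left (pow_le_pow_right₀ hR' (by omega)) hpos.le
    nlinarith
  refine hmain.trans (le_of_mul_le_mul_left ?_ hpos)
  rw [mul_add]
  linarith

end Crest.Agent.R141
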