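import Crest.Agent.R141.Compare
import Crest.Agent.R141.Poisson

/-! The cavity functional of a synchronised system (task R141 Cavity+Lower). -/

set_option autoImplicit false

namespace Crest.Agent.R141

open Finset Crest.ProbabilityR.Diluted
open scoped BigOperators

theorem cav_abs_expect_le {ι : Type} [Fintype ι] [Nonempty ι] {f : ι → ℝ} {B : ℝ}
    (h : ∀ i, |f i| ≤ B) : |𝔼 i, f i| ≤ B :=
  abs_le.2 ⟨le_expect univ_nonempty fun i _ => (abs_le.1 (h i)).1,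
    expect_le univ_nonempty fun i _ => (abs_le.1 (h i)).2⟩

theorem cav_abs_SV_le {R : ℕ} {Ξ V : Type} [Fintype Ξ] [Nonempty Ξ] [Fintype V] [Nonempty V]
    (κ : Ker R Ξ) (σ : Path R Ξ → V → Bool) {m : ℕ → ℝ} (hm : Adm m R 0) {L : Type} [Fintype L]
    [DecidableEq L] {W : (L → Bool) → ℝ} {B : ℝ} (h : ∀ τ, |Real.log (W τ)| ≤ B) :
    |SV κ σ m W| ≤ B :=
  cav_abs_expect_le fun _ => abs_Fr_le κ hm (fun _ => h _) _

/-- one-sided version of `poi_tail` -/
theorem cav_poi_le (A : ℝ) {D η : ℝ} (hD : 0 < D) (hη : 0 < η) : ∃ k₀ : ℕ, ∀ a : ℝ, 0 ≤ a → a ≤ A →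
    ∀ (f g : ℕ → ℝ) (e : ℝ), 0 ≤ e → (∀ k, |f k| ≤ D * (k + 1)) → (∀ k, |g k| ≤ D * (k + 1)) →
      (∀ k < k₀, f k ≤ g k + e) →
      ∑' k, poissonWeight a k * f k ≤ ∑' k, poissonWeight a k * g k + e + η := by
  obtain ⟨k₀, hk₀⟩ := poi_tail A (η := η / (2 * D)) (by positivity)
  refine ⟨k₀, fun a ha haA f g e he hf hg hfg => ?_⟩
  let h : ℕ → ℝ := fun k => max (f k - g k) 0 / (2 * D)
  have h0 : ∀ k, 0 ≤ h k := fun k => div_nonneg (le_max_right _ _) (by positivity)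
  have h1 : ∀ k, |h k| ≤ k + 1 := fun k => by
    rw [abs_of_nonneg (h0 k), div_le_iff₀ (by positivity), max_le_iff]
    exact ⟨by linarith [(abs_le.1 (hf k)).2, (abs_le.1 (hg k)).1], by positivity⟩
  have h2 := hk₀ a ha haA h (e / (2 * D)) (by positivity) h1 fun k hk => by
    rw [abs_of_nonneg (h0 k)]
    exact div_le_div_of_nonneg_right (max_le (by linarith [hfg k hk]) he) (by positivity)
  have sf := summable_poi ha hf
  have sg := summable_poi ha hg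
  have sh := summable_poi ha (f := h) (C := 1) fun k => by rw [one_mul]; exact h1 k
  have h3 : ∑' k, poissonWeight a k * f k ≤
      ∑' k, (poissonWeight a k * g k + 2 * D * (poissonWeight a k * h k)) := by
    refine sf.tsum_le_tsum (fun k => ?_) (sg.add (sh.mul_left _))
    have e1 : 2 * D * h k = max (f k - g k) 0 := mul_div_cancel₀ _ (by positivity)
    have e2 := mul_le_mul_of_nonneg_left (le_max_left (f k - g k) 0) (poi_nonneg ha k)
    rw [mul_left_comm, e1]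
    linarith
  rw [sg.tsum_add (sh.mul_left _), tsum_mul_left] at h3
  have h4 := mul_le_mul_of_nonneg_left (abs_le.1 h2).2 (by positivity : 0 ≤ 2 * D)
  rw [mul_add, mul_div_cancel₀ _ (by positivity), mul_div_cancel₀ _ (by positivity)] at h4
  linarith

/-- scaled version of `poi_cont` -/
theorem cav_poi_cont {a D η : ℝ} (ha : 0 ≤ a) (hD : 0 < D) (hη : 0 < η) : ∃ δ : ℝ, 0 < δ ∧
    ∀ a' : ℝ, 0 ≤ a' → |a' - a| ≤ δ → ∀ f : ℕ → ℝ, (∀ k, |f k| ≤ D * (k + 1)) →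
      ∑' k, poissonWeight a k * f k - η ≤ ∑' k, poissonWeight a' k * f k := by
  obtain ⟨δ, hδ, h⟩ := poi_cont ha (η := η / D) (by positivity)
  refine ⟨δ, hδ, fun a' ha' haa f hf => ?_⟩
  have h1 := (abs_le.1 (h a' ha' haa (fun k => f k / D) fun k => by
    rw [abs_div, abs_of_pos hD, div_le_iff₀ hD, mul_comm]; exact hf k)).1
  simp only [← mul_div_assoc, tsum_div_const] at h1
  rw [← sub_div, ← neg_div, div_le_div_iff_of_pos_right hD] at h1
  linarith

theorem cav_tsum_E {α : Type} [Fintype α] (q : PV α) {a C : ℝ} (ha : 0 ≤ a) {f : α → ℕ → ℝ}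
    (hf : ∀ x k, |f x k| ≤ C * (k + 1)) :
    ∑' k, poissonWeight a k * q.E (fun x => f x k) =
      q.E fun x => ∑' k, poissonWeight a k * f x k := by
  simp only [PV.E, mul_sum, ← tsum_mul_left]
  rw [Summable.tsum_finsetSum]
  · exact sum_congr rfl fun x _ => tsum_congr fun k => by ring
  · intro x _
    exact ((summable_poi ha (hf x)).mul_left (q.w x)).congr fun k => by ring

/-- comparison of the cavity cost with the value of the product trial -/
theorem cav_SV_compare {R : ℕ} {Ξ V : Type} [Fintype Ξ] [Nonempty Ξ] [Fintype V] [Nonempty V]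
    (κ : Ker R Ξ) (σ : Path R Ξ → V → Bool) {s : ℕ} (h1 : 1 ≤ s) (hs : s < R) {L : Type}
    [Fintype L] [DecidableEq L] {W : (L → Bool) → ℝ} {B η : ℝ} (h : ∀ τ, |Real.log (W τ)| ≤ B)
    (hc : E0 κ (fun x => |𝔼 v : L → V, Fr κ (grid R) s (fun y => Real.log (W fun l => σ y (v l))) x -
        (trialOf κ σ (adm_grid hs) x).TV W|) ≤ η) :
    E0 κ (fun x => (trialOf κ σ (adm_grid hs) x).TV W) - η ≤ SV κ σ (grid R) W ∧
      SV κ σ (grid R) W ≤
        E0 κ (fun x => (trialOf κ σ (adm_grid hs) x).TV W) + η + 2 * ((s : ℝ) / R) * B ^ 2 := by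
  have hm : Adm (grid R) R 0 := adm_grid (by omega)
  unfold E0 at hc ⊢
  have e1 := Ex_expect κ 0
    (fun (v : L → V) => Fr κ (grid R) s fun y => Real.log (W fun l => σ y (v l))) (pt R Ξ)
  have e2 := (abs_Ex_le κ 0 _ (pt R Ξ)).trans hc
  rw [Ex_sub, e1, abs_le] at e2
  constructor
  · refine le_trans (by linarith [e2.1]) (expect_le_expect fun v _ => ?_)
    exact Ex_Fr_le κ hm (Nat.zero_le s) _ _
  · have : SV κ σ (grid R) W ≤ 𝔼 v : L → V, (Ex κ 0
        (Fr κ (grid R) s fun y => Real.log (W fun l => σ y (v l))) (pt R Ξ) +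
          2 * ((s : ℝ) / R) * B ^ 2) :=
      expect_le_expect fun v _ => Fr_le_Ex_Fr κ hm (by omega) hs.le (fun _ => h _) _
    rw [expect_add_distrib, expect_const univ_nonempty] at this
    linarith [e2.2]

namespace FM
variable {p : ℕ} (M : FM p)

theorem siteW_pos {k : ℕ} (h : M.H) (θ : Fin k → M.Θ) (τ : Fin k × Fin (p - 1) → Bool) :
    0 < M.siteW h θ τ :=
  sum_pos (fun ε _ => mul_pos (M.hw_pos h ε) (prod_pos fun _ _ => M.w_pos _ _)) univ_nonempty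

theorem edgesW_pos {k : ℕ} (θ : Fin k → M.Θ) (τ : Fin k × Fin p → Bool) : 0 < M.edgesW θ τ :=
  prod_pos fun _ _ => M.w_pos _ _

theorem cav_abs_log_prod_le {B : ℝ} (hB : M.Bd B) {k : ℕ} (θ : Fin k → M.Θ)
    (τ : Fin k → Fin p → Bool) : |Real.log (∏ j, M.w (θ j) (τ j))| ≤ B * k := by
  rw [Real.log_prod fun j _ => (M.w_pos _ _).ne']
  refine (abs_sum_le_sum_abs _ _).trans ((sum_le_sum fun j _ => hB.2.1 (θ j) (τ j)).trans ?_)
  simp [mul_comm]

theorem abs_log_siteW_le {B : ℝ} (hB : M.Bd B) {k : ℕ} (h : M.H) (θ : Fin k → M.Θ)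
    (τ : Fin k × Fin (p - 1) → Bool) : |Real.log (M.siteW h θ τ)| ≤ B * k + (B + 1) := by
  let t : Bool → ℝ := fun ε => M.hw h ε *
    ∏ j, M.w (θ j) fun l => if hl : l.val < p - 1 then τ (j, ⟨l.val, hl⟩) else ε
  have ht : ∀ ε, 0 < t ε := fun ε => mul_pos (M.hw_pos h ε) (prod_pos fun _ _ => M.w_pos _ _)
  have hl : ∀ ε, |Real.log (t ε)| ≤ B * k + B := fun ε => by
    rw [Real.log_mul (M.hw_pos h ε).ne' (prod_pos fun _ _ => M.w_pos _ _).ne', add_comm]
    refine (abs_add_le _ _).trans (add_le_add (M.cav_abs_log_prod_le hB θ _) ?_)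
    rw [hw, Real.log_exp, abs_mul]
    have : |spinVal ε| = 1 := by cases ε <;> simp [spinVal]
    rw [this, mul_one]
    exact hB.2.2 h
  have e : M.siteW h θ τ = t true + t false := Fintype.sum_bool _
  have hu : ∀ ε, t ε ≤ Real.exp (B * k + B) := fun ε =>
    (Real.log_le_iff_le_exp (ht ε)).1 (abs_le.1 (hl ε)).2
  rw [e, abs_le]
  constructor
  · have := Real.log_le_log (ht true) (le_add_of_nonneg_right (ht false).le)
    linarith [(abs_le.1 (hl true)).1]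
  · rw [Real.log_le_iff_le_exp (add_pos (ht _) (ht _)), ← add_assoc, Real.exp_add]
    have := Real.add_one_le_exp 1
    nlinarith [hu true, hu false, Real.exp_pos (B * k + B)]

theorem abs_log_edgesW_le {B : ℝ} (hB : M.Bd B) {k : ℕ} (θ : Fin k → M.Θ)
    (τ : Fin k × Fin p → Bool) : |Real.log (M.edgesW θ τ)| ≤ B * k :=
  M.cav_abs_log_prod_le hB θ fun j l => τ (j, l)

theorem abs_TV_le (t : Trial) {L : Type} [Fintype L] [DecidableEq L] {W : (L → Bool) → ℝ} {B : ℝ}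
    (h : ∀ τ, |Real.log (W τ)| ≤ B) : |t.TV W| ≤ B :=
  cav_abs_expect_le fun _ => abs_Fr_le _ t.adm (fun _ => h _) _

/-- `sim_pi_curry`, `Fr_pi_sum`, marginals of the uniform law of `v` -/
theorem TV_edgesW (t : Trial) {k : ℕ} (θ : Fin k → M.Θ) :
    t.TV (M.edgesW θ) = ∑ j, t.TV (M.w (θ j)) := by
  let F : Fin k → (Fin p → t.V) → ℝ := fun j v => Fr (Ker.pi fun l => t.κ (v l)) t.m t.s
    (fun y => Real.log (M.w (θ j) fun l => t.σ (v l) (comp y l))) fun i l => t.x (v l) i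
  have hinj : ∀ j : Fin k, Function.Injective fun l : Fin p => (j, l) :=
    fun j a b h => (Prod.ext_iff.1 h).2
  have e1 : ∀ v : Fin k × Fin p → t.V, Fr (Ker.pi fun l => t.κ (v l)) t.m t.s
      (fun y => Real.log (M.edgesW θ fun l => t.σ (v l) (comp y l))) (fun i l => t.x (v l) i) =
      ∑ j, F j fun l => v (j, l) := fun v => by
    have e2 : (fun y : Path t.R (Fin k × Fin p → t.Ξ) =>
        Real.log (M.edgesW θ fun l => t.σ (v l) (comp y l))) =
        fun y => ∑ j, Real.log (M.w (θ j) fun l => t.σ (v (j, l)) (comp y (j, l))) := by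
      funext y
      exact Real.log_prod fun j _ => (M.w_pos _ _).ne'
    rw [e2, Fr_pi_blocks _ Prod.fst univ _ fun j y y' h => by
      congr 2
      funext l
      rw [h (j, l) rfl]]
    refine sum_congr rfl fun j _ => ?_
    exact (sim_pi_comp (fun l => t.κ (v l)) _ (hinj j) t.s).Fr le_rfl
      (fun y => Real.log (M.w (θ j) fun l => t.σ (v (j, l)) (comp y l))) _
  unfold Trial.TV
  simp only [e1]
  rw [expect_sum_comm]
  refine sum_congr rfl fun j _ => ?_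
  rw [← PV.unif_pi_E, PV.E_pi_comp _ _ (hinj j) (F j), PV.unif_pi_E]

theorem cavity_crude {B : ℝ} (hB : M.Bd B) {R : ℕ} {Ξ V : Type} [Fintype Ξ] [Nonempty Ξ]
    [Fintype V] [Nonempty V] (κ : Ker R Ξ) (σ : Path R Ξ → V → Bool) {m : ℕ → ℝ} (hm : Adm m R 0)
    {a₁ a₂ : ℝ} (h₁ : 0 ≤ a₁) (h₂ : 0 ≤ a₂) :
    |M.Site κ σ m a₁ - M.Edge κ σ m a₂| ≤ B * (a₁ + a₂ + 1) + 1 := by
  have e1 : |M.Site κ σ m a₁| ≤ B * a₁ + (B + 1) := abs_tsum_poi_le h₁ fun k =>
    PV.abs_E_le_of _ fun θ => PV.abs_E_le_of _ fun h =>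
      cav_abs_SV_le κ σ hm (M.abs_log_siteW_le hB h θ)
  have e2 : |M.Edge κ σ m a₂| ≤ B * a₂ + 0 := abs_tsum_poi_le h₂ fun k =>
    PV.abs_E_le_of _ fun θ => cav_abs_SV_le κ σ hm fun τ => by
      rw [add_zero]; exact M.abs_log_edgesW_le hB θ τ
  refine (abs_sub _ _).trans ?_
  linarith

/-- Let `t x = trialOf κ σ _ x` (exponents `grid R`, start level `s`).
* Site: `SV W ≥ E0 (x ↦ 𝔼_v Fr s (log W) x)` (`Ex_Fr_le`) `≥ E0 (x ↦ (t x).TV W) - η₁` for `k < k₀`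
  (`compare`, `gen_mono_depth` is not needed: one call with `n = k₀ p`, `B (k₀+1) + 1`).
* Edge: `SV W ≤ E0 (x ↦ 𝔼_v Fr s (log W) x) + 2 (s/R) (B k)²` (`Fr_le_Ex_Fr`)
  `≤ E0 (x ↦ (t x).TV W) + η₁ + …` for `k < k₀`, and `TV_edgesW`.
* `poi_tail` for `k ≥ k₀`, `poi_cont` to replace `a₁` by `α p`; `Σ' poi a₂ k · k c = a₂ c`.
* `E0 κ` is a finite sum (`Ex_rep`), so it commutes with the Poisson sums:
  `Site - Edge ≥ E0 (x ↦ M.P α (t x)) - η ≥ I - η`. -/
theorem cavity_lb (hp : 1 ≤ p) {α : ℝ} (hα : 0 ≤ α) {I : ℝ}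
    (hI : ∀ t : Trial, t.m = grid t.R → I ≤ M.P α t) {η : ℝ} (hη : 0 < η) :
    ∃ (d : ℕ) (η' : ℝ), 0 < η' ∧ ∀ (R s : ℕ) (Ξ V : Type) [Fintype Ξ] [Nonempty Ξ] [Fintype V]
      [Nonempty V] (κ : Ker R Ξ) (σ : Path R Ξ → V → Bool) (a₁ a₂ : ℝ), 1 ≤ s → s < R →
      (s : ℝ) / R ≤ η' → 0 ≤ a₁ → 0 ≤ a₂ → |a₁ - α * p| ≤ η' → |a₂ - α * (p - 1)| ≤ η' →
      gen (grid R) R d s (fun T => cov κ σ T s) ≤ η' →
      I - η ≤ M.Site κ σ (grid R) a₁ - M.Edge κ σ (grid R) a₂ := by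
  obtain ⟨B, hB⟩ := M.exists_bd
  have hB0 := hB.1
  have hαp : 0 ≤ α * p := by positivity
  obtain ⟨k₀, hk₀⟩ := cav_poi_le (α * p + 1) (D := B + 1) (η := η / 8) (by positivity) (by positivity)
  obtain ⟨δ, hδ, hcont⟩ := cav_poi_cont hαp (D := B + 1) (η := η / 8) (by positivity) (by positivity)
  obtain ⟨d, η₁, hη₁, hcmp⟩ := compare (k₀ * p) (B * k₀ + (B + 1)) (η := η / 8) (by positivity)
  obtain ⟨C, hC, hC0⟩ : ∃ C : ℝ, C = 2 * (B * k₀ + (B + 1)) ^ 2 + B ∧ 0 < C :=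
    ⟨_, rfl, by positivity⟩
  refine ⟨d, min (min δ η₁) (min 1 (η / 8 / C)), by positivity, ?_⟩
  intro R s Ξ V _ _ _ _ κ σ a₁ a₂ hs1 hs hsR ha₁ ha₂ hd₁ hd₂ hg
  simp only [le_min_iff] at hsR hd₁ hd₂ hg
  have hm : Adm (grid R) R 0 := adm_grid (by omega)
  obtain ⟨q, hq⟩ := Ex_rep κ 0 (pt R Ξ)
  have hq' : ∀ F, E0 κ F = q.E F := hq
  let t := fun x => trialOf κ σ (adm_grid hs) x
  have lin : ∀ k : ℕ, B * k + (B + 1) ≤ (B + 1) * (k + 1) := fun k => by
    have : (0 : ℝ) ≤ k := Nat.cast_nonneg k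
    linarith
  have lin' : ∀ k : ℕ, B * k ≤ B * k + (B + 1) := fun k => by linarith
  have mon : ∀ k < k₀, B * (k : ℝ) + (B + 1) ≤ B * k₀ + (B + 1) := fun k hk => by
    have : (k : ℝ) ≤ k₀ := by exact_mod_cast hk.le
    linarith [mul_le_mul_of_nonneg_left this hB0]
  have bS : ∀ x k, |M.siteV (t x) k| ≤ (B + 1) * (k + 1) := fun x k =>
    (PV.abs_E_le_of _ fun θ => PV.abs_E_le_of _ fun h =>
      abs_TV_le _ (M.abs_log_siteW_le hB h θ)).trans (lin k)
  have bE : |q.E fun x => M.edgeV (t x)| ≤ B :=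
    PV.abs_E_le_of _ fun x => PV.abs_E_le_of _ fun θ => abs_TV_le _ (hB.2.1 θ)
  have hsC : 2 * ((s : ℝ) / R) * (B * k₀ + (B + 1)) ^ 2 ≤ η / 8 := by
    have h1 := (le_div_iff₀ hC0).1 hsR.2.2
    have h2 : (0 : ℝ) ≤ s / R := by positivity
    rw [hC] at h1
    linarith [mul_nonneg h2 hB0]
  have h1 : ∑' k, poissonWeight a₁ k * q.E (fun x => M.siteV (t x) k) ≤
      M.Site κ σ (grid R) a₁ + η / 8 + η / 8 := by
    refine hk₀ a₁ ha₁ (by linarith [(abs_le.1 hd₁.2.1).2]) _ _ _ (by positivity)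
      (fun k => PV.abs_E_le_of _ fun x => bS x k) (fun k => (PV.abs_E_le_of _ fun θ =>
        PV.abs_E_le_of _ fun h => cav_abs_SV_le κ σ hm (M.abs_log_siteW_le hB h θ)).trans (lin k))
      fun k hk => ?_
    unfold siteV
    rw [PV.E_comm, ← sub_le_iff_le_add, ← PV.E_const (M.pΘ.pi (Fin k)) (η / 8), ← PV.E_sub]
    refine PV.E_mono _ fun θ => ?_
    rw [PV.E_comm, ← PV.E_const M.pH (η / 8), ← PV.E_sub]
    refine PV.E_mono _ fun h => ?_
    have hb : ∀ τ, |Real.log (M.siteW h θ τ)| ≤ B * k₀ + (B + 1) := fun τ =>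
      (M.abs_log_siteW_le hB h θ τ).trans (mon k hk)
    rw [← hq']
    refine (cav_SV_compare κ σ hs1 hs hb (hcmp R Ξ V _ κ σ _ s _ _ ?_ (M.siteW_pos h θ) hb
      hg.1.2)).1
    simp only [Fintype.card_prod, Fintype.card_fin]
    exact Nat.mul_le_mul hk.le (Nat.sub_le _ _)
  have h2 : M.Edge κ σ (grid R) a₂ ≤
      ∑' k : ℕ, poissonWeight a₂ k * (k * q.E fun x => M.edgeV (t x)) + η / 4 + η / 8 := by
    refine hk₀ a₂ ha₂ (by nlinarith [(abs_le.1 hd₂.2.1).2]) _ _ _ (by positivity)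
      (fun k => (PV.abs_E_le_of _ fun θ => cav_abs_SV_le κ σ hm
        (M.abs_log_edgesW_le hB θ)).trans ((lin' k).trans (lin k))) (fun k => ?_) fun k hk => ?_
    · rw [abs_mul, Nat.abs_cast, mul_comm]
      exact (mul_le_mul_of_nonneg_right bE (Nat.cast_nonneg k)).trans ((lin' k).trans (lin k))
    · have e : (k * q.E fun x => M.edgeV (t x)) =
          (M.pΘ.pi (Fin k)).E fun θ => q.E fun x => (t x).TV (M.edgesW θ) := by
        rw [PV.E_comm, ← PV.E_mul_left]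
        congr 1
        funext x
        simp only [TV_edgesW]
        rw [PV.E_sum]
        simp only [PV.E_pi_eval M.pΘ _ fun θ => (t x).TV (M.w θ), sum_const, card_univ,
          Fintype.card_fin, nsmul_eq_mul, edgeV]
      rw [e, ← PV.E_const (M.pΘ.pi (Fin k)) (η / 4), ← PV.E_add]
      refine PV.E_mono _ fun θ => ?_
      have hb : ∀ τ, |Real.log (M.edgesW θ τ)| ≤ B * k₀ + (B + 1) := fun τ =>
        (M.abs_log_edgesW_le hB θ τ).trans ((lin' k).trans (mon k hk))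
      rw [← hq']
      have := (cav_SV_compare κ σ hs1 hs hb (hcmp R Ξ V _ κ σ _ s _ _ (by
        simp only [Fintype.card_prod, Fintype.card_fin]
        exact Nat.mul_le_mul_right _ hk.le) (M.edgesW_pos θ) hb hg.1.2)).2
      linarith
  have h3 := hcont a₁ ha₁ hd₁.1.1 _ fun k => PV.abs_E_le_of q fun x => bS x k
  rw [cav_tsum_E q hαp bS] at h3
  have h4 : ∑' k : ℕ, poissonWeight a₂ k * (k * q.E fun x => M.edgeV (t x)) =
      a₂ * q.E fun x => M.edgeV (t x) := by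
    simp only [← mul_assoc]
    rw [tsum_mul_right, (hasSum_poi_mul a₂).tsum_eq]
  have h5 : I ≤ q.E fun x => M.P α (t x) := by
    rw [← q.E_const I]
    exact q.E_mono fun x => hI (t x) rfl
  unfold P at h5
  rw [PV.E_sub, PV.E_mul_left] at h5
  have h6 : |(a₂ - α * (p - 1)) * q.E fun x => M.edgeV (t x)| ≤ η / 8 := by
    rw [abs_mul]
    refine (mul_le_mul hd₂.2.2 bE (abs_nonneg _) (by positivity)).trans ?_
    rw [div_mul_eq_mul_div, div_le_iff₀ hC0, hC]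
    have : 0 ≤ η / 8 * (2 * (B * k₀ + (B + 1)) ^ 2) := by positivity
    linarith
  linarith [(abs_le.1 h6).2]

end FM

end Crest.Agent.R141
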