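import Crest.Agent.R141.PM

/-! Lipschitz dependence of the pressure and of the functional on the laws (task R141 Close). -/

set_option autoImplicit false

namespace Crest.Agent.R141

open Finset Crest.ProbabilityR.Diluted MeasureTheory
open scoped BigOperators

/-- a coupling in which the two interactions differ by a random constant of mean `κ₀`, up to an
error of mean at most `η` -/
def Close {p : ℕ} (μ μ' : Measure (Inter p)) (κ₀ η : ℝ) : Prop :=
  ∃ (Ω : Type) (_ : MeasurableSpace Ω) (P : Measure Ω) (_ : IsProbabilityMeasure P)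
    (T T' : Ω → Inter p) (κ d : Ω → ℝ), Measurable T ∧ Measurable T' ∧ P.map T = μ ∧
    P.map T' = μ' ∧ Integrable κ P ∧ Integrable d P ∧ ∫ ω, κ ω ∂P = κ₀ ∧ ∫ ω, d ω ∂P ≤ η ∧
    ∀ᵐ ω ∂P, ∀ s, |T ω s - κ ω - T' ω s| ≤ d ω

def CloseH (ν ν' : Measure ℝ) (η : ℝ) : Prop :=
  ∃ q : ℝ → ℝ, Measurable q ∧ ν.map q = ν' ∧ ∫ x, |x - q x| ∂ν ≤ η

namespace CloseAux

theorem couple {A B Ω₁ Ω₂ : Type*} [MeasurableSpace A] [MeasurableSpace B] [MeasurableSpace Ω₁]
    [MeasurableSpace Ω₂] {μ μ' : Measure A} {ν ν' : Measure B} {P : Measure Ω₁} {Q : Measure Ω₂}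
    [IsProbabilityMeasure μ] [IsProbabilityMeasure μ'] [IsProbabilityMeasure ν]
    [IsProbabilityMeasure ν'] [IsProbabilityMeasure P] [IsProbabilityMeasure Q]
    {T T' : Ω₁ → A} {S S' : Ω₂ → B} (hT : MeasurePreserving T P μ) (hT' : MeasurePreserving T' P μ')
    (hS : MeasurePreserving S Q ν) (hS' : MeasurePreserving S' Q ν') {Φ : A → B → ℝ}
    (hi : Integrable (fun z : A × B => Φ z.1 z.2) (μ.prod ν))
    (hi' : Integrable (fun z : A × B => Φ z.1 z.2) (μ'.prod ν')) {κ d : Ω₁ → ℝ} {e : Ω₂ → ℝ}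
    (hκ : Integrable κ P) (hd : Integrable d P) (he : Integrable e Q)
    (h : ∀ᵐ ω ∂P, ∀ ω', |Φ (T ω) (S ω') - κ ω - Φ (T' ω) (S' ω')| ≤ d ω + e ω') :
    |(∫ a, ∫ b, Φ a b ∂ν ∂μ) - (∫ ω, κ ω ∂P) - ∫ a, ∫ b, Φ a b ∂ν' ∂μ'| ≤
      (∫ ω, d ω ∂P) + ∫ ω, e ω ∂Q := by
  have h1 := hT.prod hS
  have h2 := hT'.prod hS'
  have i1 : Integrable (fun z : Ω₁ × Ω₂ => Φ (T z.1) (S z.2)) (P.prod Q) :=
    (h1.integrable_comp hi.aestronglyMeasurable).mpr hi
  have i2 : Integrable (fun z : Ω₁ × Ω₂ => Φ (T' z.1) (S' z.2)) (P.prod Q) :=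
    (h2.integrable_comp hi'.aestronglyMeasurable).mpr hi'
  have e1 : ∫ a, ∫ b, Φ a b ∂ν ∂μ = ∫ z, Φ (T z.1) (S z.2) ∂(P.prod Q) := by
    rw [← integral_prod _ hi, ← h1.map_eq, integral_map h1.aemeasurable
      (by rw [h1.map_eq]; exact hi.aestronglyMeasurable)]
    rfl
  have e2 : ∫ a, ∫ b, Φ a b ∂ν' ∂μ' = ∫ z, Φ (T' z.1) (S' z.2) ∂(P.prod Q) := by
    rw [← integral_prod _ hi', ← h2.map_eq, integral_map h2.aemeasurable
      (by rw [h2.map_eq]; exact hi'.aestronglyMeasurable)]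
    rfl
  have i3 : Integrable (fun z : Ω₁ × Ω₂ => κ z.1) (P.prod Q) := hκ.comp_fst Q
  have i4 : Integrable (fun z : Ω₁ × Ω₂ => d z.1) (P.prod Q) := hd.comp_fst Q
  have i5 : Integrable (fun z : Ω₁ × Ω₂ => e z.2) (P.prod Q) := he.comp_snd P
  have e3 : ∫ ω, κ ω ∂P = ∫ z, κ z.1 ∂(P.prod Q) := by rw [integral_prod _ i3]; simp
  have e4 : ∫ ω, d ω ∂P = ∫ z, d z.1 ∂(P.prod Q) := by rw [integral_prod _ i4]; simp
  have e5 : ∫ ω, e ω ∂Q = ∫ z, e z.2 ∂(P.prod Q) := by rw [integral_prod _ i5]; simp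
  rw [e1, e2, e3, e4, e5, ← integral_sub i1 i3, ← integral_sub (i1.sub' i3) i2, ← integral_add i4 i5,
    ← Real.norm_eq_abs]
  refine norm_integral_le_of_norm_le (i4.add i5) ?_
  filter_upwards [Measure.quasiMeasurePreserving_fst.ae h] with z hz using hz z.2

theorem abs_le_supNorm {p : ℕ} (θ : Inter p) (s : Fin p → Bool) : |θ s| ≤ supNorm θ :=
  le_ciSup (f := fun s => |θ s|) (Set.finite_range _).bddAbove s

theorem integrable_bound {p : ℕ} {μ : Measure (Inter p)} {ν : Measure ℝ} [IsProbabilityMeasure μ]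
    [IsProbabilityMeasure ν] (hμ : Integrable (fun θ => supNorm θ) μ)
    (hν : Integrable (fun x : ℝ => x) ν) {K N : ℕ}
    (Φ : (Fin K → Inter p) → (Fin N → ℝ) → ℝ) (hΦ : Measurable fun z : _ × _ => Φ z.1 z.2)
    (hL : ∀ θs θs' hs hs' (c e : Fin K → ℝ), (∀ j s, |θs j s - c j - θs' j s| ≤ e j) →
      |Φ θs hs - ∑ j, c j - Φ θs' hs'| ≤ ∑ j, e j + ∑ i, |hs i - hs' i|) :
    Integrable (fun z : _ × _ => Φ z.1 z.2)
      ((Measure.pi fun _ : Fin K => μ).prod (Measure.pi fun _ : Fin N => ν)) ∧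
      |∫ θs, ∫ hs, Φ θs hs ∂(Measure.pi fun _ => ν) ∂(Measure.pi fun _ => μ)| ≤
        |Φ 0 0| + K * (∫ θ, supNorm θ ∂μ) + N * ∫ x, |x| ∂ν := by
  have hb : ∀ θs hs, |Φ θs hs| ≤ |Φ 0 0| + ∑ j, supNorm (θs j) + ∑ i, |hs i| := fun θs hs => by
    have h1 := hL θs 0 hs 0 0 (fun j => supNorm (θs j)) fun j s => by
      simpa using abs_le_supNorm (θs j) s
    simp only [Pi.zero_apply, sum_const_zero, sub_zero] at h1
    have h2 := abs_sub_abs_le_abs_sub (Φ θs hs) (Φ 0 0)
    linarith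
  have i1 : ∀ j : Fin K, Integrable (fun θs : Fin K → Inter p => supNorm (θs j))
      (Measure.pi fun _ : Fin K => μ) := fun j => integrable_comp_eval hμ
  have i2 : ∀ i : Fin N, Integrable (fun hs : Fin N → ℝ => |hs i|)
      (Measure.pi fun _ : Fin N => ν) := fun j => integrable_comp_eval hν.abs
  have i3 := (integrable_finsetSum univ fun j _ => i1 j).comp_fst (Measure.pi fun _ : Fin N => ν)
  have i4 := (integrable_finsetSum univ fun j _ => i2 j).comp_snd (Measure.pi fun _ : Fin K => μ)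
  have i5 := ((integrable_const |Φ 0 0|).add i3).add i4
  have i6 := i5.mono' hΦ.aestronglyMeasurable (ae_of_all _ fun z => hb z.1 z.2)
  refine ⟨i6, ?_⟩
  rw [← integral_prod _ i6, ← Real.norm_eq_abs]
  refine (norm_integral_le_of_norm_le i5 (ae_of_all _ fun z => hb z.1 z.2)).trans (le_of_eq ?_)
  have i7 := (integrable_const |Φ 0 0|).fun_add i3
  simp only [Pi.add_apply]
  rw [integral_add i7 i4, integral_add (integrable_const _) i3, integral_prod _ i3,
    integral_prod _ i4]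
  simp only [integral_const, probReal_univ, smul_eq_mul, one_mul]
  rw [integral_finsetSum _ fun j _ => i1 j, integral_finsetSum _ fun j _ => i2 j]
  simp only [integral_comp_eval (μ := fun _ : Fin K => μ) hμ.aestronglyMeasurable,
    integral_comp_eval (μ := fun _ : Fin N => ν) hν.abs.aestronglyMeasurable]
  simp

theorem log_sum_le {ι : Type*} [Fintype ι] [Nonempty ι] {a a' w : ι → ℝ} (hw : ∀ s, 0 < w s)
    {c : ℝ} (h : ∀ s, a s ≤ c + a' s) :
    Real.log (∑ s, Real.exp (a s) * w s) ≤ c + Real.log (∑ s, Real.exp (a' s) * w s) := by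
  have hp : ∀ b : ι → ℝ, 0 < ∑ s, Real.exp (b s) * w s := fun b =>
    sum_pos (fun s _ => mul_pos (Real.exp_pos _) (hw s)) univ_nonempty
  rw [← Real.log_exp c, ← Real.log_mul (Real.exp_pos _).ne' (hp _).ne', mul_sum]
  refine Real.log_le_log (hp _) (sum_le_sum fun s _ => ?_)
  rw [← mul_assoc, ← Real.exp_add]
  exact mul_le_mul_of_nonneg_right (Real.exp_le_exp.mpr (h s)) (hw s).le

theorem abs_log_sum_le {ι : Type*} [Fintype ι] [Nonempty ι] {a a' w : ι → ℝ} (hw : ∀ s, 0 < w s)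
    {c e : ℝ} (h : ∀ s, |a s - c - a' s| ≤ e) :
    |Real.log (∑ s, Real.exp (a s) * w s) - c - Real.log (∑ s, Real.exp (a' s) * w s)| ≤ e := by
  have h1 := log_sum_le (a := a) (a' := a') hw (c := c + e) fun s => by
    linarith [(abs_le.mp (h s)).2]
  have h2 := log_sum_le (a := a') (a' := a) hw (c := e - c) fun s => by
    linarith [(abs_le.mp (h s)).1]
  rw [abs_le]; constructor <;> linarith

theorem abs_sum_sub_le {ι : Type*} [Fintype ι] {a a' c e : ι → ℝ}
    (h : ∀ j, |a j - c j - a' j| ≤ e j) : |∑ j, a j - ∑ j, c j - ∑ j, a' j| ≤ ∑ j, e j := by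
  rw [← sum_sub_distrib, ← sum_sub_distrib]
  exact (abs_sum_le_sum_abs _ _).trans (sum_le_sum fun j _ => h j)

theorem abs_spin (a b : ℝ) (s : Bool) : |a * spinVal s - b * spinVal s| = |a - b| := by
  cases s <;> simp [spinVal, abs_sub_comm, ← sub_eq_neg_add]

theorem poi_close {a : ℝ} (ha : 0 ≤ a) {f f' : ℕ → ℝ} {κ₀ η D C C' : ℝ}
    (hf : ∀ k, |f k| ≤ C * (k + 1)) (hf' : ∀ k, |f' k| ≤ C' * (k + 1))
    (h : ∀ k : ℕ, |f k - k * κ₀ - f' k| ≤ η * k + D) :
    |∑' k, poissonWeight a k * f k - a * κ₀ - ∑' k, poissonWeight a k * f' k| ≤ η * a + D := by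
  have h1 := (((summable_poi ha hf).hasSum.sub ((hasSum_poi_mul a).mul_right κ₀)).sub
    (summable_poi ha hf').hasSum).tsum_eq
  rw [← h1]
  refine le_of_eq_of_le ?_ (abs_tsum_poi_le ha h)
  congr 1
  exact tsum_congr fun k => by ring

theorem lin_le {A B D : ℝ} (hA : 0 ≤ A) (hB : 0 ≤ B) (hD : 0 ≤ D) (k : ℕ) :
    A + k * B + D ≤ (A + B + D) * (k + 1) := by
  have : (0 : ℝ) ≤ k := Nat.cast_nonneg k
  nlinarith [mul_nonneg hA this, mul_nonneg hD this]

theorem supNorm_nonneg {p : ℕ} (θ : Inter p) : 0 ≤ supNorm θ :=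
  (abs_nonneg _).trans (abs_le_supNorm θ fun _ => true)

theorem tilt_pos (x : ℝ) (s : Bool) : 0 < Crest.ProbabilityR.Diluted.tilt x s := by
  unfold Crest.ProbabilityR.Diluted.tilt
  have := Real.cosh_pos x
  positivity

theorem sum_prod_tilt {n : ℕ} (x : Fin n → ℝ) :
    ∑ s : Fin n → Bool, ∏ l, Crest.ProbabilityR.Diluted.tilt (x l) (s l) = 1 := by
  rw [← Fintype.piFinset_univ, ← prod_univ_sum]
  refine prod_eq_one fun l _ => ?_
  have := (Real.cosh_pos (x l)).ne'
  simp only [Crest.ProbabilityR.Diluted.tilt, spinVal, Fintype.univ_bool, mem_singleton,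
    Bool.true_eq_false, not_false_eq_true, sum_insert, sum_singleton, if_true, Bool.false_eq_true,
    if_false, mul_one, mul_neg]
  rw [← add_div, div_eq_one_iff_eq (by positivity), Real.cosh_eq]
  ring

theorem pm_close {L : Type} [Fintype L] {r : ℕ} {m : Fin r → ℝ} (hm : ∀ d, 0 < m d)
    {W W' : (L → Fin (r + 1) → unitInterval) → ℝ} (hW : Measurable W) (hW' : Measurable W')
    (h0 : ∀ u, 0 < W u) (h0' : ∀ u, 0 < W' u) {B B' : ℝ} (hB : ∀ u, |Real.log (W u)| ≤ B)
    (hB' : ∀ u, |Real.log (W' u)| ≤ B') {c e : ℝ}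
    (h : ∀ u, |Real.log (W u) - c - Real.log (W' u)| ≤ e) :
    |(∫ u, Real.log (powerMeans m W u) ∂uniformArrays L r) - c -
      ∫ u, Real.log (powerMeans m W' u) ∂uniformArrays L r| ≤ e := by
  have key : ∀ V : (L → Fin (r + 1) → unitInterval) → ℝ, (∀ u, 0 < V u) →
      (∀ u, |Real.log (V u)| ≤ max B B') →
      ∀ u, Real.exp (-max B B') ≤ V u ∧ V u ≤ Real.exp (max B B') := fun V h1 h2 u =>
    ⟨(Real.le_log_iff_exp_le (h1 u)).mp (abs_le.mp (h2 u)).1,
      (Real.log_le_iff_le_exp (h1 u)).mp (abs_le.mp (h2 u)).2⟩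
  have k1 := key W h0 fun u => (hB u).trans (le_max_left _ _)
  have k2 := key W' h0' fun u => (hB' u).trans (le_max_right _ _)
  have hint : ∀ V : (L → Fin (r + 1) → unitInterval) → ℝ, Measurable V →
      (∀ u, Real.exp (-max B B') ≤ V u ∧ V u ≤ Real.exp (max B B')) →
      Integrable (fun u => Real.log (powerMeans m V u)) (uniformArrays L r) := by
    intro V h1 h2
    have h3 : Measurable (powerMeans m V) :=
      (measurable_powerMeans (m := m) (Z := Unit) (W := fun _ => V) (h1.comp measurable_snd)).comp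
        (measurable_prodMk_left (x := ()))
    refine (integrable_const (max B B')).mono' h3.log.aestronglyMeasurable (ae_of_all _ fun u => ?_)
    obtain ⟨h4, h5⟩ := powerMeans_mem hm h1 (Real.exp_pos _) h2 u
    have h6 := (Real.exp_pos _).trans_le h4
    exact abs_le.mpr ⟨(Real.le_log_iff_exp_le h6).mpr h4, (Real.log_le_iff_le_exp h6).mpr h5⟩
  have i1 := hint W hW k1
  have i2 := hint W' hW' k2
  have e1 : c = ∫ _ : L → Fin (r + 1) → unitInterval, c ∂uniformArrays L r := by simp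
  rw [e1, ← integral_sub i1 (integrable_const c), ← integral_sub (i1.sub' (integrable_const c)) i2,
    ← Real.norm_eq_abs]
  refine (norm_integral_le_of_norm_le_const (C := e) (ae_of_all _ fun u => ?_)).trans (by simp)
  have h1 := log_powerMeans_le hm hW hW' (Real.exp_pos _) k1 k2 (c := c + e)
    (fun u => by linarith [(abs_le.mp (h u)).2]) u
  have h2 := log_powerMeans_le hm hW' hW (Real.exp_pos _) k2 k1 (c := e - c)
    (fun u => by linarith [(abs_le.mp (h u)).1]) u
  rw [Real.norm_eq_abs, abs_le]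
  constructor <;> linarith

theorem edge_pos {p : ℕ} (θ : Inter p) (x : Fin p → ℝ) : 0 < edgeTerm θ x :=
  sum_pos (fun _ _ => mul_pos (Real.exp_pos _) (prod_pos fun _ _ => tilt_pos _ _)) univ_nonempty

theorem edge_close {p : ℕ} {θ θ' : Inter p} {c e : ℝ} (h : ∀ s, |θ s - c - θ' s| ≤ e)
    (x : Fin p → ℝ) : |Real.log (edgeTerm θ x) - c - Real.log (edgeTerm θ' x)| ≤ e :=
  abs_log_sum_le (fun _ => prod_pos fun _ _ => tilt_pos _ _) h

theorem edge_bound {p : ℕ} (θ : Inter p) (x : Fin p → ℝ) :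
    |Real.log (edgeTerm θ x)| ≤ supNorm θ := by
  have := edge_close (θ := θ) (θ' := 0) (c := 0) (e := supNorm θ)
    (fun s => by simpa using abs_le_supNorm θ s) x
  simpa [edgeTerm, sum_prod_tilt] using this

theorem site_pos {p k : ℕ} (h : ℝ) (θs : Fin k → Inter p) (x : Fin k → Fin (p - 1) → ℝ) :
    0 < siteTerm h θs x :=
  mul_pos (by norm_num) (sum_pos (fun _ _ => Real.exp_pos _) univ_nonempty)

theorem site_close {p k : ℕ} {θs θs' : Fin k → Inter p} {c e : Fin k → ℝ}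
    (h : ∀ j s, |θs j s - c j - θs' j s| ≤ e j) (a a' : ℝ) (x : Fin k → Fin (p - 1) → ℝ) :
    |Real.log (siteTerm a θs x) - ∑ j, c j - Real.log (siteTerm a' θs' x)| ≤
      ∑ j, e j + |a - a'| := by
  simp only [siteTerm, mul_comm (1 / 2 : ℝ), sum_mul]
  refine abs_log_sum_le (w := fun _ => 1 / 2) (fun _ => by norm_num) fun ε => ?_
  have h1 : |∑ j, siteMessage (θs j) (x j) ε - ∑ j, c j - ∑ j, siteMessage (θs' j) (x j) ε| ≤
      ∑ j, e j := abs_sum_sub_le fun j =>
    abs_log_sum_le (fun _ => prod_pos fun _ _ => tilt_pos _ _) fun _ => h j _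
  have h2 := abs_le.mp (abs_spin a a' ε).le
  have h3 := abs_le.mp h1
  rw [abs_le]; constructor <;> linarith

theorem site_zero {p k : ℕ} (x : Fin k → Fin (p - 1) → ℝ) :
    siteTerm 0 (0 : Fin k → Inter p) x = 1 := by
  simp [siteTerm, siteMessage, sum_prod_tilt]

theorem site_bound {p k : ℕ} (a : ℝ) (θs : Fin k → Inter p) (x : Fin k → Fin (p - 1) → ℝ) :
    |Real.log (siteTerm a θs x)| ≤ ∑ j, supNorm (θs j) + |a| := by
  have := site_close (θs := θs) (θs' := 0) (c := 0) (e := fun j => supNorm (θs j))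
    (fun j s => by simpa using abs_le_supNorm (θs j) s) a 0 x
  simpa [site_zero] using this

theorem measurable_pm {Z L : Type} [MeasurableSpace Z] [Fintype L] {r : ℕ} (m : Fin r → ℝ)
    {W : Z → (L → Fin (r + 1) → unitInterval) → ℝ} (hW : Measurable fun z : Z × _ => W z.1 z.2) :
    Measurable fun z => ∫ u, Real.log (powerMeans m (W z) u) ∂uniformArrays L r :=
  ((measurable_powerMeans (m := m) hW).log.stronglyMeasurable.integral_prod_right').measurable

end CloseAux

/-- General transfer lemma.  `Φ θs hs` is jointly measurable, satisfies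
`|Φ θs hs - Σ_j c j - Φ θs' hs'| ≤ Σ_j e j + Σ_i |hs i - hs' i|` whenever
`|θs j s - c j - θs' j s| ≤ e j`.  (Taking `θs' = 0`, `hs' = 0`, `c = 0` gives the integrable bound
`|Φ| ≤ |Φ 0 0| + Σ supNorm + Σ |h|`.)  Pull both iterated integrals back to
`(pi P).prod (pi ν)` (`measurePreserving_pi`, `integral_map`, `integral_prod`), subtract, and use
`Measure.ae_pi_le_pi`/`measurePreserving_eval` for the almost sure bound and the marginals. -/
theorem transfer {p : ℕ} {μ μ' : Measure (Inter p)} {ν ν' : Measure ℝ} [IsProbabilityMeasure μ]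
    [IsProbabilityMeasure μ'] [IsProbabilityMeasure ν] [IsProbabilityMeasure ν']
    (hμ : Integrable (fun θ => supNorm θ) μ) (hμ' : Integrable (fun θ => supNorm θ) μ')
    (hν : Integrable (fun x : ℝ => x) ν) (hν' : Integrable (fun x : ℝ => x) ν') {κ₀ η : ℝ}
    (h : Close μ μ' κ₀ η) (h' : CloseH ν ν' η) {K N : ℕ}
    (Φ : (Fin K → Inter p) → (Fin N → ℝ) → ℝ) (hΦ : Measurable fun z : _ × _ => Φ z.1 z.2)
    (hL : ∀ θs θs' hs hs' (c e : Fin K → ℝ), (∀ j s, |θs j s - c j - θs' j s| ≤ e j) →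
      |Φ θs hs - ∑ j, c j - Φ θs' hs'| ≤ ∑ j, e j + ∑ i, |hs i - hs' i|) :
    |(∫ θs, ∫ hs, Φ θs hs ∂(Measure.pi fun _ => ν) ∂(Measure.pi fun _ => μ)) - K * κ₀ -
        ∫ θs, ∫ hs, Φ θs hs ∂(Measure.pi fun _ => ν') ∂(Measure.pi fun _ => μ')| ≤ (K + N) * η ∧
      |∫ θs, ∫ hs, Φ θs hs ∂(Measure.pi fun _ => ν) ∂(Measure.pi fun _ => μ)| ≤
        |Φ 0 0| + K * (∫ θ, supNorm θ ∂μ) + N * ∫ x, |x| ∂ν := by
  obtain ⟨Ω, _, P, _, T, T', κ, d, hT, hT', hTμ, hTμ', hκ, hd, rfl, hdη, hae⟩ := h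
  obtain ⟨q, hq, hqν, hqη⟩ := h'
  obtain ⟨i1, h1⟩ := CloseAux.integrable_bound hμ hν Φ hΦ hL
  obtain ⟨i2, -⟩ := CloseAux.integrable_bound hμ' hν' Φ hΦ hL
  refine ⟨?_, h1⟩
  have hqi : Integrable q ν := by
    rw [← hqν] at hν'
    exact (integrable_map_measure hν'.aestronglyMeasurable hq.aemeasurable).mp hν'
  have hxq : Integrable (fun x => |x - q x|) ν := (hν.sub hqi).abs
  have j1 : ∀ j : Fin K, Integrable (fun ω : Fin K → Ω => κ (ω j)) (Measure.pi fun _ => P) :=
    fun j => integrable_comp_eval hκ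
  have j2 : ∀ j : Fin K, Integrable (fun ω : Fin K → Ω => d (ω j)) (Measure.pi fun _ => P) :=
    fun j => integrable_comp_eval hd
  have j3 : ∀ j : Fin N, Integrable (fun ω : Fin N → ℝ => |ω j - q (ω j)|)
      (Measure.pi fun _ => ν) := fun j =>
    integrable_comp_eval (μ := fun _ : Fin N => ν) (i := j) (f := fun x => |x - q x|) hxq
  have h2 := CloseAux.couple
    (measurePreserving_pi (fun _ : Fin K => P) (fun _ => μ) fun _ => ⟨hT, hTμ⟩)
    (measurePreserving_pi (fun _ : Fin K => P) (fun _ => μ') fun _ => ⟨hT', hTμ'⟩)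
    (MeasurePreserving.id (Measure.pi fun _ : Fin N => ν))
    (measurePreserving_pi (fun _ : Fin N => ν) (fun _ => ν') fun _ => ⟨hq, hqν⟩) i1 i2
    (integrable_finsetSum univ fun j _ => j1 j) (integrable_finsetSum univ fun j _ => j2 j)
    (integrable_finsetSum univ fun j _ => j3 j) (by
      filter_upwards [ae_all_iff.mpr fun j : Fin K =>
        (Measure.tendsto_eval_ae_ae (μ := fun _ : Fin K => P) (i := j)).eventually hae] with ω hω ω'
      exact hL _ _ _ _ _ _ hω)
  rw [integral_finsetSum _ fun j _ => j1 j, integral_finsetSum _ fun j _ => j2 j,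
    integral_finsetSum _ fun j _ => j3 j] at h2
  simp only [integral_comp_eval (μ := fun _ : Fin K => P) hκ.aestronglyMeasurable,
    integral_comp_eval (μ := fun _ : Fin K => P) hd.aestronglyMeasurable,
    integral_comp_eval (μ := fun _ : Fin N => ν) (f := fun x => |x - q x|)
      hxq.aestronglyMeasurable, sum_const, card_univ, Fintype.card_fin, nsmul_eq_mul] at h2
  refine h2.trans ?_
  rw [add_mul]
  gcongr

/-- `transfer` for the average of `logPartition`; `summable_poi`, `hasSum_poi_mul`,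
`abs_tsum_poi_le` -/
theorem pressure_close {p : ℕ} {α : ℝ} (hα : 0 ≤ α) {μ μ' : Measure (Inter p)} {ν ν' : Measure ℝ}
    [IsProbabilityMeasure μ] [IsProbabilityMeasure μ'] [IsProbabilityMeasure ν]
    [IsProbabilityMeasure ν'] (hμ : Integrable (fun θ => supNorm θ) μ)
    (hμ' : Integrable (fun θ => supNorm θ) μ') (hν : Integrable (fun x : ℝ => x) ν)
    (hν' : Integrable (fun x : ℝ => x) ν') {κ₀ η : ℝ} (h : Close μ μ' κ₀ η) (h' : CloseH ν ν' η)
    {N : ℕ} (hN : 1 ≤ N) :
    |pressure p α μ ν N - α * κ₀ - pressure p α μ' ν' N| ≤ (α + 1) * η := by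
  have : NeZero N := ⟨by omega⟩
  have hN0 : (0 : ℝ) < N := by exact_mod_cast hN
  set Φ : (M : ℕ) → (Fin M → Inter p) → (Fin N → ℝ) → ℝ := fun M θs hs =>
    (Fintype.card (Fin M → Fin p → Fin N) : ℝ)⁻¹ *
      ∑ idx : Fin M → Fin p → Fin N, logPartition N θs idx hs with hΦ
  have hcard : ∀ M, (0 : ℝ) < Fintype.card (Fin M → Fin p → Fin N) := fun M => by
    exact_mod_cast Fintype.card_pos
  have hm : ∀ M, Measurable fun z : _ × _ => Φ M z.1 z.2 := fun M => by
    simp only [hΦ, logPartition]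
    fun_prop
  have hL : ∀ M θs θs' hs hs' (c e : Fin M → ℝ), (∀ j s, |θs j s - c j - θs' j s| ≤ e j) →
      |Φ M θs hs - ∑ j, c j - Φ M θs' hs'| ≤ ∑ j, e j + ∑ i, |hs i - hs' i| := by
    intro M θs θs' hs hs' c e hc
    have h1 := CloseAux.abs_sum_sub_le (ι := Fin M → Fin p → Fin N)
      (a := fun idx => logPartition N θs idx hs) (a' := fun idx => logPartition N θs' idx hs')
      (c := fun _ => ∑ j, c j) (e := fun _ => ∑ j, e j + ∑ i, |hs i - hs' i|) fun idx => by
        have h2 := CloseAux.abs_log_sum_le (ι := Fin N → Bool) (w := fun _ => 1)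
          (a := fun σ => (∑ k, θs k (fun ℓ => σ (idx k ℓ))) + ∑ i, hs i * spinVal (σ i))
          (a' := fun σ => (∑ k, θs' k (fun ℓ => σ (idx k ℓ))) + ∑ i, hs' i * spinVal (σ i))
          (fun _ => one_pos) (c := ∑ j, c j) (e := ∑ j, e j + ∑ i, |hs i - hs' i|) fun σ => by
            have h3 := abs_le.mp (CloseAux.abs_sum_sub_le fun k => hc k fun ℓ => σ (idx k ℓ))
            have h4 := abs_le.mp (CloseAux.abs_sum_sub_le (a := fun i => hs i * spinVal (σ i))
              (a' := fun i => hs' i * spinVal (σ i)) (c := 0) (e := fun i => |hs i - hs' i|)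
              fun i => by simpa using (CloseAux.abs_spin _ _ _).le)
            simp only [Pi.zero_apply, sum_const_zero] at h4
            rw [abs_le]; constructor <;> linarith [h3.1, h3.2, h4.1, h4.2]
        simpa only [mul_one, logPartition] using h2
    simp only [sum_const, card_univ, nsmul_eq_mul] at h1
    have h5 := hcard M
    rw [← inv_mul_le_iff₀ h5, ← abs_of_pos (inv_pos.mpr h5), ← abs_mul] at h1
    refine le_of_eq_of_le ?_ h1
    congr 1
    simp only [hΦ]
    field_simp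
  have h0 : ∀ M, |Φ M 0 0| = |Real.log (2 ^ N)| := fun M => by
    have h5 := (hcard M).ne'
    simp only [hΦ, logPartition, Pi.zero_apply, sum_const_zero, zero_mul, add_zero, Real.exp_zero,
      sum_const, card_univ, nsmul_eq_mul, mul_one, inv_mul_cancel_left₀ h5]
    simp
  have key := CloseAux.poi_close (a := α * N) (by positivity) (κ₀ := κ₀) (η := η) (D := N * η)
    (fun M => ((CloseAux.integrable_bound hμ hν (Φ M) (hm M) (hL M)).2.trans_eq
      (by rw [h0])).trans (CloseAux.lin_le (abs_nonneg _)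
        (integral_nonneg CloseAux.supNorm_nonneg)
        (mul_nonneg hN0.le (integral_nonneg fun _ => abs_nonneg _)) M))
    (fun M => ((CloseAux.integrable_bound hμ' hν' (Φ M) (hm M) (hL M)).2.trans_eq
      (by rw [h0])).trans (CloseAux.lin_le (abs_nonneg _)
        (integral_nonneg CloseAux.supNorm_nonneg)
        (mul_nonneg hN0.le (integral_nonneg fun _ => abs_nonneg _)) M))
    fun M => (transfer hμ hμ' hν hν' h h' (Φ M) (hm M) (hL M)).1.trans_eq (by ring)
  rw [show η * (α * N) + N * η = N * ((α + 1) * η) by ring, ← inv_mul_le_iff₀ hN0,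
    ← abs_of_pos (inv_pos.mpr hN0), ← abs_mul] at key
  refine le_of_eq_of_le ?_ key
  congr 1
  simp only [pressure, hΦ]
  field_simp

/-- `transfer` with `N = 1` for the site term and with `K = 1`, `N = 0` for the edge term
(`measurePreserving_funUnique`, or prove a second version of `transfer`).  `Φ` is
`∫ u, log (powerMeans …)`: measurable by `measurable_powerMeans` and
`StronglyMeasurable.integral_prod_right'`; the Lipschitz property from `log_powerMeans_le` (for fixed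
`θs, h` the site and edge terms lie between two positive constants, since `Σ_s tilt x s = 1`). -/
theorem trial_close {p : ℕ} (hp : 1 ≤ p) {α : ℝ} (hα : 0 ≤ α) {μ μ' : Measure (Inter p)}
    {ν ν' : Measure ℝ} [IsProbabilityMeasure μ] [IsProbabilityMeasure μ'] [IsProbabilityMeasure ν]
    [IsProbabilityMeasure ν'] (hμ : Integrable (fun θ => supNorm θ) μ)
    (hμ' : Integrable (fun θ => supNorm θ) μ') (hν : Integrable (fun x : ℝ => x) ν)
    (hν' : Integrable (fun x : ℝ => x) ν') {κ₀ η : ℝ} (h : Close μ μ' κ₀ η) (h' : CloseH ν ν' η)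
    {r : ℕ} {m : Fin r → ℝ} (hm : AdmissibleExponents m) {X : (Fin (r + 1) → unitInterval) → ℝ}
    (hX : Measurable X) :
    |trialFunctional p α μ ν r m X - α * κ₀ - trialFunctional p α μ' ν' r m X| ≤
      (2 * p * α + 1) * η := by
  have hm0 : ∀ d, 0 < m d := fun d => (hm.2 d).1
  have hη : 0 ≤ η := by
    obtain ⟨q, -, -, hq⟩ := h'
    exact (integral_nonneg fun _ => abs_nonneg _).trans hq
  have hp1 : (1 : ℝ) ≤ p := by exact_mod_cast hp
  -- site term
  set Φ : (k : ℕ) → (Fin k → Inter p) → ℝ → ℝ := fun k θs a =>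
    ∫ u, Real.log (powerMeans m (fun u' : (Fin k × Fin (p - 1)) → Fin (r + 1) → unitInterval =>
      siteTerm a θs (fun j ℓ => X (u' (j, ℓ)))) u) ∂(uniformArrays (Fin k × Fin (p - 1)) r) with hΦ
  have hs : ∀ k, Measurable fun z : ((Fin k → Inter p) × ℝ) ×
      ((Fin k × Fin (p - 1)) → Fin (r + 1) → unitInterval) =>
      siteTerm z.1.2 z.1.1 (fun j ℓ => X (z.2 (j, ℓ))) := fun k => by
    simp only [siteTerm, siteMessage, Crest.ProbabilityR.Diluted.tilt]
    fun_prop
  have hΦm : ∀ k, Measurable fun z : (Fin k → Inter p) × ℝ => Φ k z.1 z.2 := fun k =>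
    CloseAux.measurable_pm m (W := fun (z : (Fin k → Inter p) × ℝ) u' =>
      siteTerm z.2 z.1 (fun j ℓ => X (u' (j, ℓ)))) (hs k)
  have hΦm' : ∀ k, Measurable fun z : (Fin k → Inter p) × (Fin 1 → ℝ) => Φ k z.1 (z.2 0) :=
    fun k => (hΦm k).comp (f := fun z : (Fin k → Inter p) × (Fin 1 → ℝ) => (z.1, z.2 0))
      (by fun_prop)
  have hL : ∀ k θs θs' (a a' : Fin 1 → ℝ) (c e : Fin k → ℝ),
      (∀ j s, |θs j s - c j - θs' j s| ≤ e j) →
      |Φ k θs (a 0) - ∑ j, c j - Φ k θs' (a' 0)| ≤ ∑ j, e j + ∑ i, |a i - a' i| := by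
    intro k θs θs' a a' c e hc
    rw [Fin.sum_univ_one]
    exact CloseAux.pm_close hm0 (W := fun u' => siteTerm (a 0) θs (fun j ℓ => X (u' (j, ℓ))))
      (W' := fun u' => siteTerm (a' 0) θs' (fun j ℓ => X (u' (j, ℓ))))
      ((hs k).comp (measurable_prodMk_left (x := (θs, a 0))))
      ((hs k).comp (measurable_prodMk_left (x := (θs', a' 0)))) (fun _ => CloseAux.site_pos _ _ _)
      (fun _ => CloseAux.site_pos _ _ _) (fun _ => CloseAux.site_bound _ _ _)
      (fun _ => CloseAux.site_bound _ _ _) fun _ => CloseAux.site_close hc _ _ _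
  have h0 : ∀ k, |Φ k 0 ((0 : Fin 1 → ℝ) 0)| = 0 := fun k => by
    have : ∀ u, powerMeans m (fun _ : (Fin k × Fin (p - 1)) → Fin (r + 1) → unitInterval =>
        (1 : ℝ)) u = 1 := fun u => by
      have := powerMeans_mem hm0 measurable_const one_pos (fun _ => ⟨le_rfl, le_rfl⟩) u
      exact le_antisymm this.2 this.1
    simp [hΦ, CloseAux.site_zero, this]
  have hone : ∀ (ρ : Measure ℝ) [IsProbabilityMeasure ρ] (g : ℝ → ℝ),
      ∫ a : Fin 1 → ℝ, g (a 0) ∂(Measure.pi fun _ => ρ) = ∫ a, g a ∂ρ := fun ρ _ g =>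
    (measurePreserving_funUnique ρ (Fin 1)).integral_comp' g
  have key := CloseAux.poi_close (a := α * p) (by positivity) (κ₀ := κ₀) (η := η) (D := η)
    (fun k => ((CloseAux.integrable_bound hμ hν (fun θs a => Φ k θs (a 0)) (hΦm' k)
      (hL k)).2.trans_eq (by rw [h0])).trans (CloseAux.lin_le le_rfl
        (integral_nonneg CloseAux.supNorm_nonneg)
        (mul_nonneg (Nat.cast_nonneg _) (integral_nonneg fun _ => abs_nonneg _)) k))
    (fun k => ((CloseAux.integrable_bound hμ' hν' (fun θs a => Φ k θs (a 0)) (hΦm' k)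
      (hL k)).2.trans_eq (by rw [h0])).trans (CloseAux.lin_le le_rfl
        (integral_nonneg CloseAux.supNorm_nonneg)
        (mul_nonneg (Nat.cast_nonneg _) (integral_nonneg fun _ => abs_nonneg _)) k))
    fun k => (transfer hμ hμ' hν hν' h h' (fun θs a => Φ k θs (a 0)) (hΦm' k)
      (hL k)).1.trans_eq (by push_cast; ring)
  simp only [hone _ (Φ _ _)] at key
  -- edge term
  set Ψ : Inter p → ℝ := fun θ =>
    ∫ u, Real.log (powerMeans m (fun u' : Fin p → Fin (r + 1) → unitInterval =>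
      edgeTerm θ (fun ℓ => X (u' ℓ))) u) ∂(uniformArrays (Fin p) r) with hΨ
  have he : Measurable fun z : Inter p × (Fin p → Fin (r + 1) → unitInterval) =>
      edgeTerm z.1 (fun ℓ => X (z.2 ℓ)) := by
    simp only [edgeTerm, Crest.ProbabilityR.Diluted.tilt]
    fun_prop
  have hΨm : Measurable Ψ := CloseAux.measurable_pm m (W := fun (θ : Inter p) u' =>
    edgeTerm θ (fun ℓ => X (u' ℓ))) he
  have key2 := (transfer hμ hμ' hν hν' h h' (K := 1) (N := 0) (fun θs _ => Ψ (θs 0))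
    (hΨm.comp (by fun_prop)) (fun θs θs' _ _ c e hc => by
      rw [Fin.sum_univ_one, Fin.sum_univ_one, Fin.sum_univ_zero, add_zero]
      exact CloseAux.pm_close hm0 (W := fun u' => edgeTerm (θs 0) (fun ℓ => X (u' ℓ)))
        (W' := fun u' => edgeTerm (θs' 0) (fun ℓ => X (u' ℓ)))
        (he.comp (measurable_prodMk_left (x := θs 0)))
        (he.comp (measurable_prodMk_left (x := θs' 0))) (fun _ => CloseAux.edge_pos _ _)
        (fun _ => CloseAux.edge_pos _ _) (fun _ => CloseAux.edge_bound _ _)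
        (fun _ => CloseAux.edge_bound _ _) fun _ => CloseAux.edge_close (hc 0) _)).1
  have hone' : ∀ (ρ : Measure (Inter p)) [IsProbabilityMeasure ρ],
      ∫ a : Fin 1 → Inter p, Ψ (a 0) ∂(Measure.pi fun _ => ρ) = ∫ a, Ψ a ∂ρ := fun ρ _ =>
    (measurePreserving_funUnique ρ (Fin 1)).integral_comp' Ψ
  simp only [integral_const, probReal_univ, one_smul, hone', Nat.cast_one, one_mul, Nat.cast_zero,
    add_zero] at key2
  have h3 : 0 ≤ α * (p - 1 : ℝ) := mul_nonneg hα (by linarith)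
  have h4 := mul_le_mul_of_nonneg_left key2 h3
  rw [← abs_of_nonneg h3, ← abs_mul, abs_of_nonneg h3] at h4
  have h5 := abs_le.mp h4
  have h6 := abs_le.mp key
  have h7 := mul_nonneg hα hη
  simp only [trialFunctional]
  rw [abs_le]
  constructor <;> nlinarith [h5.1, h5.2, h6.1, h6.2]

end Crest.Agent.R141
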