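import Crest.Agent.R141.Ev

/-! Hilbert–Schmidt type estimates (task R141 HS). -/

set_option autoImplicit false
set_option linter.unusedSectionVars false

namespace Crest.Agent.R141

open Finset
open scoped BigOperators

variable {R : ℕ} {Ξ : Type} [Fintype Ξ] [Nonempty Ξ] {V : Type} [Fintype V] [Nonempty V]
  (κ : Ker R Ξ) (σ : Path R Ξ → V → Bool)

namespace HS

omit [Nonempty Ξ] in
theorem expect_mono {f g : V → ℝ} (h : ∀ u, f u ≤ g u) : 𝔼 u, f u ≤ 𝔼 u, g u :=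
  Finset.expect_le_expect fun u _ => h u

/-- `EE` is the expectation of a probability vector -/
theorem EE_rep : ∃ P : PV (V × V × Path R Ξ), ∀ F : V → V → Path R Ξ → ℝ,
    EE κ F = P.E fun a => F a.1 a.2.1 a.2.2 := by
  obtain ⟨p, hp⟩ := Ex_rep κ 0 (pt R Ξ)
  refine ⟨(PV.unif V).prod ((PV.unif V).prod p), fun F => ?_⟩
  rw [PV.E_prod, PV.unif_E]
  unfold EE E0
  refine Finset.expect_congr rfl fun u _ => ?_
  rw [PV.E_prod, PV.unif_E]
  refine Finset.expect_congr rfl fun w _ => ?_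
  rw [hp]

omit [Nonempty V] in
theorem expect_E_mul_E {Ω : Type} [Fintype Ω] (p : PV Ω) (f g : V → V → Ω → ℝ) :
    𝔼 u, 𝔼 w, p.E (f u w) * p.E (g u w) =
      (p.prod p).E fun y => 𝔼 u, 𝔼 w, f u w y.1 * g u w y.2 := by
  rw [PV.E_expect]
  refine Finset.expect_congr rfl fun u _ => ?_
  rw [PV.E_expect]
  refine Finset.expect_congr rfl fun w _ => ?_
  rw [PV.E_prod, ← PV.E_mul_right]
  congr 1
  funext y
  exact (PV.E_mul_left p _ _).symm

omit [Nonempty V] in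
theorem expect_sq_E {Ω : Type} [Fintype Ω] (p : PV Ω) (f g : V → Ω → ℝ) :
    𝔼 u, 𝔼 w, (p.E fun ω => f u ω * g w ω) ^ 2 =
      (p.prod p).E fun y => (𝔼 u, f u y.1 * f u y.2) * (𝔼 w, g w y.1 * g w y.2) := by
  simp only [sq]
  rw [expect_E_mul_E p (fun u w ω => f u ω * g w ω) (fun u w ω => f u ω * g w ω)]
  congr 1
  funext y
  rw [Finset.expect_mul_expect]
  refine Finset.expect_congr rfl fun u _ => Finset.expect_congr rfl fun w _ => by ring

theorem cov_eq {Ω : Type} [Fintype Ω] (p : PV Ω) (f g : Ω → ℝ) :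
    p.E (fun ω => f ω * g ω) - p.E f * p.E g =
      p.E fun ω => (f ω - p.E f) * (g ω - p.E g) := by
  have : (fun ω => (f ω - p.E f) * (g ω - p.E g)) =
      fun ω => (f ω * g ω - p.E f * g ω) - (f ω * p.E g - p.E f * p.E g) := by
    funext ω; ring
  rw [this, PV.E_sub, PV.E_sub, PV.E_sub, PV.E_mul_left, PV.E_mul_right, PV.E_const]
  ring

theorem abs_cov_le {Ω : Type} [Fintype Ω] (p : PV Ω) {f g : Ω → ℝ}
    (hf : ∀ ω, 0 ≤ f ω ∧ f ω ≤ 1) (hg : ∀ ω, 0 ≤ g ω ∧ g ω ≤ 1) :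
    |p.E (fun ω => f ω * g ω) - p.E f * p.E g| ≤ 1 := by
  have h1 : 0 ≤ p.E (fun ω => f ω * g ω) := p.E_nonneg fun ω => mul_nonneg (hf ω).1 (hg ω).1
  have h2 : p.E (fun ω => f ω * g ω) ≤ 1 := by
    rw [← p.E_const 1]
    exact p.E_mono fun ω => mul_le_one₀ (hf ω).2 (hg ω).1 (hg ω).2
  have h3 : 0 ≤ p.E f := p.E_nonneg fun ω => (hf ω).1
  have h4 : p.E f ≤ 1 := by rw [← p.E_const 1]; exact p.E_mono fun ω => (hf ω).2
  have h5 : 0 ≤ p.E g := p.E_nonneg fun ω => (hg ω).1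
  have h6 : p.E g ≤ 1 := by rw [← p.E_const 1]; exact p.E_mono fun ω => (hg ω).2
  have h7 := mul_nonneg h3 h5
  have h8 := mul_le_one₀ h4 h5 h6
  rw [abs_le]; constructor <;> linarith

/-- Cauchy–Schwarz for the average over two sites -/
theorem expect_abs_sq_le (F : V → V → ℝ) :
    (𝔼 u, 𝔼 w, |F u w|) ^ 2 ≤ 𝔼 u, 𝔼 w, F u w ^ 2 := by
  have h := ((PV.unif V).prod (PV.unif V)).E_mul_sq_le (fun a => |F a.1 a.2|) (fun _ => 1)
  simp only [mul_one, one_pow, PV.E_const, sq_abs, PV.E_prod, PV.unif_E] at h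
  exact h

theorem abs_le_add_sq_div {δ : ℝ} (hδ : 0 < δ) (a : ℝ) : |a| ≤ δ + δ⁻¹ * a ^ 2 := by
  by_cases h : |a| ≤ δ
  · have : 0 ≤ δ⁻¹ * a ^ 2 := by positivity
    linarith
  · have h1 : δ * |a| ≤ a ^ 2 := by
      rw [← sq_abs, sq]
      exact mul_le_mul_of_nonneg_right (le_of_not_ge h) (abs_nonneg a)
    have h2 : |a| ≤ δ⁻¹ * a ^ 2 := by
      rw [le_inv_mul_iff₀ hδ]; exact h1
    linarith

omit [Fintype Ξ] [Nonempty Ξ] [Fintype V] [Nonempty V] in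
theorem spinF_nonneg (u : V) (b : Bool) (x : Path R Ξ) : 0 ≤ spinF σ u b x := by
  unfold spinF ind; split_ifs <;> norm_num

omit [Fintype Ξ] [Nonempty Ξ] [Fintype V] [Nonempty V] in
theorem abs_spinF_le (u : V) (b : Bool) (x : Path R Ξ) : |spinF σ u b x| ≤ 1 := by
  unfold spinF ind; split_ifs <;> norm_num

theorem abs_mul_le_one {a b : ℝ} (ha : |a| ≤ 1) (hb : |b| ≤ 1) : |a * b| ≤ 1 := by
  rw [abs_mul]; exact mul_le_one₀ ha (abs_nonneg _) hb

omit [Fintype Ξ] [Nonempty Ξ] in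
theorem abs_oldF_le {φ : Bool → Path R Ξ → ℝ} (h : ∀ b x, |φ b x| ≤ 1) (l : Lb) (x : Path R Ξ) :
    |oldF φ l x| ≤ 1 := by
  unfold oldF
  cases l.1 with
  | none => simp
  | some b => exact h b x

omit [Fintype Ξ] [Nonempty Ξ] in
theorem oldF_nonneg {φ : Bool → Path R Ξ → ℝ} (h : ∀ b x, 0 ≤ φ b x) (l : Lb) (x : Path R Ξ) :
    0 ≤ oldF φ l x := by
  unfold oldF
  cases l.1 with
  | none => simp
  | some b => exact h b x

omit [Fintype Ξ] [Nonempty Ξ] in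
theorem abs_roleF_le {ψ : ℕ × Bool → Path R Ξ → ℝ} (h : ∀ b x, |ψ b x| ≤ 1) (l : Lb)
    (x : Path R Ξ) : |roleF ψ l x| ≤ 1 := by
  unfold roleF
  cases l.2 with
  | none => simp
  | some b => exact h b x

omit [Fintype Ξ] [Nonempty Ξ] in
theorem roleF_nonneg {ψ : ℕ × Bool → Path R Ξ → ℝ} (h : ∀ b x, 0 ≤ ψ b x) (l : Lb)
    (x : Path R Ξ) : 0 ≤ roleF ψ l x := by
  unfold roleF
  cases l.2 with
  | none => simp
  | some b => exact h b x

omit [Fintype Ξ] [Nonempty Ξ] in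
theorem oldF_mul (φ φ' : Bool → Path R Ξ → ℝ) :
    oldF φ * oldF φ' = oldF fun b x => φ b x * φ' b x := by
  funext l x
  show oldF φ l x * oldF φ' l x = _
  unfold oldF
  cases l.1 with
  | none => simp
  | some b => rfl

omit [Nonempty Ξ] [Fintype V] [Nonempty V] in
theorem yv_nonneg (τ : Tr Bool) (u : V) (x : Path R Ξ) : 0 ≤ yv κ σ τ u x :=
  ev_nonneg κ (spinF_nonneg σ u) τ x

omit [Nonempty Ξ] [Fintype V] [Nonempty V] in
theorem abs_yv_le (τ : Tr Bool) (u : V) (x : Path R Ξ) : |yv κ σ τ u x| ≤ 1 :=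
  abs_ev_le_one κ (abs_spinF_le σ u) τ x

omit [Nonempty Ξ] [Fintype V] [Nonempty V] in
theorem zv_nonneg (τ : Tr Bool) (u w : V) (x : Path R Ξ) : 0 ≤ zv κ σ τ u w x :=
  ev_nonneg κ (fun b y => mul_nonneg (spinF_nonneg σ u b y) (spinF_nonneg σ w b y)) τ x

omit [Nonempty Ξ] [Fintype V] [Nonempty V] in
theorem abs_zv_le (τ : Tr Bool) (u w : V) (x : Path R Ξ) : |zv κ σ τ u w x| ≤ 1 :=
  abs_ev_le_one κ (fun b y => abs_mul_le_one (abs_spinF_le σ u b y) (abs_spinF_le σ w b y)) τ x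

theorem E0_mono {F G : Path R Ξ → ℝ} (h : ∀ x, F x ≤ G x) : E0 κ F ≤ E0 κ G :=
  Ex_mono κ 0 h _

theorem E0_add (F G : Path R Ξ → ℝ) : E0 κ (fun x => F x + G x) = E0 κ F + E0 κ G :=
  Ex_add κ 0 F G _

theorem E0_sub (F G : Path R Ξ → ℝ) : E0 κ (fun x => F x - G x) = E0 κ F - E0 κ G :=
  Ex_sub κ 0 F G _

theorem E0_mul_left (c : ℝ) (F : Path R Ξ → ℝ) : E0 κ (fun x => c * F x) = c * E0 κ F :=
  Ex_mul_left κ 0 c F _

theorem E0_const (c : ℝ) : E0 κ (fun _ => c) = c := Ex_const κ 0 c _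

theorem E0_nonneg {F : Path R Ξ → ℝ} (h : ∀ x, 0 ≤ F x) : 0 ≤ E0 κ F := Ex_nonneg κ 0 h _

theorem E0_abs_Ex_le (s : ℕ) (F : Path R Ξ → ℝ) :
    E0 κ (fun x => |Ex κ s F x|) ≤ E0 κ fun x => |F x| := by
  rw [← E0_Ex κ s fun x => |F x|]
  exact E0_mono κ fun x => abs_Ex_le κ s F x

theorem shift_aux {s t r : ℕ} (hst : s ≤ t) (htr : t ≤ r) (f g : Path R Ξ → ℝ) :
    E0 κ (fun x => |Ex κ t g x - Ex κ s f x|) ≤
      E0 κ (fun x => |g x - f x|) + E0 κ fun x => |Ex κ r f x - Ex κ s f x| := by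
  refine le_trans ?_ (add_le_add (E0_abs_Ex_le κ t _) (E0_abs_Ex_le κ t _))
  rw [← E0_add]
  refine E0_mono κ fun x => ?_
  rw [Ex_sub, Ex_sub, Ex_Ex κ htr, Ex_Ex' κ hst]
  have : Ex κ t g x - Ex κ s f x = (Ex κ t g x - Ex κ t f x) + (Ex κ t f x - Ex κ s f x) := by ring
  rw [this]
  exact abs_add_le _ _

theorem E0_sq_incr {s t : ℕ} (hst : s ≤ t) (f : Path R Ξ → ℝ) :
    E0 κ (fun x => (Ex κ t f x - Ex κ s f x) ^ 2) =
      E0 κ (fun x => Ex κ t f x ^ 2) - E0 κ fun x => Ex κ s f x ^ 2 := by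
  have h1 : E0 κ (fun x => Ex κ s f x * Ex κ t f x) = E0 κ fun x => Ex κ s f x ^ 2 := by
    rw [← E0_Ex κ s]
    congr 1
    funext x
    rw [Ex_meas_mul κ (Ex_meas κ f s), Ex_Ex κ hst, sq]
  have h2 : (fun x => (Ex κ t f x - Ex κ s f x) ^ 2) = fun x =>
      (Ex κ t f x ^ 2 - 2 * (Ex κ s f x * Ex κ t f x)) + Ex κ s f x ^ 2 := by
    funext x; ring
  rw [h2, E0_add, E0_sub, E0_mul_left, h1]
  ring

theorem sum_shift_le {q : ℕ → ℝ} (h0 : ∀ s, 0 ≤ q s) (h1 : ∀ s, q s ≤ 1) (R D : ℕ) :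
    ∑ s ∈ range R, (q (s + D) - q s) ≤ D := by
  have e1 := Finset.sum_range_add q D R
  have e2 := Finset.sum_range_add q R D
  rw [add_comm D R] at e1
  have e3 : ∑ s ∈ range R, q (s + D) = ∑ s ∈ range R, q (D + s) :=
    sum_congr rfl fun s _ => by rw [add_comm]
  have e4 : ∑ s ∈ range D, q (R + s) ≤ D := by
    calc ∑ s ∈ range D, q (R + s) ≤ ∑ _s ∈ range D, (1 : ℝ) := sum_le_sum fun s _ => h1 _
      _ = D := by simp
  have e5 : 0 ≤ ∑ s ∈ range D, q s := sum_nonneg fun s _ => h0 s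
  rw [sum_sub_distrib, e3]
  linarith

end HS

theorem EE_add (F G : V → V → Path R Ξ → ℝ) :
    EE κ (fun u w x => F u w x + G u w x) = EE κ F + EE κ G := by
  obtain ⟨P, hP⟩ := HS.EE_rep (V := V) κ
  simp only [hP]
  exact P.E_add _ _

theorem EE_sub (F G : V → V → Path R Ξ → ℝ) :
    EE κ (fun u w x => F u w x - G u w x) = EE κ F - EE κ G := by
  obtain ⟨P, hP⟩ := HS.EE_rep (V := V) κ
  simp only [hP]
  exact P.E_sub _ _

theorem EE_mul_left (c : ℝ) (F : V → V → Path R Ξ → ℝ) :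
    EE κ (fun u w x => c * F u w x) = c * EE κ F := by
  obtain ⟨P, hP⟩ := HS.EE_rep (V := V) κ
  simp only [hP]
  exact P.E_mul_left _ _

theorem EE_const (c : ℝ) : EE κ (fun (_ _ : V) _ => c) = c := by
  obtain ⟨P, hP⟩ := HS.EE_rep (V := V) κ
  simp only [hP]
  exact P.E_const _

theorem EE_mono {F G : V → V → Path R Ξ → ℝ} (h : ∀ u w x, F u w x ≤ G u w x) :
    EE κ F ≤ EE κ G := by
  obtain ⟨P, hP⟩ := HS.EE_rep (V := V) κ
  simp only [hP]
  exact P.E_mono fun a => h _ _ _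

theorem abs_EE_le (F : V → V → Path R Ξ → ℝ) : |EE κ F| ≤ EE κ fun u w x => |F u w x| := by
  obtain ⟨P, hP⟩ := HS.EE_rep (V := V) κ
  simp only [hP]
  exact P.abs_E_le _

theorem EE_Ex (s : ℕ) (F : V → V → Path R Ξ → ℝ) : EE κ (fun u w => Ex κ s (F u w)) = EE κ F := by
  simp only [EE, E0_Ex]

theorem EE_eq (F : V → V → Path R Ξ → ℝ) : EE κ F = E0 κ fun x => 𝔼 u, 𝔼 w, F u w x := by
  unfold EE E0
  rw [Ex_expect]
  refine Finset.expect_congr rfl fun u _ => ?_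
  rw [Ex_expect]

theorem EE_left (F : V → Path R Ξ → ℝ) : EE κ (fun u (_ : V) => F u) = 𝔼 u, E0 κ (F u) := by
  unfold EE
  refine Finset.expect_congr rfl fun u _ => ?_
  exact Fintype.expect_const _

theorem EE_right (F : V → Path R Ξ → ℝ) : EE κ (fun (_ : V) w => F w) = 𝔼 w, E0 κ (F w) := by
  unfold EE
  exact Fintype.expect_const _

/-- conditional expectations contract the `L¹` norm -/
theorem EE_abs_Ex_le (s : ℕ) (F : V → V → Path R Ξ → ℝ) :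
    EE κ (fun u w x => |Ex κ s (F u w) x|) ≤ EE κ fun u w x => |F u w x| := by
  rw [← EE_Ex κ s fun u w x => |F u w x|]
  exact EE_mono κ fun u w x => abs_Ex_le κ s _ x

/-- `|a| ≤ δ + a²/δ` -/
theorem EE_abs_le_sq {δ : ℝ} (hδ : 0 < δ) (F : V → V → Path R Ξ → ℝ) :
    EE κ (fun u w x => |F u w x|) ≤ δ + EE κ (fun u w x => F u w x ^ 2) / δ := by
  refine (EE_mono κ fun u w x => HS.abs_le_add_sq_div hδ (F u w x)).trans (le_of_eq ?_)
  rw [EE_add κ (fun _ _ _ => δ), EE_const, EE_mul_left, div_eq_inv_mul]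

theorem abs_spinF_le (u : V) (b : Bool) (x : Path R Ξ) : |spinF σ u b x| ≤ 1 := by
  exact HS.abs_spinF_le σ u b x

theorem abs_lfv_le (u w : V) (l : Lb) (x : Path R Ξ) : |lfv σ u w l x| ≤ 1 := by
  exact HS.abs_mul_le_one (HS.abs_oldF_le (HS.abs_spinF_le σ u) l x)
    (HS.abs_roleF_le (fun c => HS.abs_spinF_le σ w c.2) l x)

theorem abs_yv_le (τ : Tr Bool) (u : V) (x : Path R Ξ) : |yv κ σ τ u x| ≤ 1 := by
  exact HS.abs_yv_le κ σ τ u x

theorem abs_val_le (T : Tr Lb) : |val κ σ T| ≤ 1 := by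
  refine (abs_EE_le κ _).trans ?_
  rw [← EE_const (V := V) κ 1]
  exact EE_mono κ fun u w x => abs_ev_le_one κ (abs_lfv_le σ u w) T x

/-- With `Ex_rep`: the expression is `Σ_{y,y'} p y p y' (𝔼_u a u y · b u y')²`. -/
theorem psd_inner (a b : V → Path R Ξ → ℝ) (s : ℕ) (x : Path R Ξ) :
    0 ≤ 𝔼 u, 𝔼 w, Ex κ s (fun y => a u y * a w y) x * Ex κ s (fun y => b u y * b w y) x := by
  obtain ⟨p, hp⟩ := Ex_rep κ s x
  simp only [hp]
  rw [HS.expect_E_mul_E p (fun u w y => a u y * a w y) (fun u w y => b u y * b w y)]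
  refine PV.E_nonneg _ fun y => ?_
  have : 𝔼 u, 𝔼 w, a u y.1 * a w y.1 * (b u y.2 * b w y.2) =
      (𝔼 u, a u y.1 * b u y.2) * 𝔼 w, a w y.1 * b w y.2 := by
    rw [Finset.expect_mul_expect]
    refine Finset.expect_congr rfl fun u _ => Finset.expect_congr rfl fun w _ => by ring
  rw [this]
  exact mul_self_nonneg _

/-- `K - K_t` is the covariance kernel of `y - Ex t y` (`Ex_Ex`, `Ex_meas_mul`) -/
theorem Ex_mul_sub_Ex {s t : ℕ} (hst : s ≤ t) (f g : Path R Ξ → ℝ) (x : Path R Ξ) :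
    Ex κ s (fun y => f y * g y) x - Ex κ s (fun y => Ex κ t f y * Ex κ t g y) x =
      Ex κ s (fun y => (f y - Ex κ t f y) * (g y - Ex κ t g y)) x := by
  have h1 : Ex κ s (fun y => f y * Ex κ t g y) x = Ex κ s (fun y => Ex κ t f y * Ex κ t g y) x := by
    rw [← Ex_Ex κ hst]
    congr 1
    funext y
    exact Ex_mul_meas κ (Ex_meas κ g t) f y
  have h2 : Ex κ s (fun y => Ex κ t f y * g y) x = Ex κ s (fun y => Ex κ t f y * Ex κ t g y) x := by
    rw [← Ex_Ex κ hst]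
    congr 1
    funext y
    exact Ex_meas_mul κ (Ex_meas κ f t) g y
  have h3 : (fun y => (f y - Ex κ t f y) * (g y - Ex κ t g y)) = fun y =>
      (f y * g y - f y * Ex κ t g y) - (Ex κ t f y * g y - Ex κ t f y * Ex κ t g y) := by
    funext y; ring
  rw [h3, Ex_sub, Ex_sub, Ex_sub, h1, h2]
  ring

/-- Abstract form.  With `a' = a - E a`, `b' = b - E b`:
`𝔼_{u,w} Cov(a u, b w)² = E_ω E_ω' (𝔼_u a' u ω a' u ω') (𝔼_w b' w ω b' w ω')`; Cauchy–Schwarz over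
`(ω, ω')`; `E_ω E_ω' (𝔼_u a' u ω a' u ω')² = 𝔼_{u,u'} Cov(a u, a u')²`.  All covariances of `[0,1]`-valued
variables are at most `1` in absolute value. -/
theorem cross_cov_sq {Ω : Type} [Fintype Ω] (p : PV Ω) (a b : V → Ω → ℝ)
    (ha : ∀ u ω, 0 ≤ a u ω ∧ a u ω ≤ 1) (hb : ∀ u ω, 0 ≤ b u ω ∧ b u ω ≤ 1) :
    (𝔼 u, 𝔼 w, (p.E (fun ω => a u ω * b w ω) - p.E (a u) * p.E (b w)) ^ 2) ^ 2 ≤
      𝔼 u, 𝔼 w, |p.E (fun ω => a u ω * a w ω) - p.E (a u) * p.E (a w)| := by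
  have hA : (p.prod p).E (fun y => (𝔼 u, (a u y.1 - p.E (a u)) * (a u y.2 - p.E (a u))) ^ 2) ≤
      𝔼 u, 𝔼 w, |p.E (fun ω => a u ω * a w ω) - p.E (a u) * p.E (a w)| := by
    have h := HS.expect_sq_E p (fun u ω => a u ω - p.E (a u)) (fun u ω => a u ω - p.E (a u))
    simp only [← sq] at h
    rw [← h]
    refine HS.expect_mono fun u => HS.expect_mono fun w => ?_
    rw [← HS.cov_eq, ← sq_abs, sq]
    exact mul_le_of_le_one_left (abs_nonneg _) (HS.abs_cov_le p (ha u) (ha w))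
  have hB : (p.prod p).E (fun y => (𝔼 u, (b u y.1 - p.E (b u)) * (b u y.2 - p.E (b u))) ^ 2)
      ≤ 1 := by
    have h := HS.expect_sq_E p (fun u ω => b u ω - p.E (b u)) (fun u ω => b u ω - p.E (b u))
    simp only [← sq] at h
    rw [← h, ← Fintype.expect_const (ι := V) (1 : ℝ)]
    refine HS.expect_mono fun u => ?_
    rw [← Fintype.expect_const (ι := V) (1 : ℝ)]
    refine HS.expect_mono fun w => ?_
    rw [← HS.cov_eq, ← sq_abs]
    exact pow_le_one₀ (abs_nonneg _) (HS.abs_cov_le p (hb u) (hb w))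
  simp only [HS.cov_eq p (a _) (b _)]
  rw [HS.expect_sq_E p (fun u ω => a u ω - p.E (a u)) (fun u ω => b u ω - p.E (b u))]
  refine ((p.prod p).E_mul_sq_le _ _).trans ?_
  refine le_trans (mul_le_of_le_one_right ?_ hB) hA
  exact PV.E_nonneg _ fun _ => sq_nonneg _

/-- Fix `x`, take `ev_rep X t x`, `a u ω = χ ω (oldF (spinF σ u))`,
`b w ω = χ ω (roleF fun c => spinF σ w c.2)`; `lfv σ u w` is the product of the two families,
`oldF φ * oldF φ' = oldF (φ φ')`.  So `E a u = yv τ u x`, `E (a u · a w) = zv τ u w x`,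
`E b w = Ex t (yv A w) x` (`ev_map`).  If `c = 𝔼_{u,w}|zv - yv yv|(x)`, then by `cross_cov_sq` and
Cauchy–Schwarz `(𝔼_{u,w} |cross|)⁴ ≤ c`, hence `𝔼_{u,w} |cross| ≤ δ + c/δ³`.  Integrate (`EE_eq`). -/
theorem cross_le {X : Tr Lb} {τ : Tr Bool} {Q : Tr (ℕ × Bool)} {t : ℕ}
    (hold : ∀ φ, Ex κ t (ev κ (oldF φ) X) = ev κ φ τ)
    (hrole : ∀ ψ, Ex κ t (ev κ (roleF ψ) X) = Ex κ t (ev κ ψ Q)) {δ : ℝ} (hδ : 0 < δ) :
    EE κ (fun u w x => |Ex κ t (ev κ (lfv σ u w) X) x -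
      yv κ σ τ u x * Ex κ t (yv κ σ (Q.map Prod.snd) w) x|) ≤ δ + iota κ σ τ / δ ^ 3 := by
  unfold iota
  rw [EE_eq, EE_eq, div_eq_inv_mul, ← HS.E0_mul_left, ← HS.E0_const κ δ, ← HS.E0_add]
  simp only [HS.E0_const]
  refine HS.E0_mono κ fun x => ?_
  obtain ⟨Ω, _, p, χ, h1, h2, h3⟩ := ev_rep κ X t x
  have ha : ∀ u ω, 0 ≤ χ ω (oldF (spinF σ u)) ∧ χ ω (oldF (spinF σ u)) ≤ 1 := fun u ω =>
    ⟨h3 ω _ (HS.oldF_nonneg (HS.spinF_nonneg σ u)),
      (le_abs_self _).trans (h2 ω _ (HS.abs_oldF_le (HS.abs_spinF_le σ u)))⟩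
  have hb : ∀ w ω, 0 ≤ χ ω (roleF fun c => spinF σ w c.2) ∧
      χ ω (roleF fun c => spinF σ w c.2) ≤ 1 := fun w ω =>
    ⟨h3 ω _ (HS.roleF_nonneg fun c => HS.spinF_nonneg σ w c.2),
      (le_abs_self _).trans (h2 ω _ (HS.abs_roleF_le fun c => HS.abs_spinF_le σ w c.2))⟩
  have key := cross_cov_sq p (fun u ω => χ ω (oldF (spinF σ u)))
    (fun w ω => χ ω (roleF fun c => spinF σ w c.2)) ha hb
  have e1 : ∀ u, (p.E fun ω => χ ω (oldF (spinF σ u))) = yv κ σ τ u x := fun u => by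
    rw [← h1, hold]; rfl
  have e2 : ∀ w, (p.E fun ω => χ ω (roleF fun c => spinF σ w c.2)) =
      Ex κ t (yv κ σ (Q.map Prod.snd) w) x := fun w => by
    rw [← h1, hrole]
    unfold yv
    rw [ev_map]
  have e3 : ∀ u w, (p.E fun ω => χ ω (oldF (spinF σ u)) * χ ω (roleF fun c => spinF σ w c.2)) =
      Ex κ t (ev κ (lfv σ u w) X) x := fun u w => by
    simp only [← map_mul]
    rw [← h1]; rfl
  have e4 : ∀ u w, (p.E fun ω => χ ω (oldF (spinF σ u)) * χ ω (oldF (spinF σ w))) =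
      zv κ σ τ u w x := fun u w => by
    simp only [← map_mul]
    rw [← h1, HS.oldF_mul, hold]; rfl
  simp only [e1, e2, e3, e4] at key
  have cs := HS.expect_abs_sq_le fun u w => Ex κ t (ev κ (lfv σ u w) X) x -
      yv κ σ τ u x * Ex κ t (yv κ σ (Q.map Prod.snd) w) x
  generalize (𝔼 u, 𝔼 w, |zv κ σ τ u w x - yv κ σ τ u x * yv κ σ τ w x|) = c at key ⊢
  generalize (𝔼 u, 𝔼 w, |Ex κ t (ev κ (lfv σ u w) X) x -
      yv κ σ τ u x * Ex κ t (yv κ σ (Q.map Prod.snd) w) x|) = m at cs ⊢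
  have h4 : (m ^ 2) ^ 2 ≤ c := (pow_le_pow_left₀ (sq_nonneg m) cs 2).trans key
  have hc : 0 ≤ c := (sq_nonneg _).trans h4
  by_cases hm : m ≤ δ
  · have : 0 ≤ (δ ^ 3)⁻¹ * c := by positivity
    linarith
  · have hm' : δ ≤ m := le_of_not_ge hm
    have h5 : δ ^ 3 * m ≤ c := by
      refine le_trans ?_ h4
      have : δ ^ 3 ≤ m ^ 3 := pow_le_pow_left₀ hδ.le hm' 3
      calc δ ^ 3 * m ≤ m ^ 3 * m := mul_le_mul_of_nonneg_right this (hδ.le.trans hm')
        _ = (m ^ 2) ^ 2 := by ring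
    have h6 : m ≤ (δ ^ 3)⁻¹ * c := by
      rw [le_inv_mul_iff₀ (by positivity)]; exact h5
    linarith

theorem fD_nonneg (D s : ℕ) (a : Tr Bool) : 0 ≤ fD κ σ D s a := by
  exact Finset.expect_nonneg fun u _ => HS.E0_nonneg κ fun x => abs_nonneg _

theorem Om_nonneg (D : ℕ) (τ : Tr Bool) : 0 ≤ Om κ σ D τ := by
  induction τ with
  | leaf b => exact le_rfl
  | node u a b iha ihb =>
    have h1 := fD_nonneg κ σ D u a
    have h2 := fD_nonneg κ σ D u b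
    unfold Om
    linarith

/-- Induction on `τ` for all `n`.  For a node:
`|Ex (u+n) y_{a'} - Ex u y_a| ≤ Ex (u+n) |y_{a'} - y_a| + |Ex (u+n) (Ex (u+D) y_a - Ex u y_a)|`
as `n ≤ D` (`Ex_Ex`, `Ex_Ex'`), and all factors are bounded by `1`. -/
theorem shift_le (D : ℕ) (τ : Tr Bool) (n : ℕ) (hn : n + τ.size ≤ D + 2) :
    𝔼 u, E0 κ (fun x => |yv κ σ (shf τ n) u x - yv κ σ τ u x|) ≤ Om κ σ D τ := by
  induction τ generalizing n with
  | leaf b =>
    simp only [shf, sub_self, abs_zero, HS.E0_const, Om]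
    simp
  | node s a c iha ihc =>
    have ha := a.size_pos
    have hc := c.size_pos
    simp only [Tr.size] at hn
    have h1 := iha (n + 1) (by omega)
    have h2 := ihc (n + a.size) (by omega)
    have key : ∀ u, E0 κ (fun x => |yv κ σ (shf (.node s a c) n) u x - yv κ σ (.node s a c) u x|) ≤
        (E0 κ (fun x => |yv κ σ (shf a (n + 1)) u x - yv κ σ a u x|) +
          E0 κ fun x => |Ex κ (s + D) (yv κ σ a u) x - Ex κ s (yv κ σ a u) x|) +
        (E0 κ (fun x => |yv κ σ (shf c (n + a.size)) u x - yv κ σ c u x|) +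
          E0 κ fun x => |Ex κ (s + D) (yv κ σ c u) x - Ex κ s (yv κ σ c u) x|) := by
      intro u
      refine le_trans ?_ (add_le_add
        (HS.shift_aux κ (s := s) (t := s + n) (by omega) (by omega) _ _)
        (HS.shift_aux κ (s := s) (t := s + n) (by omega) (by omega) _ _))
      rw [← HS.E0_add]
      refine HS.E0_mono κ fun x => ?_
      show |Ex κ (s + n) (yv κ σ (shf a (n + 1)) u) x *
          Ex κ (s + n) (yv κ σ (shf c (n + a.size)) u) x -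
          Ex κ s (yv κ σ a u) x * Ex κ s (yv κ σ c u) x| ≤ _
      have b1 := abs_Ex_le_of κ (s + n) (HS.abs_yv_le κ σ (shf c (n + a.size)) u) x
      have b2 := abs_Ex_le_of κ s (HS.abs_yv_le κ σ a u) x
      generalize Ex κ (s + n) (yv κ σ (shf a (n + 1)) u) x = A at *
      generalize Ex κ (s + n) (yv κ σ (shf c (n + a.size)) u) x = B at *
      generalize Ex κ s (yv κ σ a u) x = A0 at *
      generalize Ex κ s (yv κ σ c u) x = B0 at *
      calc |A * B - A0 * B0| = |(A - A0) * B + A0 * (B - B0)| := by ring_nf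
        _ ≤ |A - A0| * |B| + |A0| * |B - B0| := by
          rw [← abs_mul, ← abs_mul]; exact abs_add_le _ _
        _ ≤ |A - A0| * 1 + 1 * |B - B0| := by gcongr
        _ = _ := by ring
    refine (HS.expect_mono key).trans ?_
    simp only [Finset.expect_add_distrib]
    unfold Om fD
    linarith

theorem iota_nonneg (τ : Tr Bool) : 0 ≤ iota κ σ τ := by
  rw [← EE_const (V := V) κ 0]
  exact EE_mono κ fun u w x => abs_nonneg _

theorem beta_nonneg (τ : Tr Bool) (s : ℕ) : 0 ≤ beta κ σ τ s := by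
  rw [← EE_const (V := V) κ 0]
  exact EE_mono κ fun u w x => abs_nonneg _

theorem cov_nonneg (τ : Tr Bool) (s : ℕ) : 0 ≤ cov κ σ τ s := by
  rw [← EE_const (V := V) κ 0]
  exact EE_mono κ fun u w x => abs_nonneg _

theorem cov_le_one (τ : Tr Bool) (s : ℕ) : cov κ σ τ s ≤ 1 := by
  rw [← EE_const (V := V) κ 1]
  refine EE_mono κ fun u w x => ?_
  have h1 := Ex_nonneg κ s (HS.zv_nonneg κ σ τ u w) x
  have h2 := (le_abs_self _).trans (abs_Ex_le_of κ s (HS.abs_zv_le κ σ τ u w) x)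
  have h3 := Ex_nonneg κ s (HS.yv_nonneg κ σ τ u) x
  have h4 := (le_abs_self _).trans (abs_Ex_le_of κ s (HS.abs_yv_le κ σ τ u) x)
  have h5 := Ex_nonneg κ s (HS.yv_nonneg κ σ τ w) x
  have h6 := (le_abs_self _).trans (abs_Ex_le_of κ s (HS.abs_yv_le κ σ τ w) x)
  have h7 := mul_nonneg h3 h5
  have h8 := mul_le_one₀ h4 h5 h6
  rw [abs_le]; constructor <;> linarith

theorem iota_leaf (b : Bool) : iota κ σ (.leaf b) = 0 := by
  rw [← EE_const (V := V) κ 0]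
  unfold iota
  congr 1
  funext u w x
  simp [zv, yv, ev]

theorem cov_le (τ : Tr Bool) (s : ℕ) : cov κ σ τ s ≤ iota κ σ τ + beta κ σ τ s := by
  refine le_trans ?_ (add_le_add (EE_abs_Ex_le κ s _) le_rfl)
  unfold beta
  rw [← EE_add]
  refine EE_mono κ fun u w x => ?_
  rw [Ex_sub]
  refine le_trans (le_of_eq ?_) (abs_add_le _ _)
  congr 1
  ring

/-- `z_a z_b - (y_a y_a)(y_b y_b) = (z_a - y_a y_a) z_b + y_a y_a (z_b - y_b y_b)` -/
theorem iota_node (u : ℕ) (a b : Tr Bool) :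
    iota κ σ (.node u a b) ≤ cov κ σ a u + cov κ σ b u := by
  unfold cov
  rw [← EE_add]
  refine EE_mono κ fun v w x => ?_
  show |Ex κ u (zv κ σ a v w) x * Ex κ u (zv κ σ b v w) x -
      Ex κ u (yv κ σ a v) x * Ex κ u (yv κ σ b v) x *
        (Ex κ u (yv κ σ a w) x * Ex κ u (yv κ σ b w) x)| ≤ _
  have b1 := abs_Ex_le_of κ u (HS.abs_zv_le κ σ b v w) x
  have b2 := HS.abs_mul_le_one (abs_Ex_le_of κ u (HS.abs_yv_le κ σ a v) x)
    (abs_Ex_le_of κ u (HS.abs_yv_le κ σ a w) x)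
  generalize Ex κ u (zv κ σ a v w) x = Za at *
  generalize Ex κ u (zv κ σ b v w) x = Zb at *
  generalize Ex κ u (yv κ σ a v) x = Ya at *
  generalize Ex κ u (yv κ σ a w) x = Ya' at *
  generalize Ex κ u (yv κ σ b v) x = Yb at *
  generalize Ex κ u (yv κ σ b w) x = Yb' at *
  calc |Za * Zb - Ya * Yb * (Ya' * Yb')| = |(Za - Ya * Ya') * Zb + Ya * Ya' * (Zb - Yb * Yb')| := by
        ring_nf
    _ ≤ |Za - Ya * Ya'| * |Zb| + |Ya * Ya'| * |Zb - Yb * Yb'| := by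
        rw [← abs_mul, ← abs_mul]; exact abs_add_le _ _
    _ ≤ |Za - Ya * Ya'| * 1 + 1 * |Zb - Yb * Yb'| := by gcongr
    _ = _ := by ring

/-- `ev_meas`, `Ex_of_meas` -/
theorem beta_eq_zero {τ : Tr Bool} {s : ℕ} (h : τ.lev R ≤ s) : beta κ σ τ s = 0 := by
  have hm : ∀ u, Meas s (yv κ σ τ u) := fun u => (ev_meas κ _ τ).mono h
  rw [← EE_const (V := V) κ 0]
  unfold beta
  congr 1
  funext u w x
  rw [Ex_meas_mul κ (hm u), Ex_of_meas κ (hm u), sub_self, abs_zero]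

theorem fD_eq_zero {a : Tr Bool} {D s : ℕ} (h : a.lev R ≤ s) : fD κ σ D s a = 0 := by
  have hm : ∀ u, Meas s (yv κ σ a u) := fun u => (ev_meas κ _ a).mono h
  unfold fD
  simp only [Ex_of_meas κ (hm _), Ex_of_meas κ ((hm _).mono (Nat.le_add_right s D)), sub_self,
    abs_zero, HS.E0_const]
  simp

/-- Orthogonality of martingale increments: `E0 (Ex (s+D) y - Ex s y)² = q (s+D) - q s` with
`q s = E0 (Ex s y)² ∈ [0,1]`, so the sum over `s < R` telescopes to at most `D`; `|a| ≤ δ + a²/δ`. -/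
theorem sum_fD_le (D : ℕ) (a : Tr Bool) {δ : ℝ} (hδ : 0 < δ) :
    ∑ s ∈ range R, fD κ σ D s a ≤ R * δ + D / δ := by
  set q : ℕ → ℝ := fun s => 𝔼 u, E0 κ fun x => Ex κ s (yv κ σ a u) x ^ 2 with hq
  have h0 : ∀ s, 0 ≤ q s := fun s =>
    Finset.expect_nonneg fun u _ => HS.E0_nonneg κ fun x => sq_nonneg _
  have h1 : ∀ s, q s ≤ 1 := fun s => by
    rw [← Fintype.expect_const (ι := V) (1 : ℝ)]
    refine HS.expect_mono fun u => ?_
    rw [← HS.E0_const κ 1]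
    refine HS.E0_mono κ fun x => ?_
    rw [← sq_abs]
    exact pow_le_one₀ (abs_nonneg _) (abs_Ex_le_of κ s (HS.abs_yv_le κ σ a u) x)
  have h2 : ∀ s, fD κ σ D s a ≤ δ + δ⁻¹ * (q (s + D) - q s) := fun s => by
    have : δ + δ⁻¹ * (q (s + D) - q s) = 𝔼 u, E0 κ fun x =>
        δ + δ⁻¹ * (Ex κ (s + D) (yv κ σ a u) x - Ex κ s (yv κ σ a u) x) ^ 2 := by
      simp only [HS.E0_add, HS.E0_const, HS.E0_mul_left,
        HS.E0_sq_incr κ (Nat.le_add_right s D), Finset.expect_add_distrib, Fintype.expect_const,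
        ← Finset.mul_expect, Finset.expect_sub_distrib, hq]
    rw [this]
    exact HS.expect_mono fun u => HS.E0_mono κ fun x => HS.abs_le_add_sq_div hδ _
  calc ∑ s ∈ range R, fD κ σ D s a ≤ ∑ s ∈ range R, (δ + δ⁻¹ * (q (s + D) - q s)) :=
        sum_le_sum fun s _ => h2 s
    _ = R * δ + δ⁻¹ * ∑ s ∈ range R, (q (s + D) - q s) := by
        rw [sum_add_distrib, ← mul_sum]; simp
    _ ≤ R * δ + δ⁻¹ * D := by
        gcongr
        exact HS.sum_shift_le h0 h1 R D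
    _ = _ := by rw [div_eq_inv_mul]

end Crest.Agent.R141
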