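import Crest.Agent.R141.Opts

/-! Histories, shifts, localisation and the total variation bound (task R141 Hist). -/

set_option autoImplicit false

namespace Crest.Agent.R141

open Finset
open scoped BigOperators

/-- every parent is an initial id or an earlier new id -/
def WF : List ℕ → List Stp → Prop
  | _, [] => True
  | ids, h :: hs => h.par ∈ ids ∧ WF (h.c :: ids) hs

/-- levels strictly increase, starting above `s` -/
def SValid {α : Type} (R : ℕ) : ℕ → Tr α → Prop
  | _, .leaf _ => True
  | s, .node u a b => s < u ∧ u < R ∧ SValid R u a ∧ SValid R u b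

theorem WF.mono {ids ids' : List ℕ} {hs : List Stp} (h : WF ids hs) (hi : ids ⊆ ids') :
    WF ids' hs := by
  induction hs generalizing ids ids' with
  | nil => trivial
  | cons a hs ih => exact ⟨hi h.1, ih h.2 (List.cons_subset_cons _ hi)⟩

theorem WF.append {ids : List ℕ} {hs hs' : List Stp} (h : WF ids hs)
    (h' : WF (hs.map Stp.c ++ ids) hs') : WF ids (hs ++ hs') := by
  induction hs generalizing ids with
  | nil => simpa using h'
  | cons a hs ih =>
    refine ⟨h.1, ih h.2 (h'.mono fun x hx => ?_)⟩
    simp only [List.map_cons, List.cons_append, List.mem_cons, List.mem_append] at hx ⊢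
    tauto

theorem SValid.mono {α : Type} {R s t : ℕ} {T : Tr α} (h : SValid R t T) (hst : s ≤ t) :
    SValid R s T := by
  cases T with
  | leaf a => trivial
  | node u a b => exact ⟨hst.trans_lt h.1, h.2⟩

theorem SValid.valid {α : Type} {R s : ℕ} {T : Tr α} (h : SValid R s T) : T.Valid R (s + 1) := by
  induction T generalizing s with
  | leaf a => trivial
  | node u a b iha ihb =>
    exact ⟨h.1, h.2.1, (iha h.2.2.1).mono (Nat.le_succ u), (ihb h.2.2.2).mono (Nat.le_succ u)⟩

theorem valid_levels {α : Type} {R s : ℕ} {T : Tr α} (h : T.Valid R s) :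
    ∀ u ∈ T.levels, s ≤ u ∧ u < R := by
  induction T generalizing s with
  | leaf a => simp [Tr.levels]
  | node u a b iha ihb =>
    obtain ⟨h1, h2, h3, h4⟩ := h
    intro v hv
    simp only [Tr.levels, List.mem_cons, List.mem_append] at hv
    rcases hv with rfl | hv | hv
    · exact ⟨h1, h2⟩
    · exact ⟨h1.trans (iha h3 v hv).1, (iha h3 v hv).2⟩
    · exact ⟨h1.trans (ihb h4 v hv).1, (ihb h4 v hv).2⟩

theorem levels_length {α : Type} (T : Tr α) : T.levels.length = T.size - 1 := by
  induction T with
  | leaf a => rfl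
  | node u a b iha ihb =>
    have := a.size_pos
    have := b.size_pos
    simp only [Tr.levels, Tr.size, List.length_cons, List.length_append, iha, ihb]
    omega

theorem Hist.range'_node (n : ℕ) {k l : ℕ} (hk : 0 < k) (hl : 0 < l) :
    List.range' n (k + l - 1) =
      n :: (List.range' (n + 1) (k - 1) ++ List.range' (n + k) (l - 1)) := by
  obtain ⟨k, rfl⟩ : ∃ k', k = k' + 1 := ⟨k - 1, by omega⟩
  obtain ⟨l, rfl⟩ : ∃ l', l = l' + 1 := ⟨l - 1, by omega⟩
  have h1 : k + 1 + (l + 1) - 1 = (k + l) + 1 := by omega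
  have h2 : n + (k + 1) = n + 1 + k := by omega
  rw [h1, List.range'_succ, Nat.add_sub_cancel, Nat.add_sub_cancel, h2, List.range'_append_1]

theorem hist_c (P : Tr Bool) (ρ n : ℕ) : (hist P ρ n).map Stp.c = List.range' n (P.size - 1) := by
  induction P generalizing ρ n with
  | leaf b => rfl
  | node u a c iha ihc =>
    simp only [hist, List.map_cons, List.map_append, iha, ihc, Tr.size]
    rw [Hist.range'_node n a.size_pos c.size_pos]

theorem hist_lv (P : Tr Bool) (ρ n : ℕ) : (hist P ρ n).map Stp.lv = P.levels := by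
  induction P generalizing ρ n with
  | leaf b => rfl
  | node u a c iha ihc => simp only [hist, List.map_cons, List.map_append, iha, ihc, Tr.levels]

theorem hist_length (P : Tr Bool) (ρ n : ℕ) : (hist P ρ n).length = P.size - 1 := by
  rw [← levels_length, ← hist_lv P ρ n, List.length_map]

theorem hist_par (P : Tr Bool) (ρ n : ℕ) :
    ∀ h ∈ hist P ρ n, h.par = ρ ∨ (n ≤ h.par ∧ h.par < h.c) := by
  induction P generalizing ρ n with
  | leaf b => simp [hist]
  | node u a c iha ihc =>
    intro h hh
    simp only [hist, List.mem_cons, List.mem_append] at hh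
    rcases hh with rfl | hh | hh
    · exact Or.inl rfl
    · rcases iha ρ (n + 1) h hh with h1 | h1
      · exact Or.inl h1
      · exact Or.inr ⟨by omega, h1.2⟩
    · have ha := a.size_pos
      rcases ihc n (n + a.size) h hh with h1 | h1
      · have h2 : h.c ∈ List.range' (n + a.size) (c.size - 1) := by
          rw [← hist_c c n]
          exact List.mem_map_of_mem hh
        rw [List.mem_range'_1] at h2
        exact Or.inr ⟨by omega, by omega⟩
      · exact Or.inr ⟨by omega, h1.2⟩

theorem hist_wf (P : Tr Bool) (ρ n : ℕ) : WF [ρ] (hist P ρ n) := by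
  induction P generalizing ρ n with
  | leaf b => trivial
  | node u a c iha ihc =>
    refine ⟨List.mem_singleton_self _, WF.append ((iha ρ (n + 1)).mono ?_) ((ihc _ _).mono ?_)⟩
    · simp
    · simp

theorem idtree_map (P : Tr Bool) (ρ n : ℕ) : (idtree P ρ n).map Prod.snd = P := by
  induction P generalizing ρ n with
  | leaf b => rfl
  | node u a c iha ihc => simp only [idtree, Tr.map, iha, ihc]

theorem shf_facts (τ : Tr Bool) (n : ℕ) : (shf τ n).size = τ.size ∧ (shf τ n).depth = τ.depth ∧
    (shf τ n).first = τ.first := by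
  induction τ generalizing n with
  | leaf b => exact ⟨rfl, rfl, rfl⟩
  | node u a c iha ihc =>
    simp only [shf, Tr.size, Tr.depth, Tr.first, (iha _).1, (iha _).2.1, (iha _).2.2, (ihc _).1,
      (ihc _).2.1, and_self]

/-- the `i`-th level (depth-first order) is shifted by `n + i` -/
theorem shf_levels (τ : Tr Bool) (n : ℕ) :
    (shf τ n).levels = List.zipWith (· + ·) τ.levels (List.range' n (τ.size - 1)) := by
  induction τ generalizing n with
  | leaf b => rfl
  | node u a c iha ihc =>
    simp only [shf, Tr.levels, Tr.size, iha, ihc]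
    rw [Hist.range'_node n a.size_pos c.size_pos, List.zipWith_cons_cons,
      List.zipWith_append (by rw [levels_length, List.length_range'])]

/-- ids increase away from the root -/
theorem shf_svalid {R s D : ℕ} {τ : Tr Bool} (hτ : τ.Valid R s) (hD : ∀ u ∈ τ.levels, u + D < R)
    {n i : ℕ} (hi : i < n) (hn : n + τ.size ≤ D + 2) : SValid R (s + i) (shf τ n) := by
  induction τ generalizing s n i with
  | leaf b => trivial
  | node u a c iha ihc =>
    obtain ⟨h1, -, h3, h4⟩ := hτ
    have ha := a.size_pos
    have hc := c.size_pos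
    simp only [Tr.size] at hn
    have hu := hD u (by simp [Tr.levels])
    refine ⟨by omega, by omega, iha h3 (fun v hv => hD v ?_) (by omega) (by omega),
      ihc h4 (fun v hv => hD v ?_) (by omega) (by omega)⟩
    · simp [Tr.levels, hv]
    · simp [Tr.levels, hv]

theorem Hist.mem_zipWith_range' {L : List ℕ} {n k v : ℕ}
    (hv : v ∈ List.zipWith (· + ·) L (List.range' n k)) :
    ∃ u ∈ L, ∃ i, n ≤ i ∧ i < n + k ∧ v = u + i := by
  induction L generalizing n k with
  | nil => simp at hv
  | cons u L ih =>
    cases k with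
    | zero => simp at hv
    | succ k =>
      rw [List.range'_succ, List.zipWith_cons_cons, List.mem_cons] at hv
      rcases hv with rfl | hv
      · exact ⟨u, List.mem_cons_self, n, le_rfl, by omega, rfl⟩
      · obtain ⟨u', hu', i, h1, h2, h3⟩ := ih hv
        exact ⟨u', List.mem_cons_of_mem _ hu', i, by omega, by omega, h3⟩

theorem Hist.nodup_zipWith_range' {D : ℕ} {Λ : List ℕ} (hΛ : Sep D Λ) {L : List ℕ} (hL : L ⊆ Λ)
    {n k : ℕ} (hk : n + k ≤ D + 1) : (List.zipWith (· + ·) L (List.range' n k)).Nodup := by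
  induction L generalizing n k with
  | nil => simp
  | cons u L ih =>
    cases k with
    | zero => simp
    | succ k =>
      rw [List.range'_succ, List.zipWith_cons_cons, List.nodup_cons]
      refine ⟨fun hv => ?_, ih (fun x hx => hL (List.mem_cons_of_mem _ hx)) (by omega)⟩
      obtain ⟨u', hu', i, h1, h2, h3⟩ := Hist.mem_zipWith_range' hv
      have := hΛ u (hL List.mem_cons_self) u' (hL (List.mem_cons_of_mem _ hu'))
      omega

/-- If the levels in `Λ ⊇ τ.levels` are separated, the shifted levels of two copies with disjoint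
ranges of shifts in `[1, D]` are pairwise distinct and avoid `Λ`: `u + i = u' + i'` forces
`u = u'`. -/
theorem shf_nodup {D : ℕ} {Λ : List ℕ} (hΛ : Sep D Λ) {τ : Tr Bool} (hτ : τ.levels ⊆ Λ)
    (hD : 2 * τ.size ≤ D + 1) :
    ((shf τ 2).levels ++ (shf τ (1 + τ.size)).levels).Nodup ∧
      ∀ u ∈ (shf τ 2).levels ++ (shf τ (1 + τ.size)).levels, u ∉ Λ := by
  have hk := τ.size_pos
  have h : (shf τ 2).levels ++ (shf τ (1 + τ.size)).levels =
      List.zipWith (· + ·) (τ.levels ++ τ.levels) (List.range' 2 (τ.size - 1 + (τ.size - 1))) := by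
    rw [shf_levels, shf_levels, ← List.range'_append_1,
      List.zipWith_append (by rw [levels_length, List.length_range'])]
    congr 3
    omega
  have hL : τ.levels ++ τ.levels ⊆ Λ := List.append_subset.2 ⟨hτ, hτ⟩
  rw [h]
  refine ⟨Hist.nodup_zipWith_range' hΛ hL (by omega), fun v hv hvΛ => ?_⟩
  obtain ⟨u, hu, i, h1, h2, h3⟩ := Hist.mem_zipWith_range' hv
  have := hΛ u (hL hu) v hvΛ
  omega

section
variable {α β γ : Type}

theorem Hist.wbind_wmap (f : α → β) (l : WL α) (g : β → WL γ) :
    wbind (wmap f l) g = wbind l fun a => g (f a) := by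
  simp [wbind, wmap, List.flatMap_map]

theorem Hist.wmap_wbind (f : β → γ) (l : WL α) (g : α → WL β) :
    wmap f (wbind l g) = wbind l fun a => wmap f (g a) := by
  simp [wbind, wmap, List.map_flatMap, List.map_map, Function.comp_def]

theorem Hist.wbind_congr {l : WL α} {g g' : α → WL β} (h : ∀ a, wmem a l → g a = g' a) :
    wbind l g = wbind l g' := by
  unfold wbind
  refine List.flatMap_congr fun p hp => ?_
  rw [h p.2 ⟨p.1, hp⟩]

theorem Hist.wsum_wpos_wmap (f : α → β) (l : WL α) (Φ : β → ℝ) :
    wsum (wpos (wmap f l)) Φ = wsum (wpos l) fun a => Φ (f a) := by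
  simp [wsum, wpos, wmap, List.map_map, Function.comp_def]

theorem Hist.wpos_wneg (l : WL α) : wpos (wneg l) = wpos l := by
  simp [wpos, wneg, List.map_map, Function.comp_def]

theorem Hist.wsum_wpos_congr {l : WL α} {Φ Ψ : α → ℝ} (h : ∀ a, wmem a l → Φ a = Ψ a) :
    wsum (wpos l) Φ = wsum (wpos l) Ψ :=
  le_antisymm (wsum_wpos_le fun a ha => (h a ha).le) (wsum_wpos_le fun a ha => (h a ha).ge)

theorem Hist.wsum_zero_fun (l : WL α) : wsum l (fun _ => 0) = 0 := by
  simp [wsum]

end

section
variable {m : ℕ → ℝ} {R : ℕ}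

theorem wsum_fseq_append (a0 : ℝ) (s : ℕ) (hs hs' : List Stp) (T : Tr Lb) (Φ : Tr Lb → ℝ) :
    wsum (fseq m R a0 s (hs ++ hs') T) Φ =
      wsum (fseq m R a0 s hs T) fun T' => wsum (fseq m R a0 s hs' T') Φ := by
  induction hs generalizing T with
  | nil => simp [fseq]
  | cons h hs ih => simp only [List.cons_append, fseq, wsum_wbind, ih]

theorem wmem_fseq_append {a0 : ℝ} {s : ℕ} {hs hs' : List Stp} {T T'' : Tr Lb} :
    wmem T'' (fseq m R a0 s (hs ++ hs') T) ↔
      ∃ T', wmem T' (fseq m R a0 s hs T) ∧ wmem T'' (fseq m R a0 s hs' T') := by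
  induction hs generalizing T with
  | nil => simp [fseq]
  | cons h hs ih =>
    simp only [List.cons_append, fseq, wmem_wbind, ih]
    constructor
    · rintro ⟨a, ha, T', h1, h2⟩
      exact ⟨T', ⟨a, ha, h1⟩, h2⟩
    · rintro ⟨T', ⟨a, ha, h1⟩, h2⟩
      exact ⟨a, ha, T', h1, h2⟩

theorem fseq_roles {a0 : ℝ} {s : ℕ} {hs : List Stp} {T T' : Tr Lb}
    (h : wmem T' (fseq m R a0 s hs T)) : (roles T').Perm (hs.map Stp.c ++ roles T) := by
  induction hs generalizing T with
  | nil =>
    simp only [fseq, wmem_cons, not_wmem_nil, or_false] at h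
    simp [h]
  | cons a hs ih =>
    simp only [fseq, wmem_wbind] at h
    obtain ⟨T₁, h1, h2⟩ := h
    refine (ih h2).trans ?_
    refine ((sopts_roles (fopts_mem h1)).append_left _).trans ?_
    simp only [List.map_cons, List.cons_append]
    exact List.perm_middle

/-- steps above the level of the root whose parents are on the left only change the left subtree
(equality of lists; `wbind` and `wmap` commute, `List.flatMap_congr`) -/
theorem fseq_left (a0 : ℝ) (s u : ℕ) (hs : List Stp) (X Y : Tr Lb) (hlv : ∀ h ∈ hs, u < h.lv)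
    (hwf : WF (roles X) hs) :
    fseq m R a0 s hs (.node u X Y) =
      wmap (fun X' => .node u X' Y) (fseq m R (if u = s then a0 else m u) u hs X) := by
  induction hs generalizing X with
  | nil => rfl
  | cons h hs ih =>
    have h1 : u < h.lv := hlv h List.mem_cons_self
    have h2 : fopts m R h a0 s (.node u X Y) =
        wmap (fun X' => .node u X' Y) (fopts m R h (if u = s then a0 else m u) u X) := by
      rw [fopts, fstem, if_neg (by simp only [Tr.lev]; omega), if_pos hwf.1, if_neg h1.ne]
      simp
    rw [fseq, fseq, h2, Hist.wbind_wmap, Hist.wmap_wbind]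
    refine Hist.wbind_congr fun X' hX' => ih X' (fun h' hh' => hlv h' (List.mem_cons_of_mem _ hh')) ?_
    exact hwf.2.mono (sopts_roles (fopts_mem hX')).symm.subset

theorem fseq_right (a0 : ℝ) (s u : ℕ) (hs : List Stp) (X Y : Tr Lb) (hlv : ∀ h ∈ hs, u < h.lv)
    (hpar : ∀ h ∈ hs, h.par ∉ roles X) :
    fseq m R a0 s hs (.node u X Y) = wmap (fun Y' => .node u X Y') (fseq m R 0 u hs Y) := by
  induction hs generalizing Y with
  | nil => rfl
  | cons h hs ih =>
    have h1 : u < h.lv := hlv h List.mem_cons_self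
    have h2 : fopts m R h a0 s (.node u X Y) =
        wmap (fun Y' => .node u X Y') (fopts m R h 0 u Y) := by
      rw [fopts, fstem, if_neg (by simp only [Tr.lev]; omega),
        if_neg (hpar h List.mem_cons_self), if_neg h1.ne]
      simp
    rw [fseq, fseq, h2, Hist.wbind_wmap, Hist.wmap_wbind]
    exact Hist.wbind_congr fun Y' _ => ih Y' (fun h' hh' => hlv h' (List.mem_cons_of_mem _ hh'))
      (fun h' hh' => hpar h' (List.mem_cons_of_mem _ hh'))

theorem Hist.stem_new_level {α : Type} (hR : 0 < R) (z : α) (S : Finset ℕ) (T : Tr α) (a0 : ℝ) (s : ℕ)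
    (hS : ∀ u ∈ S, u ∉ T.levels) (ha : s ∈ S → a0 = grid R s) :
    wsum (wpos (stem (grid R) R z a0 s T)) (fun T' => if ∃ u ∈ S, u ∈ T'.levels then 1 else 0) ≤
      S.card / R := by
  have hR' : (0 : ℝ) < R := by exact_mod_cast hR
  have h1 : wsum (wpos (stem (grid R) R z a0 s T))
      (fun T' => if ∃ u ∈ S, u ∈ T'.levels then 1 else 0) =
      ((List.range' s (T.lev R - s)).map fun u => if u ∈ S then (1 / R : ℝ) else 0).sum := by
    simp only [wsum, wpos, stem, List.map_map, Function.comp_def]
    congr 1
    refine List.map_congr_left fun u _ => ?_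
    by_cases hu : u ∈ S
    · rw [if_pos hu, if_pos (c := ∃ v ∈ S, _) ⟨u, hu, by simp [Tr.levels]⟩, mul_one]
      have h2 : (if u = s then a0 else grid R u) = grid R u := by
        split_ifs with h
        · subst h
          exact ha hu
        · rfl
      have h3 : grid R (u + 1) - grid R u = 1 / R := by
        unfold grid
        push_cast
        ring
      rw [h2, h3, abs_of_nonneg (by positivity)]
    · rw [if_neg hu, if_neg (c := ∃ v ∈ S, _), mul_zero]
      rintro ⟨v, hv, hv'⟩
      simp only [Tr.levels, List.append_nil, List.mem_cons] at hv'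
      rcases hv' with rfl | hv'
      · exact hu hv
      · exact hS v hv hv'
  rw [h1, ← List.sum_toFinset _ (List.nodup_range' ..), ← Finset.sum_filter, Finset.sum_const,
    nsmul_eq_mul, mul_one_div]
  gcongr
  intro u hu
  exact (Finset.mem_filter.1 hu).2

theorem Hist.ins_new_level {α : Type} (hR : 0 < R) (z : α) (S : Finset ℕ) (T : Tr α) (a0 : ℝ) (s : ℕ)
    (hS : ∀ u ∈ S, u ∉ T.levels) (ha : s ∈ S → a0 = grid R s) :
    wsum (wpos (ins (grid R) R z a0 s T)) (fun T' => if ∃ u ∈ S, u ∈ T'.levels then 1 else 0) ≤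
      (2 * T.size - 1) * (S.card / R) := by
  induction T generalizing a0 s with
  | leaf a =>
    have := Hist.stem_new_level hR z S (.leaf a) a0 s hS ha
    simp only [ins, Tr.size]
    norm_num at this ⊢
    exact this
  | node u a b iha ihb =>
    have h0 := Hist.stem_new_level hR z S (.node u a b) a0 s hS ha
    have hu : u ∉ S := fun h => hS u h (by simp [Tr.levels])
    have hSa : ∀ v ∈ S, v ∉ a.levels := fun v hv h => hS v hv (by simp [Tr.levels, h])
    have hSb : ∀ v ∈ S, v ∉ b.levels := fun v hv h => hS v hv (by simp [Tr.levels, h])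
    have h1 := iha (if u = s then a0 else grid R u) u hSa fun h => absurd h hu
    have h2 := ihb 0 u hSb fun h => absurd h hu
    have e1 : ∀ a' : Tr α, (∃ v ∈ S, v ∈ (Tr.node u a' b).levels) ↔ ∃ v ∈ S, v ∈ a'.levels := by
      intro a'
      refine exists_congr fun v => and_congr_right fun hv => ?_
      have : v ≠ u := fun h => hu (h ▸ hv)
      simp [Tr.levels, this, hSb v hv]
    have e2 : ∀ b' : Tr α, (∃ v ∈ S, v ∈ (Tr.node u a b').levels) ↔ ∃ v ∈ S, v ∈ b'.levels := by
      intro b'
      refine exists_congr fun v => and_congr_right fun hv => ?_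
      have : v ≠ u := fun h => hu (h ▸ hv)
      simp [Tr.levels, this, hSa v hv]
    rw [ins, wpos_append, wpos_append, wsum_append, wsum_append, Hist.wsum_wpos_wmap, Hist.wsum_wpos_wmap]
    simp only [e1, e2, Tr.size]
    push_cast
    linarith

/-- Options that create a level in `S` (disjoint from the levels of `T`) are insertions on one of
the `2 size - 1` edges at a level of `S`, each of weight `1/R`.  Induction on `T` for all `a0`, `s`
(for the subtrees `s` is a level of `T`, hence not in `S`). -/
theorem wabs_new_level (hR : 0 < R) (h : Stp) (S : Finset ℕ) (T : Tr Lb) (a0 : ℝ) (s : ℕ)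
    (hS : ∀ u ∈ S, u ∉ T.levels) (ha : s ∈ S → a0 = grid R s) :
    wsum (wpos (sopts (grid R) R h a0 s T)) (fun T' => if ∃ u ∈ S, u ∈ T'.levels then 1 else 0) ≤
      2 * T.size * S.card / R := by
  have h1 := Hist.ins_new_level hR h.newL S T a0 s hS ha
  have h2 : wsum (wpos (asg h.asgF T))
      (fun T' => if ∃ u ∈ S, u ∈ T'.levels then (1 : ℝ) else 0) = 0 := by
    refine (Hist.wsum_wpos_congr fun T' hT' => if_neg ?_).trans (Hist.wsum_zero_fun _)
    rw [(asg_mem (R := R) hT').2.2.1]
    rintro ⟨v, hv, hv'⟩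
    exact hS v hv hv'
  have h3 : (0 : ℝ) ≤ S.card / R := by positivity
  rw [sopts, opts, wpos_append, wsum_append, Hist.wpos_wneg, h2, zero_add, mul_div_assoc]
  linarith

theorem Hist.countP_le_succ {hs : List Stp} (hn : (hs.map Stp.lv).Nodup) {L L' : List ℕ} {u : ℕ}
    (h : L' ⊆ u :: L) :
    (hs.countP fun h => decide (h.lv ∉ L)) ≤ (hs.countP fun h => decide (h.lv ∉ L')) + 1 := by
  induction hs with
  | nil => simp
  | cons a hs ih =>
    rw [List.map_cons, List.nodup_cons] at hn
    by_cases hau : a.lv = u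
    · have h1 : (hs.countP fun h => decide (h.lv ∉ L)) ≤
          hs.countP fun h => decide (h.lv ∉ L') := by
        refine List.countP_mono_left fun x hx hxL => ?_
        simp only [decide_eq_true_eq] at hxL ⊢
        intro hx'
        rcases List.mem_cons.1 (h hx') with h2 | h2
        · exact hn.1 (List.mem_map.2 ⟨x, hx, h2.trans hau.symm⟩)
        · exact hxL h2
      rw [List.countP_cons, List.countP_cons]
      split_ifs <;> omega
    · have h1 := ih hn.2
      rw [List.countP_cons, List.countP_cons]
      by_cases h2 : a.lv ∈ L'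
      · have h3 : a.lv ∈ L := (List.mem_cons.1 (h h2)).resolve_left hau
        simpa [h2, h3] using h1
      · simp only [h2, not_false_eq_true, decide_true, if_true]
        split_ifs <;> omega

theorem Hist.wabs_fseq_pot_aux (n : ℕ) (hR : 0 < R) (hs : List Stp) (T : Tr Lb)
    (hn : T.size + hs.length ≤ n) (hT : T.Valid R 0) (hd : (hs.map Stp.lv).Nodup) :
    wabs (fseq (grid R) R 0 0 hs T) ≤ (2 * n * (n + 1) + 1 : ℝ) ^ hs.length *
      (1 / (R : ℝ)) ^ (hs.countP fun h => decide (h.lv ∉ T.levels)) := by
  have hR' : (0 : ℝ) < R := by exact_mod_cast hR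
  have hΔ0 : (0 : ℝ) ≤ 1 / R := by positivity
  have hΔ1 : (1 / R : ℝ) ≤ 1 := by
    rw [div_le_one hR']
    exact_mod_cast hR
  have hg0 : grid R 0 = 0 := by simp [grid]
  induction hs generalizing T with
  | nil => simp [fseq]
  | cons h hs ih =>
    rw [List.map_cons, List.nodup_cons] at hd
    rw [List.length_cons] at hn
    set K : ℝ := 2 * n * (n + 1) + 1 with hK
    have hK0 : 0 ≤ K := by positivity
    have hsz : (T.size : ℝ) ≤ n := by exact_mod_cast (by omega : T.size ≤ n)
    have hn0 : (0 : ℝ) ≤ n := Nat.cast_nonneg n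
    have hih : ∀ T', wmem T' (fopts (grid R) R h 0 0 T) → wabs (fseq (grid R) R 0 0 hs T') ≤
        K ^ hs.length * (1 / (R : ℝ)) ^ (hs.countP fun h => decide (h.lv ∉ T'.levels)) := by
      intro T' hT'
      obtain ⟨h1, h2, -⟩ := opts_mem hT (fopts_mem hT')
      exact ih T' (by omega) h1 hd.2
    set c : ℝ := K ^ hs.length * (1 / (R : ℝ)) ^ (hs.countP fun h => decide (h.lv ∉ T.levels))
      with hc
    have hc0 : 0 ≤ c := by positivity
    rw [fseq, wabs_wbind, List.countP_cons, List.length_cons]
    by_cases hl : h.lv ∈ T.levels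
    · set S : Finset ℕ := (hs.map Stp.lv).toFinset.filter fun v => v ∉ T.levels with hS
      have hScard : (S.card : ℝ) ≤ n := by
        have h1 : S.card ≤ (hs.map Stp.lv).length :=
          (Finset.card_filter_le _ _).trans (List.toFinset_card_le _)
        rw [List.length_map] at h1
        exact_mod_cast (by omega : S.card ≤ n)
      have h1 : ∀ T', wmem T' (fopts (grid R) R h 0 0 T) → wabs (fseq (grid R) R 0 0 hs T') ≤
          c * (1 + R * if ∃ u ∈ S, u ∈ T'.levels then 1 else 0) := by
        intro T' hT'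
        refine (hih T' hT').trans ?_
        rw [hc, mul_assoc]
        refine mul_le_mul_of_nonneg_left ?_ (by positivity)
        obtain ⟨-, -, -, u, hu⟩ := opts_mem hT (fopts_mem hT')
        split_ifs with hm
        · have h2 := pow_le_pow_of_le_one hΔ0 hΔ1 (Hist.countP_le_succ hd.2 hu)
          have h3 : (1 / (R : ℝ)) ^ (hs.countP fun h => decide (h.lv ∉ T'.levels)) =
              (1 / (R : ℝ)) ^ ((hs.countP fun h => decide (h.lv ∉ T'.levels)) + 1) * R := by
            rw [pow_succ]
            field_simp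
          rw [h3]
          exact mul_le_mul h2 (by linarith) hR'.le (by positivity)
        · rw [mul_zero, add_zero, mul_one]
          refine pow_le_pow_of_le_one hΔ0 hΔ1 (List.countP_mono_left fun x hx hxL => ?_)
          simp only [decide_eq_true_eq] at hxL ⊢
          refine fun hx' => hm ⟨x.lv, ?_, hx'⟩
          rw [hS, Finset.mem_filter, List.mem_toFinset]
          exact ⟨List.mem_map_of_mem hx, hxL⟩
      have h2 := wabs_new_level hR h S T 0 0 (fun u hu => (Finset.mem_filter.1 hu).2)
        fun _ => hg0.symm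
      have h3 : wabs (sopts (grid R) R h 0 0 T) ≤ 2 * T.size :=
        wabs_opts_le (adm_grid hR) _ _ le_rfl hR hT le_rfl (adm_grid hR).pos.le
      refine (wsum_wpos_le h1).trans ((wsum_wpos_fopts_le T 0 0 fun T' => ?_).trans ?_)
      · split_ifs <;> positivity
      rw [wsum_mul_left, wsum_add, wsum_mul_left, ← wabs_eq]
      have h4 : (R : ℝ) * wsum (wpos (sopts (grid R) R h 0 0 T))
          (fun T' => if ∃ u ∈ S, u ∈ T'.levels then 1 else 0) ≤ 2 * T.size * S.card := by
        rw [le_div_iff₀ hR'] at h2
        linarith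
      have h5 : (2 * T.size * S.card : ℝ) ≤ 2 * n * n := by gcongr
      simp only [hl, not_true_eq_false, decide_false, Bool.false_eq_true, if_false, add_zero]
      rw [pow_succ, mul_right_comm _ K, ← hc]
      exact mul_le_mul_of_nonneg_left (by linarith) hc0
    · have h1 : ∀ T', wmem T' (fopts (grid R) R h 0 0 T) → wabs (fseq (grid R) R 0 0 hs T') ≤
          c * if ∃ u ∈ ({h.lv} : Finset ℕ), u ∈ T'.levels then 1 else 0 := by
        intro T' hT'
        refine (hih T' hT').trans ?_
        have hlv := fopts_lv hT'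
        rw [if_pos ⟨h.lv, Finset.mem_singleton_self _, hlv⟩, mul_one, hc]
        refine mul_le_mul_of_nonneg_left ?_ (by positivity)
        obtain ⟨-, -, -, u, hu⟩ := opts_mem hT (fopts_mem hT')
        have hu' : h.lv = u := (List.mem_cons.1 (hu hlv)).resolve_right hl
        refine pow_le_pow_of_le_one hΔ0 hΔ1 (List.countP_mono_left fun x hx hxL => ?_)
        simp only [decide_eq_true_eq] at hxL ⊢
        intro hx'
        rcases List.mem_cons.1 (hu hx') with h2 | h2
        · exact hd.1 (List.mem_map.2 ⟨x, hx, h2.trans hu'.symm⟩)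
        · exact hxL h2
      have h2 := wabs_new_level hR h {h.lv} T 0 0
        (fun u hu => by rw [Finset.mem_singleton.1 hu]; exact hl) fun _ => hg0.symm
      refine (wsum_wpos_le h1).trans ((wsum_wpos_fopts_le T 0 0 fun T' => ?_).trans ?_)
      · split_ifs <;> positivity
      rw [wsum_mul_left]
      simp only [hl, not_false_eq_true, decide_true, if_true]
      rw [pow_succ, pow_succ, mul_mul_mul_comm, ← hc]
      refine mul_le_mul_of_nonneg_left (h2.trans ?_) hc0
      rw [Finset.card_singleton, Nat.cast_one, mul_one, mul_one_div]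
      gcongr
      nlinarith

/-- Induction on `hs` for all `T` (`wabs_wbind`), with `C = (2n(n+1))^{|hs|}`.  Let
`pot T hs = countP (h.lv ∉ T.levels)`, `Δ = 1/R ≤ 1`.  An option `T'` adds at most one level
(`opts_mem`).  If `h.lv ∉ T.levels`: every filtered option contains `h.lv` (`fopts_lv`), so
`pot T' hs = pot T hs` (`Nodup`) and the options have total weight `≤ 2 n Δ` (`wabs_new_level` with
`S = {h.lv}`, `wsum_wpos_fopts_le`).  If `h.lv ∈ T.levels`: with `S` the set of the levels of `hs`
that are not in `T`, `Δ^{pot T' hs} ≤ Δ^{pot T hs} (1 + R · 1[T' meets S])`, total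
`≤ 2n + R · 2 n |S|/R`. -/
theorem wabs_fseq_pot (n : ℕ) : ∃ C : ℝ, 1 ≤ C ∧ ∀ (R : ℕ) (_ : 0 < R) (hs : List Stp) (T : Tr Lb),
    T.size + hs.length ≤ n → T.Valid R 0 → (hs.map Stp.lv).Nodup →
    wabs (fseq (grid R) R 0 0 hs T) ≤
      C * (1 / (R : ℝ)) ^ (hs.countP fun h => decide (h.lv ∉ T.levels)) := by
  have hK : (1 : ℝ) ≤ 2 * n * (n + 1) + 1 := by
    have : (0 : ℝ) ≤ 2 * n * (n + 1) := by positivity
    linarith
  refine ⟨(2 * n * (n + 1) + 1) ^ n, one_le_pow₀ hK, fun R hR hs T hn hT hd => ?_⟩
  refine (Hist.wabs_fseq_pot_aux n hR hs T hn hT hd).trans ?_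
  exact mul_le_mul_of_nonneg_right (pow_le_pow_right₀ hK (by omega)) (by positivity)

end

end Crest.Agent.R141
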