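import Crest.Agent.R141.Series
import Crest.Agent.R141.HS
import Crest.Agent.R141.Hist

/-! The generating sums `gen` (task R141 Gen).  Inductions on the depth `d`, for all `s` and `Φ`. -/

set_option autoImplicit false

namespace Crest.Agent.R141

open Finset
open scoped BigOperators

section
variable {α : Type} [Fintype α] {m : ℕ → ℝ} {R : ℕ}

theorem wt_nonneg {s₀ s u : ℕ} (hm : Adm m R s₀) (h0 : s₀ ≤ s) (h1 : s ≤ u) (h2 : u < R) :
    0 ≤ wt m u s := by
  unfold wt
  split_ifs with h
  · exact (hm.pos' (by omega) (by omega)).le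
  · exact sub_nonneg.2 (hm.mono u (u + 1) (by omega) (by omega) (by omega))

theorem sum_wt (hm : m R = 1) {s : ℕ} (hs : s < R) : ∑ u ∈ Finset.Ico s R, wt m u s = 1 := by
  rw [Finset.sum_eq_sum_Ico_succ_bot hs]
  have h : ∑ u ∈ Finset.Ico (s + 1) R, wt m u s = ∑ u ∈ Finset.Ico (s + 1) R, (m (u + 1) - m u) :=
    sum_congr rfl fun u hu => by
      have := (mem_Ico.1 hu).1
      unfold wt
      rw [if_neg (by omega)]
  rw [h, Finset.sum_Ico_sub m hs, hm]
  simp [wt]

theorem gen_add (d s : ℕ) (Φ Ψ : Tr α → ℝ) :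
    gen m R d s (fun T => Φ T + Ψ T) = gen m R d s Φ + gen m R d s Ψ := by
  induction d generalizing s Φ Ψ with
  | zero => simp only [gen, sum_add_distrib]
  | succ d ih =>
    simp only [gen, ih, sum_add_distrib, mul_add]
    ring

theorem gen_mul_left (d s : ℕ) (c : ℝ) (Φ : Tr α → ℝ) :
    gen m R d s (fun T => c * Φ T) = c * gen m R d s Φ := by
  induction d generalizing s Φ with
  | zero => simp only [gen, mul_sum]
  | succ d ih =>
    simp only [gen, ih, mul_sum, mul_add]
    congr 1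
    exact sum_congr rfl fun u _ => by ring

/-- linear functionals on a space of functions -/
structure GLin {β : Type} (L : (β → ℝ) → ℝ) : Prop where
  add : ∀ f g, L (fun b => f b + g b) = L f + L g
  mul : ∀ c f, L (fun b => c * f b) = c * L f

theorem GLin.zero {β : Type} {L : (β → ℝ) → ℝ} (h : GLin L) : L (fun _ => 0) = 0 := by
  simpa using h.mul 0 fun _ => 0

theorem GLin.sum {β ι : Type} {L : (β → ℝ) → ℝ} (h : GLin L) (S : Finset ι) (f : ι → β → ℝ) :
    L (fun b => ∑ i ∈ S, f i b) = ∑ i ∈ S, L (f i) := by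
  classical
  induction S using Finset.induction_on with
  | empty => simpa using h.zero
  | insert i S hi ih => simp only [sum_insert hi, h.add, ih]

theorem lin_gen (d s : ℕ) : GLin (gen (α := α) m R d s) := ⟨gen_add d s, gen_mul_left d s⟩

theorem lin_wsum {β : Type} (l : WL β) : GLin (wsum l) := ⟨wsum_add l, wsum_mul_left l⟩

/-- `gen` commutes with every linear functional -/
theorem gen_comm {β : Type} {L : (β → ℝ) → ℝ} (hL : GLin L) (d s : ℕ) (F : Tr α → β → ℝ) :
    gen m R d s (fun T => L (F T)) = L fun b => gen m R d s fun T => F T b := by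
  induction d generalizing s F with
  | zero => simp only [gen, hL.sum]
  | succ d ih => simp only [gen, ih, hL.add, hL.sum, hL.mul]

theorem gen_sum {ι : Type} (S : Finset ι) (d s : ℕ) (Φ : ι → Tr α → ℝ) :
    gen m R d s (fun T => ∑ i ∈ S, Φ i T) = ∑ i ∈ S, gen m R d s (Φ i) := by
  exact (lin_gen d s).sum S Φ

/-- only valid trees of depth `≤ d` matter -/
theorem gen_mono {s₀ : ℕ} (hm : Adm m R s₀) {d s : ℕ} (hs : s₀ ≤ s) {Φ Ψ : Tr α → ℝ}
    (h : ∀ T : Tr α, T.Valid R s → T.depth ≤ d → Φ T ≤ Ψ T) : gen m R d s Φ ≤ gen m R d s Ψ := by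
  induction d generalizing s Φ Ψ with
  | zero => exact sum_le_sum fun a _ => h _ trivial le_rfl
  | succ d ih =>
    refine add_le_add (sum_le_sum fun a _ => h _ trivial (Nat.zero_le _)) (sum_le_sum fun u hu => ?_)
    obtain ⟨h1, h2⟩ := mem_Ico.1 hu
    refine mul_le_mul_of_nonneg_left ?_ (wt_nonneg hm hs h1 h2)
    exact ih (hs.trans h1) fun a ha hda => ih (hs.trans h1) fun b hb hdb =>
      h _ ⟨h1, h2, ha, hb⟩ (Nat.succ_le_succ (max_le hda hdb))

theorem gen_nonneg {s₀ : ℕ} (hm : Adm m R s₀) {d s : ℕ} (hs : s₀ ≤ s) {Φ : Tr α → ℝ}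
    (h : ∀ T, 0 ≤ Φ T) : 0 ≤ gen m R d s Φ := by
  have := gen_mono hm (d := d) hs (Φ := fun _ => 0) (Ψ := Φ) fun T _ _ => h T
  rwa [(lin_gen d s).zero] at this

theorem gen_nodes_nonneg {s₀ : ℕ} (hm : Adm m R s₀) (d : ℕ) {s : ℕ} (hs : s₀ ≤ s) {Φ : Tr α → ℝ}
    (h : ∀ T, 0 ≤ Φ T) : 0 ≤ ∑ u ∈ Finset.Ico s R,
      wt m u s * gen m R d u fun a => gen m R d u fun b => Φ (.node u a b) :=
  sum_nonneg fun u hu => by
    obtain ⟨h1, h2⟩ := mem_Ico.1 hu
    exact mul_nonneg (wt_nonneg hm hs h1 h2)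
      (gen_nonneg hm (hs.trans h1) fun a => gen_nonneg hm (hs.trans h1) fun b => h _)

theorem gen_le_succ {s₀ : ℕ} (hm : Adm m R s₀) (d : ℕ) {s : ℕ} (hs : s₀ ≤ s)
    {Φ : Tr α → ℝ} (h : ∀ T, 0 ≤ Φ T) : gen m R d s Φ ≤ gen m R (d + 1) s Φ := by
  induction d generalizing s Φ with
  | zero => exact le_add_of_nonneg_right (gen_nodes_nonneg hm 0 hs h)
  | succ d ih =>
    refine add_le_add le_rfl (sum_le_sum fun u hu => ?_)
    obtain ⟨h1, h2⟩ := mem_Ico.1 hu
    refine mul_le_mul_of_nonneg_left ?_ (wt_nonneg hm hs h1 h2)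
    exact (gen_mono hm (hs.trans h1) fun a _ _ => ih (hs.trans h1) fun b => h _).trans
      (ih (hs.trans h1) fun a => gen_nonneg hm (hs.trans h1) fun b => h _)

theorem gen_mono_depth {s₀ : ℕ} (hm : Adm m R s₀) {d d' s : ℕ} (hs : s₀ ≤ s) (hd : d ≤ d')
    {Φ : Tr α → ℝ} (h : ∀ T, 0 ≤ Φ T) : gen m R d s Φ ≤ gen m R d' s Φ := by
  induction hd with
  | refl => exact le_rfl
  | step _ ih => exact ih.trans (gen_le_succ hm _ hs h)

/-- the total mass -/
def gcn (k : ℕ) : ℕ → ℝ
  | 0 => k
  | d + 1 => k + gcn k d ^ 2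

theorem gcn_nonneg (k : ℕ) : ∀ d, 0 ≤ gcn k d
  | 0 => Nat.cast_nonneg k
  | d + 1 => by unfold gcn; positivity

theorem gen_const (hm : m R = 1) (d : ℕ) {s : ℕ} (hs : s < R) (c : ℝ) :
    gen m R d s (fun _ : Tr α => c) = gcn (Fintype.card α) d * c := by
  induction d generalizing s c with
  | zero => simp [gen, gcn]
  | succ d ih =>
    have h : ∀ u ∈ Finset.Ico s R,
        (wt m u s * gen m R d u fun _ : Tr α => gen m R d u fun _ : Tr α => c) =
          wt m u s * (gcn (Fintype.card α) d ^ 2 * c) := fun u hu => by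
      rw [ih (mem_Ico.1 hu).2, ih (mem_Ico.1 hu).2]; ring
    simp only [gen]
    rw [sum_congr rfl h, ← sum_mul, sum_wt hm hs]
    simp only [sum_const, card_univ, nsmul_eq_mul, gcn]
    ring

theorem gen_one' (hm : m R = 1) (d : ℕ) {s : ℕ} (hs : s < R) :
    gen m R d s (fun _ : Tr α => 1) = gcn (Fintype.card α) d := by
  rw [gen_const hm d hs, mul_one]

/-- total mass: `c 0 = |α|`, `c (d+1) = |α| + (c d)²` -/
theorem gen_one (α : Type) [Fintype α] (d : ℕ) : ∃ c : ℝ, 0 ≤ c ∧ ∀ (m : ℕ → ℝ) (R s : ℕ), m R = 1 →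
    s < R → gen m R d s (fun _ : Tr α => 1) = c := by
  exact ⟨gcn (Fintype.card α) d, gcn_nonneg _ d, fun _ _ _ hm hs => gen_one' hm d hs⟩

/-- trees whose root is at the starting level have total weight `O(m (s+1))` -/
theorem gen_root (α : Type) [Fintype α] (d : ℕ) : ∃ c : ℝ, 0 ≤ c ∧ ∀ (m : ℕ → ℝ) (R s : ℕ),
    Adm m R s → gen m R d s (fun T : Tr α => if T.lev R = s then 1 else 0) ≤ c * m (s + 1) := by
  have hc := gcn_nonneg (Fintype.card α) (d - 1)
  refine ⟨gcn (Fintype.card α) (d - 1) ^ 2, by positivity, fun m R s hm => ?_⟩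
  have h0 : ∑ a : α, (if (Tr.leaf a).lev R = s then (1 : ℝ) else 0) = 0 :=
    sum_eq_zero fun a _ => if_neg hm.lt.ne'
  cases d with
  | zero =>
    have := hm.pos
    exact h0.le.trans (by positivity)
  | succ d =>
    simp only [gen]
    rw [h0, zero_add, sum_eq_single s]
    · simp only [Tr.lev, if_true, gen_const hm.top d hm.lt, wt, Nat.add_sub_cancel]
      exact le_of_eq (by ring)
    · intro u _ hu
      simp only [Tr.lev, if_neg hu, (lin_gen d u).zero, mul_zero]
    · intro h
      exact absurd (mem_Ico.2 ⟨le_rfl, hm.lt⟩) h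

/-- sum over all labellings of a shape -/
def labSum (α : Type) [Fintype α] : Tr Unit → (Tr α → ℝ) → ℝ
  | .leaf _, Φ => ∑ a, Φ (.leaf a)
  | .node u a b, Φ => labSum α a fun a' => labSum α b fun b' => Φ (.node u a' b')

theorem lin_labSum : ∀ T : Tr Unit, GLin (labSum α T)
  | .leaf _ => ⟨fun f g => by simp only [labSum, sum_add_distrib],
      fun c f => by simp only [labSum, mul_sum]⟩
  | .node u a b => ⟨fun f g => by simp only [labSum, (lin_labSum a).add, (lin_labSum b).add],
      fun c f => by simp only [labSum, (lin_labSum a).mul, (lin_labSum b).mul]⟩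

/-- (`labSum` is linear, so it commutes with `gen`) -/
theorem gen_labSum (d s : ℕ) (Φ : Tr α → ℝ) :
    gen m R d s (fun T : Tr Unit => labSum α T Φ) = gen m R d s Φ := by
  induction d generalizing s Φ with
  | zero => simp [gen, labSum]
  | succ d ih =>
    simp only [gen, labSum, univ_unique, sum_singleton]
    congr 1
    refine sum_congr rfl fun u _ => ?_
    congr 1
    rw [← ih u]
    congr 1
    funext a
    rw [gen_comm (lin_labSum a)]
    congr 1
    funext a'
    exact ih u _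

theorem gen_wsum_nonneg {β : Type} {l : WL β} {Φ : β → ℝ} (hl : ∀ p ∈ l, 0 ≤ p.1)
    (h : ∀ a, 0 ≤ Φ a) : 0 ≤ wsum l Φ := by
  induction l with
  | nil => simp
  | cons p l ih =>
    rw [wsum_cons]
    exact add_nonneg (mul_nonneg (hl p List.mem_cons_self) (h _))
      (ih fun q hq => hl q (List.mem_cons_of_mem _ hq))

theorem insN_valid {s : ℕ} : ∀ (j : ℕ) {T : Tr Unit}, wmem T (insN m R s j) → T.Valid R s
  | 0, T, h => by
    simp only [insN, wmem_cons, not_wmem_nil, or_false] at h
    rw [h]; trivial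
  | j + 1, T, h => by
    rw [insN, wmem_wbind] at h
    obtain ⟨T', h1, h2⟩ := h
    exact (ins_mem (insN_valid j h1) h2).1

omit [Fintype α] in
theorem gen_stem_le (z : α) {a0 : ℝ} (ha : 0 ≤ a0) (s : ℕ) (T : Tr α) {Φ : Tr α → ℝ}
    (h : ∀ T, 0 ≤ Φ T) : wsum (stem m R z a0 s T) Φ ≤
      ∑ u ∈ Finset.Ico s (T.lev R), wt m u s * Φ (.node u T (.leaf z)) := by
  rw [wsum_stem]
  refine sum_le_sum fun u _ => mul_le_mul_of_nonneg_right ?_ (h _)
  unfold wt
  split_ifs with hu
  · rw [hu]; linarith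
  · exact le_rfl

/-- the stem terms -/
theorem gen_stem_sum {s₀ : ℕ} (hm : Adm m R s₀) (d : ℕ) {s : ℕ} (hs : s₀ ≤ s) {a0 : ℝ}
    (ha : 0 ≤ a0) {Φ : Tr Unit → ℝ} (h : ∀ T, 0 ≤ Φ T) :
    gen m R d s (fun T => wsum (stem m R () a0 s T) Φ) ≤ ∑ u ∈ Finset.Ico s R,
      wt m u s * gen m R d u fun T => gen m R d u fun b => Φ (.node u T b) := by
  have h1 : gen m R d s (fun T => wsum (stem m R () a0 s T) Φ) ≤ ∑ u ∈ Finset.Ico s R,
      wt m u s * gen m R d u fun T => Φ (.node u T (.leaf ())) := by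
    refine (gen_mono hm hs fun T _ _ => gen_stem_le () ha s T h).trans ?_
    cases d with
    | zero => simp [gen, Tr.lev]
    | succ d =>
      simp only [gen, Tr.lev, univ_unique, sum_singleton, mul_add, sum_add_distrib, gen_sum,
        gen_mul_left, mul_sum]
      refine add_le_add le_rfl ?_
      rw [← Finset.sum_Ico_Ico_comm' s R fun u w => wt m w s * (wt m u s *
        gen m R d w fun a => gen m R d w fun b => Φ (.node u (.node w a b) (.leaf ())))]
      refine sum_le_sum fun u hu => ?_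
      obtain ⟨h1, h2⟩ := mem_Ico.1 hu
      have h3 := wt_nonneg hm hs h1 h2
      have h4 : ∀ w, u ≤ w → 0 ≤ gen m R d w fun a => gen m R d w fun b =>
          Φ (.node u (.node w a b) (.leaf ())) := fun w hw =>
        gen_nonneg hm (by omega) fun a => gen_nonneg hm (by omega) fun b => h _
      rw [Finset.sum_eq_sum_Ico_succ_bot h2]
      refine le_add_of_nonneg_of_le
        (mul_nonneg h3 (mul_nonneg (wt_nonneg hm (hs.trans h1) le_rfl h2) (h4 u le_rfl)))
        (le_of_eq (sum_congr rfl fun w hw => ?_))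
      have h5 := (mem_Ico.1 hw).1
      have h6 : wt m w s = wt m w u := by
        unfold wt
        rw [if_neg (by omega), if_neg (by omega)]
      rw [h6]; ring
  refine h1.trans (sum_le_sum fun u hu => ?_)
  obtain ⟨h2, h3⟩ := mem_Ico.1 hu
  refine mul_le_mul_of_nonneg_left (gen_mono hm (hs.trans h2) fun T _ _ => ?_)
    (wt_nonneg hm hs h2 h3)
  have := gen_mono_depth hm (d := 0) (d' := d) (hs.trans h2) (Nat.zero_le d)
    (Φ := fun b => Φ (.node u T b)) fun b => h _
  simpa [gen] using this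

theorem gen_ins_le (d : ℕ) : ∃ C : ℝ, 0 ≤ C ∧ ∀ (m : ℕ → ℝ) (R s₀ : ℕ), Adm m R s₀ →
    ∀ s, s₀ ≤ s → s < R → ∀ a0 : ℝ, 0 ≤ a0 → ∀ Φ : Tr Unit → ℝ, (∀ T, 0 ≤ Φ T) →
      gen m R d s (fun T => wsum (ins m R () a0 s T) Φ) ≤ C * gen m R (d + 1) s Φ := by
  induction d with
  | zero =>
    refine ⟨1, zero_le_one, fun m R s₀ hm s hs _ a0 ha Φ hΦ => ?_⟩
    rw [one_mul]
    exact (gen_stem_sum hm 0 hs ha hΦ).trans
      (le_add_of_nonneg_left (sum_nonneg fun a _ => hΦ _))
  | succ d ih =>
    obtain ⟨C, hC, ih⟩ := ih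
    refine ⟨1 + 2 * C, by positivity, fun m R s₀ hm s hs hsR a0 ha Φ hΦ => ?_⟩
    have hN := gen_nodes_nonneg hm (d + 1) hs hΦ
    have hst := gen_stem_sum hm (d + 1) hs ha hΦ
    set N := ∑ u ∈ Finset.Ico s R, wt m u s *
      gen m R (d + 1) u fun a => gen m R (d + 1) u fun b => Φ (.node u a b) with hNdef
    have hle : N ≤ gen m R (d + 1 + 1) s Φ := le_add_of_nonneg_left (sum_nonneg fun a _ => hΦ _)
    have e1 : gen m R (d + 1) s (fun T => wsum (ins m R () a0 s T) Φ) =
        gen m R (d + 1) s (fun T => wsum (stem m R () a0 s T) Φ) +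
          ∑ u ∈ Finset.Ico s R, wt m u s * ((gen m R d u fun a =>
            wsum (ins m R () (if u = s then a0 else m u) u a) fun a' =>
              gen m R d u fun b => Φ (.node u a' b)) + gen m R d u fun a => gen m R d u fun b =>
                wsum (ins m R () 0 u b) fun b' => Φ (.node u a b')) := by
      simp only [gen, ins, wsum_append, wsum_wmap, gen_add, mul_add, sum_add_distrib,
        ← gen_comm (lin_wsum _)]
      ring
    have e2 : ∑ u ∈ Finset.Ico s R, wt m u s * ((gen m R d u fun a =>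
            wsum (ins m R () (if u = s then a0 else m u) u a) fun a' =>
              gen m R d u fun b => Φ (.node u a' b)) + gen m R d u fun a => gen m R d u fun b =>
                wsum (ins m R () 0 u b) fun b' => Φ (.node u a b')) ≤ 2 * C * N := by
      rw [hNdef, mul_sum]
      refine sum_le_sum fun u hu => ?_
      obtain ⟨h1, h2⟩ := mem_Ico.1 hu
      have hu0 := hs.trans h1
      rw [mul_left_comm]
      refine mul_le_mul_of_nonneg_left ?_ (wt_nonneg hm hs h1 h2)
      have ha' : 0 ≤ if u = s then a0 else m u := by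
        split_ifs with h
        · exact ha
        · exact (hm.pos' (by omega) h2.le).le
      have b1 := (ih m R s₀ hm u hu0 h2 _ ha' (fun a' => gen m R d u fun b => Φ (.node u a' b))
        fun a => gen_nonneg hm hu0 fun b => hΦ _).trans (mul_le_mul_of_nonneg_left
          (gen_mono hm hu0 fun a _ _ => gen_le_succ hm d hu0 fun b => hΦ _) hC)
      have b2 : (gen m R d u fun a => gen m R d u fun b =>
          wsum (ins m R () 0 u b) fun b' => Φ (.node u a b')) ≤
          C * gen m R (d + 1) u fun a => gen m R (d + 1) u fun b => Φ (.node u a b) := by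
        refine (gen_mono hm hu0 fun a _ _ =>
          ih m R s₀ hm u hu0 h2 0 le_rfl (fun b => Φ (.node u a b)) fun b => hΦ _).trans ?_
        rw [gen_mul_left]
        exact mul_le_mul_of_nonneg_left
          (gen_le_succ hm d hu0 fun a => gen_nonneg hm hu0 fun b => hΦ _) hC
      linarith
    rw [e1]
    nlinarith

/-- Key step, by induction on `d` for all `s ≥ s₀`, `s < R`, `0 ≤ a0`, `Φ ≥ 0`:
`gen d s (T ↦ wsum (ins () a0 s T) Φ) ≤ C_d gen (d+1) s Φ`, `C_0 = 1`, `C_{d+1} = 2 + 2 C_d`.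
Stem: the weight at `u` is `≤ wt m u s`; for `T = node w a b`, `s ≤ u < w`, `wt m w s = wt m w u`, so
after exchanging the sums over `u` and `w` the stem terms are at most
`Σ_u wt u s · gen (d+1) u (T ↦ Φ (node u T (leaf ()))) ≤ gen (d+2) s Φ`.  Inner terms: exchange
`wsum` and `gen` (both linear), induction hypothesis, `gen_mono_depth`. -/
theorem insN_le_gen (j : ℕ) : ∃ C : ℝ, 0 ≤ C ∧ ∀ (m : ℕ → ℝ) (R s : ℕ), Adm m R s →
    ∀ Φ : Tr Unit → ℝ, (∀ T, 0 ≤ Φ T) → wsum (insN m R s j) Φ ≤ C * gen m R j s Φ := by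
  induction j with
  | zero => exact ⟨1, zero_le_one, fun m R s _ Φ _ => by simp [insN, gen]⟩
  | succ j ih =>
    obtain ⟨C, hC, h⟩ := ih
    obtain ⟨C', hC', h'⟩ := gen_ins_le j
    refine ⟨C * C', mul_nonneg hC hC', fun m R s hm Φ hΦ => ?_⟩
    have hnn : ∀ T : Tr Unit, T.Valid R s → 0 ≤ wsum (ins m R () 0 s T) Φ := fun T hT =>
      gen_wsum_nonneg (ins_nonneg hm () le_rfl hT hm.pos.le) hΦ
    have h1 : wsum (insN m R s (j + 1)) Φ =
        wsum (insN m R s j) fun T => max (wsum (ins m R () 0 s T) Φ) 0 := by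
      rw [insN, wsum_wbind]
      exact wsum_congr fun T hT => (max_eq_left (hnn T (insN_valid j hT))).symm
    have h2 : gen m R j s (fun T => max (wsum (ins m R () 0 s T) Φ) 0) ≤
        gen m R j s fun T => wsum (ins m R () 0 s T) Φ :=
      gen_mono hm le_rfl fun T hT _ => (max_eq_left (hnn T hT)).le
    rw [h1, mul_assoc]
    exact (h m R s hm _ fun T => le_max_right _ _).trans (mul_le_mul_of_nonneg_left
      (h2.trans (h' m R s hm s le_rfl hm.lt 0 le_rfl Φ hΦ)) hC)

theorem sep_congr {D : ℕ} {Λ Λ' : List ℕ} (h : ∀ a, a ∈ Λ ↔ a ∈ Λ') : Sep D Λ ↔ Sep D Λ' := by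
  simp only [Sep, h]

open Classical in
theorem card_not_sep {D : ℕ} {Λ : List ℕ} (hΛ : Sep D Λ) (S : Finset ℕ) :
    (S.filter fun u => ¬ Sep D (u :: Λ)).card ≤ Λ.length * (2 * D + 1) := by
  have hsub : (S.filter fun u => ¬ Sep D (u :: Λ)) ⊆
      Λ.toFinset.biUnion fun b => Finset.Icc (b - D) (b + D) := by
    intro u hu
    by_contra hc
    refine (mem_filter.1 hu).2 ?_
    have key : ∀ b ∈ Λ, u + D < b ∨ b + D < u := fun b hb => by
      by_contra hn
      exact hc (mem_biUnion.2 ⟨b, List.mem_toFinset.2 hb, mem_Icc.2 (by omega)⟩)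
    intro a ha b hb
    rcases List.mem_cons.1 ha with ha | ha <;> rcases List.mem_cons.1 hb with hb | hb
    · exact Or.inl (ha.trans hb.symm)
    · rw [ha]; exact Or.inr (key b hb)
    · rw [hb]; exact Or.inr (key a ha).symm
    · exact hΛ a ha b hb
  refine (card_le_card hsub).trans ((card_biUnion_le_card_mul _ _ (2 * D + 1) fun b _ => ?_).trans
    (Nat.mul_le_mul_right _ (List.toFinset_card_le Λ)))
  rw [Nat.card_Icc]
  omega

theorem wt_grid {u s : ℕ} (h : u ≠ s) : wt (grid R) u s = 1 / R := by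
  unfold wt grid
  rw [if_neg h]
  push_cast
  ring

open Classical in
theorem gen_not_sep_aux (d : ℕ) : ∀ n : ℕ, ∃ C : ℝ, 0 ≤ C ∧ ∀ (R s D : ℕ) (Λ : List ℕ), s < R →
    s ∈ Λ → Sep D Λ → Λ.length ≤ n →
    gen (grid R) R d s (fun T : Tr Bool => if Sep D (T.levels ++ Λ) then 0 else 1) ≤
      C * ((D + 1) / R) := by
  induction d with
  | zero =>
    intro n
    refine ⟨0, le_rfl, fun R s D Λ _ _ hΛ _ => ?_⟩
    simp [gen, Tr.levels, hΛ]
  | succ d ih =>
    intro n
    obtain ⟨C1, hC1, h1⟩ := ih (n + 1)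
    obtain ⟨C2, hC2, h2⟩ := ih (2 ^ d + (n + 1))
    have hc := gcn_nonneg (Fintype.card Bool) d
    set c := gcn (Fintype.card Bool) d with hcdef
    refine ⟨c * C2 + c * C1 + c ^ 2 * (2 * n), by positivity, fun R s D Λ hs hsΛ hΛ hn => ?_⟩
    have hm : Adm (grid R) R s := adm_grid hs
    have hR : (0 : ℝ) < R := by exact_mod_cast (by omega : 0 < R)
    set η : ℝ := (D + 1) / R with hη
    have hη0 : 0 ≤ η := by positivity
    have hle1 : ∀ (p : Prop) [Decidable p], (if p then (0 : ℝ) else 1) ≤ 1 := fun p _ => by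
      split_ifs <;> norm_num
    have key : ∀ u ∈ Finset.Ico s R, (wt (grid R) u s * gen (grid R) R d u fun a : Tr Bool =>
        gen (grid R) R d u fun b : Tr Bool =>
          if Sep D ((Tr.node u a b).levels ++ Λ) then 0 else 1) ≤
        wt (grid R) u s * ((c * C2 + c * C1) * η) +
          (if ¬ Sep D (u :: Λ) then 1 else 0) * (c ^ 2 / R) := by
      intro u hu
      obtain ⟨a1, a2⟩ := mem_Ico.1 hu
      have hw := wt_nonneg hm le_rfl a1 a2
      by_cases hsep : Sep D (u :: Λ)
      · rw [if_neg (not_not.2 hsep), zero_mul, add_zero]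
        refine mul_le_mul_of_nonneg_left ?_ hw
        have b1 := h1 R u D (u :: Λ) a2 List.mem_cons_self hsep (by simpa using hn)
        refine (gen_mono hm a1 (Ψ := fun a => C2 * η +
          c * if Sep D (a.levels ++ u :: Λ) then 0 else 1) fun a _ hda => ?_).trans ?_
        · by_cases hsa : Sep D (a.levels ++ u :: Λ)
          · rw [if_pos hsa, mul_zero, add_zero]
            have hlen : (a.levels ++ u :: Λ).length ≤ 2 ^ d + (n + 1) := by
              have e1 := levels_length a
              have e2 := a.size_le_two_pow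
              have e3 : 2 ^ a.depth ≤ 2 ^ d := Nat.pow_le_pow_right (by norm_num) hda
              rw [List.length_append, List.length_cons]
              omega
            refine le_trans (le_of_eq ?_) (h2 R u D _ a2 (by simp) hsa hlen)
            congr 1
            funext b
            rw [sep_congr (Λ' := b.levels ++ (a.levels ++ u :: Λ)) fun x => by
              simp only [Tr.levels, List.mem_cons, List.mem_append]; tauto]
          · rw [if_neg hsa, mul_one]
            refine le_add_of_nonneg_of_le (by positivity) ?_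
            exact (gen_mono hm a1 fun b _ _ => hle1 _).trans (gen_one' hm.top d a2).le
        · rw [gen_add, gen_mul_left d u c, gen_const hm.top d a2]
          have := mul_le_mul_of_nonneg_left b1 hc
          linarith
      · have hus : u ≠ s := fun h => hsep ((sep_congr fun x => by
          rw [List.mem_cons, h]
          exact ⟨fun h' => h'.elim (fun e => e ▸ hsΛ) id, Or.inr⟩).2 hΛ)
        rw [if_pos hsep, one_mul]
        refine le_add_of_nonneg_of_le (by positivity) ?_
        have b1 : (gen (grid R) R d u fun a : Tr Bool => gen (grid R) R d u fun b : Tr Bool =>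
            if Sep D ((Tr.node u a b).levels ++ Λ) then (0 : ℝ) else 1) ≤ c * c :=
          (gen_mono hm a1 fun a _ _ => (gen_mono hm a1 fun b _ _ => hle1 _).trans
            (gen_one' hm.top d a2).le).trans (gen_const hm.top d a2 c).le
        rw [wt_grid hus]
        calc _ ≤ 1 / (R : ℝ) * (c * c) := mul_le_mul_of_nonneg_left b1 (by positivity)
          _ = _ := by ring
    have h0 : ∑ a : Bool, (if Sep D ((Tr.leaf a).levels ++ Λ) then (0 : ℝ) else 1) = 0 :=
      sum_eq_zero fun a _ => if_pos hΛ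
    simp only [gen]
    rw [h0, zero_add]
    refine (sum_le_sum key).trans ?_
    rw [sum_add_distrib, ← sum_mul, ← sum_mul, sum_wt hm.top hs, sum_boole]
    have b2 : ((((Finset.Ico s R).filter fun u => ¬ Sep D (u :: Λ)).card : ℕ) : ℝ) ≤
        2 * n * (D + 1) := by
      have := (card_not_sep hΛ (Finset.Ico s R)).trans (Nat.mul_le_mul hn
        (show 2 * D + 1 ≤ 2 * (D + 1) by omega))
      have h' : n * (2 * (D + 1)) = 2 * n * (D + 1) := by ring
      rw [h'] at this
      exact_mod_cast this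
    have b3 := mul_le_mul_of_nonneg_right b2 (show 0 ≤ c ^ 2 / R by positivity)
    have b4 : 2 * (n : ℝ) * (D + 1) * (c ^ 2 / R) = c ^ 2 * (2 * n) * η := by rw [hη]; ring
    linarith

open Classical in
/-- Generalise: for every list `Λ` with `s ∈ Λ`, `Sep D Λ`, `|Λ| ≤ n`:
`gen d s (1[¬ Sep D (T.levels ++ Λ)]) ≤ C(d,n) (D+1)/R`.  For `T = node u a b`: either
`¬ Sep D (u :: Λ)` (then `u ≠ s`, weight `1/R`, and at most `|Λ| (2D+1)` such `u`), or
`¬ Sep D (a.levels ++ u :: Λ)`, or that list `Λ'` is separated, `|Λ'| ≤ n + 2^d` and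
`¬ Sep D (b.levels ++ Λ')`.  `Sep` depends only on the set of elements. -/
theorem gen_not_sep (d : ℕ) : ∃ C : ℝ, 0 ≤ C ∧ ∀ R s D : ℕ, s + D < R →
    gen (grid R) R d s (fun T : Tr Bool => if Sep D (s :: R :: T.levels) then 0 else 1) ≤
      C * (D + 1) / R := by
  obtain ⟨C, hC, h⟩ := gen_not_sep_aux d 2
  refine ⟨C, hC, fun R s D hsD => ?_⟩
  have hsep : Sep D [s, R] := by
    intro a ha b hb
    simp only [List.mem_cons, List.not_mem_nil, or_false] at ha hb
    omega
  have := h R s D [s, R] (by omega) (by simp) hsep le_rfl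
  rw [mul_div_assoc]
  refine le_trans (le_of_eq ?_) this
  congr 1
  funext T
  rw [sep_congr (Λ' := T.levels ++ [s, R]) fun a => by
    simp only [List.mem_cons, List.mem_append, List.not_mem_nil, or_false]; tauto]

end

/-- the abstract properties of `fD` and `Om` -/
structure OmData (R : ℕ) (f : ℕ → Tr Bool → ℝ) (O : Tr Bool → ℝ) (E : ℝ) : Prop where
  nonneg : ∀ u a, 0 ≤ f u a
  zero : ∀ u a, a.lev R ≤ u → f u a = 0
  sum_le : ∀ a, ∑ u ∈ range R, f u a ≤ E
  O_nonneg : ∀ a, 0 ≤ O a
  O_leaf : ∀ b, O (.leaf b) = 0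
  O_node : ∀ u a b, O (.node u a b) = f u a + f u b + O a + O b

section
variable {R : ℕ} {f : ℕ → Tr Bool → ℝ} {O : Tr Bool → ℝ} {E : ℝ}

theorem gen_Om_one (hR : 0 < R) (h : OmData R f O E) (d : ℕ) :
    ∑ u ∈ range R, gen (grid R) R d u (f u) ≤ gcn (Fintype.card Bool) d * E := by
  have hm : Adm (grid R) R 0 := adm_grid hR
  have hRr : (0 : ℝ) < R := by exact_mod_cast hR
  have h0 : ∑ u ∈ range R, ∑ b : Bool, f u (.leaf b) ≤ Fintype.card Bool * E := by
    rw [sum_comm]
    refine (sum_le_card_nsmul _ _ E fun b _ => h.sum_le _).trans ?_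
    rw [nsmul_eq_mul, card_univ]
  cases d with
  | zero => exact h0
  | succ d =>
    simp only [gen, gcn]
    rw [sum_add_distrib, add_mul]
    refine add_le_add h0 ?_
    have h1 : ∀ u ∈ range R, ∑ w ∈ Finset.Ico u R, wt (grid R) w u *
        (gen (grid R) R d w fun a => gen (grid R) R d w fun b => f u (.node w a b)) ≤
        ∑ w ∈ range R, 1 / (R : ℝ) *
          gen (grid R) R d w fun a => gen (grid R) R d w fun b => f u (.node w a b) := by
      intro u _
      refine le_trans (le_of_eq (sum_congr rfl fun w _ => ?_))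
        (sum_le_sum_of_subset_of_nonneg (s := Finset.Ico u R)
          (fun w hw => mem_range.2 (mem_Ico.1 hw).2) fun w _ _ => mul_nonneg (by positivity)
            (gen_nonneg hm (Nat.zero_le _) fun a => gen_nonneg hm (Nat.zero_le _) fun b =>
              h.nonneg _ _))
      by_cases hw : w = u
      · have : ∀ a b, f u (.node w a b) = 0 := fun a b => h.zero _ _ hw.le
        simp only [this, (lin_gen d w).zero, mul_zero]
      · rw [wt_grid hw]
    refine (sum_le_sum h1).trans ?_
    rw [sum_comm]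
    refine (sum_le_card_nsmul _ _ (1 / (R : ℝ) * (gcn (Fintype.card Bool) d ^ 2 * E))
      fun w hw => ?_).trans (le_of_eq ?_)
    · have hw' := mem_range.1 hw
      rw [← mul_sum, ← gen_sum]
      refine mul_le_mul_of_nonneg_left ?_ (by positivity)
      refine (gen_mono hm (Nat.zero_le _) (Ψ := fun _ => gcn (Fintype.card Bool) d * E)
        fun a _ _ => ?_).trans (le_of_eq ?_)
      · rw [← gen_sum]
        exact (gen_mono hm (Nat.zero_le _) fun b _ _ => h.sum_le _).trans
          (gen_const hm.top d hw' E).le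
      · rw [gen_const hm.top d hw']; ring
    · rw [nsmul_eq_mul, card_range]
      field_simp

theorem gen_Om_node (h : OmData R f O E) (d : ℕ) {u : ℕ} (hu : u < R) :
    (gen (grid R) R d u fun a => gen (grid R) R d u fun b => O (.node u a b)) =
      2 * gcn (Fintype.card Bool) d * (gen (grid R) R d u (f u) + gen (grid R) R d u O) := by
  have ht : grid R R = 1 := (adm_grid hu).top
  simp only [h.O_node, gen_add, gen_const ht d hu, gen_mul_left]
  ring

end

theorem gen_Om_two (d : ℕ) : ∃ C : ℝ, 0 ≤ C ∧ ∀ (R : ℕ) (f : ℕ → Tr Bool → ℝ) (O : Tr Bool → ℝ)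
    (E : ℝ), 0 < R → OmData R f O E → ∑ s ∈ range R, gen (grid R) R d s O ≤ C * E := by
  induction d with
  | zero =>
    refine ⟨0, le_rfl, fun R f O E _ h => ?_⟩
    simp [gen, h.O_leaf]
  | succ d ih =>
    obtain ⟨C, hC, ih⟩ := ih
    have hc := gcn_nonneg (Fintype.card Bool) d
    set c := gcn (Fintype.card Bool) d with hcdef
    refine ⟨4 * c * (c + C), by positivity, fun R f O E hR h => ?_⟩
    have hm : Adm (grid R) R 0 := adm_grid hR
    have hRr : (0 : ℝ) < R := by exact_mod_cast hR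
    set H : ℕ → ℝ := fun u => 2 * c * (gen (grid R) R d u (f u) + gen (grid R) R d u O) with hH
    have hH0 : ∀ u, 0 ≤ H u := fun u => mul_nonneg (by positivity)
      (add_nonneg (gen_nonneg hm (Nat.zero_le _) (h.nonneg u))
        (gen_nonneg hm (Nat.zero_le _) h.O_nonneg))
    have hsum : ∑ u ∈ range R, H u ≤ 2 * c * ((c + C) * E) := by
      rw [← mul_sum, sum_add_distrib, add_mul]
      exact mul_le_mul_of_nonneg_left (add_le_add (gen_Om_one hR h d) (ih R f O E hR h))
        (by positivity)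
    have h1 : ∀ s ∈ range R, gen (grid R) R (d + 1) s O ≤
        H s + 1 / (R : ℝ) * ∑ u ∈ range R, H u := by
      intro s hs
      have hs' := mem_range.1 hs
      simp only [gen, h.O_leaf, sum_const_zero, zero_add]
      rw [Finset.sum_eq_sum_Ico_succ_bot hs', gen_Om_node h d hs', mul_sum]
      refine add_le_add (mul_le_of_le_one_left (hH0 s) ?_) ?_
      · unfold wt
        rw [if_pos rfl]
        exact hm.le_one (by omega) hs'
      · refine le_trans (le_of_eq (sum_congr rfl fun u hu => ?_))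
          (sum_le_sum_of_subset_of_nonneg (s := Finset.Ico (s + 1) R)
            (fun w hw => mem_range.2 (mem_Ico.1 hw).2) fun w _ _ =>
              mul_nonneg (by positivity) (hH0 w))
        obtain ⟨a1, a2⟩ := mem_Ico.1 hu
        rw [wt_grid (by omega), gen_Om_node h d a2]
    refine (sum_le_sum h1).trans ?_
    rw [sum_add_distrib, sum_const, card_range, nsmul_eq_mul, ← mul_assoc,
      mul_one_div_cancel hRr.ne', one_mul]
    linarith

theorem gen_Om_three (d : ℕ) : ∃ C : ℝ, 0 ≤ C ∧ ∀ (R : ℕ) (f : ℕ → Tr Bool → ℝ)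
    (O : Tr Bool → ℝ) (E : ℝ), 0 < R → OmData R f O E → ∀ s, s < R →
      gen (grid R) R d s (fun T => if s < T.lev R then O T else 0) ≤ C * (E / R) := by
  cases d with
  | zero =>
    refine ⟨0, le_rfl, fun R f O E _ h s _ => ?_⟩
    simp [gen, h.O_leaf]
  | succ d =>
    obtain ⟨C, hC, ih⟩ := gen_Om_two d
    have hc := gcn_nonneg (Fintype.card Bool) d
    set c := gcn (Fintype.card Bool) d with hcdef
    refine ⟨2 * c * (c + C), by positivity, fun R f O E hR h s hs => ?_⟩
    have hm : Adm (grid R) R 0 := adm_grid hR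
    have hRr : (0 : ℝ) < R := by exact_mod_cast hR
    set H : ℕ → ℝ := fun u => 2 * c * (gen (grid R) R d u (f u) + gen (grid R) R d u O) with hH
    have hH0 : ∀ u, 0 ≤ H u := fun u => mul_nonneg (by positivity)
      (add_nonneg (gen_nonneg hm (Nat.zero_le _) (h.nonneg u))
        (gen_nonneg hm (Nat.zero_le _) h.O_nonneg))
    have hsum : ∑ u ∈ range R, H u ≤ 2 * c * ((c + C) * E) := by
      rw [← mul_sum, sum_add_distrib, add_mul]
      exact mul_le_mul_of_nonneg_left (add_le_add (gen_Om_one hR h d) (ih R f O E hR h))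
        (by positivity)
    simp only [gen, h.O_leaf, ite_self, sum_const_zero, zero_add, Tr.lev]
    rw [Finset.sum_eq_sum_Ico_succ_bot hs]
    simp only [lt_self_iff_false, if_false, (lin_gen d s).zero, mul_zero, zero_add]
    have h1 : ∑ u ∈ Finset.Ico (s + 1) R, wt (grid R) u s * (gen (grid R) R d u fun a =>
        gen (grid R) R d u fun b => if s < u then O (.node u a b) else 0) ≤
        ∑ u ∈ range R, 1 / (R : ℝ) * H u := by
      refine le_trans (le_of_eq (sum_congr rfl fun u hu => ?_))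
        (sum_le_sum_of_subset_of_nonneg (s := Finset.Ico (s + 1) R)
          (fun w hw => mem_range.2 (mem_Ico.1 hw).2) fun w _ _ =>
            mul_nonneg (by positivity) (hH0 w))
      obtain ⟨a1, a2⟩ := mem_Ico.1 hu
      simp only [if_pos (show s < u by omega)]
      rw [wt_grid (by omega), gen_Om_node h d a2]
    refine h1.trans ?_
    rw [← mul_sum]
    calc _ ≤ 1 / (R : ℝ) * (2 * c * ((c + C) * E)) :=
          mul_le_mul_of_nonneg_left hsum (by positivity)
      _ = _ := by ring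

/-- Let `Δ = 1/R`, `η = δ + D/(δ R)`, `F_d u = gen d u (fD D u)`, `B_d u = gen d u (Om D)`.
(1) `Σ_{u<R} Δ F_d u ≤ c η`: `fD D u a = 0` if `lev a = u` (`fD_eq_zero`), so
`F_{d+1} u ≤ Σ_b fD D u (leaf b) + Σ_{w<R} Δ gen d w (a ↦ gen d w (b ↦ fD D u (node w a b)))`;
sum over `u` inside (`gen_sum`) and use `sum_fD_le`, `gen_one`.
(2) `B_{d+1} s ≤ Σ_u wt u s · 2 c_d (F_d u + B_d u)` and `wt u s ≤ [u = s] + Δ`, so
`Σ_{s<R} Δ B_{d+1} s ≤ 4 c_d Σ_u Δ (F_d u + B_d u)`; induction.
(3) the quantity in the statement is `Σ_{s<u<R} Δ · 2 c_d (F_d u + B_d u)` for `d+1`. -/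
theorem gen_Om (d : ℕ) : ∃ C : ℝ, 0 ≤ C ∧ ∀ (R s D : ℕ) (δ : ℝ), s < R → 0 < δ →
    ∀ (Ξ V : Type) [Fintype Ξ] [Nonempty Ξ] [Fintype V] [Nonempty V] (κ : Ker R Ξ)
      (σ : Path R Ξ → V → Bool),
      gen (grid R) R d s (fun T => if s < T.lev R then Om κ σ D T else 0) ≤
        C * (δ + D / (δ * R)) := by
  obtain ⟨C, hC, h⟩ := gen_Om_three d
  refine ⟨C, hC, fun R s D δ hs hδ Ξ V _ _ _ _ κ σ => ?_⟩
  have hR : (0 : ℝ) < R := by exact_mod_cast (by omega : 0 < R)
  have := h R (fun u a => fD κ σ D u a) (Om κ σ D) (R * δ + D / δ) (by omega)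
    ⟨fun u a => fD_nonneg κ σ D u a, fun u a ha => fD_eq_zero κ σ ha,
      fun a => sum_fD_le κ σ D a hδ, Om_nonneg κ σ D, fun _ => rfl, fun _ _ _ => rfl⟩ s hs
  refine this.trans (le_of_eq ?_)
  field_simp

end Crest.Agent.R141
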