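import Crest.Agent.R141.Model
import Crest.Agent.R141.Gen

/-! Comparison of a synchronised system with the product of independent copies
(task R141 Compare). -/

set_option autoImplicit false

namespace Crest.Agent.R141

open Finset
open scoped BigOperators

theorem cmp_abs_prod_sub {L : Type} (S : Finset L) (a b : L → ℝ) (ha : ∀ l, 0 ≤ a l ∧ a l ≤ 1)
    (hb : ∀ l, 0 ≤ b l ∧ b l ≤ 1) : |∏ l ∈ S, a l - ∏ l ∈ S, b l| ≤ ∑ l ∈ S, |a l - b l| := by
  classical
  induction S using Finset.induction_on with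
  | empty => simp
  | insert l S hl ih =>
    rw [prod_insert hl, prod_insert hl, sum_insert hl]
    have h1 : 0 ≤ ∏ l ∈ S, a l := prod_nonneg fun l _ => (ha l).1
    have h2 : ∏ l ∈ S, a l ≤ 1 := prod_le_one (fun l _ => (ha l).1) fun l _ => (ha l).2
    have h3 : a l * ∏ l ∈ S, a l - b l * ∏ l ∈ S, b l =
        (a l - b l) * ∏ l ∈ S, a l + b l * (∏ l ∈ S, a l - ∏ l ∈ S, b l) := by ring
    rw [h3]
    refine (abs_add_le _ _).trans (add_le_add ?_ (le_trans ?_ ih))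
    · rw [abs_mul, abs_of_nonneg h1]
      exact mul_le_of_le_one_right (abs_nonneg _) h2
    · rw [abs_mul, abs_of_nonneg (hb l).1]
      exact mul_le_of_le_one_left (abs_nonneg _) (hb l).2

/-- `|E ∏ Q_l - ∏ E Q_l| ≤ Σ_l E |Q_l - E Q_l|` for `[0,1]`-valued `Q_l` (pointwise telescoping,
induction on `S`) -/
theorem abs_E_prod_sub_le {Ω L : Type} [Fintype Ω] (p : PV Ω) (S : Finset L) (Q : L → Ω → ℝ)
    (hQ : ∀ l ω, 0 ≤ Q l ω ∧ Q l ω ≤ 1) :
    |p.E (fun ω => ∏ l ∈ S, Q l ω) - ∏ l ∈ S, p.E (Q l)| ≤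
      ∑ l ∈ S, p.E fun ω => |Q l ω - p.E (Q l)| := by
  have hb : ∀ l, 0 ≤ p.E (Q l) ∧ p.E (Q l) ≤ 1 := fun l =>
    ⟨p.E_nonneg fun ω => (hQ l ω).1, (p.E_mono fun ω => (hQ l ω).2).trans (p.E_const 1).le⟩
  rw [← p.E_const (∏ l ∈ S, p.E (Q l)), ← p.E_sub, ← p.E_sum]
  exact (p.abs_E_le _).trans
    (p.E_mono fun ω => cmp_abs_prod_sub S _ _ (fun l => hQ l ω) hb)

theorem cmp_expect_prod {V L : Type} [Fintype V] [Nonempty V] [Fintype L] [DecidableEq L]
    (f : L → V → ℝ) : 𝔼 v : L → V, ∏ l, f l (v l) = ∏ l, 𝔼 u, f l u := by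
  rw [← PV.unif_pi_E, PV.E_pi_prod]
  simp only [PV.unif_E]

theorem cmp_spinF_nonneg {R : ℕ} {Ξ V : Type} (σ : Path R Ξ → V → Bool) (u : V) (b : Bool)
    (y : Path R Ξ) : 0 ≤ spinF σ u b y := by
  unfold spinF ind; split_ifs <;> norm_num

theorem cmp_abs_spinF {R : ℕ} {Ξ V : Type} (σ : Path R Ξ → V → Bool) (u : V) (b : Bool)
    (y : Path R Ξ) : |spinF σ u b y| ≤ 1 := by
  unfold spinF ind; split_ifs <;> norm_num

theorem cmp_E_abs_le {Ω : Type} [Fintype Ω] (p : PV Ω) (Q : Ω → ℝ) {δ : ℝ} (hδ : 0 < δ) :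
    p.E (fun ω => |Q ω - p.E Q|) ≤ δ + (p.E (fun ω => Q ω * Q ω) - p.E Q * p.E Q) / δ := by
  have h1 : p.E (fun ω => |Q ω - p.E Q|) ≤
      p.E (fun ω => δ + ((Q ω * Q ω - 2 * p.E Q * Q ω) + p.E Q * p.E Q) * δ⁻¹) := by
    refine p.E_mono fun ω => ?_
    have h2 : (Q ω * Q ω - 2 * p.E Q * Q ω) + p.E Q * p.E Q = |Q ω - p.E Q| ^ 2 := by
      rw [sq_abs]; ring
    rw [h2]
    generalize |Q ω - p.E Q| = a
    have h3 : δ + a ^ 2 * δ⁻¹ - a = ((a - δ / 2) ^ 2 + 3 / 4 * δ ^ 2) * δ⁻¹ := by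
      field_simp; ring
    have h4 : 0 ≤ ((a - δ / 2) ^ 2 + 3 / 4 * δ ^ 2) * δ⁻¹ := by positivity
    linarith
  rw [p.E_add, p.E_const, p.E_mul_right, p.E_add, p.E_sub, p.E_mul_left, p.E_const] at h1
  refine h1.trans (le_of_eq ?_)
  rw [div_eq_mul_inv]; ring

/-- One labelled tree.  `ev_rep T s x`; `Q l ω = 𝔼_v χ ω (fun b => spinF σ v (b l))`; since `χ ω` is
multiplicative (`map_prod`) and the sites are independent (`PV.E_pi_prod`, `PV.unif_pi_E`), the first
term is `E ∏ Q_l`, and `E Q_l = 𝔼_v Ex s (yv (T.map (· l)) v) x` (`ev_map`),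
`Var Q_l = 𝔼_{u,w} (Ex s zv - Ex s yv · Ex s yv)(x)`, `|a| ≤ δ + a²/δ`. -/
theorem tree_compare {R : ℕ} {Ξ V L : Type} [Fintype Ξ] [Nonempty Ξ] [Fintype V] [Nonempty V]
    [Fintype L] [DecidableEq L] (κ : Ker R Ξ) (σ : Path R Ξ → V → Bool) (T : Tr (L → Bool))
    (s : ℕ) (x : Path R Ξ) {δ : ℝ} (hδ : 0 < δ) :
    |𝔼 v : L → V, Ex κ s (ev κ (fun b y => ∏ l, spinF σ (v l) (b l) y) T) x -
        ∏ l, 𝔼 u, Ex κ s (yv κ σ (T.map fun b => b l) u) x| ≤
      ∑ l, (δ + (𝔼 u, 𝔼 w, |Ex κ s (zv κ σ (T.map fun b => b l) u w) x -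
        Ex κ s (yv κ σ (T.map fun b => b l) u) x * Ex κ s (yv κ σ (T.map fun b => b l) w) x|) / δ) := by
  obtain ⟨Ω, _, p, χ, hrep, hle, hnn⟩ := ev_rep κ T s x
  set ψ : L → V → (L → Bool) → Path R Ξ → ℝ := fun l u b => spinF σ u (b l) with hψ
  set Q : L → Ω → ℝ := fun l ω => 𝔼 u, χ ω (ψ l u) with hQ
  have hQ01 : ∀ l ω, 0 ≤ Q l ω ∧ Q l ω ≤ 1 := fun l ω =>
    ⟨expect_nonneg fun u _ => hnn ω _ fun b y => cmp_spinF_nonneg σ u _ y,
      expect_le univ_nonempty fun u _ =>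
        (le_abs_self _).trans (hle ω _ fun b y => cmp_abs_spinF σ u _ y)⟩
  have hy : ∀ l u, Ex κ s (yv κ σ (T.map fun b => b l) u) x = p.E fun ω => χ ω (ψ l u) := by
    intro l u
    rw [← hrep, yv, ev_map]
  have hz : ∀ l u w, Ex κ s (zv κ σ (T.map fun b => b l) u w) x =
      p.E fun ω => χ ω (ψ l u) * χ ω (ψ l w) := by
    intro l u w
    simp only [← map_mul]
    rw [← hrep, zv, ev_map]
    rfl
  have h1 : 𝔼 v : L → V, Ex κ s (ev κ (fun b y => ∏ l, spinF σ (v l) (b l) y) T) x =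
      p.E fun ω => ∏ l, Q l ω := by
    have : ∀ v : L → V, Ex κ s (ev κ (fun b y => ∏ l, spinF σ (v l) (b l) y) T) x =
        p.E fun ω => ∏ l, χ ω (ψ l (v l)) := by
      intro v
      simp only [← map_prod]
      rw [← hrep]
      congr 2
      funext b y
      simp only [Finset.prod_apply, hψ]
    simp only [this]
    rw [← p.E_expect]
    congr 1
    funext ω
    exact cmp_expect_prod fun l u => χ ω (ψ l u)
  have h2 : ∀ l, 𝔼 u, Ex κ s (yv κ σ (T.map fun b => b l) u) x = p.E (Q l) := by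
    intro l
    simp only [hy]
    rw [← p.E_expect]
  rw [h1]
  simp only [h2]
  refine (abs_E_prod_sub_le p univ Q hQ01).trans (sum_le_sum fun l _ => ?_)
  refine (cmp_E_abs_le p (Q l) hδ).trans ?_
  gcongr
  have h3 : p.E (fun ω => Q l ω * Q l ω) =
      𝔼 u, 𝔼 w, Ex κ s (zv κ σ (T.map fun b => b l) u w) x := by
    simp only [hz, ← p.E_expect]
    congr 1
    funext ω
    exact Fintype.expect_mul_expect _ _
  have h4 : p.E (Q l) * p.E (Q l) = 𝔼 u, 𝔼 w, Ex κ s (yv κ σ (T.map fun b => b l) u) x *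
      Ex κ s (yv κ σ (T.map fun b => b l) w) x := by
    rw [← h2]
    exact Fintype.expect_mul_expect _ _
  rw [h3, h4, ← expect_sub_distrib]
  refine expect_le_expect fun u _ => ?_
  rw [← expect_sub_distrib]
  exact expect_le_expect fun w _ => le_abs_self _

theorem cmp_rep (α : Type) [Fintype α] (T : Tr Unit) :
    ∃ (ι : Type) (_ : Fintype ι) (f : ι → Tr α), (∀ Φ, labSum α T Φ = ∑ i, Φ (f i)) ∧
      (∀ i, (f i).map (fun _ => ()) = T) ∧ Fintype.card ι = Fintype.card α ^ T.size := by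
  induction T with
  | leaf a => exact ⟨α, inferInstance, Tr.leaf, fun _ => rfl, fun _ => rfl, by simp [Tr.size]⟩
  | node u a b iha ihb =>
    obtain ⟨ι, _, f, h1, h2, h3⟩ := iha
    obtain ⟨ι', _, f', h1', h2', h3'⟩ := ihb
    refine ⟨ι × ι', inferInstance, fun i => .node u (f i.1) (f' i.2), fun Φ => ?_, fun i => ?_, ?_⟩
    · rw [labSum, h1, Fintype.sum_prod_type]
      simp only [h1']
    · simp only [Tr.map, h2, h2']
    · rw [Fintype.card_prod, h3, h3', Tr.size, pow_add]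

theorem cmp_labSum_nonneg {α : Type} [Fintype α] (T : Tr Unit) {Φ : Tr α → ℝ}
    (h : ∀ T', 0 ≤ Φ T') : 0 ≤ labSum α T Φ := by
  obtain ⟨ι, _, f, h1, -, -⟩ := cmp_rep α T
  rw [h1]; exact sum_nonneg fun i _ => h _

theorem cmp_le_labSum {α : Type} [Fintype α] (T : Tr α) {Φ : Tr α → ℝ} (h : ∀ T', 0 ≤ Φ T') :
    Φ T ≤ labSum α (T.map fun _ => ()) Φ := by
  induction T generalizing Φ with
  | leaf a => exact single_le_sum (f := fun a => Φ (.leaf a)) (fun _ _ => h _) (mem_univ a)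
  | node u a b iha ihb =>
    rw [Tr.map, labSum]
    exact (ihb (Φ := fun b' => Φ (.node u a b')) fun _ => h _).trans
      (iha (Φ := fun a' => labSum α (b.map fun _ => ()) fun b' => Φ (.node u a' b'))
        fun _ => cmp_labSum_nonneg _ fun _ => h _)

theorem cmp_map_map {α β γ : Type} (f : α → β) (g : β → γ) (T : Tr α) :
    (T.map f).map g = T.map fun a => g (f a) := by
  induction T with
  | leaf a => rfl
  | node u a b iha ihb => simp only [Tr.map, iha, ihb]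

/-- product of the coefficients at the leaves -/
def cmpW {β : Type} (g : β → ℝ) : Tr β → ℝ
  | .leaf b => g b
  | .node _ a b => cmpW g a * cmpW g b

theorem cmp_abs_W {β : Type} {g : β → ℝ} (h : ∀ b, |g b| ≤ 1) (T : Tr β) : |cmpW g T| ≤ 1 := by
  induction T with
  | leaf a => exact h a
  | node u a b iha ihb =>
    rw [cmpW, abs_mul]; exact mul_le_one₀ iha (abs_nonneg _) ihb

theorem cmp_ev_sum {R : ℕ} {Ξ β : Type} [Fintype Ξ] [Fintype β] (κ : Ker R Ξ) (g : β → ℝ)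
    (I : β → Path R Ξ → ℝ) (T : Tr Unit) (x : Path R Ξ) :
    ev κ (fun _ y => ∑ b, g b * I b y) T x =
      labSum β T fun T' => cmpW g T' * ev κ I T' x := by
  induction T generalizing x with
  | leaf a => rfl
  | node u a b iha ihb =>
    obtain ⟨ι, _, f, h1, -, -⟩ := cmp_rep β a
    obtain ⟨ι', _, f', h1', -, -⟩ := cmp_rep β b
    rw [ev, labSum, funext iha, funext ihb]
    simp only [h1, h1', Ex_sum, Ex_mul_left, cmpW, ev]
    rw [sum_mul_sum]
    exact sum_congr rfl fun i _ => sum_congr rfl fun j _ => by ring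

theorem cmp_ind_sum {L : Type} [Fintype L] [DecidableEq L] (g : (L → Bool) → ℝ) (τ : L → Bool) :
    g τ = ∑ b, g b * ∏ l, ind (τ l) (b l) := by
  rw [sum_eq_single τ]
  · simp [ind]
  · intro b _ hb
    obtain ⟨l, hl⟩ := Function.ne_iff.1 hb
    rw [prod_eq_zero (mem_univ l) (if_neg (Ne.symm hl)), mul_zero]
  · simp

/-- the pointwise covariance -/
noncomputable def cmpCv {R : ℕ} {Ξ V : Type} [Fintype Ξ] [Fintype V] (κ : Ker R Ξ)
    (σ : Path R Ξ → V → Bool) (s : ℕ) (x : Path R Ξ) (τ : Tr Bool) : ℝ :=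
  𝔼 u, 𝔼 w, |Ex κ s (zv κ σ τ u w) x - Ex κ s (yv κ σ τ u) x * Ex κ s (yv κ σ τ w) x|

theorem cmpCv_nonneg {R : ℕ} {Ξ V : Type} [Fintype Ξ] [Fintype V] (κ : Ker R Ξ)
    (σ : Path R Ξ → V → Bool) (s : ℕ) (x : Path R Ξ) (τ : Tr Bool) : 0 ≤ cmpCv κ σ s x τ :=
  expect_nonneg fun _ _ => expect_nonneg fun _ _ => abs_nonneg _

/-- one shape -/
theorem cmp_shape {R : ℕ} {Ξ V L : Type} [Fintype Ξ] [Nonempty Ξ] [Fintype V] [Nonempty V]
    [Fintype L] [DecidableEq L] (κ : Ker R Ξ) (σ : Path R Ξ → V → Bool) (g : (L → Bool) → ℝ)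
    (hg : ∀ b, |g b| ≤ 1) (T : Tr Unit) (s : ℕ) (x : Path R Ξ) {δ : ℝ} (hδ : 0 < δ) :
    |𝔼 v : L → V, Ex κ s (ev κ (fun _ y => g fun l => σ y (v l)) T) x -
      𝔼 v : L → V, Ex (Ker.pi fun _ : L => κ) s (ev (Ker.pi fun _ : L => κ)
        (fun _ y => g fun l => σ (comp y l) (v l)) T) (fun i _ => x i)| ≤
      ((2 ^ Fintype.card L) ^ T.size * Fintype.card L : ℕ) *
        (δ + labSum Bool T (cmpCv κ σ s x) / δ) := by
  obtain ⟨ι, _, f, h1, h2, h3⟩ := cmp_rep (L → Bool) T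
  have e1 : ∀ v : L → V, Ex κ s (ev κ (fun _ y => g fun l => σ y (v l)) T) x =
      ∑ i, cmpW g (f i) * Ex κ s (ev κ (fun b y => ∏ l, spinF σ (v l) (b l) y) (f i)) x := by
    intro v
    have : (fun (_ : Unit) (y : Path R Ξ) => g fun l => σ y (v l)) =
        fun _ y => ∑ b, g b * ∏ l, spinF σ (v l) (b l) y := by
      funext _ y; exact cmp_ind_sum g _
    rw [this, funext (cmp_ev_sum κ g (fun b y => ∏ l, spinF σ (v l) (b l) y) T)]
    simp only [h1, Ex_sum, Ex_mul_left]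
  have e2 : ∀ v : L → V, Ex (Ker.pi fun _ : L => κ) s (ev (Ker.pi fun _ : L => κ)
        (fun _ y => g fun l => σ (comp y l) (v l)) T) (fun i _ => x i) =
      ∑ i, cmpW g (f i) * ∏ l, Ex κ s (yv κ σ ((f i).map fun b => b l) (v l)) x := by
    intro v
    have : (fun (_ : Unit) (y : Path R (L → Ξ)) => g fun l => σ (comp y l) (v l)) =
        fun _ y => ∑ b, g b * ∏ l, spinF σ (v l) (b l) (comp y l) := by
      funext _ y; exact cmp_ind_sum g _
    rw [this, funext (cmp_ev_sum (Ker.pi fun _ : L => κ) g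
      (fun b y => ∏ l, spinF σ (v l) (b l) (comp y l)) T)]
    simp only [h1, Ex_sum, Ex_mul_left]
    refine sum_congr rfl fun i _ => ?_
    rw [funext (ev_pi_prod (fun _ : L => κ) (fun l (b : L → Bool) => spinF σ (v l) (b l)) (f i)),
      Ex_pi_prod (fun _ : L => κ) s
        (fun l => ev κ (fun b : L → Bool => spinF σ (v l) (b l)) (f i))]
    congr 1
    refine prod_congr rfl fun l _ => ?_
    rw [yv, ev_map]
    rfl
  simp only [e1, e2, expect_sum_comm, ← mul_expect]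
  rw [← sum_sub_distrib]
  refine (abs_sum_le_sum_abs _ _).trans ?_
  have key : ∀ i ∈ (univ : Finset ι), |cmpW g (f i) * 𝔼 v : L → V,
        Ex κ s (ev κ (fun b y => ∏ l, spinF σ (v l) (b l) y) (f i)) x -
      cmpW g (f i) * 𝔼 v : L → V, ∏ l, Ex κ s (yv κ σ ((f i).map fun b => b l) (v l)) x| ≤
      Fintype.card L * (δ + labSum Bool T (cmpCv κ σ s x) / δ) := by
    intro i _
    rw [← mul_sub, abs_mul,
      cmp_expect_prod fun l u => Ex κ s (yv κ σ ((f i).map fun b => b l) u) x]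
    refine (mul_le_of_le_one_left (abs_nonneg _) (cmp_abs_W hg _)).trans ?_
    refine (tree_compare κ σ (f i) s x hδ).trans ?_
    rw [← nsmul_eq_mul, ← card_univ]
    refine sum_le_card_nsmul _ _ _ fun l _ => ?_
    have := cmp_le_labSum ((f i).map fun b => b l) (cmpCv_nonneg κ σ s x)
    rw [cmp_map_map, h2] at this
    gcongr
    exact this
  refine (sum_le_card_nsmul _ _ _ key).trans (le_of_eq ?_)
  rw [card_univ, h3, nsmul_eq_mul]
  simp only [Fintype.card_pi, Fintype.card_bool, prod_const, card_univ]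
  push_cast; ring

theorem cmp_expect_wsum {ι α : Type} [Fintype ι] (l : WL α) (Φ : ι → α → ℝ) :
    𝔼 i, wsum l (Φ i) = wsum l fun a => 𝔼 i, Φ i a := by
  induction l with
  | nil => simp
  | cons p l ih => simp only [wsum_cons, expect_add_distrib, ih, ← mul_expect]

theorem cmp_series {R : ℕ} {Ξ β : Type} [Fintype Ξ] (κ : Ker R Ξ) {m : ℕ → ℝ} {s : ℕ}
    (hm : Adm m R s) (W : β → ℝ) (hW : ∀ τ, 0 < W τ) {A c : ℝ} (hA : 0 < A) (hc : c < 1)
    (hg : ∀ τ, |W τ / A - 1| ≤ c) (τ : Path R Ξ → β) (d : ℕ) (x : Path R Ξ) :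
    |Fr κ m s (fun y => Real.log (W (τ y))) x - (Real.log A +
      ∑ j ∈ range d, (-1) ^ j / (j + 1).factorial * wsum (insN m R s j)
        fun T => Ex κ s (ev κ (fun _ y => W (τ y) / A - 1) T) x)| ≤ c ^ (d + 1) / (1 - c) := by
  have h1 : (fun y => Real.log (W (τ y))) =
      fun y => Real.log A + Real.log (1 + (W (τ y) / A - 1)) := by
    funext y
    rw [add_sub_cancel, Real.log_div (hW _).ne' hA.ne']; ring
  rw [h1, Fr_const_add κ hm, add_sub_add_left_eq_sub]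
  exact Fr_series κ hm hc (fun y => hg (τ y)) d x

theorem cmp_E0_gen {R : ℕ} {Ξ V : Type} [Fintype Ξ] [Nonempty Ξ] [Fintype V] (κ : Ker R Ξ)
    (σ : Path R Ξ → V → Bool) (m : ℕ → ℝ) (d s : ℕ) :
    E0 κ (fun x => gen m R d s (cmpCv κ σ s x)) = gen m R d s fun T => cov κ σ T s := by
  have h1 : ∀ T, cov κ σ T s = E0 κ fun x => cmpCv κ σ s x T := fun T => by
    unfold cov EE cmpCv E0
    simp only [Ex_expect]
  simp only [h1]
  unfold E0
  obtain ⟨p, hp⟩ := Ex_rep κ 0 (pt R Ξ)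
  simp only [hp, PV.E, gen_sum, gen_mul_left]

/-- the pointwise bound -/
theorem cmp_point {R : ℕ} {Ξ V L : Type} [Fintype Ξ] [Nonempty Ξ] [Fintype V] [Nonempty V]
    [Fintype L] [DecidableEq L] (κ : Ker R Ξ) (σ : Path R Ξ → V → Bool) {m : ℕ → ℝ} {s : ℕ}
    (hm : Adm m R s) (W : (L → Bool) → ℝ) (hW : ∀ τ, 0 < W τ) {A c : ℝ} (hA : 0 < A) (hc : c < 1)
    (hg : ∀ τ, |W τ / A - 1| ≤ c) {n : ℕ} (hn : Fintype.card L ≤ n) (d : ℕ) (C : ℕ → ℝ)
    (hC0 : ∀ j, 0 ≤ C j)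
    (hC : ∀ j, ∀ Φ : Tr Unit → ℝ, (∀ T, 0 ≤ Φ T) → wsum (insN m R s j) Φ ≤ C j * gen m R j s Φ)
    {δ : ℝ} (hδ : 0 < δ) (x : Path R Ξ) :
    |𝔼 v : L → V, Fr κ m s (fun y => Real.log (W fun l => σ y (v l))) x -
        (trialOf κ σ hm x).TV W| ≤
      2 * (c ^ (d + 1) / (1 - c)) + d * (((2 ^ n) ^ d * n : ℕ) * δ) +
        (((2 ^ n) ^ d * n : ℕ) * (∑ j ∈ range d, C j) / δ) * gen m R d s (cmpCv κ σ s x) := by
  have hTV : (trialOf κ σ hm x).TV W = 𝔼 v : L → V, Fr (Ker.pi fun _ : L => κ) m s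
      (fun y => Real.log (W fun l => σ (comp y l) (v l))) fun i _ => x i := rfl
  rw [hTV]
  set K : ℝ := (((2 ^ n) ^ d * n : ℕ) : ℝ) with hK
  have hK0 : 0 ≤ K := Nat.cast_nonneg _
  set a : (L → V) → Tr Unit → ℝ := fun v T =>
    Ex κ s (ev κ (fun _ y => (W fun l => σ y (v l)) / A - 1) T) x with ha
  set b : (L → V) → Tr Unit → ℝ := fun v T => Ex (Ker.pi fun _ : L => κ) s
    (ev (Ker.pi fun _ : L => κ) (fun _ y => (W fun l => σ (comp y l) (v l)) / A - 1) T)
      (fun i _ => x i) with hb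
  have h1 : |𝔼 v : L → V, Fr κ m s (fun y => Real.log (W fun l => σ y (v l))) x -
      𝔼 v : L → V, (Real.log A + ∑ j ∈ range d, (-1) ^ j / (j + 1).factorial *
        wsum (insN m R s j) (a v))| ≤ c ^ (d + 1) / (1 - c) := by
    rw [← expect_sub_distrib]
    exact (abs_expect_le _ _).trans (expect_le univ_nonempty fun v _ =>
      cmp_series κ hm W hW hA hc hg (fun y l => σ y (v l)) d x)
  have h2 : |𝔼 v : L → V, Fr (Ker.pi fun _ : L => κ) m s
        (fun y => Real.log (W fun l => σ (comp y l) (v l))) (fun i _ => x i) -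
      𝔼 v : L → V, (Real.log A + ∑ j ∈ range d, (-1) ^ j / (j + 1).factorial *
        wsum (insN m R s j) (b v))| ≤ c ^ (d + 1) / (1 - c) := by
    rw [← expect_sub_distrib]
    exact (abs_expect_le _ _).trans (expect_le univ_nonempty fun v _ =>
      cmp_series (Ker.pi fun _ : L => κ) hm W hW hA hc hg (fun y l => σ (comp y l) (v l)) d _)
  have h3 : |𝔼 v : L → V, (Real.log A + ∑ j ∈ range d, (-1) ^ j / (j + 1).factorial *
        wsum (insN m R s j) (a v)) -
      𝔼 v : L → V, (Real.log A + ∑ j ∈ range d, (-1) ^ j / (j + 1).factorial *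
        wsum (insN m R s j) (b v))| ≤
      d * (K * δ) + (K * (∑ j ∈ range d, C j) / δ) * gen m R d s (cmpCv κ σ s x) := by
    simp only [expect_add_distrib, expect_sum_comm, ← mul_expect, cmp_expect_wsum]
    rw [add_sub_add_left_eq_sub, ← sum_sub_distrib]
    refine (abs_sum_le_sum_abs _ _).trans ?_
    have e : d * (K * δ) + (K * (∑ j ∈ range d, C j) / δ) * gen m R d s (cmpCv κ σ s x) =
        ∑ j ∈ range d, (K * δ + K / δ * (C j * gen m R d s (cmpCv κ σ s x))) := by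
      rw [sum_add_distrib, sum_const, card_range, nsmul_eq_mul, ← mul_sum, ← sum_mul]
      ring
    rw [e]
    refine sum_le_sum fun j hj => ?_
    have hjd : j + 1 ≤ d := mem_range.1 hj
    rw [← mul_sub, ← wsum_sub, abs_mul]
    have f1 : |wsum (insN m R s j) fun T => 𝔼 v, a v T - 𝔼 v, b v T| ≤
        wsum (insN m R s j) fun T => K * δ * 1 + K / δ * labSum Bool T (cmpCv κ σ s x) := by
      refine (abs_wsum_le' _ _).trans ?_
      conv_rhs => rw [← wpos_insN hm j]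
      refine wsum_wpos_le fun T hT => ?_
      have hs := (insN_mem hT).2.1
      refine (cmp_shape κ σ (fun τ => W τ / A - 1) (fun τ => (hg τ).trans hc.le) T s x hδ).trans ?_
      have g1 : (((2 ^ Fintype.card L) ^ T.size * Fintype.card L : ℕ) : ℝ) ≤ K := by
        rw [hK]
        have : (2 ^ Fintype.card L) ^ T.size ≤ (2 ^ n) ^ d :=
          (Nat.pow_le_pow_left (Nat.pow_le_pow_right (by norm_num) hn) _).trans
            (Nat.pow_le_pow_right (by positivity) (by omega))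
        exact_mod_cast Nat.mul_le_mul this hn
      have g2 := cmp_labSum_nonneg T (cmpCv_nonneg κ σ s x)
      refine (mul_le_mul_of_nonneg_right g1 (by positivity)).trans (le_of_eq (by ring))
    rw [wsum_add, wsum_mul_left, wsum_mul_left, insN_tot hm] at f1
    have f2 := hC j (fun T => labSum Bool T (cmpCv κ σ s x))
      fun T => cmp_labSum_nonneg T (cmpCv_nonneg κ σ s x)
    rw [gen_labSum] at f2
    have f3 : gen m R j s (cmpCv κ σ s x) ≤ gen m R d s (cmpCv κ σ s x) :=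
      gen_mono_depth hm le_rfl (by omega) (cmpCv_nonneg κ σ s x)
    have f4 := f2.trans (mul_le_mul_of_nonneg_left f3 (hC0 j))
    have f5 := f1.trans (add_le_add le_rfl (mul_le_mul_of_nonneg_left f4 (by positivity)))
    have f6 : |(-1 : ℝ) ^ j / ((j + 1).factorial : ℝ)| = 1 / ((j + 1).factorial : ℝ) := by
      rw [abs_div, abs_pow, abs_neg, abs_one, one_pow, Nat.abs_cast]
    have f7 : (1 : ℝ) ≤ ((j + 1).factorial : ℝ) := by exact_mod_cast Nat.factorial_pos _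
    have f8 : (j.factorial : ℝ) ≤ ((j + 1).factorial : ℝ) := by
      exact_mod_cast Nat.factorial_le (Nat.le_succ j)
    have f9 : 0 ≤ K / δ * (C j * gen m R d s (cmpCv κ σ s x)) :=
      mul_nonneg (by positivity) (mul_nonneg (hC0 j)
        (gen_nonneg hm le_rfl (cmpCv_nonneg κ σ s x)))
    rw [f6, one_div_mul_eq_div, div_le_iff₀ (by linarith)]
    refine f5.trans ?_
    rw [add_mul]
    exact add_le_add (mul_le_mul_of_nonneg_left f8 (by positivity))
      (le_mul_of_one_le_right f9 f7)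
  rw [abs_le] at h1 h2 h3 ⊢
  constructor <;> linarith [h1.1, h1.2, h2.1, h2.2, h3.1, h3.2]

/-- Write `W = A (1 + g)`, `A = cosh B`, `|g| ≤ c := tanh B < 1`; the constant `log A` cancels
(`Fr_const_add`).  Choose `d` with `2 c^{d+1}/(1-c) ≤ η/2` and expand both free energies by
`Fr_series` with `n = d` terms.  For a shape `T` (size `≤ d`), `g τ = Σ_b g b ∏_l ind (τ l) (b l)`, so by
multilinearity `ev (fun _ => g ∘ ..) T = labSum (L → Bool) T (T' ↦ (∏_{leaves} g b) · ev (∏_l ind) T')`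
in both systems.  In the product system `ev_pi_prod`, `Ex_pi_prod` and the independence of the
`v l` give `∏_l 𝔼_u Ex s (yv (T'.map (· l)) u) x`.  So by `tree_compare`, after `E0 κ`, the
difference for `T` is at most `labSum (L → Bool) T (T' ↦ Σ_l (δ + cov (T'.map (· l)) s/δ))
≤ (2^n)^d n (δ + labSum Bool T (cov · s)/δ)` (each Boolean labelling is one of the nonnegative terms of
`labSum Bool T`; `labSum (L → Bool) T 1 = (2^{|L|})^{size T}`).  Then `insN_nonneg`, `insN_tot`,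
`insN_le_gen`, `gen_labSum`, `gen_mono_depth`; choose `δ`, then `η'`. -/
theorem compare (n : ℕ) (B : ℝ) {η : ℝ} (hη : 0 < η) : ∃ (d : ℕ) (η' : ℝ), 0 < η' ∧
    ∀ (R : ℕ) (Ξ V L : Type) [Fintype Ξ] [Nonempty Ξ] [Fintype V] [Nonempty V] [Fintype L]
      [DecidableEq L] (κ : Ker R Ξ) (σ : Path R Ξ → V → Bool) (m : ℕ → ℝ) (s : ℕ) (hm : Adm m R s)
      (W : (L → Bool) → ℝ), Fintype.card L ≤ n → (∀ τ, 0 < W τ) → (∀ τ, |Real.log (W τ)| ≤ B) →
      gen m R d s (fun T => cov κ σ T s) ≤ η' →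
      E0 κ (fun x => |𝔼 v : L → V, Fr κ m s (fun y => Real.log (W fun l => σ y (v l))) x -
        (trialOf κ σ hm x).TV W|) ≤ η := by
  set c : ℝ := 1 - Real.exp (-(2 * |B|)) with hc
  have hc1 : c < 1 := by have := Real.exp_pos (-(2 * |B|)); linarith
  have hc0 : 0 ≤ c := by
    have : Real.exp (-(2 * |B|)) ≤ 1 := Real.exp_le_one_iff.2 (by have := abs_nonneg B; linarith)
    linarith
  have hc2 : 0 < 1 - c := by linarith
  obtain ⟨d, hd⟩ := exists_pow_lt_of_lt_one (show 0 < η / 6 * (1 - c) by positivity) hc1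
  have hd' : 2 * (c ^ (d + 1) / (1 - c)) ≤ η / 3 := by
    have h1 : c ^ (d + 1) ≤ c ^ d := pow_le_pow_of_le_one hc0 hc1.le (Nat.le_succ d)
    have h2 : c ^ (d + 1) / (1 - c) ≤ η / 6 := by rw [div_le_iff₀ hc2]; linarith
    linarith
  choose C hC0 hC using insN_le_gen
  set K : ℝ := (((2 ^ n) ^ d * n : ℕ) : ℝ) with hK
  have hK0 : 0 ≤ K := Nat.cast_nonneg _
  have hS0 : 0 ≤ ∑ j ∈ range d, C j := sum_nonneg fun j _ => hC0 j
  set δ : ℝ := η / 3 / (d * K + 1) with hδ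
  have hδ0 : 0 < δ := by positivity
  have hδ1 : d * (K * δ) ≤ η / 3 := by
    have : (d * K + 1) * δ = η / 3 := by rw [hδ]; field_simp
    nlinarith
  set Z : ℝ := K * (∑ j ∈ range d, C j) / δ with hZ
  have hZ0 : 0 ≤ Z := by positivity
  refine ⟨d, η / 3 / (Z + 1), by positivity, ?_⟩
  intro R Ξ V L _ _ _ _ _ _ κ σ m s hm W hL hW hB hgen
  have hg : ∀ τ, |W τ / Real.exp |B| - 1| ≤ c := by
    intro τ
    have h1 := abs_le.1 ((hB τ).trans (le_abs_self B))
    have h2 : W τ / Real.exp |B| = Real.exp (Real.log (W τ) - |B|) := by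
      rw [Real.exp_sub, Real.exp_log (hW τ)]
    have h3 : Real.exp (Real.log (W τ) - |B|) ≤ 1 := Real.exp_le_one_iff.2 (by linarith [h1.2])
    have h4 : Real.exp (-(2 * |B|)) ≤ Real.exp (Real.log (W τ) - |B|) :=
      Real.exp_le_exp.2 (by linarith [h1.1])
    rw [h2, abs_le]
    constructor <;> linarith
  have key := Ex_mono κ 0 (cmp_point κ σ hm W hW (Real.exp_pos |B|) hc1 hg hL d C hC0
    (fun j => hC j m R s hm) hδ0) (pt R Ξ)
  rw [Ex_add, Ex_const, Ex_mul_left] at key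
  have e := cmp_E0_gen κ σ m d s
  unfold E0 at e ⊢
  rw [e] at key
  refine key.trans ?_
  have h1 : Z * gen m R d s (fun T => cov κ σ T s) ≤ η / 3 := by
    refine (mul_le_mul_of_nonneg_left hgen hZ0).trans ?_
    have h2 : (Z + 1) * (η / 3 / (Z + 1)) = η / 3 := by field_simp
    have h3 : 0 < η / 3 / (Z + 1) := by positivity
    nlinarith
  linarith

end Crest.Agent.R141
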