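import Crest.Agent.R141.FrL

/-! Concentration of the perturbation (task R141 Conc+Poisson). -/

set_option autoImplicit false

namespace Crest.Agent.R141

open Finset
open scoped BigOperators

namespace Conc

theorem cosh_ge (x : ℝ) : 2 + x ^ 2 ≤ Real.exp x + Real.exp (-x) := by
  have h1 : Real.cosh x = 2 * Real.sinh (x / 2) ^ 2 + 1 := by
    have := Real.cosh_two_mul (x / 2)
    rw [show 2 * (x / 2) = x by ring, Real.cosh_sq] at this
    linarith
  have h2 : (x / 2) ^ 2 ≤ Real.sinh (x / 2) ^ 2 := by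
    rw [sq_le_sq, Real.abs_sinh]
    exact Real.self_le_sinh_iff.2 (abs_nonneg _)
  rw [Real.cosh_eq] at h1
  nlinarith

theorem log_ge {a : ℝ} (ha : |a| ≤ 1 / 2) : a - a ^ 2 ≤ Real.log (1 + a) := by
  obtain ⟨h1, h2⟩ := abs_le.1 ha
  have hp : 0 < 1 + a := by linarith
  rcases le_total 0 a with h | h
  · refine le_trans ?_ (Real.one_sub_inv_le_log_of_pos hp)
    have : 1 - (1 + a)⁻¹ = a / (1 + a) := by field_simp; ring
    rw [this, le_div_iff₀ hp]
    nlinarith [mul_nonneg h (sq_nonneg a)]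
  · rw [Real.le_log_iff_exp_le hp]
    have hb : 0 ≤ -a + a ^ 2 := by nlinarith
    have h3 := Real.quadratic_le_exp_of_nonneg hb
    have h4 : 1 ≤ (1 + a) * (1 + (-a + a ^ 2) + (-a + a ^ 2) ^ 2 / 2) := by
      have e : (1 + a) * (1 + (-a + a ^ 2) + (-a + a ^ 2) ^ 2 / 2) =
          1 + a ^ 2 / 2 * (1 + a - a ^ 2 + a ^ 3) := by ring
      have h5 : 0 ≤ 1 + a - a ^ 2 + a ^ 3 := by nlinarith [sq_nonneg a]
      rw [e]
      have : 0 ≤ a ^ 2 / 2 * (1 + a - a ^ 2 + a ^ 3) := by positivity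
      linarith
    have h6 : 1 ≤ (1 + a) * Real.exp (-a + a ^ 2) :=
      h4.trans (mul_le_mul_of_nonneg_left h3 hp.le)
    have h7 : Real.exp (a - a ^ 2) * Real.exp (-a + a ^ 2) = 1 := by
      rw [← Real.exp_add]; simp
    have h8 := Real.exp_pos (-a + a ^ 2)
    exact le_of_mul_le_mul_right (h7.trans_le h6) h8

theorem abs_log_le {a : ℝ} (ha : |a| ≤ 1 / 2) : |Real.log (1 + a)| ≤ 2 * |a| := by
  have h1 := log_ge ha
  have hp : 0 < 1 + a := by linarith [(abs_le.1 ha).1]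
  have h2 := Real.log_le_sub_one_of_pos hp
  have h3 : a ^ 2 ≤ |a| / 2 := by
    rw [← sq_abs]
    nlinarith [abs_nonneg a]
  rw [abs_le]
  constructor
  · linarith [neg_abs_le a, abs_nonneg a]
  · linarith [le_abs_self a, abs_nonneg a]

theorem half_le_log {x : ℝ} (h0 : 0 ≤ x) (h1 : x ≤ 1) : x / 2 ≤ Real.log (1 + x) := by
  have hp : 0 < 1 + x := by linarith
  refine le_trans ?_ (Real.one_sub_inv_le_log_of_pos hp)
  have : 1 - (1 + x)⁻¹ = x / (1 + x) := by field_simp; ring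
  rw [this, le_div_iff₀ hp]
  nlinarith

theorem var_eq {Ω : Type} [Fintype Ω] (p : PV Ω) (D : Ω → ℝ) :
    p.E (fun ω => (D ω - p.E D) ^ 2) = p.E (fun ω => D ω ^ 2) - p.E D ^ 2 := by
  have : (fun ω => (D ω - p.E D) ^ 2) =
      fun ω => (D ω ^ 2 - (2 * p.E D) * D ω) + p.E D ^ 2 := by
    funext ω; ring
  rw [this, p.E_add, p.E_sub, p.E_mul_left, p.E_const]
  ring

/-- increments of the perturbation -/
theorem log_incr {A g lam t : ℝ} (hA : 1 / 2 ≤ A + lam * g) (hg : |g| ≤ 1) (ht : |t| ≤ 1 / 4) :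
    Real.log (A + (lam + t) * g) = Real.log (A + lam * g) + Real.log (1 + t * (g / (A + lam * g)))
      ∧ |g / (A + lam * g)| ≤ 2 ∧ |t * (g / (A + lam * g))| ≤ 2 * |t| := by
  have hp : 0 < A + lam * g := by linarith
  have h1 : |g / (A + lam * g)| ≤ 2 := by
    rw [abs_div, abs_of_pos hp, div_le_iff₀ hp]
    linarith
  have h2 : |t * (g / (A + lam * g))| ≤ 2 * |t| := by
    rw [abs_mul, mul_comm]
    exact mul_le_mul_of_nonneg_right h1 (abs_nonneg _)
  refine ⟨?_, h1, h2⟩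
  have h3 : 0 < 1 + t * (g / (A + lam * g)) := by linarith [(abs_le.1 h2).1]
  rw [← Real.log_mul hp.ne' h3.ne']
  congr 1
  field_simp
  ring

end Conc

open Conc

/-- `E e^{aD} · E e^{-aD} ≥ 1 + a² Var D`: centre `D`, take `Ex_rep`, expand the product as a double
sum, symmetrise (`cosh (a (D - D')) ≥ 1 + a² (D - D')²/2`). -/
theorem exp_mul_exp_ge {Ω : Type} [Fintype Ω] (p : PV Ω) (D : Ω → ℝ) (a : ℝ) :
    1 + a ^ 2 * p.E (fun ω => (D ω - p.E D) ^ 2) ≤
      p.E (fun ω => Real.exp (a * D ω)) * p.E fun ω => Real.exp (-(a * D ω)) := by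
  have e1 : p.E (fun ω => Real.exp (a * D ω)) * p.E (fun ω => Real.exp (-(a * D ω))) =
      p.E fun ω => p.E fun ω' => Real.exp (a * (D ω - D ω')) := by
    rw [← p.E_mul_right]
    congr 1
    funext ω
    rw [← p.E_mul_left]
    congr 1
    funext ω'
    rw [← Real.exp_add]
    congr 1
    ring
  have e2 : (p.E fun ω => p.E fun ω' => Real.exp (a * (D ω - D ω'))) =
      p.E fun ω => p.E fun ω' => Real.exp (-(a * (D ω - D ω'))) := by
    rw [p.E_comm p fun ω ω' => Real.exp (a * (D ω - D ω'))]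
    congr 1
    funext ω
    congr 1
    funext ω'
    congr 1
    ring
  have e3 : (p.E fun ω => p.E fun ω' => 2 + (a * (D ω - D ω')) ^ 2) =
      2 + 2 * a ^ 2 * (p.E (fun ω => D ω ^ 2) - p.E D ^ 2) := by
    have h : ∀ ω, (p.E fun ω' => 2 + (a * (D ω - D ω')) ^ 2) =
        ((2 + a ^ 2 * p.E (fun ω => D ω ^ 2)) + a ^ 2 * D ω ^ 2) - (2 * a ^ 2 * p.E D) * D ω := by
      intro ω
      have : (fun ω' => 2 + (a * (D ω - D ω')) ^ 2) =
          fun ω' => ((2 + a ^ 2 * D ω ^ 2) + a ^ 2 * D ω' ^ 2) - (2 * a ^ 2 * D ω) * D ω' := by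
        funext ω'; ring
      rw [this, p.E_sub, p.E_add, p.E_mul_left, p.E_mul_left, p.E_const]
      ring
    rw [funext h, p.E_sub, p.E_add, p.E_mul_left, p.E_mul_left, p.E_const]
    ring
  have h4 : (p.E fun ω => p.E fun ω' => 2 + (a * (D ω - D ω')) ^ 2) ≤
      (p.E fun ω => p.E fun ω' => Real.exp (a * (D ω - D ω'))) +
        p.E fun ω => p.E fun ω' => Real.exp (-(a * (D ω - D ω'))) := by
    rw [← p.E_add]
    refine p.E_mono fun ω => ?_
    rw [← p.E_add]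
    exact p.E_mono fun ω' => cosh_ge _
  rw [e1, var_eq]
  linarith

/-- Let `Φ i = F0 κ m (G (i h))`, `s = |J|`, `m₁ = m 1`.  For `1 ≤ i ≤ n`, `λ = i h`,
`a_j = h g_j/(A_j + λ g_j)` has `|a_j| ≤ 2h ≤ 1/2`, `G (λ ± h) - G λ = Σ_j log (1 ± a_j) ≥ ± h D - 4 h² s`
(`log (1+a) ≥ a - a²` for `|a| ≤ 1/2`).  `Fr_add`, `Fr_mono`, `Fr_const_add`, `log_Ex_exp_le_Fr`,
`exp_mul_exp_ge`, `log (1+x) ≥ x/2` for `0 ≤ x ≤ 1` (`Var ≤ E D² ≤ 4 s²`) give
`Φ (i+1) + Φ (i-1) - 2 Φ i ≥ m₁ h² Var_i/2 - 8 h² s`.  The sum over `i` telescopes to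
`(Φ (n+1) - Φ n) - (Φ 1 - Φ 0) ≤ 8 h s` (`abs_Fr_sub_le`, `|log (1+a)| ≤ 2|a|`). -/
theorem conc {R : ℕ} {Ξ : Type} [Fintype Ξ] [Nonempty Ξ] (κ : Ker R Ξ) {m : ℕ → ℝ}
    (hm : Adm m R 0) {J : Type} (S : Finset J) (H : Path R Ξ → ℝ) (A g : J → Path R Ξ → ℝ)
    {h : ℝ} {n : ℕ} (hh : 0 < h) (hh' : h ≤ 1 / 4) (hs : 2 * m 1 * h * S.card ≤ 1)
    (hg : ∀ j y, |g j y| ≤ 1)
    (hA : ∀ j ∈ S, ∀ y, ∀ lam : ℝ, 0 ≤ lam → lam ≤ (n + 1) * h → 1 / 2 ≤ A j y + lam * g j y)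
    (K : ℝ → Ker R Ξ) (hK : ∀ lam, K lam =
      tilt κ m fun y => H y + ∑ j ∈ S, Real.log (A j y + lam * g j y))
    (D : ℝ → Path R Ξ → ℝ) (hD : ∀ lam y, D lam y = ∑ j ∈ S, g j y / (A j y + lam * g j y)) :
    ∑ i ∈ range n, E0 (K ((i + 1) * h))
        (fun y => (D ((i + 1) * h) y - E0 (K ((i + 1) * h)) (D ((i + 1) * h))) ^ 2) ≤
      16 * S.card * (1 / h + n) / m 1 := by
  set G : ℝ → Path R Ξ → ℝ := fun lam y => H y + ∑ j ∈ S, Real.log (A j y + lam * g j y) with hG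
  set Φ : ℝ → ℝ := fun lam => Fr κ m 0 (G lam) (pt R Ξ) with hΦ
  have hm1 : 0 < m 1 := hm.pos
  have hs0 : (0 : ℝ) ≤ S.card := Nat.cast_nonneg _
  -- increments of `G`
  have hinc : ∀ lam t : ℝ, 0 ≤ lam → lam ≤ (n + 1) * h → |t| = h → ∀ y,
      G lam y + (-(4 * h ^ 2 * S.card) + t * D lam y) ≤ G (lam + t) y ∧
        |G (lam + t) y - G lam y| ≤ 4 * h * S.card := by
    intro lam t h0 h1 ht y
    have key := fun j (hj : j ∈ S) => log_incr (hA j hj y lam h0 h1) (hg j y) (ht.le.trans hh')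
    have e : G (lam + t) y - G lam y =
        ∑ j ∈ S, Real.log (1 + t * (g j y / (A j y + lam * g j y))) := by
      simp only [hG]
      rw [add_sub_add_left_eq_sub, ← sum_sub_distrib]
      exact sum_congr rfl fun j hj => by rw [(key j hj).1]; ring
    have hsm : ∀ j ∈ S, |t * (g j y / (A j y + lam * g j y))| ≤ 2 * h := fun j hj => by
      rw [← ht]; exact (key j hj).2.2
    constructor
    · have h2 : ∑ j ∈ S, (t * (g j y / (A j y + lam * g j y)) - 4 * h ^ 2) ≤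
          ∑ j ∈ S, Real.log (1 + t * (g j y / (A j y + lam * g j y))) := by
        refine sum_le_sum fun j hj => le_trans ?_ (log_ge ((hsm j hj).trans (by linarith)))
        have h3 : (t * (g j y / (A j y + lam * g j y))) ^ 2 ≤ (2 * h) ^ 2 := by
          rw [← sq_abs]
          exact pow_le_pow_left₀ (abs_nonneg _) (hsm j hj) 2
        linarith
      rw [sum_sub_distrib, ← mul_sum, ← hD, sum_const, nsmul_eq_mul, ← e] at h2
      linarith
    · rw [e]
      refine (abs_sum_le_sum_abs _ _).trans ((sum_le_card_nsmul _ _ (4 * h) fun j hj => ?_).trans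
        (le_of_eq ?_))
      · have := abs_log_le ((hsm j hj).trans (by linarith))
        linarith [hsm j hj]
      · rw [nsmul_eq_mul]; ring
  have hDb : ∀ lam : ℝ, 0 ≤ lam → lam ≤ (n + 1) * h → ∀ y, |D lam y| ≤ 2 * S.card := by
    intro lam h0 h1 y
    rw [hD]
    refine (abs_sum_le_sum_abs _ _).trans ((sum_le_card_nsmul _ _ 2 fun j hj => ?_).trans
      (le_of_eq ?_))
    · exact (log_incr (t := 0) (hA j hj y lam h0 h1) (hg j y) (by simp)).2.1
    · rw [nsmul_eq_mul]; ring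
  have hlow : ∀ lam t : ℝ, 0 ≤ lam → lam ≤ (n + 1) * h → |t| = h →
      Φ lam - 4 * h ^ 2 * S.card + (m 1)⁻¹ *
        Real.log (E0 (K lam) fun y => Real.exp (m 1 * (t * D lam y))) ≤ Φ (lam + t) := by
    intro lam t h0 h1 ht
    have a1 := Fr_mono κ hm (fun y => (hinc lam t h0 h1 ht y).1) (pt R Ξ)
    rw [Fr_add κ hm, Fr_const_add _ hm, ← hK] at a1
    have a2 := log_Ex_exp_le_Fr (K lam) hm (fun y => t * D lam y) (pt R Ξ)
    simp only [zero_add] at a2
    unfold E0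
    simp only [hΦ]
    linarith
  have hsec : ∀ lam : ℝ, 0 ≤ lam → lam ≤ (n + 1) * h →
      m 1 * h ^ 2 / 2 * E0 (K lam) (fun y => (D lam y - E0 (K lam) (D lam)) ^ 2) -
        8 * h ^ 2 * S.card ≤ Φ (lam + h) + Φ (lam + -h) - 2 * Φ lam := by
    intro lam h0 h1
    have a1 := hlow lam h h0 h1 (abs_of_pos hh)
    have a2 := hlow lam (-h) h0 h1 (by rw [abs_neg, abs_of_pos hh])
    obtain ⟨p, hp⟩ := Ex_rep (K lam) 0 (pt R Ξ)
    have hp' : ∀ F, E0 (K lam) F = p.E F := hp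
    simp only [hp'] at a1 a2 ⊢
    have b1 := exp_mul_exp_ge p (D lam) (m 1 * h)
    have e1 : (fun y => Real.exp (m 1 * (h * D lam y))) =
        fun y => Real.exp (m 1 * h * D lam y) := by
      funext y; rw [mul_assoc]
    have e2 : (fun y => Real.exp (m 1 * (-h * D lam y))) =
        fun y => Real.exp (-(m 1 * h * D lam y)) := by
      funext y; congr 1; ring
    rw [e1] at a1
    rw [e2] at a2
    set V := p.E fun ω => (D lam ω - p.E (D lam)) ^ 2 with hV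
    have hV0 : 0 ≤ V := p.E_nonneg fun _ => sq_nonneg _
    have hV1 : V ≤ (2 * S.card) ^ 2 := by
      rw [hV, var_eq]
      have : p.E (fun ω => D lam ω ^ 2) ≤ p.E fun _ => (2 * (S.card : ℝ)) ^ 2 :=
        p.E_mono fun y => by
          rw [← sq_abs]
          exact pow_le_pow_left₀ (abs_nonneg _) (hDb lam h0 h1 y) 2
      rw [p.E_const] at this
      linarith [sq_nonneg (p.E (D lam))]
    have hx0 : 0 ≤ (m 1 * h) ^ 2 * V := by positivity
    have hx1 : (m 1 * h) ^ 2 * V ≤ 1 := by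
      have c1 : (m 1 * h) ^ 2 * V ≤ (m 1 * h) ^ 2 * (2 * S.card) ^ 2 :=
        mul_le_mul_of_nonneg_left hV1 (sq_nonneg _)
      have c2 : (2 * m 1 * h * S.card) ^ 2 ≤ 1 ^ 2 := pow_le_pow_left₀ (by positivity) hs 2
      nlinarith
    have hP1 : 0 < p.E fun y => Real.exp (m 1 * h * D lam y) := by
      rw [← hp]; exact Ex_pos _ _ (fun _ => Real.exp_pos _) _
    have hP2 : 0 < p.E fun y => Real.exp (-(m 1 * h * D lam y)) := by
      rw [← hp]; exact Ex_pos _ _ (fun _ => Real.exp_pos _) _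
    have b2 := (half_le_log hx0 hx1).trans (Real.log_le_log (by linarith) b1)
    rw [Real.log_mul hP1.ne' hP2.ne'] at b2
    have b3 := mul_le_mul_of_nonneg_left b2 (inv_pos.2 hm1).le
    have e3 : (m 1)⁻¹ * ((m 1 * h) ^ 2 * V / 2) = m 1 * h ^ 2 / 2 * V := by
      field_simp
    rw [e3, mul_add] at b3
    linarith
  have hdiff : ∀ lam : ℝ, 0 ≤ lam → lam ≤ (n + 1) * h → |Φ (lam + h) - Φ lam| ≤ 4 * h * S.card :=
    fun lam h0 h1 => abs_Fr_sub_le κ hm (fun y => (hinc lam h h0 h1 (abs_of_pos hh) y).2) _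
  have htel := sum_range_sub (fun i : ℕ => Φ (i * h + h) - Φ (i * h)) n
  have hsum : ∑ i ∈ range n, (m 1 * h ^ 2 / 2 * E0 (K ((i + 1) * h))
      (fun y => (D ((i + 1) * h) y - E0 (K ((i + 1) * h)) (D ((i + 1) * h))) ^ 2) -
        8 * h ^ 2 * S.card) ≤ ∑ i ∈ range n, ((Φ (((i + 1 : ℕ) : ℝ) * h + h) -
          Φ (((i + 1 : ℕ) : ℝ) * h)) - (Φ (i * h + h) - Φ (i * h))) := by
    refine sum_le_sum fun i hi => ?_
    have hi' : (i : ℝ) + 1 ≤ n + 1 := by
      have : (i : ℝ) ≤ n := by exact_mod_cast (mem_range.1 hi).le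
      linarith
    have := hsec ((i + 1) * h) (by positivity) (mul_le_mul_of_nonneg_right hi' hh.le)
    rw [show ((i : ℝ) + 1) * h + -h = i * h by ring] at this
    push_cast
    rw [show (i : ℝ) * h + h = (i + 1) * h by ring]
    linarith
  rw [htel, sum_sub_distrib, ← mul_sum, sum_const, card_range, nsmul_eq_mul] at hsum
  have d1 := hdiff (n * h) (by positivity) (by nlinarith)
  have d2 := hdiff (((0 : ℕ) : ℝ) * h) (by simp) (by simp; positivity)
  have d3 := (abs_le.1 d1).2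
  have d4 := (abs_le.1 d2).1
  rw [le_div_iff₀ hm1]
  have hh2 : 0 < h ^ 2 / 2 := by positivity
  refine le_of_mul_le_mul_right ?_ hh2
  have e4 : 16 * (S.card : ℝ) * (1 / h + n) * (h ^ 2 / 2) =
      8 * h * S.card + n * (8 * h ^ 2 * S.card) := by
    field_simp
    ring
  rw [e4]
  generalize ∑ i ∈ range n, E0 (K ((i + 1) * h))
    (fun y => (D ((i + 1) * h) y - E0 (K ((i + 1) * h)) (D ((i + 1) * h))) ^ 2) = T at hsum ⊢
  generalize Φ (n * h + h) - Φ (n * h) = u at hsum d3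
  generalize Φ (((0 : ℕ) : ℝ) * h + h) - Φ (((0 : ℕ) : ℝ) * h) = v at hsum d4
  linarith

end Crest.Agent.R141
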