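import Crest.Agent.R141.Ev

/-! Derivatives along a family of Hamiltonians (task R141 Ev+Deriv). -/

set_option autoImplicit false

namespace Crest.Agent.R141

open Finset
open scoped BigOperators

variable {R : ℕ} {Ξ : Type} [Fintype Ξ] {α : Type} (κ : Ker R Ξ) {m : ℕ → ℝ}

theorem dv_exp_Fr_eq {s : ℕ} (hs : s < R) (hm : m (s + 1) ≠ 0) (G : Path R Ξ → ℝ) (x : Path R Ξ) :
    Real.exp (m (s + 1) * Fr κ m s G x) =
      step κ s (fun y => Real.exp (m (s + 1) * Fr κ m (s + 1) G y)) x := by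
  have hp := step_pos κ s (F := fun y => Real.exp (m (s + 1) * Fr κ m (s + 1) G y))
    (fun y => Real.exp_pos _) x
  rw [Fr_succ κ m hs]
  unfold lstep
  rw [← mul_assoc, mul_inv_cancel₀ hm, one_mul, Real.exp_log hp]

/-- `down_ind`; derivative of `lstep` (`HasDerivAt.log`, `step_pos`, `step_tilt`) -/
theorem hasDerivAt_Fr {s₀ : ℕ} (hm : Adm m R s₀) {G : ℝ → Path R Ξ → ℝ} {γ : Path R Ξ → ℝ} {t : ℝ}
    (hG : ∀ x, HasDerivAt (fun t => G t x) (γ x) t) {s : ℕ} (hs : s₀ ≤ s) (x : Path R Ξ) :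
    HasDerivAt (fun t => Fr κ m s (G t) x) (Ex (tilt κ m (G t)) s γ x) t := by
  induction s using down_ind R generalizing x with
  | h0 s h =>
    simp only [Fr_of_le κ m h, Ex_of_le _ h]
    exact hG x
  | h1 s h ih =>
    have hm0 : m (s + 1) ≠ 0 := (hm.pos' (by omega) h).ne'
    have hp := step_pos κ s (F := fun y => Real.exp (m (s + 1) * Fr κ m (s + 1) (G t) y))
      (fun y => Real.exp_pos _) x
    have h1 : HasDerivAt
        (fun t => step κ s (fun y => Real.exp (m (s + 1) * Fr κ m (s + 1) (G t) y)) x)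
        (∑ ξ, κ.k s x ξ * (Real.exp (m (s + 1) * Fr κ m (s + 1) (G t) (upd x s ξ)) *
          (m (s + 1) * Ex (tilt κ m (G t)) (s + 1) γ (upd x s ξ)))) t := by
      unfold step
      exact HasDerivAt.fun_sum fun ξ _ =>
        (((ih (by omega) (upd x s ξ)).const_mul (m (s + 1))).exp).const_mul (κ.k s x ξ)
    have h2 := (h1.log hp.ne').const_mul (m (s + 1))⁻¹
    simp only [Fr_succ κ m h]
    refine HasDerivAt.congr_deriv h2 ?_
    rw [Ex_succ _ h, step_tilt, ← dv_exp_Fr_eq κ h hm0, Real.exp_neg]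
    unfold step
    simp only [div_eq_mul_inv, mul_sum, sum_mul]
    refine sum_congr rfl fun ξ _ => ?_
    field_simp

theorem dv_hasDerivAt_tilt_k {s₀ : ℕ} (hm : Adm m R s₀) {G : ℝ → Path R Ξ → ℝ} {γ : Path R Ξ → ℝ}
    {t : ℝ} (hG : ∀ x, HasDerivAt (fun t => G t x) (γ x) t) {s : ℕ} (hs : s₀ ≤ s) (x : Path R Ξ)
    (ξ : Ξ) :
    HasDerivAt (fun t => (tilt κ m (G t)).k s x ξ)
      ((tilt κ m (G t)).k s x ξ * (m (s + 1) *
        (Ex (tilt κ m (G t)) (s + 1) γ (upd x s ξ) - Ex (tilt κ m (G t)) s γ x))) t := by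
  have h1 := hasDerivAt_Fr κ hm hG (hs.trans (Nat.le_succ s)) (upd x s ξ)
  have h2 := hasDerivAt_Fr κ hm hG hs x
  have h3 := (((h1.sub h2).const_mul (m (s + 1))).exp).const_mul (κ.k s x ξ)
  refine HasDerivAt.congr_deriv h3 ?_
  show _ = κ.k s x ξ * Real.exp (m (s + 1) * (Fr κ m (s + 1) (G t) (upd x s ξ) - Fr κ m s (G t) x)) * _
  simp only [Pi.sub_apply]
  ring

theorem dv_Ex_of_meas_succ {s : ℕ} (hs : s < R) {F : Path R Ξ → ℝ} (h : Meas (s + 1) F) :
    Ex κ s F = step κ s F := by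
  rw [Ex_succ κ hs, Ex_of_meas κ h]

/-- Write `E_u = Ex (tilt κ m (G t)) u`, `γ_u = E_u γ`.  The tilted kernel at level `u` has the
derivative `k' · m (u+1) (γ_{u+1}(upd x u ξ) - γ_u x)` (`hasDerivAt_Fr`).  If `F t` is `Meas w`
(`s ≤ w ≤ R`) with derivative `F'`, downward induction on `s` from `w` gives the formula below
(for `s = w` use `Ex_of_meas`). -/
theorem hasDerivAt_Ex {s₀ : ℕ} (hm : Adm m R s₀) {G : ℝ → Path R Ξ → ℝ} {γ : Path R Ξ → ℝ} {t : ℝ}
    (hG : ∀ x, HasDerivAt (fun t => G t x) (γ x) t) {F : ℝ → Path R Ξ → ℝ} {F' : Path R Ξ → ℝ}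
    (hF : ∀ x, HasDerivAt (fun t => F t x) (F' x) t) {w : ℕ} (hw : w ≤ R) (hFm : ∀ t, Meas w (F t))
    {s : ℕ} (hs : s₀ ≤ s) (hsw : s ≤ w) (x : Path R Ξ) :
    HasDerivAt (fun t => Ex (tilt κ m (G t)) s (F t) x)
      (Ex (tilt κ m (G t)) s F' x + ∑ u ∈ Finset.Ico s w, m (u + 1) *
        (Ex (tilt κ m (G t)) s (fun y => Ex (tilt κ m (G t)) (u + 1) (F t) y *
            Ex (tilt κ m (G t)) (u + 1) γ y) x -
          Ex (tilt κ m (G t)) s (fun y => Ex (tilt κ m (G t)) u (F t) y *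
            Ex (tilt κ m (G t)) u γ y) x)) t := by
  have hF'm : Meas w F' := by
    intro x y hxy
    have e : (fun t => F t x) = fun t => F t y := funext fun t => hFm t x y hxy
    exact (hF x).unique (e ▸ hF y)
  obtain ⟨d, hd⟩ : ∃ d, s + d = w := ⟨w - s, by omega⟩
  induction d generalizing s x with
  | zero =>
    obtain rfl : s = w := by omega
    simp only [Ex_of_meas _ (hFm _), Ex_of_meas _ hF'm, Finset.Ico_self, sum_empty, add_zero]
    exact hF x
  | succ d ih =>
    have hsR : s < R := by omega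
    have hsw' : s < w := by omega
    set K := tilt κ m (G t) with hK
    have h1 := HasDerivAt.fun_sum (u := univ) fun ξ _ =>
      (dv_hasDerivAt_tilt_k κ hm hG hs x ξ).fun_mul
        (ih (s := s + 1) (by omega) (by omega) (upd x s ξ) (by omega))
    have h0 : (fun t => Ex (tilt κ m (G t)) s (F t) x) = fun t =>
        ∑ ξ, (tilt κ m (G t)).k s x ξ * Ex (tilt κ m (G t)) (s + 1) (F t) (upd x s ξ) := by
      funext t
      rw [Ex_succ _ hsR]
      rfl
    rw [h0]
    refine HasDerivAt.congr_deriv h1 ?_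
    rw [← hK, sum_add_distrib, Finset.sum_eq_sum_Ico_succ_bot hsw']
    have e1 : Ex K s (fun y => Ex K (s + 1) (F t) y * Ex K (s + 1) γ y) x =
        ∑ ξ, K.k s x ξ * (Ex K (s + 1) (F t) (upd x s ξ) * Ex K (s + 1) γ (upd x s ξ)) := by
      rw [dv_Ex_of_meas_succ K hsR]
      · rfl
      · intro a b hab
        show Ex K (s + 1) (F t) a * Ex K (s + 1) γ a = Ex K (s + 1) (F t) b * Ex K (s + 1) γ b
        rw [Ex_meas K _ _ a b hab, Ex_meas K _ _ a b hab]
    have e2 : Ex K s (fun y => Ex K s (F t) y * Ex K s γ y) x =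
        (∑ ξ, K.k s x ξ * Ex K (s + 1) (F t) (upd x s ξ)) * Ex K s γ x := by
      rw [Ex_mul_meas K (Ex_meas K γ s), Ex_Ex K le_rfl, Ex_succ K hsR (F t)]
      rfl
    have e3 : ∑ ξ, K.k s x ξ * (Ex K (s + 1) F' (upd x s ξ) + ∑ u ∈ Finset.Ico (s + 1) w,
          m (u + 1) * (Ex K (s + 1) (fun y => Ex K (u + 1) (F t) y * Ex K (u + 1) γ y) (upd x s ξ) -
            Ex K (s + 1) (fun y => Ex K u (F t) y * Ex K u γ y) (upd x s ξ))) =
        Ex K s F' x + ∑ u ∈ Finset.Ico (s + 1) w,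
          m (u + 1) * (Ex K s (fun y => Ex K (u + 1) (F t) y * Ex K (u + 1) γ y) x -
            Ex K s (fun y => Ex K u (F t) y * Ex K u γ y) x) := by
      simp only [Ex_succ K hsR]
      unfold step
      simp only [mul_add, sum_add_distrib, mul_sum, mul_sub, sum_sub_distrib]
      congr 1
      rw [sum_comm, sum_comm (s := univ)]
      congr 1 <;> exact sum_congr rfl fun _ _ => sum_congr rfl fun _ _ => by ring
    rw [e3, e1, e2]
    simp only [mul_sum, sum_mul, ← sum_sub_distrib]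
    have : ∑ ξ, K.k s x ξ * (m (s + 1) * (Ex K (s + 1) γ (upd x s ξ) - Ex K s γ x)) *
        Ex K (s + 1) (F t) (upd x s ξ) =
        ∑ ξ, m (s + 1) * (K.k s x ξ * (Ex K (s + 1) (F t) (upd x s ξ) * Ex K (s + 1) γ (upd x s ξ)) -
          K.k s x ξ * Ex K (s + 1) (F t) (upd x s ξ) * Ex K s γ x) :=
      sum_congr rfl fun _ _ => by ring
    rw [this]
    ring

theorem dv_Ex_wsum {β : Type} (s : ℕ) (l : WL β) (H : β → Path R Ξ → ℝ) (x : Path R Ξ) :
    Ex κ s (fun y => wsum l fun b => H b y) x = wsum l fun b => Ex κ s (H b) x := by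
  induction l with
  | nil => simp only [wsum_nil]; exact Ex_const κ s 0 x
  | cons p l ih =>
    simp only [wsum_cons]
    rw [Ex_add, Ex_mul_left, ih]

theorem dv_wsum_stem (z : α) (a0 : ℝ) (s : ℕ) (T : Tr α) (Φ : Tr α → ℝ) :
    wsum (stem m R z a0 s T) Φ = ∑ u ∈ Finset.Ico s (T.lev R),
      (m (u + 1) - (if u = s then a0 else m u)) * Φ (Tr.node u T (Tr.leaf z)) := by
  unfold wsum stem
  rw [List.map_map, Finset.sum_Ico_eq_sum_range, List.range'_eq_map_range, List.map_map]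
  rfl

theorem dv_sum_by_parts (m A : ℕ → ℝ) (a0 : ℝ) {s w : ℕ} (h : s ≤ w) :
    ∑ u ∈ Finset.Ico s w, m (u + 1) * (A (u + 1) - A u) =
      (if w = s then a0 else m w) * A w - a0 * A s -
        ∑ u ∈ Finset.Ico s w, (m (u + 1) - (if u = s then a0 else m u)) * A u := by
  induction w, h using Nat.le_induction with
  | base => simp
  | succ w h ih =>
    rw [Finset.sum_Ico_succ_top h, Finset.sum_Ico_succ_top h, ih, if_neg (by omega : w + 1 ≠ s)]
    ring

/-- The derivative of the value of a tree.  Induction on `T` for all `s`, `a0`, `x`.  Put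
`A u = E_s (E_u F · γ_u)`, the value of `node u T (leaf z)`.  Summation by parts:
`Σ_{s ≤ u < w} m (u+1) (A (u+1) - A u) = [s < w] m w A w - wsum (stem a0) - [s < w] a0 A s`.
Leaf `a` (`w = R > s`, `m R = 1`): `E_s φ' + A R = E_s (φ' + φ γ) = wsum (asg f T)`.
Node `u a b` (`w = u`): product rule with the induction hypothesis for `a` with the offset
`if u = s then a0 else m u` and for `b` with the offset `0`; the correction term of `a` cancels
`m u · A u` (if `s < u`) or is the correction term of `T` (if `s = u`).  `E_s` commutes with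
`wsum` (`Ex_add`, `Ex_mul_left`). -/
theorem hasDerivAt_Ex_ev {s₀ : ℕ} (hm : Adm m R s₀) {G : ℝ → Path R Ξ → ℝ} {γ : Path R Ξ → ℝ}
    {t : ℝ} (hG : ∀ x, HasDerivAt (fun t => G t x) (γ x) t) {φ : ℝ → α → Path R Ξ → ℝ}
    {φ' : α → Path R Ξ → ℝ} (hφ : ∀ a x, HasDerivAt (fun t => φ t a x) (φ' a x) t)
    {f : α → Option α} {z : α} (hz : φ t z = γ)
    (hf : ∀ a x, φ' a x + φ t a x * γ x = (f a).elim 0 fun a' => φ t a' x)
    (T : Tr α) {s : ℕ} (hs : s₀ ≤ s) (hsR : s < R) (hT : T.Valid R s) (a0 : ℝ) (x : Path R Ξ) :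
    HasDerivAt (fun t => Ex (tilt κ m (G t)) s (ev (tilt κ m (G t)) (φ t) T) x)
      (wsum (opts m R f z a0 s T)
          (fun T' => Ex (tilt κ m (G t)) s (ev (tilt κ m (G t)) (φ t) T') x) -
        a0 * (Ex (tilt κ m (G t)) s (ev (tilt κ m (G t)) (φ t) T) x *
          Ex (tilt κ m (G t)) s γ x)) t := by
  set K := tilt κ m (G t) with hK
  -- the general formula for a tree whose value has the derivative `F'`
  have main : ∀ (T : Tr α) (s : ℕ), s₀ ≤ s → s < R → T.Valid R s → ∀ (a0 : ℝ) (x : Path R Ξ)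
      (F' : Path R Ξ → ℝ), (∀ x, HasDerivAt (fun t => ev (tilt κ m (G t)) (φ t) T x) (F' x) t) →
      HasDerivAt (fun t => Ex (tilt κ m (G t)) s (ev (tilt κ m (G t)) (φ t) T) x)
        (Ex K s F' x + ((if T.lev R = s then a0 else m (T.lev R)) *
            Ex K s (fun y => ev K (φ t) T y * Ex K (T.lev R) γ y) x -
          a0 * (Ex K s (ev K (φ t) T) x * Ex K s γ x) -
          wsum (stem m R z a0 s T) fun T' => Ex K s (ev K (φ t) T') x)) t := by
    intro T s hs hsR hT a0 x F' hF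
    have h := hasDerivAt_Ex κ hm hG hF hT.lev_le (fun t => ev_meas _ (φ t) T) hs
      (hT.le_lev hsR.le) x
    refine HasDerivAt.congr_deriv h ?_
    rw [← hK, dv_sum_by_parts m
      (fun u => Ex K s (fun y => Ex K u (ev K (φ t) T) y * Ex K u γ y) x) a0 (hT.le_lev hsR.le),
      dv_wsum_stem, Ex_of_meas K (ev_meas K (φ t) T), Ex_mul_meas K (Ex_meas K γ s), Ex_Ex K le_rfl,
      ← hz]
    rfl
  induction T generalizing s a0 x with
  | leaf a =>
    refine HasDerivAt.congr_deriv (main (.leaf a) s hs hsR hT a0 x (φ' a) (hφ a)) ?_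
    have e : Ex K s (φ' a) x + Ex K s (fun y => φ t a y * γ y) x =
        wsum (asg f (.leaf a)) fun T' => Ex K s (ev K (φ t) T') x := by
      rw [← Ex_add, funext (hf a)]
      unfold asg
      cases f a with
      | none => simpa using Ex_const K s 0 x
      | some a' => simp [ev]
    unfold opts
    rw [wsum_append, wsum_wneg, ← e]
    simp only [Tr.lev, if_neg hsR.ne', hm.top, Ex_of_le K le_rfl, ins, ev]
    ring
  | node u a b iha ihb =>
    obtain ⟨hsu, huR, ha, hb⟩ := hT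
    have hu : s₀ ≤ u := hs.trans hsu
    set c : ℝ := if u = s then a0 else m u with hc
    have h := main (.node u a b) s hs hsR ⟨hsu, huR, ha, hb⟩ a0 x _
      fun y => (iha hu huR ha c y).mul (ihb hu huR hb 0 y)
    refine HasDerivAt.congr_deriv h ?_
    have e : Ex K s (fun y =>
          (wsum (opts m R f z c u a) (fun T' => Ex K u (ev K (φ t) T') y) -
              c * (Ex K u (ev K (φ t) a) y * Ex K u γ y)) * Ex K u (ev K (φ t) b) y +
            Ex K u (ev K (φ t) a) y *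
              (wsum (opts m R f z 0 u b) (fun T' => Ex K u (ev K (φ t) T') y) -
                0 * (Ex K u (ev K (φ t) b) y * Ex K u γ y))) x =
        wsum (opts m R f z c u a) (fun T' => Ex K s (ev K (φ t) (.node u T' b)) x) +
          wsum (opts m R f z 0 u b) (fun T' => Ex K s (ev K (φ t) (.node u a T')) x) -
          c * Ex K s (fun y => ev K (φ t) (.node u a b) y * Ex K u γ y) x := by
      rw [← dv_Ex_wsum, ← dv_Ex_wsum, ← Ex_add, ← Ex_mul_left, ← Ex_sub]
      congr 1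
      funext y
      simp only [ev, wsum_mul_left, wsum_mul_right]
      ring
    have hc' : (if Tr.lev R (Tr.node u a b) = s then a0 else m (Tr.lev R (Tr.node u a b))) = c :=
      rfl
    rw [e, hc']
    simp only [opts, asg, ins, wsum_append, wsum_wneg, wsum_wmap, Tr.lev, ← hc]
    ring

end Crest.Agent.R141
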