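import Crest.Agent.R141.FrL

/-! Simulations and products (task R141 SimL).  Useful: `pmap f (upd x s ξ) = upd (pmap f x) s (f ξ)`,
`comp (upd x s ξ) l = upd (comp x l) s (ξ l)`.  Steps of `Ker.pi` are `PV`-like sums
(`Fintype.prod_sum`, `Finset.prod_univ_sum`; for blocks of coordinates `Equiv.piEquivPiSubtypeProd`
or an induction). -/

set_option autoImplicit false
set_option linter.unusedSectionVars false

namespace Crest.Agent.R141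

open Finset
open scoped BigOperators

variable {R : ℕ} {Ξ Ξ₁ Ξ₂ Ξ₃ : Type} [Fintype Ξ] [Fintype Ξ₁] [Fintype Ξ₂] [Fintype Ξ₃]
  {m : ℕ → ℝ}

omit [Fintype Ξ₁] [Fintype Ξ₂] in
theorem simL_meas_pmap {β : Type} {s : ℕ} {F : Path R Ξ₂ → β} (hF : Meas s F) (f : Ξ₁ → Ξ₂) :
    Meas s fun y : Path R Ξ₁ => F (pmap f y) :=
  fun x y hxy => hF _ _ fun i hi => by simp only [pmap, hxy i hi]

omit [Fintype Ξ] in
theorem simL_upd_self (x : Path R Ξ) {s : ℕ} (i : Fin R) (hi : i.val = s) (ξ : Ξ) :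
    upd x s ξ i = ξ := by
  unfold upd
  rw [if_pos hi]

theorem pmap_upd (f : Ξ₁ → Ξ₂) (x : Path R Ξ₁) (s : ℕ) (ξ : Ξ₁) :
    pmap f (upd x s ξ) = upd (pmap f x) s (f ξ) := by
  funext i
  unfold pmap upd
  split_ifs <;> rfl

theorem comp_upd {L : Type} (x : Path R (L → Ξ)) (s : ℕ) (ξ : L → Ξ) (l : L) :
    comp (upd x s ξ) l = upd (comp x l) s (ξ l) := by
  funext i
  unfold comp upd
  split_ifs <;> rfl

section
variable {κ₁ : Ker R Ξ₁} {κ₂ : Ker R Ξ₂} {κ₃ : Ker R Ξ₃} {Φ : Path R Ξ₁ → Path R Ξ₂} {s₀ : ℕ}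

theorem Sim.mono (h : Sim κ₁ κ₂ Φ s₀) {s : ℕ} (hs : s₀ ≤ s) : Sim κ₁ κ₂ Φ s := by
  exact fun t ht => h t (hs.trans ht)

theorem Sim.Ex (h : Sim κ₁ κ₂ Φ s₀) {s : ℕ} (hs : s₀ ≤ s) (F : Path R Ξ₂ → ℝ) (x : Path R Ξ₁) :
    Ex κ₁ s (fun y => F (Φ y)) x = Ex κ₂ s F (Φ x) := by
  revert x hs
  refine down_ind R (P := fun s => s₀ ≤ s → ∀ x,
    R141.Ex κ₁ s (fun y => F (Φ y)) x = R141.Ex κ₂ s F (Φ x)) ?_ ?_ s
  · intro s hs _ x
    rw [Ex_of_le κ₁ hs, Ex_of_le κ₂ hs]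
  · intro s hs ih h0 x
    rw [Ex_succ κ₁ hs, Ex_succ κ₂ hs, funext (ih (by omega))]
    exact h s h0 hs _ (Ex_meas κ₂ F (s + 1)) x

theorem Sim.simL_lstep (h : Sim κ₁ κ₂ Φ s₀) {s : ℕ} (hs : s₀ ≤ s) (hR : s < R) {G : Path R Ξ₂ → ℝ}
    (hG : Meas (s + 1) G) (x : Path R Ξ₁) :
    lstep κ₁ m s (fun y => G (Φ y)) x = lstep κ₂ m s G (Φ x) := by
  unfold R141.lstep
  rw [h s hs hR (fun y => Real.exp (m (s + 1) * G y)) (fun a b hab => by simp only [hG a b hab]) x]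

theorem Sim.Fr (h : Sim κ₁ κ₂ Φ s₀) {s : ℕ} (hs : s₀ ≤ s) (G : Path R Ξ₂ → ℝ) (x : Path R Ξ₁) :
    Fr κ₁ m s (fun y => G (Φ y)) x = Fr κ₂ m s G (Φ x) := by
  revert x hs
  refine down_ind R (P := fun s => s₀ ≤ s → ∀ x,
    R141.Fr κ₁ m s (fun y => G (Φ y)) x = R141.Fr κ₂ m s G (Φ x)) ?_ ?_ s
  · intro s hs _ x
    rw [Fr_of_le κ₁ m hs, Fr_of_le κ₂ m hs]
  · intro s hs ih h0 x
    rw [Fr_succ κ₁ m hs, Fr_succ κ₂ m hs, funext (ih (by omega))]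
    exact h.simL_lstep h0 hs (Fr_meas κ₂ m G (s + 1)) x

/-- `step_tilt` -/
theorem Sim.tilt (h : Sim κ₁ κ₂ Φ s₀) (G : Path R Ξ₂ → ℝ) :
    Sim (tilt κ₁ m fun y => G (Φ y)) (tilt κ₂ m G) Φ s₀ := by
  intro s hs hR F hF x
  rw [step_tilt, step_tilt, h.Fr hs]
  simp only [h.Fr (Nat.le_succ_of_le hs)]
  rw [h s hs hR (fun y => Real.exp (m (s + 1) * R141.Fr κ₂ m (s + 1) G y) * F y)
    (fun a b hab => by simp only [hF a b hab, Fr_meas κ₂ m G (s + 1) a b hab]) x]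

theorem Sim.E0 [Nonempty Ξ₁] [Nonempty Ξ₂] (h : Sim κ₁ κ₂ Φ 0) (F : Path R Ξ₂ → ℝ) :
    E0 κ₁ (fun y => F (Φ y)) = E0 κ₂ F := by
  rw [← Ex_zero κ₁ _ (pt R Ξ₁), h.Ex le_rfl, Ex_zero]

theorem Sim.F0 [Nonempty Ξ₁] [Nonempty Ξ₂] (h : Sim κ₁ κ₂ Φ 0) (G : Path R Ξ₂ → ℝ) :
    F0 κ₁ m (fun y => G (Φ y)) = F0 κ₂ m G := by
  rw [← Fr_zero κ₁ m _ (pt R Ξ₁), h.Fr le_rfl, Fr_zero]

/-- composition, the second map being coordinatewise -/
theorem Sim.comp_pmap (h : Sim κ₁ κ₂ Φ s₀) {f : Ξ₂ → Ξ₃} (h' : Sim κ₂ κ₃ (pmap f) s₀) :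
    Sim κ₁ κ₃ (fun x => pmap f (Φ x)) s₀ := by
  intro s hs hR F hF x
  rw [h s hs hR (fun z => F (pmap f z)) (simL_meas_pmap hF f) x, h' s hs hR F hF]

end

/-- coordinatewise maps: it suffices that the one-step laws correspond -/
theorem sim_pmap {κ₁ : Ker R Ξ₁} {κ₂ : Ker R Ξ₂} (f : Ξ₁ → Ξ₂) {s₀ : ℕ}
    (h : ∀ s, s₀ ≤ s → s < R → ∀ (x : Path R Ξ₁) (g : Ξ₂ → ℝ),
      ∑ ξ, κ₁.k s x ξ * g (f ξ) = ∑ ξ, κ₂.k s (pmap f x) ξ * g ξ) : Sim κ₁ κ₂ (pmap f) s₀ := by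
  intro s hs hR F _ x
  unfold step
  simp only [pmap_upd]
  exact h s hs hR x fun ζ => F (upd (pmap f x) s ζ)

/-- converse of `sim_pmap` -/
theorem Sim.simL_law {κ₁ : Ker R Ξ₁} {κ₂ : Ker R Ξ₂} {f : Ξ₁ → Ξ₂} {s₀ : ℕ}
    (h : Sim κ₁ κ₂ (pmap f) s₀) {s : ℕ} (hs : s₀ ≤ s) (hR : s < R) (x : Path R Ξ₁) (g : Ξ₂ → ℝ) :
    ∑ ξ, κ₁.k s x ξ * g (f ξ) = ∑ ξ, κ₂.k s (pmap f x) ξ * g ξ := by
  have := h s hs hR (fun y => g (y ⟨s, hR⟩))
    (fun a b hab => by simp only [hab ⟨s, hR⟩ (Nat.lt_succ_self s)]) x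
  unfold step at this
  simpa only [pmap_upd, simL_upd_self _ (⟨s, hR⟩ : Fin R) rfl] using this

theorem simL_sum_unif [Nonempty Ξ] (g : Ξ → ℝ) :
    ∑ ξ, (Fintype.card Ξ : ℝ)⁻¹ * g ξ = 𝔼 ξ, g ξ := by
  rw [Fintype.expect_eq_sum_div_card, ← mul_sum, div_eq_inv_mul]

theorem sim_unif_pmap [Nonempty Ξ₁] [Nonempty Ξ₂] (f : Ξ₁ → Ξ₂)
    (hf : ∀ g : Ξ₂ → ℝ, 𝔼 a, g (f a) = 𝔼 b, g b) (s₀ : ℕ) :
    Sim (Ker.unif R Ξ₁) (Ker.unif R Ξ₂) (pmap f) s₀ := by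
  refine sim_pmap f fun s _ _ x g => ?_
  show ∑ ξ, (Fintype.card Ξ₁ : ℝ)⁻¹ * g (f ξ) = ∑ ξ, (Fintype.card Ξ₂ : ℝ)⁻¹ * g ξ
  rw [simL_sum_unif, simL_sum_unif, hf]

theorem sim_unif_equiv [Nonempty Ξ₁] [Nonempty Ξ₂] (e : Ξ₁ ≃ Ξ₂) (s₀ : ℕ) :
    Sim (Ker.unif R Ξ₁) (Ker.unif R Ξ₂) (pmap e) s₀ := by
  exact sim_unif_pmap e (fun g => Fintype.expect_equiv e _ _ fun _ => rfl) s₀

theorem sim_refl (κ : Ker R Ξ) (s₀ : ℕ) : Sim κ κ (pmap id) s₀ := by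
  exact sim_pmap id fun _ _ _ _ _ => rfl

theorem sim_fst (κ₁ : Ker R Ξ₁) (κ₂ : Ker R Ξ₂) (s₀ : ℕ) :
    Sim (κ₁.prod κ₂) κ₁ (pmap Prod.fst) s₀ := by
  refine sim_pmap _ fun s _ _ x g => ?_
  rw [Fintype.sum_prod_type]
  refine sum_congr rfl fun a _ => ?_
  show ∑ b, κ₁.k s (pmap Prod.fst x) a * κ₂.k s (pmap Prod.snd x) b * g a = _
  rw [← sum_mul, ← mul_sum, κ₂.sum_one, mul_one]

theorem sim_snd (κ₁ : Ker R Ξ₁) (κ₂ : Ker R Ξ₂) (s₀ : ℕ) :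
    Sim (κ₁.prod κ₂) κ₂ (pmap Prod.snd) s₀ := by
  refine sim_pmap _ fun s _ _ x g => ?_
  rw [Fintype.sum_prod_type_right]
  refine sum_congr rfl fun b _ => ?_
  show ∑ a, κ₁.k s (pmap Prod.fst x) a * κ₂.k s (pmap Prod.snd x) b * g b = _
  rw [← sum_mul, ← sum_mul, κ₁.sum_one, one_mul]

theorem sim_swap (κ₁ : Ker R Ξ₁) (κ₂ : Ker R Ξ₂) (s₀ : ℕ) :
    Sim (κ₁.prod κ₂) (κ₂.prod κ₁) (pmap Prod.swap) s₀ := by
  refine sim_pmap _ fun s _ _ x g => ?_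
  refine Fintype.sum_equiv (Equiv.prodComm _ _) _ _ fun a => ?_
  show κ₁.k s (pmap Prod.fst x) a.1 * κ₂.k s (pmap Prod.snd x) a.2 * g a.swap =
    κ₂.k s (pmap Prod.snd x) a.2 * κ₁.k s (pmap Prod.fst x) a.1 * g a.swap
  ring

theorem sim_assoc (κ₁ : Ker R Ξ₁) (κ₂ : Ker R Ξ₂) (κ₃ : Ker R Ξ₃) (s₀ : ℕ) :
    Sim (κ₁.prod (κ₂.prod κ₃)) ((κ₁.prod κ₂).prod κ₃) (pmap fun a => ((a.1, a.2.1), a.2.2)) s₀ := by
  refine sim_pmap _ fun s _ _ x g => ?_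
  refine Fintype.sum_equiv (Equiv.prodAssoc _ _ _).symm _ _ fun a => ?_
  show κ₁.k s (pmap Prod.fst x) a.1 * (κ₂.k s (pmap Prod.fst (pmap Prod.snd x)) a.2.1 *
      κ₃.k s (pmap Prod.snd (pmap Prod.snd x)) a.2.2) * g ((a.1, a.2.1), a.2.2) =
    κ₁.k s (pmap Prod.fst x) a.1 * κ₂.k s (pmap Prod.fst (pmap Prod.snd x)) a.2.1 *
      κ₃.k s (pmap Prod.snd (pmap Prod.snd x)) a.2.2 * g ((a.1, a.2.1), a.2.2)
  ring

theorem sim_assoc' (κ₁ : Ker R Ξ₁) (κ₂ : Ker R Ξ₂) (κ₃ : Ker R Ξ₃) (s₀ : ℕ) :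
    Sim ((κ₁.prod κ₂).prod κ₃) (κ₁.prod (κ₂.prod κ₃)) (pmap fun a => (a.1.1, (a.1.2, a.2))) s₀ := by
  refine sim_pmap _ fun s _ _ x g => ?_
  refine Fintype.sum_equiv (Equiv.prodAssoc _ _ _) _ _ fun a => ?_
  show κ₁.k s (pmap Prod.fst (pmap Prod.fst x)) a.1.1 *
      κ₂.k s (pmap Prod.snd (pmap Prod.fst x)) a.1.2 *
      κ₃.k s (pmap Prod.snd x) a.2 * g (a.1.1, (a.1.2, a.2)) =
    κ₁.k s (pmap Prod.fst (pmap Prod.fst x)) a.1.1 *
      (κ₂.k s (pmap Prod.snd (pmap Prod.fst x)) a.1.2 *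
      κ₃.k s (pmap Prod.snd x) a.2) * g (a.1.1, (a.1.2, a.2))
  ring

/-- the step of a product is an iterated step -/
theorem Sim.prod_map {Ξ₄ : Type} [Fintype Ξ₄] {κ₁ : Ker R Ξ₁} {κ₂ : Ker R Ξ₂} {κ₃ : Ker R Ξ₃}
    {κ₄ : Ker R Ξ₄} {f : Ξ₁ → Ξ₃} {g : Ξ₂ → Ξ₄} {s₀ : ℕ} (h : Sim κ₁ κ₃ (pmap f) s₀)
    (h' : Sim κ₂ κ₄ (pmap g) s₀) :
    Sim (κ₁.prod κ₂) (κ₃.prod κ₄) (pmap (Prod.map f g)) s₀ := by
  refine sim_pmap _ fun s hs hR x φ => ?_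
  rw [Fintype.sum_prod_type, Fintype.sum_prod_type]
  show ∑ a, ∑ b, κ₁.k s (pmap Prod.fst x) a * κ₂.k s (pmap Prod.snd x) b * φ (f a, g b) =
    ∑ a, ∑ b, κ₃.k s (pmap f (pmap Prod.fst x)) a * κ₄.k s (pmap g (pmap Prod.snd x)) b * φ (a, b)
  simp only [mul_assoc, ← mul_sum]
  rw [← h.simL_law hs hR (pmap Prod.fst x)
    fun a => ∑ b, κ₄.k s (pmap g (pmap Prod.snd x)) b * φ (a, b)]
  refine sum_congr rfl fun a _ => ?_
  rw [h'.simL_law hs hR (pmap Prod.snd x) fun b => φ (f a, b)]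

theorem unif_prod [Nonempty Ξ₁] [Nonempty Ξ₂] :
    Ker.unif R (Ξ₁ × Ξ₂) = (Ker.unif R Ξ₁).prod (Ker.unif R Ξ₂) := by
  refine Ker.ext' fun s x ξ => ?_
  show ((Fintype.card (Ξ₁ × Ξ₂) : ℕ) : ℝ)⁻¹ = (Fintype.card Ξ₁ : ℝ)⁻¹ * (Fintype.card Ξ₂ : ℝ)⁻¹
  rw [Fintype.card_prod, Nat.cast_mul, mul_inv]

theorem unif_pi [Nonempty Ξ] (L : Type) [Fintype L] [DecidableEq L] :
    Ker.unif R (L → Ξ) = Ker.pi fun _ : L => Ker.unif R Ξ := by
  refine Ker.ext' fun s x ξ => ?_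
  show ((Fintype.card (L → Ξ) : ℕ) : ℝ)⁻¹ = ∏ _l : L, (Fintype.card Ξ : ℝ)⁻¹
  rw [Fintype.card_fun, Nat.cast_pow, prod_const, card_univ, inv_pow]

theorem simL_step_prod_mul (κ₁ : Ker R Ξ₁) (κ₂ : Ker R Ξ₂) (s : ℕ) (F : Path R Ξ₁ → ℝ)
    (G : Path R Ξ₂ → ℝ) (x : Path R (Ξ₁ × Ξ₂)) :
    step (κ₁.prod κ₂) s (fun y => F (pmap Prod.fst y) * G (pmap Prod.snd y)) x =
      step κ₁ s F (pmap Prod.fst x) * step κ₂ s G (pmap Prod.snd x) := by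
  unfold step
  rw [Fintype.sum_prod_type, sum_mul_sum]
  refine sum_congr rfl fun a _ => sum_congr rfl fun b _ => ?_
  simp only [pmap_upd]
  show κ₁.k s (pmap Prod.fst x) a * κ₂.k s (pmap Prod.snd x) b * _ = _
  ring

theorem simL_lstep_prod_add (κ₁ : Ker R Ξ₁) (κ₂ : Ker R Ξ₂) (s : ℕ) (F : Path R Ξ₁ → ℝ)
    (G : Path R Ξ₂ → ℝ) (x : Path R (Ξ₁ × Ξ₂)) :
    lstep (κ₁.prod κ₂) m s (fun y => F (pmap Prod.fst y) + G (pmap Prod.snd y)) x =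
      lstep κ₁ m s F (pmap Prod.fst x) + lstep κ₂ m s G (pmap Prod.snd x) := by
  unfold lstep
  simp only [mul_add, Real.exp_add]
  rw [simL_step_prod_mul κ₁ κ₂ s (fun y => Real.exp (m (s + 1) * F y))
    (fun y => Real.exp (m (s + 1) * G y)),
    Real.log_mul (step_pos _ _ (fun _ => Real.exp_pos _) _).ne'
      (step_pos _ _ (fun _ => Real.exp_pos _) _).ne', mul_add]

theorem Ex_prod_mul (κ₁ : Ker R Ξ₁) (κ₂ : Ker R Ξ₂) (s : ℕ) (F : Path R Ξ₁ → ℝ)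
    (G : Path R Ξ₂ → ℝ) (x : Path R (Ξ₁ × Ξ₂)) :
    Ex (κ₁.prod κ₂) s (fun y => F (pmap Prod.fst y) * G (pmap Prod.snd y)) x =
      Ex κ₁ s F (pmap Prod.fst x) * Ex κ₂ s G (pmap Prod.snd x) := by
  revert x
  refine down_ind R (P := fun s => ∀ x,
    Ex (κ₁.prod κ₂) s (fun y => F (pmap Prod.fst y) * G (pmap Prod.snd y)) x =
      Ex κ₁ s F (pmap Prod.fst x) * Ex κ₂ s G (pmap Prod.snd x)) ?_ ?_ s
  · intro s hs x
    rw [Ex_of_le _ hs, Ex_of_le _ hs, Ex_of_le _ hs]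
  · intro s hs ih x
    rw [Ex_succ _ hs, Ex_succ _ hs, Ex_succ _ hs, funext ih, simL_step_prod_mul]

theorem Fr_prod_add (κ₁ : Ker R Ξ₁) (κ₂ : Ker R Ξ₂) (s : ℕ) (F : Path R Ξ₁ → ℝ)
    (G : Path R Ξ₂ → ℝ) (x : Path R (Ξ₁ × Ξ₂)) :
    Fr (κ₁.prod κ₂) m s (fun y => F (pmap Prod.fst y) + G (pmap Prod.snd y)) x =
      Fr κ₁ m s F (pmap Prod.fst x) + Fr κ₂ m s G (pmap Prod.snd x) := by
  revert x
  refine down_ind R (P := fun s => ∀ x,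
    Fr (κ₁.prod κ₂) m s (fun y => F (pmap Prod.fst y) + G (pmap Prod.snd y)) x =
      Fr κ₁ m s F (pmap Prod.fst x) + Fr κ₂ m s G (pmap Prod.snd x)) ?_ ?_ s
  · intro s hs x
    rw [Fr_of_le _ m hs, Fr_of_le _ m hs, Fr_of_le _ m hs]
  · intro s hs ih x
    rw [Fr_succ _ m hs, Fr_succ _ m hs, Fr_succ _ m hs, funext ih, simL_lstep_prod_add]

theorem tilt_prod (κ₁ : Ker R Ξ₁) (κ₂ : Ker R Ξ₂) (F : Path R Ξ₁ → ℝ) (G : Path R Ξ₂ → ℝ) :
    tilt (κ₁.prod κ₂) m (fun y => F (pmap Prod.fst y) + G (pmap Prod.snd y)) =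
      (tilt κ₁ m F).prod (tilt κ₂ m G) := by
  refine Ker.ext' fun s x ξ => ?_
  simp only [tilt, Ker.prod]
  have h1 := Fr_prod_add (m := m) κ₁ κ₂ (s + 1) F G (upd x s ξ)
  have h2 := Fr_prod_add (m := m) κ₁ κ₂ s F G x
  simp only [Ker.prod, pmap_upd] at h1 h2
  rw [h1, h2, mul_mul_mul_comm, ← Real.exp_add]
  congr 2
  ring

theorem tilt_prod_fst (κ₁ : Ker R Ξ₁) (κ₂ : Ker R Ξ₂) (F : Path R Ξ₁ → ℝ) :
    tilt (κ₁.prod κ₂) m (fun y => F (pmap Prod.fst y)) = (tilt κ₁ m F).prod κ₂ := by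
  have := tilt_prod (m := m) κ₁ κ₂ F fun _ => 0
  simpa only [add_zero, tilt_zero] using this

/-- Integrate out a uniform variable that is read only at the last level (`m R = 1`): at level
`R - 1` both sides are `log Σ_ξ k ξ 𝔼_b W`; below, both sides are functions of the first component
and the steps agree (`sim_fst`). -/
theorem Fr_prod_last [Nonempty Ξ₂] (κ : Ker R Ξ₁) {s : ℕ} (hm : Adm m R s) (i : Fin R)
    (hi : i.val = R - 1) (W : Path R Ξ₁ → Ξ₂ → ℝ) (hW : ∀ y b, 0 < W y b)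
    (x : Path R (Ξ₁ × Ξ₂)) :
    Fr (κ.prod (Ker.unif R Ξ₂)) m s (fun y => Real.log (W (pmap Prod.fst y) (y i).2)) x =
      Fr κ m s (fun y => Real.log (𝔼 b, W y b)) (pmap Prod.fst x) := by
  have key : ∀ t, t < R → ∀ x,
      Fr (κ.prod (Ker.unif R Ξ₂)) m t (fun y => Real.log (W (pmap Prod.fst y) (y i).2)) x =
        Fr κ m t (fun y => Real.log (𝔼 b, W y b)) (pmap Prod.fst x) := by
    refine down_ind R (fun t ht h => by omega) ?_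
    intro t ht ih _ x
    rw [Fr_succ _ m ht, Fr_succ _ m ht]
    by_cases h : t + 1 < R
    · rw [funext (ih h)]
      exact (sim_fst κ (Ker.unif R Ξ₂) 0).simL_lstep (Nat.zero_le _) ht (Fr_meas κ m _ (t + 1)) x
    · have e : t + 1 = R := by omega
      rw [Fr_of_le _ m e.ge, Fr_of_le _ m e.ge]
      unfold lstep
      have hp : ∀ y, 0 < 𝔼 b, W y b := fun y => expect_pos (fun b _ => hW y b) univ_nonempty
      simp only [e, hm.top, one_mul, Real.exp_log (hW _ _), Real.exp_log (hp _)]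
      congr 2
      unfold step
      rw [Fintype.sum_prod_type]
      refine sum_congr rfl fun a _ => ?_
      simp only [pmap_upd, simL_upd_self x i (by omega : i.val = t)]
      rw [← simL_sum_unif, mul_sum]
      refine sum_congr rfl fun b _ => ?_
      show κ.k t (pmap Prod.fst x) a * (Fintype.card Ξ₂ : ℝ)⁻¹ * _ = _
      ring
  exact key s hm.lt x

section pi
variable {L L₁ L₂ : Type} [Fintype L] [DecidableEq L] [Fintype L₁] [DecidableEq L₁] [Fintype L₂]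
  [DecidableEq L₂] (κ : L → Ker R Ξ)

theorem simL_step_pi_prod (s : ℕ) (F : L → Path R Ξ → ℝ) (x : Path R (L → Ξ)) :
    step (Ker.pi κ) s (fun y => ∏ l, F l (comp y l)) x = ∏ l, step (κ l) s (F l) (comp x l) := by
  unfold step
  rw [Fintype.prod_sum fun l a => (κ l).k s (comp x l) a * F l (upd (comp x l) s a)]
  refine sum_congr rfl fun ξ _ => ?_
  simp only [comp_upd]
  rw [prod_mul_distrib]
  rfl

theorem simL_lstep_pi_sum (s : ℕ) (F : L → Path R Ξ → ℝ) (x : Path R (L → Ξ)) :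
    lstep (Ker.pi κ) m s (fun y => ∑ l, F l (comp y l)) x =
      ∑ l, lstep (κ l) m s (F l) (comp x l) := by
  unfold lstep
  simp only [mul_sum, Real.exp_sum]
  rw [simL_step_pi_prod κ s fun l y => Real.exp (m (s + 1) * F l y),
    Real.log_prod fun l _ => (step_pos _ _ (fun _ => Real.exp_pos _) _).ne', mul_sum]

theorem Ex_pi_prod (s : ℕ) (F : L → Path R Ξ → ℝ) (x : Path R (L → Ξ)) :
    Ex (Ker.pi κ) s (fun y => ∏ l, F l (comp y l)) x = ∏ l, Ex (κ l) s (F l) (comp x l) := by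
  revert x
  refine down_ind R (P := fun s => ∀ x,
    Ex (Ker.pi κ) s (fun y => ∏ l, F l (comp y l)) x = ∏ l, Ex (κ l) s (F l) (comp x l)) ?_ ?_ s
  · intro s hs x
    simp only [Ex_of_le _ hs]
  · intro s hs ih x
    simp only [Ex_succ _ hs]
    rw [funext ih, simL_step_pi_prod κ s fun l => Ex (κ l) (s + 1) (F l)]

theorem Fr_pi_sum (s : ℕ) (F : L → Path R Ξ → ℝ) (x : Path R (L → Ξ)) :
    Fr (Ker.pi κ) m s (fun y => ∑ l, F l (comp y l)) x = ∑ l, Fr (κ l) m s (F l) (comp x l) := by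
  revert x
  refine down_ind R (P := fun s => ∀ x,
    Fr (Ker.pi κ) m s (fun y => ∑ l, F l (comp y l)) x =
      ∑ l, Fr (κ l) m s (F l) (comp x l)) ?_ ?_ s
  · intro s hs x
    simp only [Fr_of_le _ m hs]
  · intro s hs ih x
    simp only [Fr_succ _ m hs]
    rw [funext ih, simL_lstep_pi_sum κ s fun l => Fr (κ l) m (s + 1) (F l)]

/-- marginal of a finite product law on a block of coordinates -/
theorem simL_sum_pi_marg (p : L → Ξ → ℝ) (hp : ∀ l, ∑ a, p l a = 1) (e : L₁ → L)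
    (he : Function.Injective e) (g : (L₁ → Ξ) → ℝ) :
    ∑ ξ : L → Ξ, (∏ l, p l (ξ l)) * g (fun i => ξ (e i)) =
      ∑ η : L₁ → Ξ, (∏ i, p (e i) (η i)) * g η := by
  classical
  have key : ∀ η : L₁ → Ξ,
      ∑ ξ : L → Ξ, (∏ l, p l (ξ l)) * (if (fun i => ξ (e i)) = η then 1 else 0) =
        ∏ i, p (e i) (η i) := by
    intro η
    have h1 : ∀ ξ : L → Ξ, (∏ l, p l (ξ l)) * (if (fun i => ξ (e i)) = η then 1 else 0) =
        ∏ l, p l (ξ l) * ∏ i, if e i = l then (if ξ l = η i then (1 : ℝ) else 0) else 1 := by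
      intro ξ
      rw [prod_mul_distrib, prod_comm]
      simp only [prod_ite_eq, mem_univ, if_true]
      congr 1
      rw [Fintype.prod_boole]
      simp only [funext_iff]
    simp only [h1]
    rw [← Fintype.prod_sum fun l a =>
      p l a * ∏ i, if e i = l then (if a = η i then (1 : ℝ) else 0) else 1]
    symm
    refine Fintype.prod_of_injective e he _ _ (fun l hl => ?_) fun i => ?_
    · have : ∀ i, e i ≠ l := fun i hi => hl ⟨i, hi⟩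
      simp only [this, if_false, prod_const_one, mul_one, hp]
    · simp only [he.eq_iff, prod_ite_eq', mem_univ, if_true, mul_ite, mul_one, mul_zero,
        sum_ite_eq']
  simp only [← key, sum_mul]
  rw [sum_comm]
  refine sum_congr rfl fun ξ _ => ?_
  simp only [mul_ite, mul_one, mul_zero, ite_mul, zero_mul, sum_ite_eq, mem_univ, if_true]

theorem sim_pi_eval (l : L) (s₀ : ℕ) : Sim (Ker.pi κ) (κ l) (pmap fun ξ => ξ l) s₀ := by
  refine sim_pmap _ fun s _ _ x g => ?_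
  have := simL_sum_pi_marg (fun l a => (κ l).k s (comp x l) a) (fun l => (κ l).sum_one _ _)
    (fun _ : Unit => l) (fun _ _ _ => rfl) fun η => g (η ())
  refine this.trans (Fintype.sum_equiv (Equiv.funUnique Unit Ξ) _ _ fun η => ?_)
  rw [Fintype.prod_unique]
  rfl

/-- two disjoint blocks of labels -/
theorem sim_pi_two (e₁ : L₁ → L) (e₂ : L₂ → L) (h₁ : Function.Injective e₁)
    (h₂ : Function.Injective e₂) (hd : ∀ i j, e₁ i ≠ e₂ j) (s₀ : ℕ) :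
    Sim (Ker.pi κ) ((Ker.pi fun i => κ (e₁ i)).prod (Ker.pi fun j => κ (e₂ j)))
      (pmap fun ξ => (fun i => ξ (e₁ i), fun j => ξ (e₂ j))) s₀ := by
  refine sim_pmap _ fun s _ _ x g => ?_
  have := simL_sum_pi_marg (fun l a => (κ l).k s (comp x l) a) (fun l => (κ l).sum_one _ _)
    (Sum.elim e₁ e₂) (h₁.sumElim h₂ hd) fun η => g (fun i => η (.inl i), fun j => η (.inr j))
  refine this.trans (Fintype.sum_equiv (Equiv.sumArrowEquivProdArrow L₁ L₂ Ξ) _ _ fun η => ?_)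
  rw [Fintype.prod_sum_type]
  rfl

theorem sim_pi_comp (e : L₁ → L) (he : Function.Injective e) (s₀ : ℕ) :
    Sim (Ker.pi κ) (Ker.pi fun i => κ (e i)) (pmap fun ξ i => ξ (e i)) s₀ := by
  exact sim_pmap _ fun s _ _ x g =>
    simL_sum_pi_marg (fun l a => (κ l).k s (comp x l) a) (fun l => (κ l).sum_one _ _) e he g

theorem sim_pi_curry (κ : L₁ × L₂ → Ker R Ξ) (s₀ : ℕ) :
    Sim (Ker.pi κ) (Ker.pi fun i => Ker.pi fun j => κ (i, j)) (pmap fun ξ i j => ξ (i, j)) s₀ := by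
  refine sim_pmap _ fun s _ _ x g => ?_
  refine Fintype.sum_equiv (Equiv.curry L₁ L₂ Ξ) _ _ fun ξ => ?_
  show (∏ l, (κ l).k s (comp x l) (ξ l)) * _ = _
  rw [Fintype.prod_prod_type]
  rfl

theorem sim_pi_prod (κ₁ : L → Ker R Ξ₁) (κ₂ : L → Ker R Ξ₂) (s₀ : ℕ) :
    Sim ((Ker.pi κ₁).prod (Ker.pi κ₂)) (Ker.pi fun l => (κ₁ l).prod (κ₂ l))
      (pmap fun ξ l => (ξ.1 l, ξ.2 l)) s₀ := by
  refine sim_pmap _ fun s _ _ x g => ?_
  refine Fintype.sum_equiv (Equiv.arrowProdEquivProdArrow L (fun _ => Ξ₁) fun _ => Ξ₂).symm _ _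
    fun ξ => ?_
  show (∏ l, (κ₁ l).k s (comp (pmap Prod.fst x) l) (ξ.1 l)) *
    (∏ l, (κ₂ l).k s (comp (pmap Prod.snd x) l) (ξ.2 l)) * _ = _
  rw [← prod_mul_distrib]
  rfl

/-- exchange the coordinates in `P` between two independent samples -/
theorem simL_sum_pi_swap (P : L → Prop) [DecidablePred P] (p p' : L → Ξ → ℝ)
    (h : ∀ l, P l → p l = p' l) (Ψ : (L → Ξ) → (L → Ξ) → ℝ) :
    ∑ ξ : L → Ξ, ∑ ξ' : L → Ξ, (∏ l, p l (ξ l)) * (∏ l, p' l (ξ' l)) * Ψ ξ ξ' =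
      ∑ ξ : L → Ξ, ∑ ξ' : L → Ξ, (∏ l, p l (ξ l)) * (∏ l, p' l (ξ' l)) *
        Ψ (fun l => if P l then ξ' l else ξ l) fun l => if P l then ξ l else ξ' l := by
  rw [← Fintype.sum_prod_type', ← Fintype.sum_prod_type']
  have inv : Function.Involutive fun a : (L → Ξ) × (L → Ξ) =>
      ((fun l => if P l then a.2 l else a.1 l, fun l => if P l then a.1 l else a.2 l) :
        (L → Ξ) × (L → Ξ)) := by
    rintro ⟨a, b⟩
    refine Prod.ext ?_ ?_ <;> funext l <;> by_cases hl : P l <;> simp [hl]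
  symm
  refine Fintype.sum_equiv inv.toPerm _ _ fun a => ?_
  simp only [Function.Involutive.coe_toPerm]
  congr 1
  rw [← prod_mul_distrib, ← prod_mul_distrib]
  refine prod_congr rfl fun l _ => ?_
  by_cases hl : P l
  · simp only [hl, if_true, h l hl, mul_comm]
  · simp only [hl, if_false]

theorem simL_sum_pi_one (p : L → Ξ → ℝ) (hp : ∀ l, ∑ a, p l a = 1) :
    ∑ ξ : L → Ξ, ∏ l, p l (ξ l) = 1 := by
  rw [← Fintype.prod_sum]
  simp only [hp, prod_const_one]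

/-- the mean of a function of the block `P` only depends on the laws in the block -/
theorem simL_sum_pi_local (P : L → Prop) (p p' : L → Ξ → ℝ) (hp : ∀ l, ∑ a, p l a = 1)
    (hp' : ∀ l, ∑ a, p' l a = 1) (h : ∀ l, P l → p l = p' l) (A : (L → Ξ) → ℝ)
    (hA : ∀ ξ ξ', (∀ l, P l → ξ l = ξ' l) → A ξ = A ξ') :
    ∑ ξ : L → Ξ, (∏ l, p l (ξ l)) * A ξ = ∑ ξ : L → Ξ, (∏ l, p' l (ξ l)) * A ξ := by
  classical
  have h1 := simL_sum_pi_swap P p p' h fun ξ _ => A ξ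
  have h2 : ∀ ξ ξ' : L → Ξ, A (fun l => if P l then ξ' l else ξ l) = A ξ' :=
    fun ξ ξ' => hA _ _ fun l hl => if_pos hl
  simp only [h2] at h1
  rw [sum_comm (f := fun ξ ξ' : L → Ξ => (∏ l, p l (ξ l)) * (∏ l, p' l (ξ' l)) * A ξ')] at h1
  simp only [← sum_mul, ← mul_sum, simL_sum_pi_one p hp, simL_sum_pi_one p' hp', mul_one, one_mul] at h1
  exact h1

/-- independence of disjoint blocks -/
theorem simL_sum_pi_indep (P : L → Prop) (p : L → Ξ → ℝ) (hp : ∀ l, ∑ a, p l a = 1)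
    (A B : (L → Ξ) → ℝ) (hA : ∀ ξ ξ', (∀ l, P l → ξ l = ξ' l) → A ξ = A ξ')
    (hB : ∀ ξ ξ', (∀ l, ¬P l → ξ l = ξ' l) → B ξ = B ξ') :
    ∑ ξ : L → Ξ, (∏ l, p l (ξ l)) * (A ξ * B ξ) =
      (∑ ξ : L → Ξ, (∏ l, p l (ξ l)) * A ξ) * ∑ ξ : L → Ξ, (∏ l, p l (ξ l)) * B ξ := by
  classical
  have h1 := simL_sum_pi_swap P p p (fun _ _ => rfl) fun ξ _ => A ξ * B ξ
  have h2 : ∀ ξ ξ' : L → Ξ, A (fun l => if P l then ξ' l else ξ l) = A ξ' :=
    fun ξ ξ' => hA _ _ fun l hl => if_pos hl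
  have h3 : ∀ ξ ξ' : L → Ξ, B (fun l => if P l then ξ' l else ξ l) = B ξ :=
    fun ξ ξ' => hB _ _ fun l hl => if_neg hl
  simp only [h2, h3] at h1
  simp only [← sum_mul, ← mul_sum, simL_sum_pi_one p hp, mul_one] at h1
  rw [h1, mul_comm, sum_mul_sum]
  exact sum_congr rfl fun ξ _ => sum_congr rfl fun ξ' _ => by ring

theorem simL_sum_pi_indep_prod {ι : Type} (blk : L → ι) (p : L → Ξ → ℝ) (hp : ∀ l, ∑ a, p l a = 1)
    (A : ι → (L → Ξ) → ℝ) (hA : ∀ i ξ ξ', (∀ l, blk l = i → ξ l = ξ' l) → A i ξ = A i ξ')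
    (S : Finset ι) :
    ∑ ξ : L → Ξ, (∏ l, p l (ξ l)) * ∏ i ∈ S, A i ξ =
      ∏ i ∈ S, ∑ ξ : L → Ξ, (∏ l, p l (ξ l)) * A i ξ := by
  classical
  induction S using Finset.induction_on with
  | empty => simp only [prod_empty, mul_one, simL_sum_pi_one p hp]
  | insert j S hj ih =>
    simp only [prod_insert hj]
    rw [← ih]
    refine simL_sum_pi_indep (fun l => blk l = j) p hp (A j) (fun ξ => ∏ i ∈ S, A i ξ) (hA j)
      fun ξ ξ' h => prod_congr rfl fun i hi => hA i _ _ fun l hl => h l ?_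
    rintro rfl
    exact hj (hl ▸ hi)

theorem simL_step_pi_local (P : L → Prop) (s : ℕ) {G : Path R (L → Ξ) → ℝ}
    (hG : ∀ y y', (∀ l, P l → comp y l = comp y' l) → G y = G y') {x x' : Path R (L → Ξ)}
    (h : ∀ l, P l → comp x l = comp x' l) : step (Ker.pi κ) s G x = step (Ker.pi κ) s G x' := by
  unfold step
  have h1 : ∀ ξ, G (upd x' s ξ) = G (upd x s ξ) := fun ξ => hG _ _ fun l hl => by
    rw [comp_upd, comp_upd, h l hl]
  simp only [h1]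
  exact simL_sum_pi_local P (fun l a => (κ l).k s (comp x l) a) (fun l a => (κ l).k s (comp x' l) a)
    (fun l => (κ l).sum_one _ _) (fun l => (κ l).sum_one _ _) (fun l hl => by rw [h l hl])
    (fun ξ => G (upd x s ξ)) fun ξ ξ' hξ => hG _ _ fun l hl => by
      rw [comp_upd, comp_upd, hξ l hl]

theorem simL_Fr_pi_local (P : L → Prop) {G : Path R (L → Ξ) → ℝ}
    (hG : ∀ y y', (∀ l, P l → comp y l = comp y' l) → G y = G y') (s : ℕ) :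
    ∀ y y', (∀ l, P l → comp y l = comp y' l) →
      Fr (Ker.pi κ) m s G y = Fr (Ker.pi κ) m s G y' := by
  refine down_ind R (P := fun s => ∀ y y', (∀ l, P l → comp y l = comp y' l) →
      Fr (Ker.pi κ) m s G y = Fr (Ker.pi κ) m s G y') ?_ ?_ s
  · intro s hs
    rw [Fr_of_le _ m hs]
    exact hG
  · intro s hs ih y y' h
    rw [Fr_succ _ m hs]
    unfold lstep
    rw [simL_step_pi_local κ P s (fun a b hab => by simp only [ih a b hab]) h]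

theorem simL_lstep_pi_blocks {ι : Type} (blk : L → ι) (S : Finset ι) (G : ι → Path R (L → Ξ) → ℝ)
    (hG : ∀ i y y', (∀ l, blk l = i → comp y l = comp y' l) → G i y = G i y') (s : ℕ)
    (x : Path R (L → Ξ)) :
    lstep (Ker.pi κ) m s (fun y => ∑ i ∈ S, G i y) x =
      ∑ i ∈ S, lstep (Ker.pi κ) m s (G i) x := by
  unfold lstep
  rw [← mul_sum, ← Real.log_prod fun i _ => (step_pos _ _ (fun _ => Real.exp_pos _) _).ne']
  congr 2
  simp only [mul_sum, Real.exp_sum]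
  exact simL_sum_pi_indep_prod blk (fun l a => (κ l).k s (comp x l) a) (fun l => (κ l).sum_one _ _)
    (fun i ξ => Real.exp (m (s + 1) * G i (upd x s ξ)))
    (fun i ξ ξ' h => by
      rw [hG i (upd x s ξ) (upd x s ξ') fun l hl => by rw [comp_upd, comp_upd, h l hl]]) S

/-- Additivity over disjoint blocks of labels: `G i` depends only on the labels `l` with
`blk l = i`.  Induction on `S` with `sim_pi_two` for the subtypes `{l // blk l = i}`,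
`{l // blk l ≠ i}` and `Fr_prod_add`; or directly by `down_ind` with the invariant "`Fr s (G i)`
depends only on the block `i`". -/
theorem Fr_pi_blocks {ι : Type} (blk : L → ι) (S : Finset ι) (G : ι → Path R (L → Ξ) → ℝ)
    (hG : ∀ i y y', (∀ l, blk l = i → comp y l = comp y' l) → G i y = G i y') (s : ℕ)
    (x : Path R (L → Ξ)) :
    Fr (Ker.pi κ) m s (fun y => ∑ i ∈ S, G i y) x = ∑ i ∈ S, Fr (Ker.pi κ) m s (G i) x := by
  revert x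
  refine down_ind R (P := fun s => ∀ x,
    Fr (Ker.pi κ) m s (fun y => ∑ i ∈ S, G i y) x = ∑ i ∈ S, Fr (Ker.pi κ) m s (G i) x) ?_ ?_ s
  · intro s hs x
    simp only [Fr_of_le _ m hs]
  · intro s hs ih x
    simp only [Fr_succ _ m hs]
    rw [funext ih]
    exact simL_lstep_pi_blocks κ blk S (fun i => Fr (Ker.pi κ) m (s + 1) (G i))
      (fun i => simL_Fr_pi_local κ (fun l => blk l = i) (hG i) (s + 1)) s x

end pi

end Crest.Agent.R141
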