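import Crest.Agent.R141.Tree
import Crest.Agent.R141.SimL

/-! Values of trees (task R141 Ev+Deriv).  Inductions on the tree. -/

set_option autoImplicit false

namespace Crest.Agent.R141

open Finset
open scoped BigOperators

variable {R : ℕ} {Ξ Ξ₁ Ξ₂ : Type} [Fintype Ξ] [Fintype Ξ₁] [Fintype Ξ₂] {α β : Type}
  (κ : Ker R Ξ)

theorem ev_meas (φ : α → Path R Ξ → ℝ) (T : Tr α) : Meas (T.lev R) (ev κ φ T) := by
  cases T with
  | leaf a => exact meas_of_le le_rfl _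
  | node u a b =>
    intro x y hxy
    show Ex κ u (ev κ φ a) x * Ex κ u (ev κ φ b) x = Ex κ u (ev κ φ a) y * Ex κ u (ev κ φ b) y
    rw [Ex_meas κ _ u x y hxy, Ex_meas κ _ u x y hxy]

theorem ev_map (φ : β → Path R Ξ → ℝ) (f : α → β) (T : Tr α) :
    ev κ φ (T.map f) = ev κ (fun a => φ (f a)) T := by
  induction T with
  | leaf a => rfl
  | node u a b iha ihb =>
    funext x
    show Ex κ u (ev κ φ (a.map f)) x * Ex κ u (ev κ φ (b.map f)) x = _
    rw [iha, ihb]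
    rfl

theorem ev_one (T : Tr α) (x : Path R Ξ) : ev κ (fun _ _ => 1) T x = 1 := by
  induction T generalizing x with
  | leaf a => rfl
  | node u a b iha ihb =>
    show Ex κ u (ev κ (fun _ _ => 1) a) x * Ex κ u (ev κ (fun _ _ => 1) b) x = 1
    rw [show ev κ (fun _ _ => (1 : ℝ)) a = fun _ => 1 from funext iha,
      show ev κ (fun _ _ => (1 : ℝ)) b = fun _ => 1 from funext ihb, Ex_const, mul_one]

theorem ev_nonneg {φ : α → Path R Ξ → ℝ} (h : ∀ a y, 0 ≤ φ a y) (T : Tr α) (x : Path R Ξ) :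
    0 ≤ ev κ φ T x := by
  induction T generalizing x with
  | leaf a => exact h a x
  | node u a b iha ihb => exact mul_nonneg (Ex_nonneg κ u iha x) (Ex_nonneg κ u ihb x)

theorem abs_ev_le {φ : α → Path R Ξ → ℝ} {B : ℝ} (h : ∀ a y, |φ a y| ≤ B) (T : Tr α)
    (x : Path R Ξ) : |ev κ φ T x| ≤ B ^ T.size := by
  induction T generalizing x with
  | leaf a =>
    show |φ a x| ≤ B ^ 1
    rw [pow_one]; exact h a x
  | node u a b iha ihb =>
    show |Ex κ u (ev κ φ a) x * Ex κ u (ev κ φ b) x| ≤ B ^ (a.size + b.size)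
    rw [abs_mul, pow_add]
    have h1 := abs_Ex_le_of κ u iha x
    have h2 := abs_Ex_le_of κ u ihb x
    exact mul_le_mul h1 h2 (abs_nonneg _) ((abs_nonneg _).trans h1)

theorem abs_ev_le_one {φ : α → Path R Ξ → ℝ} (h : ∀ a y, |φ a y| ≤ 1) (T : Tr α)
    (x : Path R Ξ) : |ev κ φ T x| ≤ 1 := by
  simpa using abs_ev_le κ h T x

theorem ev_const_mul (c : ℝ) (φ : α → Path R Ξ → ℝ) (T : Tr α) (x : Path R Ξ) :
    ev κ (fun a y => c * φ a y) T x = c ^ T.size * ev κ φ T x := by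
  induction T generalizing x with
  | leaf a =>
    show c * φ a x = c ^ 1 * φ a x
    rw [pow_one]
  | node u a b iha ihb =>
    show Ex κ u (ev κ (fun a y => c * φ a y) a) x * Ex κ u (ev κ (fun a y => c * φ a y) b) x =
      c ^ (a.size + b.size) * (Ex κ u (ev κ φ a) x * Ex κ u (ev κ φ b) x)
    rw [show ev κ (fun a y => c * φ a y) a = fun y => c ^ a.size * ev κ φ a y from funext iha,
      show ev κ (fun a y => c * φ a y) b = fun y => c ^ b.size * ev κ φ b y from funext ihb,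
      Ex_mul_left, Ex_mul_left, pow_add]
    ring

/-- locality -/
theorem ev_congr_agree {φ φ' : α → Path R Ξ → ℝ} {s : ℕ} {T : Tr α} (hT : T.Valid R s)
    {x : Path R Ξ} (h : ∀ a y, Agree s y x → φ a y = φ' a y) : ev κ φ T x = ev κ φ' T x := by
  induction T generalizing s x with
  | leaf a => exact h a x fun _ _ => rfl
  | node u a b iha ihb =>
    obtain ⟨hsu, -, ha, hb⟩ := hT
    have key : ∀ y, Agree u y x → ∀ c y', Agree u y' y → φ c y' = φ' c y' :=
      fun y hy c y' hy' => h c y' fun i hi => (hy' i (by omega)).trans (hy i (by omega))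
    show Ex κ u (ev κ φ a) x * Ex κ u (ev κ φ b) x = Ex κ u (ev κ φ' a) x * Ex κ u (ev κ φ' b) x
    rw [Ex_congr_agree κ u fun y hy => iha ha (key y hy),
      Ex_congr_agree κ u fun y hy => ihb hb (key y hy)]

theorem Sim.ev {κ₁ : Ker R Ξ₁} {κ₂ : Ker R Ξ₂} {Φ : Path R Ξ₁ → Path R Ξ₂} {s₀ : ℕ}
    (h : Sim κ₁ κ₂ Φ s₀) (φ : α → Path R Ξ₂ → ℝ) {T : Tr α} (hT : T.Valid R s₀) (x : Path R Ξ₁) :
    ev κ₁ (fun a y => φ a (Φ y)) T x = ev κ₂ φ T (Φ x) := by
  induction T generalizing x with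
  | leaf a => rfl
  | node u a b iha ihb =>
    obtain ⟨hsu, -, ha, hb⟩ := hT
    show R141.Ex κ₁ u (R141.ev κ₁ (fun a y => φ a (Φ y)) a) x *
        R141.Ex κ₁ u (R141.ev κ₁ (fun a y => φ a (Φ y)) b) x =
      R141.Ex κ₂ u (R141.ev κ₂ φ a) (Φ x) * R141.Ex κ₂ u (R141.ev κ₂ φ b) (Φ x)
    rw [show R141.ev κ₁ (fun a y => φ a (Φ y)) a = fun y => R141.ev κ₂ φ a (Φ y) from
        funext (iha (ha.mono hsu)),
      show R141.ev κ₁ (fun a y => φ a (Φ y)) b = fun y => R141.ev κ₂ φ b (Φ y) from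
        funext (ihb (hb.mono hsu)), h.Ex hsu, h.Ex hsu]

theorem ev_prod_mul (κ₁ : Ker R Ξ₁) (κ₂ : Ker R Ξ₂) (φ : α → Path R Ξ₁ → ℝ)
    (ψ : α → Path R Ξ₂ → ℝ) (T : Tr α) (x : Path R (Ξ₁ × Ξ₂)) :
    ev (κ₁.prod κ₂) (fun a y => φ a (pmap Prod.fst y) * ψ a (pmap Prod.snd y)) T x =
      ev κ₁ φ T (pmap Prod.fst x) * ev κ₂ ψ T (pmap Prod.snd x) := by
  induction T generalizing x with
  | leaf a => rfl
  | node u a b iha ihb =>
    show Ex (κ₁.prod κ₂) u (ev (κ₁.prod κ₂) _ a) x * Ex (κ₁.prod κ₂) u (ev (κ₁.prod κ₂) _ b) x =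
      Ex κ₁ u (ev κ₁ φ a) (pmap Prod.fst x) * Ex κ₁ u (ev κ₁ φ b) (pmap Prod.fst x) *
        (Ex κ₂ u (ev κ₂ ψ a) (pmap Prod.snd x) * Ex κ₂ u (ev κ₂ ψ b) (pmap Prod.snd x))
    rw [funext iha, funext ihb, Ex_prod_mul, Ex_prod_mul]
    ring

theorem ev_pi_prod {L : Type} [Fintype L] [DecidableEq L] (κ : L → Ker R Ξ)
    (φ : L → α → Path R Ξ → ℝ) (T : Tr α) (x : Path R (L → Ξ)) :
    ev (Ker.pi κ) (fun a y => ∏ l, φ l a (comp y l)) T x = ∏ l, ev (κ l) (φ l) T (comp x l) := by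
  induction T generalizing x with
  | leaf a => rfl
  | node u a b iha ihb =>
    show Ex (Ker.pi κ) u (ev (Ker.pi κ) _ a) x * Ex (Ker.pi κ) u (ev (Ker.pi κ) _ b) x =
      ∏ l, Ex (κ l) u (ev (κ l) (φ l) a) (comp x l) * Ex (κ l) u (ev (κ l) (φ l) b) (comp x l)
    rw [funext iha, funext ihb, Ex_pi_prod κ u fun l => ev (κ l) (φ l) a,
      Ex_pi_prod κ u fun l => ev (κ l) (φ l) b, prod_mul_distrib]

/-- Representation by a finite probability space on which every family of leaf observables is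
evaluated by a character (the product over the leaves of the observables at the sampled paths).
Induction on `T` for all `s, x`.  Leaf `a`: `Ω = Path`, `Ex_rep`, `χ y φ = φ a y`.  Node `u a b`:
`Ex_rep` at `(s, x)`; for every path `y` choose representations of `a` and `b` at `(u, y)`;
`Ω = Σ y, Ω_a y × Ω_b y`, weights and characters multiply. -/
theorem ev_rep (T : Tr α) (s : ℕ) (x : Path R Ξ) :
    ∃ (Ω : Type) (_ : Fintype Ω) (p : PV Ω) (χ : Ω → ((α → Path R Ξ → ℝ) →* ℝ)),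
      (∀ φ, Ex κ s (ev κ φ T) x = p.E fun ω => χ ω φ) ∧
      (∀ ω φ, (∀ a y, |φ a y| ≤ 1) → |χ ω φ| ≤ 1) ∧
      (∀ ω φ, (∀ a y, 0 ≤ φ a y) → 0 ≤ χ ω φ) := by
  classical
  induction T generalizing s x with
  | leaf a =>
    obtain ⟨p, hp⟩ := Ex_rep κ s x
    refine ⟨Path R Ξ, inferInstance, p,
      fun y => ⟨⟨fun φ => φ a y, rfl⟩, fun _ _ => rfl⟩, fun φ => hp _, fun y φ h => h a y,
      fun y φ h => h a y⟩
  | node u a b iha ihb =>
    obtain ⟨p, hp⟩ := Ex_rep κ s x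
    choose Ωa fa pa χa ha1 ha2 ha3 using iha u
    choose Ωb fb pb χb hb1 hb2 hb3 using ihb u
    let q : PV (Σ y : Path R Ξ, Ωa y × Ωb y) :=
      { w := fun ω => p.w ω.1 * ((pa ω.1).prod (pb ω.1)).w ω.2
        nonneg := fun ω => mul_nonneg (p.nonneg _) (PV.nonneg _ _)
        sum_one := by
          rw [Fintype.sum_sigma]
          have e : ∀ y, ∑ i, ((pa y).prod (pb y)).w i = 1 := fun y => ((pa y).prod (pb y)).sum_one
          simp only [← mul_sum, e, mul_one, p.sum_one] }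
    refine ⟨Σ y : Path R Ξ, Ωa y × Ωb y, inferInstance, q,
      fun ω => χa ω.1 ω.2.1 * χb ω.1 ω.2.2, fun φ => ?_, fun ω φ h => ?_, fun ω φ h => ?_⟩
    · rw [hp]
      unfold PV.E
      rw [Fintype.sum_sigma]
      refine sum_congr rfl fun y _ => ?_
      show p.w y * (Ex κ u (ev κ φ a) y * Ex κ u (ev κ φ b) y) = _
      rw [ha1, hb1]
      unfold PV.E
      rw [sum_mul_sum, Fintype.sum_prod_type, mul_sum]
      refine sum_congr rfl fun i _ => ?_
      rw [mul_sum]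
      refine sum_congr rfl fun j _ => ?_
      show _ = p.w y * ((pa y).w i * (pb y).w j) * (χa y i φ * χb y j φ)
      ring
    · show |χa ω.1 ω.2.1 φ * χb ω.1 ω.2.2 φ| ≤ 1
      rw [abs_mul]
      exact mul_le_one₀ (ha2 _ _ _ h) (abs_nonneg _) (hb2 _ _ _ h)
    · exact mul_nonneg (ha3 _ _ _ h) (hb3 _ _ _ h)

/-- Stability.  Induction on `T` for all `s ≥ s₀`: leaf `Ex_close`; node: the products differ by at
most `e(a) B^{|b|} + B^{|a|} e(b)`, then `Ex_close` again. -/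
theorem ev_close (κ' : Ker R Ξ) {s₀ : ℕ} {δ δ' B : ℝ} (hδ : 0 ≤ δ) (hB : 1 ≤ B)
    (h : ∀ s, s₀ ≤ s → s < R → ∀ x, ∑ ξ, |κ.k s x ξ - κ'.k s x ξ| ≤ δ)
    {φ φ' : α → Path R Ξ → ℝ} (h1 : ∀ a y, |φ a y| ≤ B) (h2 : ∀ a y, |φ' a y| ≤ B)
    (h3 : ∀ a y, |φ a y - φ' a y| ≤ δ') {T : Tr α} {s : ℕ} (hs : s₀ ≤ s) (hT : T.Valid R s)
    (x : Path R Ξ) :
    |Ex κ s (ev κ φ T) x - Ex κ' s (ev κ' φ' T) x| ≤
      2 * T.size * B ^ T.size * (R * δ + δ') := by
  have hδ' : 0 ≤ δ' := (abs_nonneg _).trans (h3 T.first x)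
  have hB0 : 0 ≤ B := zero_le_one.trans hB
  have hRδ : 0 ≤ (R : ℝ) * δ := mul_nonneg (Nat.cast_nonneg _) hδ
  have gen : ∀ {F F' : Path R Ξ → ℝ} {e C : ℝ} {s : ℕ}, s₀ ≤ s → (∀ y, |F y - F' y| ≤ e) →
      (∀ y, |F' y| ≤ C) → ∀ x, |Ex κ s F x - Ex κ' s F' x| ≤ e + R * δ * C := by
    intro F F' e C s hs hF hC x
    have e1 : |Ex κ s F x - Ex κ s F' x| ≤ e := by
      rw [← Ex_sub]; exact abs_Ex_le_of κ s hF x
    have e2 := Ex_close κ κ' hδ h hC hs x
    calc |Ex κ s F x - Ex κ' s F' x|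
        = |(Ex κ s F x - Ex κ s F' x) + (Ex κ s F' x - Ex κ' s F' x)| := by ring_nf
      _ ≤ _ := (abs_add_le _ _).trans (add_le_add e1 e2)
  have key : ∀ (T : Tr α) (s : ℕ), s₀ ≤ s → T.Valid R s → ∀ x,
      |Ex κ s (ev κ φ T) x - Ex κ' s (ev κ' φ' T) x| ≤
        (2 * T.size - 1) * B ^ T.size * (R * δ + δ') := by
    intro T
    induction T with
    | leaf a =>
      intro s hs _ x
      refine (gen hs (h3 a) (h2 a) x).trans ?_
      simp only [Tr.size, Nat.cast_one, pow_one]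
      nlinarith [mul_le_mul_of_nonneg_right hB hδ']
    | node u a b iha ihb =>
      rintro s hs ⟨hsu, -, ha, hb⟩ x
      have hu : s₀ ≤ u := hs.trans hsu
      have hd : ∀ y, |ev κ φ (.node u a b) y - ev κ' φ' (.node u a b) y| ≤
          (2 * (a.size + b.size : ℝ) - 2) * B ^ (a.size + b.size) * (R * δ + δ') := by
        intro y
        have a1 := iha u hu ha y
        have b1 := ihb u hu hb y
        have a2 := abs_Ex_le_of κ' u (abs_ev_le κ' h2 a) y
        have b2 := abs_Ex_le_of κ u (abs_ev_le κ h1 b) y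
        show |Ex κ u (ev κ φ a) y * Ex κ u (ev κ φ b) y -
          Ex κ' u (ev κ' φ' a) y * Ex κ' u (ev κ' φ' b) y| ≤ _
        calc _ = |(Ex κ u (ev κ φ a) y - Ex κ' u (ev κ' φ' a) y) * Ex κ u (ev κ φ b) y +
              Ex κ' u (ev κ' φ' a) y * (Ex κ u (ev κ φ b) y - Ex κ' u (ev κ' φ' b) y)| := by
              ring_nf
          _ ≤ (2 * a.size - 1) * B ^ a.size * (R * δ + δ') * B ^ b.size +
              B ^ a.size * ((2 * b.size - 1) * B ^ b.size * (R * δ + δ')) := by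
              refine (abs_add_le _ _).trans (add_le_add ?_ ?_)
              · rw [abs_mul]
                exact mul_le_mul a1 b2 (abs_nonneg _) ((abs_nonneg _).trans a1)
              · rw [abs_mul]
                exact mul_le_mul a2 b1 (abs_nonneg _) ((abs_nonneg _).trans a2)
          _ = _ := by rw [pow_add]; ring
      refine (gen hs hd (abs_ev_le κ' h2 (.node u a b)) x).trans ?_
      simp only [Tr.size, Nat.cast_add]
      have hp : 0 ≤ B ^ (a.size + b.size) := pow_nonneg hB0 _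
      nlinarith [mul_nonneg hp hδ']
  refine (key T s hs hT x).trans ?_
  have hp : 0 ≤ B ^ T.size * (R * δ + δ') := mul_nonneg (pow_nonneg hB0 _) (add_nonneg hRδ hδ')
  nlinarith

end Crest.Agent.R141
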