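import Crest.Agent.R141.Basic

/-! Conditional expectations and probability vectors (task R141 ExL).  Statements about `Ex` are
proved by `down_ind` on the level with `Ex_of_le`, `Ex_succ` from the same statement for `step`. -/

set_option autoImplicit false

namespace Crest.Agent.R141

open Finset
open scoped BigOperators

section
variable {R : ℕ} {Ξ : Type} [Fintype Ξ] (κ : Ker R Ξ)

theorem step_add (s : ℕ) (F G : Path R Ξ → ℝ) (x : Path R Ξ) :
    step κ s (fun y => F y + G y) x = step κ s F x + step κ s G x := by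
  simp only [step, mul_add, sum_add_distrib]

theorem step_mul_left (s : ℕ) (c : ℝ) (F : Path R Ξ → ℝ) (x : Path R Ξ) :
    step κ s (fun y => c * F y) x = c * step κ s F x := by
  simp only [step, mul_sum]
  exact sum_congr rfl fun ξ _ => by ring

theorem step_const (s : ℕ) (c : ℝ) (x : Path R Ξ) : step κ s (fun _ => c) x = c := by
  simp only [step, ← sum_mul, κ.sum_one, one_mul]

theorem step_mono (s : ℕ) {F G : Path R Ξ → ℝ} {x : Path R Ξ}
    (h : ∀ ξ, F (upd x s ξ) ≤ G (upd x s ξ)) : step κ s F x ≤ step κ s G x := by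
  exact sum_le_sum fun ξ _ => mul_le_mul_of_nonneg_left (h ξ) (κ.nonneg _ _ _)

theorem step_congr (s : ℕ) {F G : Path R Ξ → ℝ} {x : Path R Ξ}
    (h : ∀ ξ, F (upd x s ξ) = G (upd x s ξ)) : step κ s F x = step κ s G x := by
  simp only [step, h]

theorem step_meas_mul {s : ℕ} {G : Path R Ξ → ℝ} (hG : Meas s G) (F : Path R Ξ → ℝ)
    (x : Path R Ξ) : step κ s (fun y => G y * F y) x = G x * step κ s F x := by
  rw [← step_mul_left]
  exact step_congr κ s fun ξ => by rw [hG _ _ (agree_upd x le_rfl ξ)]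

theorem Ex_add (s : ℕ) (F G : Path R Ξ → ℝ) (x : Path R Ξ) :
    Ex κ s (fun y => F y + G y) x = Ex κ s F x + Ex κ s G x := by
  induction s using down_ind R generalizing x with
  | h0 s hs => simp only [Ex_of_le κ hs]
  | h1 s hs ih =>
    simp only [Ex_succ κ hs]
    rw [← step_add]
    exact step_congr κ s fun ξ => ih _

theorem Ex_mul_left (s : ℕ) (c : ℝ) (F : Path R Ξ → ℝ) (x : Path R Ξ) :
    Ex κ s (fun y => c * F y) x = c * Ex κ s F x := by
  induction s using down_ind R generalizing x with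
  | h0 s hs => simp only [Ex_of_le κ hs]
  | h1 s hs ih =>
    simp only [Ex_succ κ hs]
    rw [← step_mul_left]
    exact step_congr κ s fun ξ => ih _

theorem Ex_mul_right (s : ℕ) (c : ℝ) (F : Path R Ξ → ℝ) (x : Path R Ξ) :
    Ex κ s (fun y => F y * c) x = Ex κ s F x * c := by
  simp only [mul_comm _ c, Ex_mul_left]

theorem Ex_neg (s : ℕ) (F : Path R Ξ → ℝ) (x : Path R Ξ) :
    Ex κ s (fun y => -F y) x = -Ex κ s F x := by
  simpa using Ex_mul_left κ s (-1) F x

theorem Ex_sub (s : ℕ) (F G : Path R Ξ → ℝ) (x : Path R Ξ) :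
    Ex κ s (fun y => F y - G y) x = Ex κ s F x - Ex κ s G x := by
  simp only [sub_eq_add_neg, Ex_add, Ex_neg]

theorem Ex_const (s : ℕ) (c : ℝ) (x : Path R Ξ) : Ex κ s (fun _ => c) x = c := by
  induction s using down_ind R generalizing x with
  | h0 s hs => simp only [Ex_of_le κ hs]
  | h1 s hs ih =>
    rw [Ex_succ κ hs, step_congr κ s (G := fun _ => c) fun ξ => ih _, step_const]

theorem Ex_sum {ι : Type} (S : Finset ι) (s : ℕ) (F : ι → Path R Ξ → ℝ) (x : Path R Ξ) :
    Ex κ s (fun y => ∑ i ∈ S, F i y) x = ∑ i ∈ S, Ex κ s (F i) x := by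
  classical
  induction S using Finset.induction_on with
  | empty => simp only [sum_empty, Ex_const]
  | insert a S ha ih => simp only [sum_insert ha, Ex_add, ih]

theorem Ex_expect {ι : Type} [Fintype ι] (s : ℕ) (F : ι → Path R Ξ → ℝ) (x : Path R Ξ) :
    Ex κ s (fun y => 𝔼 i, F i y) x = 𝔼 i, Ex κ s (F i) x := by
  simp only [Fintype.expect_eq_sum_div_card, div_eq_mul_inv, Ex_mul_right, Ex_sum]

/-- only the paths that agree with `x` below `s` matter -/
theorem Ex_mono_agree (s : ℕ) {F G : Path R Ξ → ℝ} {x : Path R Ξ}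
    (h : ∀ y, Agree s y x → F y ≤ G y) : Ex κ s F x ≤ Ex κ s G x := by
  induction s using down_ind R generalizing x with
  | h0 s hs =>
    simp only [Ex_of_le κ hs]
    exact h x fun _ _ => rfl
  | h1 s hs ih =>
    simp only [Ex_succ κ hs]
    refine step_mono κ s fun ξ => ih fun y hy => h y fun i hi => ?_
    rw [hy i (by omega), agree_upd x le_rfl ξ i hi]

theorem Ex_congr_agree (s : ℕ) {F G : Path R Ξ → ℝ} {x : Path R Ξ}
    (h : ∀ y, Agree s y x → F y = G y) : Ex κ s F x = Ex κ s G x := by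
  exact le_antisymm (Ex_mono_agree κ s fun y hy => (h y hy).le)
    (Ex_mono_agree κ s fun y hy => (h y hy).ge)

theorem Ex_mono (s : ℕ) {F G : Path R Ξ → ℝ} (h : ∀ y, F y ≤ G y) (x : Path R Ξ) :
    Ex κ s F x ≤ Ex κ s G x := by
  exact Ex_mono_agree κ s fun y _ => h y

theorem Ex_nonneg (s : ℕ) {F : Path R Ξ → ℝ} (h : ∀ y, 0 ≤ F y) (x : Path R Ξ) :
    0 ≤ Ex κ s F x := by
  simpa only [Ex_const] using Ex_mono κ s (F := fun _ => 0) h x

theorem Ex_pos (s : ℕ) {F : Path R Ξ → ℝ} (h : ∀ y, 0 < F y) (x : Path R Ξ) :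
    0 < Ex κ s F x := by
  induction s using down_ind R generalizing x with
  | h0 s hs => simp only [Ex_of_le κ hs, h]
  | h1 s hs ih =>
    rw [Ex_succ κ hs]
    exact step_pos κ s ih x

theorem abs_Ex_le (s : ℕ) (F : Path R Ξ → ℝ) (x : Path R Ξ) :
    |Ex κ s F x| ≤ Ex κ s (fun y => |F y|) x := by
  rw [abs_le, neg_le, ← Ex_neg]
  exact ⟨Ex_mono κ s (fun y => neg_le_abs _) x, Ex_mono κ s (fun y => le_abs_self _) x⟩

theorem abs_Ex_le_of (s : ℕ) {F : Path R Ξ → ℝ} {B : ℝ} (h : ∀ y, |F y| ≤ B) (x : Path R Ξ) :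
    |Ex κ s F x| ≤ B := by
  exact (abs_Ex_le κ s F x).trans ((Ex_mono κ s h x).trans_eq (Ex_const κ s B x))

theorem Ex_of_meas {s : ℕ} {F : Path R Ξ → ℝ} (h : Meas s F) : Ex κ s F = F := by
  funext x
  rw [Ex_congr_agree κ s (G := fun _ => F x) fun y hy => h y x hy, Ex_const]

theorem Ex_meas_mul {s : ℕ} {G : Path R Ξ → ℝ} (hG : Meas s G) (F : Path R Ξ → ℝ)
    (x : Path R Ξ) : Ex κ s (fun y => G y * F y) x = G x * Ex κ s F x := by
  rw [← Ex_mul_left]
  exact Ex_congr_agree κ s fun y hy => by rw [hG y x hy]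

theorem Ex_mul_meas {s : ℕ} {G : Path R Ξ → ℝ} (hG : Meas s G) (F : Path R Ξ → ℝ)
    (x : Path R Ξ) : Ex κ s (fun y => F y * G y) x = Ex κ s F x * G x := by
  simp only [mul_comm (F _), mul_comm _ (G x), Ex_meas_mul κ hG]

/-- tower property -/
theorem Ex_Ex {s t : ℕ} (h : s ≤ t) (F : Path R Ξ → ℝ) : Ex κ s (Ex κ t F) = Ex κ s F := by
  induction s using down_ind R with
  | h0 s hs => rw [Ex_of_le κ hs, Ex_of_le κ hs, Ex_of_le κ (hs.trans h)]
  | h1 s hs ih =>
    rcases h.eq_or_lt with rfl | h'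
    · exact Ex_of_meas κ (Ex_meas κ F s)
    · rw [Ex_succ κ hs, Ex_succ κ hs F, ih h']

theorem Ex_Ex' {s t : ℕ} (h : s ≤ t) (F : Path R Ξ → ℝ) : Ex κ t (Ex κ s F) = Ex κ s F := by
  exact Ex_of_meas κ ((Ex_meas κ F s).mono h)

/-- `F ↦ Ex κ s F x` is positive, linear and normalised: take `w y = Ex κ s 1_{y} x` -/
theorem Ex_rep (s : ℕ) (x : Path R Ξ) : ∃ p : PV (Path R Ξ), ∀ F, Ex κ s F x = p.E F := by
  classical
  refine ⟨⟨fun y => Ex κ s (fun z => if z = y then 1 else 0) x,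
    fun y => Ex_nonneg κ s (fun z => by split_ifs <;> norm_num) x, ?_⟩, fun F => ?_⟩
  · rw [← Ex_sum]
    simp only [sum_ite_eq, mem_univ, if_true, Ex_const]
  · simp only [PV.E, ← Ex_mul_right, ← Ex_sum, ite_mul, one_mul, zero_mul, sum_ite_eq, mem_univ,
      if_true]

/-- stability in the kernel -/
theorem Ex_close (κ' : Ker R Ξ) {s₀ : ℕ} {δ B : ℝ} (hδ : 0 ≤ δ)
    (h : ∀ s, s₀ ≤ s → s < R → ∀ x, ∑ ξ, |κ.k s x ξ - κ'.k s x ξ| ≤ δ) {F : Path R Ξ → ℝ}
    (hF : ∀ y, |F y| ≤ B) {s : ℕ} (hs : s₀ ≤ s) (x : Path R Ξ) :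
    |Ex κ s F x - Ex κ' s F x| ≤ R * δ * B := by
  have hB : 0 ≤ B := (abs_nonneg _).trans (hF x)
  have key : ∀ s, s₀ ≤ s → ∀ x, |Ex κ s F x - Ex κ' s F x| ≤ ((R - s : ℕ) : ℝ) * δ * B := by
    intro s
    induction s using down_ind R with
    | h0 s hs =>
      intro _ x
      rw [Ex_of_le κ hs, Ex_of_le κ' hs, sub_self, abs_zero]
      positivity
    | h1 s hs ih =>
      intro hs₀ x
      rw [Ex_succ κ hs, Ex_succ κ' hs]
      have e : step κ s (Ex κ (s + 1) F) x - step κ' s (Ex κ' (s + 1) F) x =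
          ∑ ξ, κ.k s x ξ * (Ex κ (s + 1) F (upd x s ξ) - Ex κ' (s + 1) F (upd x s ξ)) +
            ∑ ξ, (κ.k s x ξ - κ'.k s x ξ) * Ex κ' (s + 1) F (upd x s ξ) := by
        simp only [step, ← sum_add_distrib, ← sum_sub_distrib]
        exact sum_congr rfl fun ξ _ => by ring
      have h1 : |∑ ξ, κ.k s x ξ * (Ex κ (s + 1) F (upd x s ξ) - Ex κ' (s + 1) F (upd x s ξ))| ≤
          ((R - (s + 1) : ℕ) : ℝ) * δ * B := by
        refine (abs_sum_le_sum_abs _ _).trans ?_
        calc _ ≤ ∑ ξ, κ.k s x ξ * (((R - (s + 1) : ℕ) : ℝ) * δ * B) := by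
              refine sum_le_sum fun ξ _ => ?_
              rw [abs_mul, abs_of_nonneg (κ.nonneg _ _ _)]
              exact mul_le_mul_of_nonneg_left (ih (by omega) _) (κ.nonneg _ _ _)
          _ = _ := by rw [← sum_mul, κ.sum_one, one_mul]
      have h2 : |∑ ξ, (κ.k s x ξ - κ'.k s x ξ) * Ex κ' (s + 1) F (upd x s ξ)| ≤ δ * B := by
        refine (abs_sum_le_sum_abs _ _).trans ?_
        calc _ ≤ ∑ ξ, |κ.k s x ξ - κ'.k s x ξ| * B := by
              refine sum_le_sum fun ξ _ => ?_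
              rw [abs_mul]
              exact mul_le_mul_of_nonneg_left (abs_Ex_le_of κ' _ hF _) (abs_nonneg _)
          _ ≤ _ := by
              rw [← sum_mul]
              exact mul_le_mul_of_nonneg_right (h s hs₀ hs x) hB
      have h3 : ((R - s : ℕ) : ℝ) = ((R - (s + 1) : ℕ) : ℝ) + 1 := by
        rw [show R - s = (R - (s + 1)) + 1 by omega]; push_cast; rfl
      rw [e, h3]
      refine (abs_add_le _ _).trans ?_
      linarith
  refine (key s hs x).trans ?_
  have : ((R - s : ℕ) : ℝ) ≤ R := by exact_mod_cast Nat.sub_le R s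
  gcongr

variable [Nonempty Ξ]

theorem Ex_zero (F : Path R Ξ → ℝ) (x : Path R Ξ) : Ex κ 0 F x = E0 κ F :=
  Ex_meas κ F 0 _ _ fun _ h => absurd h (Nat.not_lt_zero _)

theorem Fr_zero (m : ℕ → ℝ) (G : Path R Ξ → ℝ) (x : Path R Ξ) : Fr κ m 0 G x = F0 κ m G :=
  Fr_meas κ m G 0 _ _ fun _ h => absurd h (Nat.not_lt_zero _)

theorem E0_Ex (s : ℕ) (F : Path R Ξ → ℝ) : E0 κ (Ex κ s F) = E0 κ F := by
  unfold E0; rw [Ex_Ex κ (Nat.zero_le s)]

end

/-! ### probability vectors -/

namespace PV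
variable {α β : Type} [Fintype α] [Fintype β] (p : PV α) (q : PV β)

theorem E_add (f g : α → ℝ) : p.E (fun a => f a + g a) = p.E f + p.E g := by
  simp only [E, mul_add, sum_add_distrib]

theorem E_sub (f g : α → ℝ) : p.E (fun a => f a - g a) = p.E f - p.E g := by
  simp only [E, mul_sub, sum_sub_distrib]

theorem E_mul_left (c : ℝ) (f : α → ℝ) : p.E (fun a => c * f a) = c * p.E f := by
  simp only [E, mul_sum]
  exact sum_congr rfl fun a _ => by ring

theorem E_mul_right (c : ℝ) (f : α → ℝ) : p.E (fun a => f a * c) = p.E f * c := by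
  simp only [E, sum_mul, mul_assoc]

theorem E_const (c : ℝ) : p.E (fun _ => c) = c := by
  simp only [E, ← sum_mul, p.sum_one, one_mul]

theorem E_sum {ι : Type} (S : Finset ι) (f : ι → α → ℝ) :
    p.E (fun a => ∑ i ∈ S, f i a) = ∑ i ∈ S, p.E (f i) := by
  simp only [E, mul_sum]
  exact sum_comm

theorem E_mono {f g : α → ℝ} (h : ∀ a, f a ≤ g a) : p.E f ≤ p.E g := by
  exact sum_le_sum fun a _ => mul_le_mul_of_nonneg_left (h a) (p.nonneg a)

theorem E_nonneg {f : α → ℝ} (h : ∀ a, 0 ≤ f a) : 0 ≤ p.E f := by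
  exact sum_nonneg fun a _ => mul_nonneg (p.nonneg a) (h a)

theorem abs_E_le (f : α → ℝ) : |p.E f| ≤ p.E fun a => |f a| := by
  refine (abs_sum_le_sum_abs _ _).trans_eq (sum_congr rfl fun a _ => ?_)
  rw [abs_mul, abs_of_nonneg (p.nonneg a)]

theorem abs_E_le_of {f : α → ℝ} {B : ℝ} (h : ∀ a, |f a| ≤ B) : |p.E f| ≤ B := by
  exact (p.abs_E_le f).trans ((p.E_mono h).trans_eq (p.E_const B))

theorem abs_E_sub_le {f g : α → ℝ} {B : ℝ} (h : ∀ a, |f a - g a| ≤ B) : |p.E f - p.E g| ≤ B := by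
  rw [← E_sub]
  exact p.abs_E_le_of h

theorem E_comm (f : α → β → ℝ) : p.E (fun a => q.E (f a)) = q.E fun b => p.E fun a => f a b := by
  simp only [E, mul_sum]
  rw [sum_comm]
  exact sum_congr rfl fun b _ => sum_congr rfl fun a _ => by ring

theorem E_expect (f : α → β → ℝ) : p.E (fun a => 𝔼 b, f a b) = 𝔼 b, p.E fun a => f a b := by
  simp only [Fintype.expect_eq_sum_div_card, div_eq_mul_inv, E_mul_right, E_sum]

theorem E_prod (f : α × β → ℝ) : (p.prod q).E f = p.E fun a => q.E fun b => f (a, b) := by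
  simp only [E, PV.prod, Fintype.sum_prod_type, mul_sum, mul_assoc]

/-- Cauchy–Schwarz -/
theorem E_mul_sq_le (f g : α → ℝ) :
    p.E (fun a => f a * g a) ^ 2 ≤ p.E (fun a => f a ^ 2) * p.E fun a => g a ^ 2 := by
  refine sum_sq_le_sum_mul_sum_of_sq_le_mul univ
    (fun a _ => mul_nonneg (p.nonneg a) (sq_nonneg _))
    (fun a _ => mul_nonneg (p.nonneg a) (sq_nonneg _)) fun a _ => le_of_eq (by ring)

variable {ι ι' : Type} [Fintype ι] [DecidableEq ι] [Fintype ι'] [DecidableEq ι']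

theorem E_pi_prod (f : ι → α → ℝ) : (p.pi ι).E (fun θ => ∏ i, f i (θ i)) = ∏ i, p.E (f i) := by
  simp only [E, PV.pi, ← prod_mul_distrib]
  rw [← Fintype.prod_sum fun i a => p.w a * f i a]

/-- resample one coordinate -/
theorem E_pi_update (j : ι) (F : (ι → α) → ℝ) :
    (p.pi ι).E F = (p.pi ι).E fun θ => p.E fun a => F (Function.update θ j a) := by
  have hw : ∀ (θ : ι → α) (a : α), (∏ i, p.w (Function.update θ j a i)) * p.w (θ j) =
      (∏ i, p.w (θ i)) * p.w a := by
    intro θ a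
    rw [← mul_prod_erase _ _ (mem_univ j), ← mul_prod_erase _ (fun i => p.w (θ i)) (mem_univ j),
      Function.update_self, prod_congr rfl fun i hi => by
        rw [Function.update_of_ne (ne_of_mem_erase hi)]]
    ring
  have hinv : Function.Involutive fun x : (ι → α) × α => (Function.update x.1 j x.2, x.1 j) := by
    intro x
    simp
  have h1 : (p.pi ι).E (fun θ => p.E fun a => F (Function.update θ j a)) =
      ∑ x : (ι → α) × α, (∏ i, p.w (x.1 i)) * p.w x.2 * F (Function.update x.1 j x.2) := by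
    simp only [E, PV.pi, Fintype.sum_prod_type, mul_sum, mul_assoc]
  have h2 : (p.pi ι).E F = ∑ x : (ι → α) × α, (∏ i, p.w (x.1 i)) * p.w x.2 * F x.1 := by
    simp only [E, PV.pi, Fintype.sum_prod_type, ← sum_mul, ← mul_sum, p.sum_one, mul_one]
  rw [h1, h2, ← Equiv.sum_comp hinv.toPerm]
  refine sum_congr rfl fun x _ => ?_
  simp only [Function.Involutive.coe_toPerm, hw]

theorem exl_E_pi_equiv (σ : ι' ≃ ι) (F : (ι' → α) → ℝ) :
    (p.pi ι).E (fun θ => F fun i => θ (σ i)) = (p.pi ι').E F := by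
  simp only [E, PV.pi]
  refine Fintype.sum_equiv (Equiv.arrowCongr σ.symm (Equiv.refl α)) _ _ fun θ => ?_
  rw [← Equiv.prod_comp σ]
  rfl

theorem exl_E_pi_sum (F : (ι ⊕ ι' → α) → ℝ) :
    (p.pi (ι ⊕ ι')).E F = (p.pi ι).E fun a => (p.pi ι').E fun b => F (Sum.elim a b) := by
  simp only [E, PV.pi, mul_sum]
  rw [← Fintype.sum_prod_type', ← Equiv.sum_comp (Equiv.sumArrowEquivProdArrow ι ι' α).symm]
  refine sum_congr rfl fun x _ => ?_
  rw [Fintype.prod_sum_type, mul_assoc]
  rfl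

theorem exl_E_pi_comp (e : ι' → ι) (he : Function.Injective e) (F : (ι' → α) → ℝ) :
    (p.pi ι).E (fun θ => F fun i => θ (e i)) = (p.pi ι').E F := by
  classical
  let σ : ι' ⊕ {i // i ∉ Set.range e} ≃ ι :=
    (Equiv.sumCongr (Equiv.ofInjective e he) (Equiv.refl _)).trans
      (Equiv.sumCompl fun i => i ∈ Set.range e)
  have h1 := p.exl_E_pi_equiv σ fun η => F fun i => η (Sum.inl i)
  rw [exl_E_pi_sum] at h1
  simp only [Sum.elim_inl, E_const] at h1
  exact h1

/-- joint law of two disjoint blocks of coordinates -/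
theorem E_pi_two {ι'' : Type} [Fintype ι''] [DecidableEq ι''] (e : ι' → ι) (e' : ι'' → ι)
    (he : Function.Injective e) (he' : Function.Injective e') (hd : ∀ i j, e i ≠ e' j)
    (F : (ι' → α) → (ι'' → α) → ℝ) :
    (p.pi ι).E (fun θ => F (fun i => θ (e i)) fun j => θ (e' j)) =
      (p.pi ι').E fun a => (p.pi ι'').E fun b => F a b := by
  have h1 := p.exl_E_pi_comp (Sum.elim e e') (he.sumElim he' hd)
    fun η => F (fun i => η (Sum.inl i)) fun j => η (Sum.inr j)
  rw [exl_E_pi_sum] at h1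
  exact h1

/-- marginal law of a block of coordinates -/
theorem E_pi_comp (e : ι' → ι) (he : Function.Injective e) (F : (ι' → α) → ℝ) :
    (p.pi ι).E (fun θ => F fun i => θ (e i)) = (p.pi ι').E F := by
  exact p.exl_E_pi_comp e he F

theorem E_pi_eval (j : ι) (f : α → ℝ) : (p.pi ι).E (fun θ => f (θ j)) = p.E f := by
  rw [E_pi_update p j]
  simp only [Function.update_self, E_const]

theorem E_pi_prodPV (F : (ι → α × β) → ℝ) :
    ((p.prod q).pi ι).E F = (p.pi ι).E fun a => (q.pi ι).E fun b => F fun i => (a i, b i) := by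
  simp only [E, PV.pi, PV.prod, mul_sum]
  rw [← Fintype.sum_prod_type',
    ← Equiv.sum_comp (Equiv.arrowProdEquivProdArrow ι (fun _ => α) fun _ => β).symm]
  refine sum_congr rfl fun x _ => ?_
  rw [prod_mul_distrib, mul_assoc]
  rfl

theorem E_pi_curry (F : (ι × ι' → α) → ℝ) :
    (p.pi (ι × ι')).E F = ((p.pi ι').pi ι).E fun a => F fun i => a i.1 i.2 := by
  simp only [E, PV.pi]
  rw [← Equiv.sum_comp (Equiv.curry ι ι' α).symm]
  refine sum_congr rfl fun x _ => ?_
  rw [Fintype.prod_prod_type]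
  rfl

/-- a measure preserving map of the alphabet, possibly different in every coordinate -/
theorem E_pi_map (f : ι → α → β) (hf : ∀ i g, p.E (fun a => g (f i a)) = q.E g)
    (F : (ι → β) → ℝ) : (p.pi ι).E (fun θ => F fun i => f i (θ i)) = (q.pi ι).E F := by
  classical
  have h1 : ∀ θ : ι → α, (F fun i => f i (θ i)) =
      ∑ b : ι → β, (∏ i, if f i (θ i) = b i then (1 : ℝ) else 0) * F b := by
    intro θ
    rw [sum_eq_single fun i => f i (θ i)]
    · simp
    · intro b _ hb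
      obtain ⟨i, hi⟩ := Function.ne_iff.1 hb
      rw [prod_eq_zero (mem_univ i) (if_neg hi.symm), zero_mul]
    · simp
  have h2 : ∀ i (c : β), p.E (fun a => if f i a = c then (1 : ℝ) else 0) = q.w c := by
    intro i c
    rw [hf i fun b => if b = c then (1 : ℝ) else 0]
    simp [E]
  simp only [h1, E_sum, E_mul_right]
  refine sum_congr rfl fun b _ => ?_
  rw [p.E_pi_prod fun i a => if f i a = b i then (1 : ℝ) else 0]
  simp only [h2]
  rfl

/-- the uniform vector -/
noncomputable def unif (α : Type) [Fintype α] [Nonempty α] : PV α where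
  w _ := (Fintype.card α : ℝ)⁻¹
  nonneg _ := by positivity
  sum_one := by
    have : (Fintype.card α : ℝ) ≠ 0 := by exact_mod_cast Fintype.card_ne_zero
    simp [this]

theorem unif_E [Nonempty α] (f : α → ℝ) : (unif α).E f = 𝔼 a, f a := by
  simp only [E, unif, Fintype.expect_eq_sum_div_card, ← mul_sum]
  rw [div_eq_inv_mul]

/-- so all `E_pi_*` lemmas apply to uniform averages over functions -/
theorem unif_pi_E [Nonempty α] (F : (ι → α) → ℝ) : ((unif α).pi ι).E F = 𝔼 θ, F θ := by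
  simp only [E, unif, PV.pi, Fintype.expect_eq_sum_div_card, ← mul_sum, prod_const, card_univ,
    Fintype.card_fun, Nat.cast_pow, inv_pow]
  rw [div_eq_inv_mul]

theorem unif_prod_E [Nonempty α] [Nonempty β] (F : α × β → ℝ) :
    ((unif α).prod (unif β)).E F = 𝔼 a, F a := by
  simp only [E, unif, PV.prod, Fintype.expect_eq_sum_div_card, ← mul_sum, Fintype.card_prod,
    Nat.cast_mul]
  rw [div_eq_inv_mul, mul_inv]

end PV

end Crest.Agent.R141
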