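import Crest.Agent.R141.Term

/-! Averaging over the signs and the site of a term (task R141 Marks).

At `θ = 0` the weight is `1` and `xker = κ.prod (unif (V × Mk))` (`tilt_zero`), `Mk = Fin E → Bool`.
1. Regroup as `(κ.prod (unif V)).prod (unif Mk)` (`unif_prod`, `sim_assoc`, `Sim.ev`); the leaf values
   are products, so (`ev_prod_mul`, `Ex_prod_mul`) `Psi 0 u T' = A u T' · M T'`, where
   `A u T'` is the value in `κ.prod (unif V)` with the role value `ind (σ x.1 (x 0).2) b` and
   `M T' = E0 (unif Mk) (ev (roleF fun c => mark hs c.1) T')`.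
2. `unif Mk = pi (unif Bool)` (`unif_pi`); `fac h r` depends only on the label `h.c`, ids are distinct
   and `< E`, so `M T' = ∏_{h ∈ hs} μ h T'` with `μ h T' = E0 (unif Mk) (ev (roleF fun c => fac h c.1) T')`
   (`ev_pi_prod`, `Ex_pi_prod`, `sim_pi_eval`; write the product over `hs` as a product over `Fin E`).
3. `μ h` is not changed by later steps `h'` (`h'.c ∉ {h.c, h.par}`, `opts_ev`).
4. `mu_filter` below.  Define `meet T c d` (leaf: `R`; node `u a b`: `meet a` if both ids are in `a`,
   `meet b` if both are in `b`, else `u`).  If `c ≠ d` occur exactly once in a tree valid from `s` and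
   all other leaves have the value `1`, then `Ex s (ev φ T) = Ex s (Ex w φ_c · Ex w φ_d)`, `w = meet < R`.
   For the signs `e_i = sg · c i` (`i < R`): `Ex w e_i = if i < w then e_i else 0` and
   `E0 (e_i e_j) = [i = j]`, so `μ h T' = ([lv ≤ w] - [lv + 1 ≤ w])/4 = [w = lv]/4`.  Finally, by
   induction on `T` (all `a0`, `s`), filtering `sopts` by `meet = lv` gives `fopts`.
5. Induction on the list (a suffix `l` of `hs`, any `T` whose roles are the earlier ids, without
   duplicates): `wsum (useq l T) (A · ∏_{h ∈ l} μ h) = 4^{-|l|} wsum (fseq l T) A`.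
6. The filtered trees are valid from `1` (`fseq_valid`), and for such trees
   `A u T' = 𝔼_w E0 κ (ev κ (lfv σ u w) T')`: `E0 F = step 0 (Ex 1 F)`, below level `1` the site is
   frozen (`Ex_congr_agree`, `ev_congr_agree`, `sim_fst`). -/

set_option autoImplicit false

namespace Crest.Agent.R141

open Finset
open scoped BigOperators

namespace MarksAux

/-- the level at which the roles `c` and `d` meet -/
def meet (R c d : ℕ) : Tr Lb → ℕ
  | .leaf _ => R
  | .node u a b =>
      if c ∈ roles a ∧ d ∈ roles a then meet R c d a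
      else if c ∈ roles b ∧ d ∈ roles b then meet R c d b else u

section evs
variable {R : ℕ} {Ξ : Type} [Fintype Ξ] (κ : Ker R Ξ) (f : ℕ → Path R Ξ → ℝ)

theorem ev_all_one : ∀ (T : Tr Lb), (∀ r ∈ roles T, f r = fun _ => 1) →
    ev κ (roleF fun c => f c.1) T = fun _ => 1
  | .leaf (o, none), _ => by funext x; simp [ev, roleF]
  | .leaf (o, some r), h => by
      funext x
      have := h r.1 (by simp [roles])
      simp [ev, roleF, this]
  | .node u a b, h => by
      funext x
      have ha := ev_all_one a fun r hr => h r (by simp [roles, hr])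
      have hb := ev_all_one b fun r hr => h r (by simp [roles, hr])
      simp only [ev, ha, hb, Ex_const, mul_one]

theorem ev_node_left {u : ℕ} {a b : Tr Lb} (hb : ∀ r ∈ roles b, f r = fun _ => 1) :
    ev κ (roleF fun c => f c.1) (.node u a b) = Ex κ u (ev κ (roleF fun c => f c.1) a) := by
  funext x
  simp only [ev, ev_all_one κ f b hb, Ex_const, mul_one]

theorem ev_node_right {u : ℕ} {a b : Tr Lb} (ha : ∀ r ∈ roles a, f r = fun _ => 1) :
    ev κ (roleF fun c => f c.1) (.node u a b) = Ex κ u (ev κ (roleF fun c => f c.1) b) := by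
  funext x
  simp only [ev, ev_all_one κ f a ha, Ex_const, one_mul]

theorem ev_one_role (d : ℕ) : ∀ (T : Tr Lb) (s : ℕ), T.Valid R s → d ∈ roles T → (roles T).Nodup →
    (∀ r ∈ roles T, r ≠ d → f r = fun _ => 1) →
    Ex κ s (ev κ (roleF fun c => f c.1) T) = Ex κ s (f d)
  | .leaf (o, none), _, _, hd, _, _ => by simp [roles] at hd
  | .leaf (o, some r), s, _, hd, _, _ => by
      have : d = r.1 := by simpa [roles] using hd
      subst this
      rfl
  | .node u a b, s, hT, hd, hnd, h => by
      obtain ⟨hsu, -, ha, hb⟩ := hT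
      simp only [roles, List.nodup_append, List.mem_append] at hd hnd h
      obtain ⟨hna, hnb, hdis⟩ := hnd
      rcases hd with hd | hd
      · rw [ev_node_left κ f fun r hr => h r (Or.inr hr) fun e => hdis d hd r hr e.symm,
          ev_one_role d a u ha hd hna fun r hr => h r (Or.inl hr), Ex_Ex κ hsu]
      · rw [ev_node_right κ f fun r hr => h r (Or.inl hr) fun e => hdis r hr d hd e,
          ev_one_role d b u hb hd hnb fun r hr => h r (Or.inr hr), Ex_Ex κ hsu]

theorem ev_two_roles {c d : ℕ} (hcd : c ≠ d) : ∀ (T : Tr Lb) (s : ℕ), T.Valid R s → c ∈ roles T →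
    d ∈ roles T → (roles T).Nodup → (∀ r ∈ roles T, r ≠ c → r ≠ d → f r = fun _ => 1) →
    Ex κ s (ev κ (roleF fun c => f c.1) T) =
      Ex κ s fun x => Ex κ (meet R c d T) (f c) x * Ex κ (meet R c d T) (f d) x
  | .leaf (o, none), _, _, hc, _, _, _ => by simp [roles] at hc
  | .leaf (o, some r), s, _, hc, hd, _, _ => by
      have h1 : c = r.1 := by simpa [roles] using hc
      have h2 : d = r.1 := by simpa [roles] using hd
      exact absurd (h1.trans h2.symm) hcd
  | .node u a b, s, hT, hc, hd, hnd, h => by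
      obtain ⟨hsu, -, ha, hb⟩ := hT
      simp only [roles, List.nodup_append, List.mem_append] at hc hd hnd h
      obtain ⟨hna, hnb, hdis⟩ := hnd
      rcases hc with hc | hc <;> rcases hd with hd | hd
      · have hm : meet R c d (.node u a b) = meet R c d a := by simp [meet, hc, hd]
        rw [hm, ev_node_left κ f fun r hr => h r (Or.inr hr) (fun e => hdis c hc r hr e.symm)
            fun e => hdis d hd r hr e.symm,
          ev_two_roles hcd a u ha hc hd hna fun r hr => h r (Or.inl hr), Ex_Ex κ hsu]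
      · have h1 : d ∉ roles a := fun hh => hdis d hh d hd rfl
        have h2 : c ∉ roles b := fun hh => hdis c hc c hh rfl
        have hm : meet R c d (.node u a b) = u := by simp [meet, h1, h2]
        rw [hm]
        congr 1
        funext x
        simp only [ev]
        rw [ev_one_role κ f c a u ha hc hna fun r hr hrc => h r (Or.inl hr) hrc
            fun e => h1 (e ▸ hr),
          ev_one_role κ f d b u hb hd hnb fun r hr hrd => h r (Or.inr hr) (fun e => h2 (e ▸ hr))
            hrd]
      · have h1 : c ∉ roles a := fun hh => hdis c hh c hc rfl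
        have h2 : d ∉ roles b := fun hh => hdis d hd d hh rfl
        have hm : meet R c d (.node u a b) = u := by simp [meet, h1, h2]
        rw [hm]
        congr 1
        funext x
        simp only [ev]
        rw [ev_one_role κ f d a u ha hd hna fun r hr hrd => h r (Or.inl hr)
            (fun e => h1 (e ▸ hr)) hrd,
          ev_one_role κ f c b u hb hc hnb fun r hr hrc => h r (Or.inr hr) hrc
            fun e => h2 (e ▸ hr), mul_comm]
      · have h1 : c ∉ roles a := fun hh => hdis c hh c hc rfl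
        have hm : meet R c d (.node u a b) = meet R c d b := by simp [meet, h1, hc, hd]
        rw [hm, ev_node_right κ f fun r hr => h r (Or.inl hr) (fun e => hdis r hr c hc e)
            fun e => hdis r hr d hd e,
          ev_two_roles hcd b u hb hc hd hnb fun r hr => h r (Or.inr hr), Ex_Ex κ hsu]

end evs

section signs
variable {R E : ℕ}

theorem sg_meas (c i : ℕ) : Meas (i + 1) fun y : Path R (Fin E → Bool) => sg y c i := by
  intro x y hxy
  unfold sg
  by_cases h : i < R ∧ c < E
  · simp only [dif_pos h]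
    rw [hxy ⟨i, h.1⟩ (Nat.lt_succ_self i)]
  · simp only [dif_neg h]

theorem sg_sq (y : Path R (Fin E → Bool)) (c i : ℕ) : sg y c i ^ 2 = 1 := by
  unfold sg
  split_ifs <;> norm_num

theorem sum_sign (c : Fin E) : ∑ ξ : Fin E → Bool, (if ξ c then (1 : ℝ) else -1) = 0 := by
  have h := Equiv.sum_comp (Equiv.piCongrRight fun _ : Fin E => Equiv.boolNot)
    (fun ξ : Fin E → Bool => (if ξ c then (1 : ℝ) else -1))
  have h2 : ∑ ξ : Fin E → Bool, (if ((Equiv.piCongrRight fun _ : Fin E => Equiv.boolNot) ξ) c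
      then (1 : ℝ) else -1) = -∑ ξ : Fin E → Bool, (if ξ c then (1 : ℝ) else -1) := by
    rw [← sum_neg_distrib]
    refine sum_congr rfl fun ξ _ => ?_
    cases h : ξ c <;> simp [h]
  linarith

theorem Ex_sg {c i : ℕ} (hi : i < R) (hc : c < E) (w : ℕ) (x : Path R (Fin E → Bool)) :
    Ex (Ker.unif R (Fin E → Bool)) w (fun y => sg y c i) x = if i < w then sg x c i else 0 := by
  split_ifs with h
  · rw [Ex_of_meas _ ((sg_meas c i).mono h)]
  · have h0 : Ex (Ker.unif R (Fin E → Bool)) i (fun y => sg y c i) = fun _ => 0 := by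
      funext x
      rw [Ex_succ _ hi, Ex_of_meas _ (sg_meas c i)]
      unfold step
      have : ∀ ξ : Fin E → Bool, sg (upd x i ξ) c i = if ξ ⟨c, hc⟩ then (1 : ℝ) else -1 := by
        intro ξ
        unfold sg
        rw [dif_pos ⟨hi, hc⟩]
        simp [upd]
      simp only [this, Ker.unif]
      rw [← mul_sum, sum_sign, mul_zero]
    rw [← Ex_Ex _ (not_lt.1 h), h0, Ex_const]

/-- average of the factor of one step -/
noncomputable def mu (R E : ℕ) (h : Stp) (T : Tr Lb) : ℝ :=
  E0 (Ker.unif R (Fin E → Bool)) (ev (Ker.unif R (Fin E → Bool)) (roleF fun c => fac h c.1) T)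

theorem mu_eq {h : Stp} (h1 : 1 ≤ h.lv) (h2 : h.lv < R) (hE : h.c < E) (hne : h.c ≠ h.par)
    {T : Tr Lb} (hT : T.Valid R 0) (hc : h.c ∈ roles T) (hp : h.par ∈ roles T)
    (hnd : (roles T).Nodup) :
    mu R E h T = 1 / 4 * if meet R h.c h.par T = h.lv then 1 else 0 := by
  unfold mu E0
  rw [ev_two_roles _ (fac h) hne T 0 hT hc hp hnd fun r _ hrc hrp => by
    funext y; simp [fac, hrc, hrp]]
  generalize meet R h.c h.par T = w
  have e1 : fac (R := R) (E := E) h h.c =
      fun y => 1 / 2 * (sg y h.c (h.lv - 1) + sg y h.c h.lv) := by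
    funext y; simp only [fac, if_true]; ring
  have e2 : fac (R := R) (E := E) h h.par =
      fun y => 1 / 2 * (sg y h.c (h.lv - 1) - sg y h.c h.lv) := by
    funext y; simp only [fac, if_neg hne.symm, if_true]; ring
  have : (fun x => Ex (Ker.unif R (Fin E → Bool)) w (fac h h.c) x *
      Ex (Ker.unif R (Fin E → Bool)) w (fac h h.par) x) =
      fun _ => 1 / 4 * if w = h.lv then 1 else 0 := by
    funext x
    rw [e1, e2, Ex_mul_left, Ex_mul_left, Ex_add, Ex_sub, Ex_sg (by omega) hE, Ex_sg h2 hE]
    have s1 := sg_sq x h.c (h.lv - 1)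
    have s2 := sg_sq x h.c h.lv
    by_cases a1 : h.lv - 1 < w <;> by_cases a2 : h.lv < w
    · rw [if_pos a1, if_pos a2, if_neg (by omega)]; nlinarith
    · rw [if_pos a1, if_neg a2, if_pos (by omega)]; nlinarith
    · omega
    · rw [if_neg a1, if_neg a2, if_neg (by omega)]; ring
  rw [this, Ex_const]

end signs

section filt
variable {m : ℕ → ℝ} {R : ℕ} {h : Stp}

theorem wsum_sopts_node (a0 : ℝ) (s u : ℕ) (a b : Tr Lb) (Ψ : Tr Lb → ℝ) :
    wsum (sopts m R h a0 s (.node u a b)) Ψ =
      -wsum (stem m R h.newL a0 s (.node u a b)) Ψ +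
        wsum (sopts m R h (if u = s then a0 else m u) u a) (fun a' => Ψ (.node u a' b)) +
        wsum (sopts m R h 0 u b) (fun b' => Ψ (.node u a b')) := by
  simp only [sopts, opts, asg, ins, wsum_append, wsum_wmap, wsum_wneg]
  ring

theorem stem_filter (hne : h.c ≠ h.par) {T : Tr Lb} (hc : h.c ∉ roles T) (a0 : ℝ) (s : ℕ)
    (Φ : Tr Lb → ℝ) :
    -wsum (stem m R h.newL a0 s T)
        (fun T' => (if meet R h.c h.par T' = h.lv then 1 else 0) * Φ T') =
      wsum (fstem m R h a0 s T) Φ := by
  rw [wsum_stem]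
  have hm : ∀ u, meet R h.c h.par (.node u T (.leaf h.newL)) = u := by
    intro u
    simp [meet, hc, roles, Stp.newL, hne.symm]
  simp only [hm, ite_mul, one_mul, zero_mul, mul_ite, mul_zero]
  rw [sum_ite_eq' (Finset.Ico s (T.lev R)) h.lv
    (fun u => (m (u + 1) - if u = s then a0 else m u) * Φ (.node u T (.leaf h.newL)))]
  unfold fstem
  simp only [mem_Ico]
  by_cases hl : s ≤ h.lv ∧ h.lv < T.lev R
  · rw [if_pos hl, if_pos hl, wsum_cons, wsum_nil]; ring
  · rw [if_neg hl, if_neg hl, wsum_nil, neg_zero]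

theorem sopts_filter (hne : h.c ≠ h.par) : ∀ (T : Tr Lb), h.c ∉ roles T → h.par ∈ roles T →
    (roles T).Nodup → ∀ (a0 : ℝ) (s : ℕ) (Φ : Tr Lb → ℝ),
    wsum (sopts m R h a0 s T) (fun T' => (if meet R h.c h.par T' = h.lv then 1 else 0) * Φ T') =
      wsum (fopts m R h a0 s T) Φ
  | .leaf (o, none), _, hp, _, _, _, _ => by simp [roles] at hp
  | .leaf (o, some r), hc, _, _, a0, s, Φ => by
      rw [fopts, ← stem_filter hne hc]
      simp [sopts, opts, asg, ins, Stp.asgF]
  | .node u a b, hc, hp, hnd, a0, s, Φ => by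
      rw [wsum_sopts_node, stem_filter hne hc, fopts, wsum_append, add_assoc]
      congr 1
      simp only [roles, List.nodup_append, List.mem_append, not_or] at hc hp hnd
      obtain ⟨hna, hnb, hdis⟩ := hnd
      by_cases hpa : h.par ∈ roles a
      · have hpb : h.par ∉ roles b := fun hh => hdis _ hpa _ hh rfl
        rw [if_pos hpa, wsum_append, wsum_wmap, ← sopts_filter hne a hc.1 hpa hna]
        congr 1
        · refine wsum_congr fun a' ha' => ?_
          have hr := sopts_roles ha'
          have : meet R h.c h.par (.node u a' b) = meet R h.c h.par a' := by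
            simp [meet, hr.mem_iff, hpa]
          rw [this]
        · have : ∀ b', wmem b' (sopts m R h 0 u b) → meet R h.c h.par (.node u a b') = u := by
            intro b' hb'
            have hr := sopts_roles hb'
            simp [meet, hr.mem_iff, hc.1, hpb, hne.symm]
          rw [wsum_congr fun b' hb' => by rw [this b' hb'], wsum_mul_left]
          split_ifs <;> simp
      · have hpb : h.par ∈ roles b := hp.resolve_left hpa
        rw [if_neg hpa, wsum_append, wsum_wmap, ← sopts_filter hne b hc.2 hpb hnb, add_comm]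
        congr 1
        · refine wsum_congr fun b' hb' => ?_
          have hr := sopts_roles hb'
          have : meet R h.c h.par (.node u a b') = meet R h.c h.par b' := by
            simp [meet, hr.mem_iff, hpb, hpa]
          rw [this]
        · have : ∀ a', wmem a' (sopts m R h (if u = s then a0 else m u) u a) →
              meet R h.c h.par (.node u a' b) = u := by
            intro a' ha'
            have hr := sopts_roles ha'
            simp [meet, hr.mem_iff, hc.2, hpa, hne.symm]
          rw [wsum_congr fun a' ha' => by rw [this a' ha'], wsum_mul_left]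
          by_cases hu : u = h.lv
          · rw [if_pos hu, if_pos hu]; simp
          · rw [if_neg hu, if_neg hu]; simp

end filt

end MarksAux

open MarksAux in
theorem mu_filter {R E : ℕ} (m : ℕ → ℝ) (h : Stp) (h1 : 1 ≤ h.lv) (h2 : h.lv < R) (hE : h.c < E)
    {T : Tr Lb} (hT : T.Valid R 0) (hc : h.c ∉ roles T) (hp : h.par ∈ roles T)
    (hnd : (roles T).Nodup) (Φ : Tr Lb → ℝ) :
    wsum (sopts m R h 0 0 T) (fun T' => E0 (Ker.unif R (Fin E → Bool))
        (ev (Ker.unif R (Fin E → Bool)) (roleF fun c => fac h c.1) T') * Φ T') =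
      1 / 4 * wsum (fopts m R h 0 0 T) Φ := by
  have hne : h.c ≠ h.par := fun e => hc (e ▸ hp)
  rw [← sopts_filter hne T hc hp hnd, ← wsum_mul_left]
  refine wsum_congr fun T' hT' => ?_
  have hr := sopts_roles hT'
  have := mu_eq (E := E) h1 h2 hE hne (opts_mem hT hT').1 (by simp [hr.mem_iff])
    (by simp [hr.mem_iff, hp]) (hr.nodup_iff.2 (List.nodup_cons.2 ⟨hc, hnd⟩))
  unfold mu at this
  rw [this, mul_assoc]

namespace MarksAux

section mult
variable (R E : ℕ)

/-- average of the marks of a list of steps -/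
noncomputable def MM (hs : List Stp) (T : Tr Lb) : ℝ :=
  E0 (Ker.unif R (Fin E → Bool)) (ev (Ker.unif R (Fin E → Bool)) (roleF fun c => mark hs c.1) T)

/-- the part of the marks that depends on the label `l` -/
noncomputable def gl (hs : List Stp) (l : Fin E) (r : ℕ) (z : Path R Bool) : ℝ :=
  (hs.map fun h => if h.c = l.val then fac (E := E) h r (fun i _ => z i) else 1).prod

noncomputable def NN (hs : List Stp) (l : Fin E) (T : Tr Lb) : ℝ :=
  E0 (Ker.unif R Bool) (ev (Ker.unif R Bool) (roleF fun c => gl R E hs l c.1) T)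

variable {R E}

theorem fac_comp {h : Stp} (hE : h.c < E) (r : ℕ) (y : Path R (Fin E → Bool)) :
    fac (E := E) h r (fun i _ => comp y ⟨h.c, hE⟩ i) = fac h r y := by
  have : ∀ i, sg (E := E) (fun i _ => comp y ⟨h.c, hE⟩ i) h.c i = sg y h.c i := by
    intro i
    unfold sg
    split_ifs <;> simp_all [comp]
  simp only [fac, this]

theorem mark_eq (r : ℕ) (y : Path R (Fin E → Bool)) : ∀ (hs : List Stp), (∀ h ∈ hs, h.c < E) →
    mark hs r y = ∏ l, gl R E hs l r (comp y l)
  | [], _ => by simp [mark, gl]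
  | h :: hs, hE => by
      have ih := mark_eq r y hs fun h' hh => hE h' (List.mem_cons_of_mem _ hh)
      have hc : h.c < E := hE h List.mem_cons_self
      unfold mark gl at *
      simp only [List.map_cons, List.prod_cons, prod_mul_distrib]
      rw [ih]
      congr 1
      rw [prod_eq_single (⟨h.c, hc⟩ : Fin E)]
      · rw [if_pos rfl, fac_comp hc]
      · intro l _ hl
        rw [if_neg fun e => hl (Fin.ext e.symm)]
      · simp

theorem MM_eq {hs : List Stp} (hE : ∀ h ∈ hs, h.c < E) (T : Tr Lb) :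
    MM R E hs T = ∏ l, NN R E hs l T := by
  unfold MM NN
  have e : (roleF fun c => mark (R := R) (E := E) hs c.1) =
      fun a y => ∏ l, (roleF fun c => gl R E hs l c.1) a (comp y l) := by
    funext a y
    obtain ⟨o, _ | r⟩ := a
    · simp [roleF]
    · simp [roleF, mark_eq _ _ hs hE]
  rw [e, unif_pi]
  have e2 : ev (Ker.pi fun _ : Fin E => Ker.unif R Bool)
      (fun a y => ∏ l, (roleF fun c => gl R E hs l c.1) a (comp y l)) T =
      fun y => ∏ l, ev (Ker.unif R Bool) (roleF fun c => gl R E hs l c.1) T (comp y l) := by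
    funext y
    exact ev_pi_prod (fun _ : Fin E => Ker.unif R Bool)
      (fun l => roleF fun c => gl R E hs l c.1) T y
  rw [e2]
  unfold E0
  rw [Ex_pi_prod (fun _ : Fin E => Ker.unif R Bool) 0
    (fun l => ev (Ker.unif R Bool) (roleF fun c => gl R E hs l c.1) T)]
  exact prod_congr rfl fun l _ => Ex_zero _ _ _

theorem NN_one {hs : List Stp} {l : Fin E} (hl : l.val ∉ hs.map Stp.c) (T : Tr Lb) :
    NN R E hs l T = 1 := by
  unfold NN
  rw [ev_all_one _ (gl R E hs l) T fun r _ => ?_]
  · exact Ex_const _ _ _ _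
  · funext z
    unfold gl
    refine List.prod_eq_one fun x hx => ?_
    obtain ⟨h, hh, rfl⟩ := List.mem_map.1 hx
    rw [if_neg fun e => hl (List.mem_map.2 ⟨h, hh, e⟩)]

theorem MM_cons {h : Stp} {hs : List Stp} (hE : ∀ h' ∈ h :: hs, h'.c < E)
    (hc : h.c ∉ hs.map Stp.c) (T : Tr Lb) : MM R E (h :: hs) T = mu R E h T * MM R E hs T := by
  have e1 : mu R E h T = MM R E [h] T := by
    unfold mu MM mark
    simp
  rw [e1, MM_eq hE, MM_eq (hs := [h]) (by simpa using hE h List.mem_cons_self),
    MM_eq fun h' hh => hE h' (List.mem_cons_of_mem _ hh), ← prod_mul_distrib]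
  refine prod_congr rfl fun l _ => ?_
  by_cases hl : h.c = l.val
  · rw [NN_one (hs := hs) (hl ▸ hc), mul_one]
    unfold NN
    congr 3
    funext c z
    have : (hs.map fun h => if h.c = l.val then fac (E := E) h c.1 (fun i _ => z i) else 1).prod
        = 1 := by
      refine List.prod_eq_one fun x hx => ?_
      obtain ⟨h', hh, rfl⟩ := List.mem_map.1 hx
      rw [if_neg fun e => hc (List.mem_map.2 ⟨h', hh, e.trans hl.symm⟩)]
    simp [gl, this]
  · rw [NN_one (hs := [h]) (by simpa using fun e => hl e.symm), one_mul]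
    unfold NN
    congr 3
    funext c z
    simp [gl, hl]

theorem MM_nil (T : Tr Lb) : MM R E [] T = 1 := by
  unfold MM
  rw [ev_all_one _ (mark []) T fun r _ => by funext y; simp [mark]]
  exact Ex_const _ _ _ _

variable {m : ℕ → ℝ}

theorem mu_sopts {h h' : Stp} (h1 : h'.c ≠ h.c) (h2 : h'.c ≠ h.par) {T T' : Tr Lb}
    (hT : wmem T' (sopts m R h' 0 0 T)) : mu R E h T' = mu R E h T := by
  unfold mu E0
  rw [opts_ev (Ker.unif R (Fin E → Bool)) (φ := roleF fun c => fac h c.1) ?_ ?_ hT]
  · intro y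
    simp [roleF, Stp.newL, fac, h1, h2]
  · rintro ⟨o, _ | r⟩ a' ha
    · simp only [Stp.asgF, Option.some.injEq] at ha
      subst ha
      funext y
      simp [roleF, fac, h1, h2]
    · simp [Stp.asgF] at ha

theorem mu_useq {h : Stp} : ∀ (l : List Stp), (∀ h' ∈ l, h'.c ≠ h.c ∧ h'.c ≠ h.par) →
    ∀ {T T' : Tr Lb}, wmem T' (useq m R 0 0 l T) → mu R E h T' = mu R E h T
  | [], _, T, T', hT => by
      have : T' = T := by simpa [useq] using hT
      rw [this]
  | h' :: l, hl, T, T', hT => by
      rw [useq, wmem_wbind] at hT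
      obtain ⟨T1, hT1, hT2⟩ := hT
      rw [mu_useq l (fun h'' hh => hl h'' (List.mem_cons_of_mem _ hh)) hT2,
        mu_sopts (hl h' List.mem_cons_self).1 (hl h' List.mem_cons_self).2 hT1]

theorem useq_filter (A : Tr Lb → ℝ) : ∀ (l : List Stp) (T : Tr Lb), T.Valid R 0 → WF (roles T) l →
    (l.map Stp.c ++ roles T).Nodup → (∀ h ∈ l, 1 ≤ h.lv ∧ h.lv < R ∧ h.c < E) →
    wsum (useq m R 0 0 l T) (fun T' => A T' * MM R E l T') =
      (1 / 4) ^ l.length * wsum (fseq m R 0 0 l T) A
  | [], T, _, _, _, _ => by simp [useq, fseq, MM_nil]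
  | h :: l, T, hT, hwf, hnd, hl => by
      obtain ⟨hp, hwf⟩ := hwf
      obtain ⟨h1, h2, hE⟩ := hl h List.mem_cons_self
      have hnd' := hnd
      rw [List.map_cons, List.cons_append, List.nodup_cons, List.mem_append, not_or,
        List.nodup_append] at hnd'
      obtain ⟨⟨hc1, hc2⟩, -, hnT, hdis⟩ := hnd'
      rw [useq, fseq, wsum_wbind, wsum_wbind]
      have key : ∀ T', wmem T' (sopts m R h 0 0 T) →
          wsum (useq m R 0 0 l T') (fun T'' => A T'' * MM R E (h :: l) T'') =
            mu R E h T' * ((1 / 4) ^ l.length * wsum (fseq m R 0 0 l T') A) := by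
        intro T' hT'
        have hr := sopts_roles hT'
        rw [← useq_filter A l T' (opts_mem hT hT').1 (hwf.mono hr.symm.subset) ?_
          fun h' hh => hl h' (List.mem_cons_of_mem _ hh), ← wsum_mul_left]
        · refine wsum_congr fun T'' hT'' => ?_
          rw [MM_cons (fun h' hh => (hl h' hh).2.2) hc1, mu_useq l ?_ hT'']
          · ring
          · intro h' hh
            refine ⟨fun e => hc1 (List.mem_map.2 ⟨h', hh, e⟩), fun e => ?_⟩
            exact hdis _ (List.mem_map.2 ⟨h', hh, rfl⟩) _ hp e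
        · refine (List.Perm.nodup_iff ?_).2 hnd
          refine (hr.append_left _).trans ?_
          rw [List.map_cons]
          exact List.perm_middle
      rw [wsum_congr key]
      have := mu_filter m h h1 h2 hE hT hc2 hp hnT
        fun T' => (1 / 4) ^ l.length * wsum (fseq m R 0 0 l T') A
      unfold mu
      rw [this, wsum_mul_left, List.length_cons]
      ring

end mult

theorem wsum_expect {α ι : Type} [Fintype ι] (l : WL α) (Φ : ι → α → ℝ) :
    wsum l (fun a => 𝔼 i, Φ i a) = 𝔼 i, wsum l (Φ i) := by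
  simp only [Finset.expect_eq_sum_div_card, div_eq_mul_inv, wsum_mul_right, wsum_finset_sum]

section site
variable {R : ℕ} [NeZero R] {Ξ V : Type} [Fintype Ξ] [Nonempty Ξ] [Fintype V] [Nonempty V]
  (E : ℕ) (κ : Ker R Ξ) (σ : Path R Ξ → V → Bool) (m : ℕ → ℝ)

/-- leaf values without the marks -/
noncomputable def alf (u : V) (l : Lb) (y : Path R (Ξ × V)) : ℝ :=
  oldF (spinF σ u) l (pmap Prod.fst y) *
    roleF (fun c y => ind (σ (pmap Prod.fst y) (y 0).2) c.2) l y

noncomputable def AA (u : V) (T : Tr Lb) : ℝ :=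
  E0 (κ.prod (Ker.unif R V)) (ev (κ.prod (Ker.unif R V)) (alf σ u) T)

theorem psi_eq (P : Tr Bool) (u : V) {T : Tr Lb} (hT : T.Valid R 0) :
    Psi E κ σ m P (fun _ => 0) u T = AA κ σ u T * MM R E (hist P 0 1) T := by
  have hW : ∀ y, xW E σ P (fun _ => 0) y = 1 := by
    intro y
    simp [xW, termW]
  have hk : xker E κ σ m P (fun _ => 0) =
      κ.prod ((Ker.unif R V).prod (Ker.unif R (Fin E → Bool))) := by
    unfold xker
    simp only [hW, Real.log_one]
    rw [tilt_zero, unif_prod]
  have hs := sim_assoc κ (Ker.unif R V) (Ker.unif R (Fin E → Bool)) 0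
  have hl : xlf E σ P (fun _ => 0) u = fun l y =>
      (fun l (y : Path R ((Ξ × V) × (Fin E → Bool))) => alf σ u l (pmap Prod.fst y) *
        roleF (fun c => mark (hist P 0 1) c.1) l (pmap Prod.snd y)) l
        (pmap (fun a => ((a.1, a.2.1), a.2.2)) y) := by
    funext l y
    obtain ⟨o, _ | r⟩ := l
    · simp only [xlf, alf, roleF, oldF, Option.elim, mul_one]
      rfl
    · simp only [xlf, alf, roleF, oldF, Option.elim, hW, div_one, gv]
      rw [mul_assoc, mul_comm (mark _ _ _)]
      rfl
  unfold Psi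
  rw [hk, hl]
  have e1 := funext (hs.ev (fun l (y : Path R ((Ξ × V) × (Fin E → Bool))) =>
    alf σ u l (pmap Prod.fst y) * roleF (fun c => mark (hist P 0 1) c.1) l (pmap Prod.snd y)) hT)
  rw [e1, hs.E0, funext (ev_prod_mul _ _ (alf σ u) (roleF fun c => mark (hist P 0 1) c.1) T)]
  unfold E0
  rw [Ex_prod_mul, Ex_zero, Ex_zero]
  rfl

theorem AA_eq (u : V) {T : Tr Lb} (hT : T.Valid R 1) :
    AA κ σ u T = 𝔼 w, E0 κ (ev κ (lfv σ u w) T) := by
  have hR : 0 < R := Nat.pos_of_ne_zero (NeZero.ne R)
  unfold AA E0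
  rw [Ex_succ _ hR]
  unfold step
  have key : ∀ ξ : Ξ × V, Ex (κ.prod (Ker.unif R V)) (0 + 1)
      (ev (κ.prod (Ker.unif R V)) (alf σ u) T) (upd (pt R (Ξ × V)) 0 ξ) =
      Ex κ (0 + 1) (ev κ (lfv σ u ξ.2) T) (upd (pmap Prod.fst (pt R (Ξ × V))) 0 ξ.1) := by
    intro ξ
    rw [← pmap_upd, ← (sim_fst κ (Ker.unif R V) 1).Ex le_rfl]
    refine Ex_congr_agree _ _ fun y hy => ?_
    rw [← (sim_fst κ (Ker.unif R V) 1).ev _ hT]
    refine ev_congr_agree _ hT fun l y' hy' => ?_
    have h0 : (y' 0).2 = ξ.2 := by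
      rw [hy' 0 (by simp), hy 0 (by simp)]
      simp [upd]
    obtain ⟨o, _ | r⟩ := l
    · simp [alf, lfv, roleF]
    · simp [alf, lfv, roleF, h0, spinF]
  simp only [key]
  rw [Fintype.sum_prod_type, sum_comm, Finset.expect_eq_sum_div_card, div_eq_mul_inv, sum_mul]
  refine sum_congr rfl fun w _ => ?_
  rw [Ex_zero, ← Ex_zero κ _ (pmap Prod.fst (pt R (Ξ × V))), Ex_succ _ hR]
  unfold step
  rw [sum_mul]
  refine sum_congr rfl fun ξ _ => ?_
  simp only [Ker.prod, Ker.unif, card_univ]
  ring

end site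

end MarksAux

open MarksAux in
theorem psi_zero {R : ℕ} [NeZero R] {Ξ V : Type} [Fintype Ξ] [Nonempty Ξ] [Fintype V]
    [Nonempty V] (E : ℕ) (κ : Ker R Ξ) (σ : Path R Ξ → V → Bool) (m : ℕ → ℝ) {P : Tr Bool}
    (hP : P.Valid R 1) (hE : P.size ≤ E) {T : Tr Lb} (hT : T.Valid R 1) (hr : roles T = [0]) :
    𝔼 u, wsum (useq m R 0 0 (hist P 0 1) T) (Psi E κ σ m P (fun _ => 0) u) =
      (1 / 4) ^ (P.size - 1) * wsum (fseq m R 0 0 (hist P 0 1) T) (val κ σ) := by
  have hT0 : T.Valid R 0 := hT.mono (Nat.zero_le 1)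
  have hlv : ∀ h ∈ hist P 0 1, 1 ≤ h.lv ∧ h.lv < R := fun h hh =>
    valid_levels hP _ (hist_lv P 0 1 ▸ List.mem_map.2 ⟨h, hh, rfl⟩)
  have hc : ∀ h ∈ hist P 0 1, h.c < E := by
    intro h hh
    have : h.c ∈ List.range' 1 (P.size - 1) := hist_c P 0 1 ▸ List.mem_map.2 ⟨h, hh, rfl⟩
    rw [List.mem_range'_1] at this
    have := P.size_pos
    omega
  have hnd : ((hist P 0 1).map Stp.c ++ roles T).Nodup := by
    rw [hist_c, hr, List.nodup_append]
    refine ⟨List.nodup_range', by simp, fun a ha b hb => ?_⟩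
    rw [List.mem_range'_1] at ha
    have : b = 0 := by simpa using hb
    omega
  have key : ∀ u, wsum (useq m R 0 0 (hist P 0 1) T) (Psi E κ σ m P (fun _ => 0) u) =
      (1 / 4) ^ (P.size - 1) * wsum (fseq m R 0 0 (hist P 0 1) T)
        fun T' => 𝔼 w, E0 κ (ev κ (lfv σ u w) T') := by
    intro u
    rw [wsum_congr fun T' hT' => psi_eq E κ σ m P u (useq_mem hT0 hT').1,
      useq_filter (AA κ σ u) _ T hT0 (hr ▸ hist_wf P 0 1) hnd
        fun h hh => ⟨(hlv h hh).1, (hlv h hh).2, hc h hh⟩, hist_length]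
    congr 1
    exact wsum_congr fun T' hT' => AA_eq κ σ u (fseq_valid hT' (fun h hh => (hlv h hh).1) hT)
  simp only [key]
  rw [← Finset.mul_expect, ← wsum_expect]
  rfl

end Crest.Agent.R141
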