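import Crest.Agent.R141.OneTerm
import Crest.Agent.R141.Marks
import Crest.Agent.R141.Conc
import Crest.Agent.R141.HS

/-! The perturbation enforces the identities for most parameters (task R141 PertMain). -/

set_option autoImplicit false

namespace Crest.Agent.R141

open Finset
open scoped BigOperators

theorem exists_finset_trees (R d : ℕ) : ∃ 𝒯 : Finset (Tr Bool),
    ∀ T : Tr Bool, T ∈ 𝒯 ↔ T.depth ≤ d ∧ T.Valid R 1 := by
  have key : ∀ d : ℕ, Set.Finite {T : Tr Bool | T.depth ≤ d ∧ T.Valid R 0} := by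
    intro d
    induction d with
    | zero =>
      refine (Set.finite_range Tr.leaf).subset ?_
      rintro (a | ⟨u, a, b⟩) ⟨h, -⟩
      · exact ⟨a, rfl⟩
      · simp [Tr.depth] at h
    | succ d ih =>
      refine ((Set.finite_range Tr.leaf).union
        ((((Set.finite_Iio R).prod (ih.prod ih))).image
          fun p => Tr.node p.1 p.2.1 p.2.2)).subset ?_
      rintro (a | ⟨u, a, b⟩) ⟨h, hv⟩
      · exact Or.inl ⟨a, rfl⟩
      · simp only [Tr.depth] at h
        refine Or.inr ⟨(u, a, b), ⟨hv.2.1, ⟨?_, hv.2.2.1.mono (Nat.zero_le _)⟩,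
          ⟨?_, hv.2.2.2.mono (Nat.zero_le _)⟩⟩, rfl⟩
        · show a.depth ≤ d
          omega
        · show b.depth ≤ d
          omega
  have hf : Set.Finite {T : Tr Bool | T.depth ≤ d ∧ T.Valid R 1} :=
    (key d).subset fun T hT => ⟨hT.1, hT.2.mono (Nat.zero_le _)⟩
  exact ⟨hf.toFinset, fun T => by simp⟩

/-- the value of `rootT b O` is linear in the observable of the root role, and dominated by it.
Induction on `O` for all `s` (`abs_Ex_le`, `Ex_Ex`; on `oldT c` the role factor is `1`). -/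
theorem root_le {R : ℕ} {Ξ : Type} [Fintype Ξ] (κ : Ker R Ξ) {φ : Bool → Path R Ξ → ℝ}
    (hφ : ∀ b y, |φ b y| ≤ 1) (b : Bool) {O : Tr Bool} {s : ℕ} (hO : O.Valid R s) {ι : Type}
    (S : Finset ι) (ψ : ι → ℕ × Bool → Path R Ξ → ℝ) (c : ℝ) (x : Path R Ξ) :
    |∑ i ∈ S, Ex κ s (ev κ (fun l y => oldF φ l y * roleF (ψ i) l y) (rootT b O)) x -
        c * Ex κ s (ev κ φ O) x| ≤ Ex κ s (fun y => |∑ i ∈ S, ψ i (0, b) y - c|) x := by
  induction O generalizing s x with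
  | leaf o =>
    rw [← Ex_sum, ← Ex_mul_left, ← Ex_sub]
    refine (abs_Ex_le κ s _ x).trans (Ex_mono κ s (fun y => ?_) x)
    have : ∑ i ∈ S, ev κ (fun l y => oldF φ l y * roleF (ψ i) l y) (rootT b (.leaf o)) y -
        c * ev κ φ (.leaf o) y = φ o y * (∑ i ∈ S, ψ i (0, b) y - c) := by
      simp only [rootT, ev, oldF, roleF, Option.elim, mul_sub, mul_sum]
      ring
    rw [this, abs_mul]
    exact mul_le_of_le_one_left (abs_nonneg _) (hφ _ _)
  | node u a a' iha _ =>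
    rw [← Ex_sum, ← Ex_mul_left, ← Ex_sub, ← Ex_Ex κ hO.1 (fun y => |∑ i ∈ S, ψ i (0, b) y - c|)]
    refine (abs_Ex_le κ s _ x).trans (Ex_mono κ s (fun y => ?_) x)
    have h1 : ∀ i, ev κ (fun l y => oldF φ l y * roleF (ψ i) l y) (oldT a') = ev κ φ a' := by
      intro i
      rw [oldT, ev_map]
      congr 1
      funext o y
      simp [oldF, roleF]
    have : ∑ i ∈ S, ev κ (fun l y => oldF φ l y * roleF (ψ i) l y) (rootT b (.node u a a')) y -
        c * ev κ φ (.node u a a') y =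
        (∑ i ∈ S, Ex κ u (ev κ (fun l y => oldF φ l y * roleF (ψ i) l y) (rootT b a)) y -
          c * Ex κ u (ev κ φ a) y) * Ex κ u (ev κ φ a') y := by
      simp only [rootT, ev, h1, sub_mul, sum_mul]
      ring
    rw [this, abs_mul]
    exact (mul_le_of_le_one_right (abs_nonneg _)
      (abs_Ex_le_of κ u (fun z => abs_ev_le_one κ hφ a' z) y)).trans (iha hO.2.2.1 y)

theorem expect_update {X J : Type} [Fintype X] [Nonempty X] [Fintype J] [DecidableEq J] (j : J)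
    (F : (J → X) → ℝ) : 𝔼 θ, 𝔼 t, F (Function.update θ j t) = 𝔼 θ, F θ := by
  rw [← PV.unif_pi_E F, PV.E_pi_update _ j, PV.unif_pi_E]
  simp only [PV.unif_E]

theorem expect_prod {A B : Type} [Fintype A] [Fintype B] (F : A × B → ℝ) :
    𝔼 p, F p = 𝔼 a, 𝔼 b, F (a, b) := by
  rw [← Finset.univ_product_univ, Finset.expect_product]

/-- The term `j` of the perturbed system is a term attached to the system without it.  The map
`f : Al × (V × Mk) → Al`, `(ξ, t) ↦ (ξ.1, update ξ.2 j t)` preserves the uniform law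
(`sim_unif_pmap`, `unif_prod`), `G ∘ pmap f = G⁻ ∘ fst + log xW` with `G⁻ = H ∘ spin + Σ_{i ≠ j}`;
`Sim.tilt`, `tilt_tilt`, `tilt_prod_fst`, `Sim.ev`, `Sim.E0`. -/
theorem term_eq_psi (R : ℕ) [NeZero R] (P : Pert) (V : Type) [Fintype V] [DecidableEq V]
    [Nonempty V] (a : P.Λ) (H : (V → Bool) → ℝ) (j : P.J) (u : V) {T : Tr Lb} (hT : T.Valid R 0) :
    E0 (P.ker R V a H) (ev (P.ker R V a H) (fun l y => oldF (spinF spin u) l y *
        roleF (fun c y => gv (hist (P.ty j) 0 1) c (spin y (siteOf y j)) (marksOf y j) /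
          termW (P.ty j) (coef (P.lam a j) P.eps) (spin y (siteOf y j)) (marksOf y j)) l y) T) =
      Psi P.E (tilt (Ker.unif R (Al V P.J P.E)) (grid R) fun y => H (spin y) +
          ∑ i ∈ univ.erase j, Real.log (termW (P.ty i) (coef (P.lam a i) P.eps)
            (spin y (siteOf y i)) (marksOf y i)))
        spin (grid R) (P.ty j) (coef (P.lam a j) P.eps) u T := by
  have hm : Adm (grid R) R 0 := adm_grid (Nat.pos_of_ne_zero (NeZero.ne R))
  let f : Al V P.J P.E × (V × (Fin P.E → Bool)) → Al V P.J P.E :=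
    fun p => (p.1.1, Function.update p.1.2 j p.2)
  have hf : ∀ g : Al V P.J P.E → ℝ, 𝔼 p, g (f p) = 𝔼 b, g b := by
    intro g
    rw [expect_prod, expect_prod, expect_prod g]
    refine Finset.expect_congr rfl fun σ _ => ?_
    exact expect_update j fun θ => g (σ, θ)
  have hsim := (sim_unif_pmap (R := R) f hf 0).tilt (m := grid R) (P.G R V a H)
  have hsite : ∀ y : Path R (Al V P.J P.E × (V × (Fin P.E → Bool))),
      siteOf (pmap f y) j = (y 0).2.1 := fun y => by simp [siteOf, pmap, f]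
  have hmark : ∀ y : Path R (Al V P.J P.E × (V × (Fin P.E → Bool))),
      marksOf (pmap f y) j = xm P.E y := fun y => by
    funext i; simp [marksOf, pmap, f, xm]
  have hsite' : ∀ y : Path R (Al V P.J P.E × (V × (Fin P.E → Bool))), ∀ i ≠ j,
      siteOf (pmap f y) i = siteOf (pmap Prod.fst y) i := fun y i hi => by
    simp [siteOf, pmap, f, Function.update_of_ne hi]
  have hmark' : ∀ y : Path R (Al V P.J P.E × (V × (Fin P.E → Bool))), ∀ i ≠ j,
      marksOf (pmap f y) i = marksOf (pmap Prod.fst y) i := fun y i hi => by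
    funext l; simp [marksOf, pmap, f, Function.update_of_ne hi]
  have hspin : ∀ y : Path R (Al V P.J P.E × (V × (Fin P.E → Bool))),
      spin (pmap f y) = spin (pmap Prod.fst y) := fun y => rfl
  set G' : Path R (Al V P.J P.E) → ℝ := fun y => H (spin y) +
          ∑ i ∈ univ.erase j, Real.log (termW (P.ty i) (coef (P.lam a i) P.eps)
            (spin y (siteOf y i)) (marksOf y i)) with hG'
  have hker : tilt (Ker.unif R (Al V P.J P.E × (V × (Fin P.E → Bool)))) (grid R)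
      (fun y => P.G R V a H (pmap f y)) =
      xker P.E (tilt (Ker.unif R (Al V P.J P.E)) (grid R) G') spin (grid R) (P.ty j)
        (coef (P.lam a j) P.eps) := by
    rw [xker, ← tilt_prod_fst, tilt_tilt _ hm, unif_prod]
    congr 1
    funext y
    rw [Pert.G, pertG, ← Finset.add_sum_erase _ _ (mem_univ j), hG']
    simp only [xW, xs]
    rw [hsite, hmark, hspin, Finset.sum_congr rfl fun i hi => by
      rw [hsite' y i (ne_of_mem_erase hi), hmark' y i (ne_of_mem_erase hi)]]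
    ring
  rw [hker] at hsim
  rw [Psi, Pert.ker, ← hsim.E0]
  congr 1
  funext y
  rw [← hsim.ev _ hT y]
  congr 1
  funext l z
  simp only [xlf, xW, xs]
  obtain ⟨o, r⟩ := l
  cases o <;> cases r <;> simp [oldF, roleF, hsite, hmark, hspin, spinF]

/-- the system without the term `j` -/
noncomputable def Pert.kerj (R : ℕ) [NeZero R] (P : Pert) (V : Type) [Fintype V] [DecidableEq V]
    [Nonempty V] (a : P.Λ) (H : (V → Bool) → ℝ) (j : P.J) : Ker R (Al V P.J P.E) :=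
  tilt (Ker.unif R (Al V P.J P.E)) (grid R) fun y => H (spin y) +
    ∑ i ∈ univ.erase j, Real.log (termW (P.ty i) (coef (P.lam a i) P.eps)
      (spin y (siteOf y i)) (marksOf y i))

/-- the observable of the role `c` of the term `j` -/
noncomputable def Pert.rl (R : ℕ) [NeZero R] (P : Pert) (V : Type) (a : P.Λ) (j : P.J)
    (c : ℕ × Bool) (y : Path R (Al V P.J P.E)) : ℝ :=
  gv (hist (P.ty j) 0 1) c (spin y (siteOf y j)) (marksOf y j) /
    termW (P.ty j) (coef (P.lam a j) P.eps) (spin y (siteOf y j)) (marksOf y j)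

theorem abs_expect_sub_le {V : Type} [Fintype V] [Nonempty V] {f g : V → ℝ} {B : ℝ}
    (h : ∀ u, |f u - g u| ≤ B) : |𝔼 u, f u - 𝔼 u, g u| ≤ B := by
  rw [← PV.unif_E, ← PV.unif_E]
  exact PV.abs_E_sub_le _ h

theorem abs_expect_le_of {V : Type} [Fintype V] [Nonempty V] {f : V → ℝ} {B : ℝ}
    (h : ∀ u, |f u| ≤ B) : |𝔼 u, f u| ≤ B := by
  rw [← PV.unif_E]
  exact PV.abs_E_le_of _ h

theorem val_close {R : ℕ} {Ξ V : Type} [Fintype Ξ] [Nonempty Ξ] [Fintype V] [Nonempty V]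
    (κ : Ker R Ξ) {m : ℕ → ℝ} (hm : Adm m R 0) (σ : Path R Ξ → V → Bool) {G : Path R Ξ → ℝ}
    {δ : ℝ} (hδ0 : 0 ≤ δ) (hδ : δ ≤ 1) (hG : ∀ y, |G y| ≤ δ) {T : Tr Lb} (hT : T.Valid R 0) :
    |val (tilt κ m G) σ T - val κ σ T| ≤ 30 * T.size * R * δ := by
  refine abs_expect_sub_le fun u => abs_expect_sub_le fun w => ?_
  have := ev_close (tilt κ m G) κ (s₀ := 0) (δ := 15 * δ) (δ' := 0) (B := 1) (by positivity) le_rfl
    (fun s h1 h2 x => tilt_close κ hm hδ hG h1 h2 x) (abs_lfv_le σ u w) (abs_lfv_le σ u w)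
    (fun a y => by simp) le_rfl hT (pt R Ξ)
  refine this.trans (le_of_eq ?_)
  ring

theorem vfseq_close {R d : ℕ} {Ξ V : Type} [Fintype Ξ] [Nonempty Ξ] [Fintype V] [Nonempty V]
    (κ : Ker R Ξ) {m : ℕ → ℝ} (hm : Adm m R 0) (σ : Path R Ξ → V → Bool) {G : Path R Ξ → ℝ}
    {δ : ℝ} (hδ0 : 0 ≤ δ) (hδ : δ ≤ 1) (hG : ∀ y, |G y| ≤ δ) {Q : Tr Bool} (hQ : Q.size ≤ 2 ^ d)
    {T : Tr Lb} (hT : T.Valid R 0) (hT' : T.size ≤ 2 ^ d) :
    |wsum (fseq m R 0 0 (hist Q 0 1) T) (val (tilt κ m G) σ) -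
      wsum (fseq m R 0 0 (hist Q 0 1) T) (val κ σ)| ≤
      (4 * 2 ^ d : ℝ) ^ (2 ^ d) * (60 * 2 ^ d * R) * δ := by
  rw [← wsum_sub]
  have hl : (hist Q 0 1).length ≤ 2 ^ d := by rw [hist_length]; omega
  have hlR : ((hist Q 0 1).length : ℝ) ≤ 2 ^ d := by exact_mod_cast hl
  have hTR : (T.size : ℝ) ≤ 2 ^ d := by exact_mod_cast hT'
  have h1 : (1 : ℝ) ≤ 2 ^ d := one_le_pow₀ (by norm_num)
  refine (abs_wsum_le (B := 60 * 2 ^ d * R * δ) fun T' hT'' => ?_).trans ?_
  · obtain ⟨hv, hs⟩ := useq_mem hT (fseq_mem hT'')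
    refine (val_close κ hm σ hδ0 hδ hG hv).trans ?_
    have : (T'.size : ℝ) ≤ 2 * 2 ^ d := by
      have : (T'.size : ℝ) ≤ T.size + (hist Q 0 1).length := by exact_mod_cast hs
      linarith
    have h2 : (0 : ℝ) ≤ R * δ := by positivity
    nlinarith
  · rw [mul_assoc ((4 * 2 ^ d : ℝ) ^ (2 ^ d))]
    refine mul_le_mul_of_nonneg_right ((wabs_fseq_le hm _ hT).trans ?_) (by positivity)
    exact (pow_le_pow_left₀ (by positivity) (by linarith) _).trans
      (pow_le_pow_right₀ (by linarith) hl)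

theorem Pert.ker_eq_tilt (R : ℕ) [NeZero R] (P : Pert) (V : Type) [Fintype V] [DecidableEq V]
    [Nonempty V] (a : P.Λ) (H : (V → Bool) → ℝ) (j : P.J) :
    P.ker R V a H = tilt (P.kerj R V a H j) (grid R) fun y =>
      Real.log (termW (P.ty j) (coef (P.lam a j) P.eps) (spin y (siteOf y j)) (marksOf y j)) := by
  have hm : Adm (grid R) R 0 := adm_grid (Nat.pos_of_ne_zero (NeZero.ne R))
  rw [Pert.kerj, tilt_tilt _ hm, Pert.ker]
  congr 1
  funext y
  rw [Pert.G, pertG, ← Finset.add_sum_erase _ _ (mem_univ j)]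
  ring

/-- one term: the average of `Psi` is `(ε/4)^k` times the weighted value -/
theorem one_term (R d : ℕ) [NeZero R] : ∃ C C' : ℝ, 0 ≤ C ∧ 0 ≤ C' ∧ ∀ (P : Pert) (V : Type)
    [Fintype V] [DecidableEq V] [Nonempty V] (a : P.Λ) (H : (V → Bool) → ℝ) (j : P.J) (l₀ : ℝ)
    (T : Tr Lb), P.E = 2 ^ d → 0 < P.eps → |P.lam a j| ≤ l₀ → l₀ + 2 * P.eps * 2 ^ d ≤ 1 / 2 →
    (P.ty j).depth ≤ d → (P.ty j).Valid R 1 → T.size ≤ 2 ^ d → T.Valid R 1 →
    roleL T = [(0, (P.ty j).first)] →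
    |𝔼 u, E0 (P.ker R V a H) (ev (P.ker R V a H)
        (fun l y => oldF (spinF spin u) l y * roleF (P.rl R V a j) l y) T) -
      (P.eps / 4) ^ ((P.ty j).size - 1) *
        wsum (fseq (grid R) R 0 0 (hist (P.ty j) 0 1) T) (val (P.ker R V a H) spin)| ≤
      C * (l₀ + P.eps ^ (P.ty j).size) +
        (P.eps / 4) ^ ((P.ty j).size - 1) * (C' * (l₀ + P.eps)) := by
  obtain ⟨C, hC0, hC⟩ := psi_expand R d
  have hm : Adm (grid R) R 0 := adm_grid (Nat.pos_of_ne_zero (NeZero.ne R))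
  have h1 : (1 : ℝ) ≤ 2 ^ d := one_le_pow₀ (by norm_num)
  refine ⟨C, (4 * 2 ^ d : ℝ) ^ (2 ^ d) * (60 * 2 ^ d * R) * (2 * 2 ^ d), hC0, by positivity, ?_⟩
  intro P V _ _ _ a H j l₀ T hE hε hl hsm hd hv hTs hTv hr
  have hsz : (P.ty j).size ≤ 2 ^ d :=
    (P.ty j).size_le_two_pow.trans (Nat.pow_le_pow_right (by norm_num) hd)
  have hszR : ((P.ty j).size : ℝ) ≤ 2 ^ d := by exact_mod_cast hsz
  have hT0 : T.Valid R 0 := hTv.mono (Nat.zero_le _)
  have hl0 : 0 ≤ l₀ := (abs_nonneg _).trans hl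
  set k := (P.ty j).size - 1 with hk
  set κj := P.kerj R V a H j with hκj
  have e1 : ∀ u, E0 (P.ker R V a H) (ev (P.ker R V a H)
      (fun l y => oldF (spinF spin u) l y * roleF (P.rl R V a j) l y) T) =
      Psi P.E κj spin (grid R) (P.ty j) (coef (P.lam a j) P.eps) u T :=
    fun u => term_eq_psi R P V a H j u hT0
  have hεs : P.eps * (P.ty j).size ≤ P.eps * 2 ^ d := mul_le_mul_of_nonneg_left hszR hε.le
  have e2 : |𝔼 u, Psi P.E κj spin (grid R) (P.ty j) (coef (P.lam a j) P.eps) u T -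
      𝔼 u, P.eps ^ k * wsum (useq (grid R) R 0 0 (hist (P.ty j) 0 1) T)
        (Psi P.E κj spin (grid R) (P.ty j) (fun _ => 0) u)| ≤ C * (l₀ + P.eps ^ (P.ty j).size) :=
    abs_expect_sub_le fun u =>
      (hC _ V P.E κj spin (grid R) hm (P.ty j) u T (P.lam a j) P.eps hd hv (hE ▸ hsz) hTs hT0 hr hε
        (by nlinarith)).trans (mul_le_mul_of_nonneg_left (by linarith) hC0)
  rw [← Finset.mul_expect, psi_zero P.E κj spin (grid R) hv (hE ▸ hsz) hTv
    (by rw [roles_eq, hr]; rfl)] at e2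
  have e3 := vfseq_close (d := d) κj hm spin (δ := 2 * (l₀ + P.eps * 2 ^ d)) (by positivity)
    (by nlinarith)
    (G := fun y => Real.log (termW (P.ty j) (coef (P.lam a j) P.eps) (spin y (siteOf y j))
      (marksOf y j)))
    (fun y => (termW_coef_mem _ (P.small a j) _ _).2.2.trans (by
      rw [abs_of_pos hε]; linarith)) hsz hT0 hTs
  rw [← P.ker_eq_tilt R V a H j] at e3
  simp only [e1]
  set A := (P.eps / 4) ^ k with hA
  have hA0 : 0 ≤ A := by positivity
  have hA' : P.eps ^ k * (1 / 4) ^ k = A := by rw [hA, ← mul_pow]; congr 1; ring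
  rw [← hk, ← mul_assoc, hA'] at e2
  set v := wsum (fseq (grid R) R 0 0 (hist (P.ty j) 0 1) T) (val (P.ker R V a H) spin)
  set vj := wsum (fseq (grid R) R 0 0 (hist (P.ty j) 0 1) T) (val κj spin)
  set Z := 𝔼 u, Psi P.E κj spin (grid R) (P.ty j) (coef (P.lam a j) P.eps) u T
  have e4 : |A * vj - A * v| ≤
      A * ((4 * 2 ^ d : ℝ) ^ (2 ^ d) * (60 * 2 ^ d * R) * (2 * 2 ^ d) * (l₀ + P.eps)) := by
    rw [← mul_sub, abs_mul, abs_of_nonneg hA0, abs_sub_comm]
    refine mul_le_mul_of_nonneg_left (e3.trans ?_) hA0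
    rw [mul_assoc _ (2 * 2 ^ d : ℝ)]
    refine mul_le_mul_of_nonneg_left ?_ (by positivity)
    nlinarith
  calc |Z - A * v| = |(Z - A * vj) + (A * vj - A * v)| := by congr 1; ring
    _ ≤ _ := (abs_add_le _ _).trans (add_le_add e2 e4)

/-- a family of terms of the same type with a concentrated sum enforces one identity -/
theorem many_terms (R d : ℕ) [NeZero R] : ∃ C C' : ℝ, 0 ≤ C ∧ 0 ≤ C' ∧ ∀ (P : Pert) (V : Type)
    [Fintype V] [DecidableEq V] [Nonempty V] (a : P.Λ) (H : (V → Bool) → ℝ) (S : Finset P.J)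
    (l₀ e' : ℝ) (Q O : Tr Bool), P.E = 2 ^ d → 0 < P.eps → (∀ j, |P.lam a j| ≤ l₀) →
    l₀ + 2 * P.eps * 2 ^ d ≤ 1 / 2 → S.Nonempty → (∀ j ∈ S, P.ty j = Q) →
    Q.depth ≤ d → Q.Valid R 1 → O.depth ≤ d → O.Valid R 1 → 0 ≤ e' →
    E0 (P.ker R V a H) (fun y => |∑ j ∈ S, P.rl R V a j (0, Q.first) y -
      E0 (P.ker R V a H) fun y => ∑ j ∈ S, P.rl R V a j (0, Q.first) y|) ≤ S.card * e' →
    |wsum (fseq (grid R) R 0 0 (hist Q 0 1) (rootT Q.first O)) (val (P.ker R V a H) spin)| ≤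
      |wsum (fseq (grid R) R 0 0 (hist Q 0 1) (dotT Q.first)) (val (P.ker R V a H) spin)| +
        ((4 / P.eps) ^ (2 ^ d) * (e' + C * l₀) + C' * (l₀ + P.eps)) := by
  obtain ⟨C, C', hC, hC', h⟩ := one_term R d
  refine ⟨2 * C, 2 * C' + 2 * C * 4 ^ (2 ^ d), by positivity, by positivity, ?_⟩
  intro P V _ _ _ a H S l₀ e' Q O hE hε hl hsm hS hty hQd hQv hOd hOv he' hdev
  set κ := P.ker R V a H with hκ
  set k := Q.size - 1 with hk
  set A := (P.eps / 4) ^ k with hA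
  have hA0 : 0 < A := by positivity
  have h1 : (1 : ℝ) ≤ 2 ^ d := one_le_pow₀ (by norm_num)
  obtain ⟨j₀, hj₀⟩ := hS
  have hl0 : 0 ≤ l₀ := (abs_nonneg _).trans (hl j₀)
  have hs : (0 : ℝ) < S.card := by exact_mod_cast card_pos.2 ⟨j₀, hj₀⟩
  set v₁ := wsum (fseq (grid R) R 0 0 (hist Q 0 1) (rootT Q.first O)) (val κ spin)
  set v₀ := wsum (fseq (grid R) R 0 0 (hist Q 0 1) (dotT Q.first)) (val κ spin)
  set c := E0 κ fun y => ∑ j ∈ S, P.rl R V a j (0, Q.first) y with hc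
  set η := C * (l₀ + P.eps ^ Q.size) + A * (C' * (l₀ + P.eps)) with hη
  have hOs : O.size ≤ 2 ^ d := O.size_le_two_pow.trans (Nat.pow_le_pow_right (by norm_num) hOd)
  have hQs : Q.size ≤ 2 ^ d := Q.size_le_two_pow.trans (Nat.pow_le_pow_right (by norm_num) hQd)
  -- the two estimates for one term
  have t1 : ∀ j ∈ S, |𝔼 u, E0 κ (ev κ
      (fun l y => oldF (spinF spin u) l y * roleF (P.rl R V a j) l y) (rootT Q.first O)) -
      A * v₁| ≤ η := by
    intro j hj
    have := h P V a H j l₀ (rootT Q.first O) hE hε (hl j) hsm (hty j hj ▸ hQd) (hty j hj ▸ hQv)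
      ((rootT_facts (R := R) _ O).1 ▸ hOs) (((rootT_facts (R := R) _ O).2.2.2 1).2 hOv)
      (by rw [roleL_rootT, hty j hj])
    rwa [hty j hj] at this
  have t0 : ∀ j ∈ S, |E0 κ (P.rl R V a j (0, Q.first)) - A * v₀| ≤ η := by
    intro j hj
    have := h P V a H j l₀ (dotT Q.first) hE hε (hl j) hsm (hty j hj ▸ hQd) (hty j hj ▸ hQv)
      (Nat.one_le_two_pow) trivial (by rw [hty j hj]; rfl)
    rw [hty j hj] at this
    have e : ∀ u : V, E0 κ (ev κ
        (fun l y => oldF (spinF spin u) l y * roleF (P.rl R V a j) l y) (dotT Q.first)) =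
        E0 κ (P.rl R V a j (0, Q.first)) := fun u => by
      congr 1
      funext y
      simp [dotT, ev, oldF, roleF]
    simp only [← hκ, e] at this
    rwa [Finset.expect_const univ_nonempty] at this
  have hc' : c = ∑ j ∈ S, E0 κ (P.rl R V a j (0, Q.first)) := Ex_sum κ S 0 _ _
  have s0 : |c - S.card * (A * v₀)| ≤ S.card * η := by
    rw [hc', ← nsmul_eq_mul, ← nsmul_eq_mul, ← sum_const, ← sum_const, ← sum_sub_distrib]
    exact (abs_sum_le_sum_abs _ _).trans (sum_le_sum t0)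
  set Z := ∑ j ∈ S, 𝔼 u, E0 κ (ev κ
      (fun l y => oldF (spinF spin u) l y * roleF (P.rl R V a j) l y) (rootT Q.first O)) with hZ
  have s1 : |Z - S.card * (A * v₁)| ≤ S.card * η := by
    rw [hZ, ← nsmul_eq_mul, ← nsmul_eq_mul, ← sum_const, ← sum_const, ← sum_sub_distrib]
    exact (abs_sum_le_sum_abs _ _).trans (sum_le_sum t1)
  have s2 : |Z| ≤ S.card * e' + |c| := by
    rw [hZ, ← Finset.expect_sum_comm]
    refine abs_expect_le_of fun u => ?_
    have r := root_le κ (φ := spinF spin u) (abs_spinF_le spin u) Q.first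
      (hOv.mono (Nat.zero_le 1)) S (P.rl R V a) c (pt R _)
    have r' : |c * Ex κ 0 (ev κ (spinF spin u) O) (pt R _)| ≤ |c| := by
      rw [abs_mul]
      exact mul_le_of_le_one_right (abs_nonneg _)
        (abs_Ex_le_of κ 0 (fun z => abs_ev_le_one κ (abs_spinF_le spin u) O z) _)
    have r'' := (abs_sub_abs_le_abs_sub _ _).trans (r.trans hdev)
    exact (sub_le_iff_le_add.1 r'').trans (by linarith)
  have s3 : S.card * (A * |v₁|) ≤ S.card * (A * |v₀| + e' + 2 * η) := by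
    have a1 : |S.card * (A * v₁)| = S.card * (A * |v₁|) := by
      rw [abs_mul, abs_mul, abs_of_pos hs, abs_of_pos hA0]
    have a0 : |S.card * (A * v₀)| = S.card * (A * |v₀|) := by
      rw [abs_mul, abs_mul, abs_of_pos hs, abs_of_pos hA0]
    have b1 := abs_sub_abs_le_abs_sub (S.card * (A * v₁)) Z
    rw [abs_sub_comm] at b1
    have b0 := abs_sub_abs_le_abs_sub c (S.card * (A * v₀))
    rw [a1] at b1
    rw [a0] at b0
    nlinarith
  have s4 : A * |v₁| ≤ A * |v₀| + e' + 2 * η := le_of_mul_le_mul_left s3 hs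
  have hε1 : P.eps ≤ 1 := by nlinarith
  have hB : A⁻¹ ≤ (4 / P.eps) ^ (2 ^ d) := by
    rw [hA, ← inv_pow, inv_div]
    refine pow_le_pow_right₀ ?_ (by omega)
    rw [le_div_iff₀ hε]; linarith
  have hB' : A⁻¹ * P.eps ^ Q.size ≤ 4 ^ (2 ^ d) * P.eps := by
    have hq : Q.size = k + 1 := by have := Q.size_pos; omega
    have : A⁻¹ * P.eps ^ Q.size = 4 ^ k * P.eps := by
      rw [hA, hq, pow_succ, div_pow]
      field_simp
    rw [this]
    exact mul_le_mul_of_nonneg_right (pow_le_pow_right₀ (by norm_num) (by omega)) hε.le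
  have s5 : |v₁| ≤ |v₀| + (A⁻¹ * (e' + 2 * C * l₀) + 2 * C * (A⁻¹ * P.eps ^ Q.size) +
      2 * C' * (l₀ + P.eps)) := by
    refine le_of_mul_le_mul_left (s4.trans (le_of_eq ?_)) hA0
    rw [hη]
    field_simp
    ring
  refine s5.trans (add_le_add_right ?_ _)
  have u1 : A⁻¹ * (e' + 2 * C * l₀) ≤ (4 / P.eps) ^ (2 ^ d) * (e' + 2 * C * l₀) :=
    mul_le_mul_of_nonneg_right hB (by positivity)
  have u2 : 2 * C * (A⁻¹ * P.eps ^ Q.size) ≤ 2 * C * (4 ^ (2 ^ d) * P.eps) :=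
    mul_le_mul_of_nonneg_left hB' (by positivity)
  have u3 : 0 ≤ 2 * C * 4 ^ (2 ^ d) * l₀ := by positivity
  nlinarith

theorem exists_small {K e : ℝ} (hK : 0 ≤ K) (he : 0 < e) : ∃ x, 0 < x ∧ K * x ≤ e := by
  refine ⟨e / (K + 1), by positivity, ?_⟩
  rw [← mul_div_assoc, div_le_iff₀ (by positivity)]
  nlinarith

theorem termW_coef_lin {R E : ℕ} (Q : Tr Bool) (lam eps : ℝ) (s : Bool)
    (y : Path R (Fin E → Bool)) :
    termW Q (coef lam eps) s y =
      termW Q (coef 0 eps) s y + lam * gv (hist Q 0 1) (0, Q.first) s y := by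
  have : ((hist Q 0 1).map fun h => coef lam eps h.c * gv (hist Q 0 1) (h.c, h.b) s y) =
      (hist Q 0 1).map fun h => coef 0 eps h.c * gv (hist Q 0 1) (h.c, h.b) s y := by
    refine List.map_congr_left fun h hh => ?_
    have h1 : h.c ∈ List.range' 1 (Q.size - 1) := by
      rw [← hist_c Q 0 1]; exact List.mem_map_of_mem hh
    have h2 : h.c ≠ 0 := by
      have := (List.mem_range'_1.1 h1).1
      omega
    simp [coef, h2]
  unfold termW
  rw [this]
  simp [coef]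
  ring

theorem E0_abs_sq_le {R : ℕ} {Ξ : Type} [Fintype Ξ] [Nonempty Ξ] (κ : Ker R Ξ)
    (F : Path R Ξ → ℝ) : E0 κ (fun y => |F y|) ^ 2 ≤ E0 κ fun y => F y ^ 2 := by
  obtain ⟨p, hp⟩ := Ex_rep κ 0 (pt R Ξ)
  have := p.E_mul_sq_le (fun y => |F y|) fun _ => 1
  simp only [mul_one, one_pow, sq_abs, PV.E_const] at this
  rw [E0, E0, hp, hp]
  exact this

/-- the variance of the sum of the root observables of the terms in `S` -/
noncomputable def Pert.var (R : ℕ) [NeZero R] (P : Pert) (V : Type) [Fintype V] [DecidableEq V]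
    [Nonempty V] (H : (V → Bool) → ℝ) (S : Finset P.J) (b : Bool) (a : P.Λ) : ℝ :=
  E0 (P.ker R V a H) fun y => (∑ j ∈ S, P.rl R V a j (0, b) y -
    E0 (P.ker R V a H) fun y => ∑ j ∈ S, P.rl R V a j (0, b) y) ^ 2

/-- concentration along a line of parameters -/
theorem var_line (R : ℕ) [NeZero R] (P : Pert) (V : Type) [Fintype V] [DecidableEq V]
    [Nonempty V] (H : (V → Bool) → ℝ) (S : Finset P.J) (Q : Tr Bool) (hty : ∀ j ∈ S, P.ty j = Q)
    {h : ℝ} {n : ℕ} (hh : 0 < h) (hh' : h ≤ 1 / 4) (hs : 2 * h * S.card ≤ 1)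
    (hsm : (n + 1) * h + |P.eps| * Q.size ≤ 1 / 2) (a₀ : P.Λ) (a : Fin n → P.Λ)
    (h1 : ∀ i, ∀ j ∈ S, P.lam (a i) j = ((i : ℕ) + 1) * h)
    (h2 : ∀ i, ∀ j ∉ S, P.lam (a i) j = P.lam a₀ j) :
    ∑ i, P.var R V H S Q.first (a i) ≤ 16 * S.card * (1 / h + n) * R := by
  have hR : 0 < R := Nat.pos_of_ne_zero (NeZero.ne R)
  have hRR : (1 : ℝ) ≤ R := by exact_mod_cast hR
  have hm : Adm (grid R) R 0 := adm_grid hR
  have hm1 : grid R 1 = 1 / R := by simp [grid]
  let H' : Path R (Al V P.J P.E) → ℝ := fun y => H (spin y) +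
    ∑ j ∈ Sᶜ, Real.log (termW (P.ty j) (coef (P.lam a₀ j) P.eps) (spin y (siteOf y j))
      (marksOf y j))
  let A : P.J → Path R (Al V P.J P.E) → ℝ := fun j y =>
    termW Q (coef 0 P.eps) (spin y (siteOf y j)) (marksOf y j)
  let g : P.J → Path R (Al V P.J P.E) → ℝ := fun j y =>
    gv (hist Q 0 1) (0, Q.first) (spin y (siteOf y j)) (marksOf y j)
  have key := conc (Ker.unif R (Al V P.J P.E)) hm S H' A g (n := n) hh hh'
    (by
      rw [hm1]
      refine le_trans ?_ hs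
      have : 1 / (R : ℝ) ≤ 1 := by rw [div_le_one (by linarith)]; exact hRR
      have h3 : 0 ≤ 2 * h * S.card := by positivity
      nlinarith)
    (fun j y => abs_gv_le _ _ _ _)
    (fun j _ y lam hl hl' => by
      have := (termW_coef_mem (R := R) (E := P.E) Q (lam := lam) (eps := P.eps)
        (by rw [abs_of_nonneg hl]; linarith) (spin y (siteOf y j)) (marksOf y j)).1
      rwa [termW_coef_lin] at this)
    _ (fun _ => rfl) _ (fun _ _ => rfl)
  rw [hm1, div_div_eq_mul_div, div_one, Finset.sum_range] at key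
  refine le_of_eq_of_le (sum_congr rfl fun i _ => ?_) key
  have e1 : P.ker R V (a i) H = tilt (Ker.unif R (Al V P.J P.E)) (grid R) fun y =>
      H' y + ∑ j ∈ S, Real.log (A j y + ((i : ℕ) + 1) * h * g j y) := by
    rw [Pert.ker]
    congr 1
    funext y
    rw [Pert.G, pertG, ← Finset.sum_add_sum_compl S, add_comm (∑ j ∈ S, _), ← add_assoc]
    congr 1
    · congr 1
      exact sum_congr rfl fun j hj => by rw [h2 i j (mem_compl.1 hj)]
    · exact sum_congr rfl fun j hj => by rw [h1 i j hj, hty j hj, termW_coef_lin]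
  have e2 : ∀ y, ∑ j ∈ S, P.rl R V (a i) j (0, Q.first) y =
      ∑ j ∈ S, g j y / (A j y + ((i : ℕ) + 1) * h * g j y) := fun y =>
    sum_congr rfl fun j hj => by rw [Pert.rl, h1 i j hj, hty j hj, termW_coef_lin]
  simp only [Pert.var, e1, e2]

theorem Pert.var_nonneg (R : ℕ) [NeZero R] (P : Pert) (V : Type) [Fintype V] [DecidableEq V]
    [Nonempty V] (H : (V → Bool) → ℝ) (S : Finset P.J) (b : Bool) (a : P.Λ) :
    0 ≤ P.var R V H S b a := Ex_nonneg _ _ (fun _ => sq_nonneg _) _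

set_option maxHeartbeats 1000000 in
open Classical in
/-- Construction: `𝒯` from `exists_finset_trees R d`, `J = 𝒯 × Fin s`, `Λ = 𝒯 → Fin n`, `E = 2^d`,
`ty = fst`, `lam a (Q, i) = (a Q + 1) h`, `λ₀ = (n+1) h`.  Fix `V, H, a`, `κ = P.ker a H`, `Q ∈ 𝒯`, `O`;
`k = size Q - 1 < 2^d`, `D = Σ_i g₀^{(Q,i)}/W^{(Q,i)}`, `dev = E0 κ |D - E0 κ D| / s`, `κ_j` the system
without the term `j`, `v(κ', T) = wsum (fseq (hist Q 0 1) T) (val κ' spin)`, `T₁ = rootT Q.first O`,
`T₀ = dotT Q.first`, `𝓜 u = E0 κ (ev κ (spinF spin u) O) ∈ [-1,1]`.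
* `root_le` with `c = E0 κ D = Σ_j Psi_j u T₀` and `term_eq_psi`:
  `|Σ_j Psi_j u T₁ - 𝓜 u Σ_j Psi_j u T₀| ≤ s · dev` (`Psi_j u T₀` does not depend on `u`).
* `psi_expand`, `psi_zero`: `𝔼_u Psi_j u T = ε^k 4^{-k} v(κ_j, T) ± C (λ₀ + ε^{k+1})`.
* `κ = tilt κ_j (log W_j)` (`tilt_tilt`), `|log W_j| ≤ 2 (λ₀ + ε 2^d)` (`termW_coef_mem`),
  `tilt_close`, `ev_close`, `wabs_fseq_le`: `|v(κ_j, T) - v(κ, T)| ≤ C' (λ₀ + ε)`.
Hence `|v(κ,T₁)| ≤ |v(κ,T₀)| + (4/ε)^k (dev + 2C(λ₀ + ε^{k+1})) + 2 C' (λ₀ + ε)`.  Choose `ε` small, then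
`λ₀ ≈ ε^{2^d + 1}`, then `e' > 0` such that `dev ≤ e'` for all `Q ∈ 𝒯` implies `Ident`.
By `conc` (for fixed `Q` and fixed other coordinates of `a`; `termW (coef λ ε) = A + λ g₀`; the other
terms go into `H`; `PV.E_pi_update` with `PV.unif_pi_E`) and Chebyshev,
`P_a(dev > e') ≤ 16 (1/(n h) + 1) R/(s e'²)`; take `s` large, then `h ≤ 1/(2s)`, `h ≤ λ₀'/4` and
`n = ⌊λ₀'/h⌋ - 1`, so that `λ₀'/2 ≤ n h`, `(n+1) h ≤ λ₀'`.  Union bound over `𝒯`. -/
theorem pert (R : ℕ) [NeZero R] (d : ℕ) {e η : ℝ} (he : 0 < e) (hη : 0 < η) : ∃ P : Pert,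
    ∀ (V : Type) [Fintype V] [DecidableEq V] [Nonempty V] (H : (V → Bool) → ℝ),
      𝔼 a : P.Λ, (if Ident (P.ker R V a H) spin (grid R) d e then (0 : ℝ) else 1) ≤ η := by
  obtain ⟨𝒯, h𝒯⟩ := exists_finset_trees R d
  obtain ⟨C, C', hC, hC', hmany⟩ := many_terms R d
  have h1 : (1 : ℝ) ≤ 2 ^ d := one_le_pow₀ (by norm_num)
  -- the constants
  obtain ⟨ε, hε, hε'⟩ := exists_small (K := 3 * C' + 8 * 2 ^ d * e) (by positivity) he
  have hε1 : 3 * C' * ε ≤ e := by
    have : 0 ≤ 8 * 2 ^ d * e * ε := by positivity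
    nlinarith
  have hε2 : 8 * 2 ^ d * ε ≤ 1 := by
    have : 0 ≤ 3 * C' * ε := by positivity
    refine le_of_mul_le_mul_left ?_ he
    nlinarith
  set B : ℝ := (4 / ε) ^ (2 ^ d) with hB
  have hB0 : 0 ≤ B := by positivity
  obtain ⟨l₀, hl₀, hl₀'⟩ := exists_small (K := 3 * (B * C + C') + 4 * e) (by positivity) he
  have hl1 : 3 * (B * C + C') * l₀ ≤ e := by
    have : 0 ≤ 4 * e * l₀ := by positivity
    nlinarith
  have hl2 : 4 * l₀ ≤ 1 := by
    have : 0 ≤ 3 * (B * C + C') * l₀ := by positivity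
    refine le_of_mul_le_mul_left ?_ he
    nlinarith
  obtain ⟨e', he', he''⟩ := exists_small (K := 3 * B) (by positivity) he
  obtain ⟨s₀, hs₀⟩ := exists_nat_ge (𝒯.card * (16 * (2 / l₀ + 1) * R) / (e' ^ 2 * η))
  set s := s₀ + 1 with hs
  have hsR : (1 : ℝ) ≤ s := by rw [hs]; push_cast; linarith [Nat.cast_nonneg (α := ℝ) s₀]
  have hs' : 𝒯.card * (16 * (2 / l₀ + 1) * R) ≤ s * (e' ^ 2 * η) := by
    rw [div_le_iff₀ (by positivity)] at hs₀
    refine hs₀.trans (mul_le_mul_of_nonneg_right ?_ (by positivity))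
    rw [hs]; push_cast; linarith
  set h : ℝ := l₀ / (s + 1) with hh
  have hh0 : 0 < h := by positivity
  have hh1 : (s + 1) * h = l₀ := by rw [hh]; field_simp
  have hsz : ∀ Q ∈ 𝒯, (Q.size : ℝ) ≤ 2 ^ d := fun Q hQ => by
    exact_mod_cast Q.size_le_two_pow.trans (Nat.pow_le_pow_right (by norm_num) ((h𝒯 Q).1 hQ).1)
  have hlam : ∀ i : Fin s, |(((i : ℕ) : ℝ) + 1) * h| ≤ l₀ := fun i => by
    rw [abs_of_nonneg (by positivity), ← hh1]
    refine mul_le_mul_of_nonneg_right ?_ hh0.le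
    have : ((i : ℕ) : ℝ) ≤ s := by exact_mod_cast i.2.le
    linarith
  let P : Pert :=
    { J := 𝒯 × Fin s
      Λ := 𝒯 → Fin s
      E := 2 ^ d
      ty := fun j => j.1.1
      lam := fun a j => ((a j.1 : ℕ) + 1) * h
      eps := ε
      small := fun a j => by
        have := hlam (a j.1)
        have h2 := mul_le_mul_of_nonneg_left (hsz _ j.1.2) hε.le
        rw [abs_of_pos hε]
        nlinarith }
  refine ⟨P, fun V _ _ _ H => ?_⟩
  let S : 𝒯 → Finset P.J := fun Q => univ.filter fun j : 𝒯 × Fin s => j.1 = Q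
  have hS : ∀ Q, (S Q).card = s := fun Q => by
    have : S Q = ({Q} : Finset 𝒯) ×ˢ (univ : Finset (Fin s)) := by
      refine Finset.ext fun j : 𝒯 × Fin s => ?_
      rw [mem_product, mem_singleton]
      exact ⟨fun h => ⟨(mem_filter.1 h).2, mem_univ _⟩, fun h => mem_filter.2 ⟨mem_univ _, h.1⟩⟩
    rw [this, card_product]
    simp
  have hSty : ∀ Q, ∀ j ∈ S Q, P.ty j = Q.1 := fun Q j hj => by
    have := (mem_filter.1 hj).2
    exact congrArg Subtype.val this
  -- the union bound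
  have hind : ∀ a : P.Λ, (if Ident (P.ker R V a H) spin (grid R) d e then (0 : ℝ) else 1) ≤
      ∑ Q : 𝒯, P.var R V H (S Q) Q.1.first a / (s * e') ^ 2 := by
    intro a
    have hnn : ∀ Q : 𝒯, 0 ≤ P.var R V H (S Q) Q.1.first a / (s * e') ^ 2 := fun Q =>
      div_nonneg (P.var_nonneg R V H _ _ a) (sq_nonneg _)
    split_ifs with hI
    · exact sum_nonneg fun Q _ => hnn Q
    · by_contra hlt
      refine hI fun Q O hQd hOd hQv hOv => ?_
      have hQ : Q ∈ 𝒯 := (h𝒯 Q).2 ⟨hQd, hQv⟩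
      have hv : P.var R V H (S ⟨Q, hQ⟩) Q.first a ≤ (s * e') ^ 2 := by
        have := (single_le_sum (fun Q _ => hnn Q) (mem_univ (⟨Q, hQ⟩ : 𝒯))).trans (not_le.1 hlt).le
        rwa [div_le_one (by positivity)] at this
      have hdev := abs_le_of_sq_le_sq' ((E0_abs_sq_le _ _).trans hv) (by positivity)
      refine (hmany P V a H (S ⟨Q, hQ⟩) l₀ e' Q O rfl hε (fun j => hlam (a j.1))
        (by show l₀ + 2 * ε * 2 ^ d ≤ 1 / 2; nlinarith) (card_pos.1 (by rw [hS]; omega))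
        (hSty ⟨Q, hQ⟩) hQd hQv hOd hOv he'.le (by rw [hS]; exact hdev.2)).trans ?_
      show _ + (B * (e' + C * l₀) + C' * (l₀ + ε)) ≤ _
      nlinarith
  have hvar : ∀ Q : 𝒯, 𝔼 a : P.Λ, P.var R V H (S Q) Q.1.first a ≤
      16 * s * (2 / l₀ + 1) * R := by
    intro Q
    refine (expect_update (X := Fin s) Q (P.var R V H (S Q) Q.1.first)).symm.le.trans ?_
    refine Finset.expect_le univ_nonempty fun a _ => ?_
    have h2 := mul_le_mul_of_nonneg_left (hsz _ Q.2) hε.le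
    have := var_line R P V H (S Q) Q.1 (hSty Q) (n := s) hh0 (by nlinarith)
      (by rw [hS]; nlinarith) (by show _ + |ε| * _ ≤ _; rw [abs_of_pos hε]; nlinarith) a
      (fun i => Function.update a Q i)
      (fun i j hj => by
        have : j.1 = Q := (mem_filter.1 hj).2
        show ((Function.update a Q i j.1 : ℕ) + 1 : ℝ) * h = _
        rw [this, Function.update_self])
      (fun i j hj => by
        have : j.1 ≠ Q := fun h => hj (mem_filter.2 ⟨mem_univ _, h⟩)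
        show ((Function.update a Q i j.1 : ℕ) + 1 : ℝ) * h = ((a j.1 : ℕ) + 1 : ℝ) * h
        rw [Function.update_of_ne this])
    rw [hS] at this
    rw [Finset.expect_eq_sum_div_card, card_univ, Fintype.card_fin, div_le_iff₀ (by linarith)]
    refine this.trans ?_
    have h3 : 1 / h ≤ 2 / l₀ * s := by
      rw [hh, one_div_div, div_mul_eq_mul_div]
      exact div_le_div_of_nonneg_right (by linarith) hl₀.le
    have h4 : (0 : ℝ) ≤ 16 * s * R := by positivity
    nlinarith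
  refine (Finset.expect_le_expect fun a _ => hind a).trans ?_
  rw [Finset.expect_sum_comm]
  refine (sum_le_sum (g := fun _ => 16 * s * (2 / l₀ + 1) * R / (s * e') ^ 2)
    fun Q _ => ?_).trans ?_
  · rw [← Finset.expect_div]
    exact div_le_div_of_nonneg_right (hvar Q) (sq_nonneg _)
  · rw [sum_const, card_univ, Fintype.card_coe, nsmul_eq_mul, ← mul_div_assoc,
      div_le_iff₀ (by positivity)]
    calc _ = s * (𝒯.card * (16 * (2 / l₀ + 1) * R) : ℝ) := by ring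
      _ ≤ s * (s * (e' ^ 2 * η)) := mul_le_mul_of_nonneg_left hs' (Nat.cast_nonneg _)
      _ = _ := by ring

end Crest.Agent.R141
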