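import Crest.Agent.R141.Gen
import Crest.Agent.R141.Beta2

/-! Synchronisation (owner: helper18). -/

set_option autoImplicit false

namespace Crest.Agent.R141

open Finset
open scoped BigOperators

/-- the statement "`q τ s ≤ η` for all good trees of depth `≤ j`, if the errors are `≤ δ₁`" -/
def SmallCov (d j : ℕ) (η₀ η δ₁ : ℝ) : Prop :=
  ∀ (R : ℕ) (Ξ V : Type) [Fintype Ξ] [Nonempty Ξ] [Fintype V] [Nonempty V] (κ : Ker R Ξ)
    (σ : Path R Ξ → V → Bool) (e : ℝ), 0 ≤ e → Ident κ σ (grid R) (d + 1) e → 1 / (R : ℝ) ≤ δ₁ →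
    e * R ^ (2 ^ (d + 1)) ≤ δ₁ → ∀ (τ : Tr Bool) (s : ℕ), τ.depth ≤ j → 1 ≤ s → s < R →
    τ.Valid R s → Sep (2 ^ (d + 1)) (s :: R :: τ.levels) → η₀ ≤ grid R (s + 1) →
    Om κ σ (2 ^ (d + 1)) τ ≤ δ₁ → cov κ σ τ s ≤ η

def SmallIota (d j : ℕ) (η₀ η δ₁ : ℝ) : Prop :=
  ∀ (R : ℕ) (Ξ V : Type) [Fintype Ξ] [Nonempty Ξ] [Fintype V] [Nonempty V] (κ : Ker R Ξ)
    (σ : Path R Ξ → V → Bool) (e : ℝ), 0 ≤ e → Ident κ σ (grid R) (d + 1) e → 1 / (R : ℝ) ≤ δ₁ →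
    e * R ^ (2 ^ (d + 1)) ≤ δ₁ → ∀ (τ : Tr Bool) (s : ℕ), τ.depth ≤ j → 1 ≤ s → s < R →
    τ.Valid R s → Sep (2 ^ (d + 1)) (s :: R :: τ.levels) → η₀ ≤ grid R (s + 1) →
    Om κ σ (2 ^ (d + 1)) τ ≤ δ₁ → iota κ σ τ ≤ η

theorem smallIota_zero (d : ℕ) (η₀ : ℝ) {η : ℝ} (hη : 0 < η) : SmallIota d 0 η₀ η 1 := by
  intro R Ξ V _ _ _ _ κ σ e _ _ _ _ τ s hd _ _ _ _ _ _
  cases τ with
  | leaf b => rw [iota_leaf]; exact hη.le
  | node u a b => simp [Tr.depth] at hd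

theorem smallIota_succ {d j : ℕ} {η₀ η δ₁ : ℝ} (hη : 0 < η) (h : SmallCov d j η₀ (η / 2) δ₁) :
    SmallIota d (j + 1) η₀ η δ₁ := by
  intro R Ξ V _ _ _ _ κ σ e he hI h1 h2 τ s hd hs hsR hv hS h0 hO
  cases τ with
  | leaf b => rw [iota_leaf]; exact hη.le
  | node u a b =>
    simp only [Tr.depth] at hd
    have hg : η₀ ≤ grid R (u + 1) :=
      h0.trans ((adm_grid hsR).mono _ _ (by omega) (by have := hv.1; omega) hv.2.1)
    have f1 := fD_nonneg κ σ (2 ^ (d + 1)) u a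
    have f2 := fD_nonneg κ σ (2 ^ (d + 1)) u b
    have f3 := Om_nonneg κ σ (2 ^ (d + 1)) a
    have f4 := Om_nonneg κ σ (2 ^ (d + 1)) b
    simp only [Om] at hO
    have ha := h R Ξ V κ σ e he hI h1 h2 a u (by omega) (hs.trans hv.1) hv.2.1 hv.2.2.1
      (hS.mono fun x hx => by
        simp only [Tr.levels, List.mem_cons, List.mem_append] at hx ⊢; tauto) hg (by linarith)
    have hb := h R Ξ V κ σ e he hI h1 h2 b u (by omega) (hs.trans hv.1) hv.2.1 hv.2.2.2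
      (hS.mono fun x hx => by
        simp only [Tr.levels, List.mem_cons, List.mem_append] at hx ⊢; tauto) hg (by linarith)
    have := iota_node κ σ u a b
    linarith

theorem smallCov_of {d j : ℕ} (hj : j ≤ d) {η₀ : ℝ} (h0 : 0 < η₀)
    (h : ∀ η : ℝ, 0 < η → ∃ δ₁ : ℝ, 0 < δ₁ ∧ SmallIota d j η₀ η δ₁) {η : ℝ} (hη : 0 < η) :
    ∃ δ₁ : ℝ, 0 < δ₁ ∧ SmallCov d j η₀ η δ₁ := by
  obtain ⟨C, hC, hβ⟩ := beta_sq_le d
  -- `ρ` is the bound wanted for every error term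
  set ρ : ℝ := η₀ * (η / 4) ^ 2 / (8 * C + 1) with hρ
  have hρ0 : 0 < ρ := by positivity
  obtain ⟨δ₂, hδ₂, hι⟩ := h (Min.min (η / 2) (ρ ^ 4)) (by positivity)
  refine ⟨Min.min δ₂ ρ, by positivity, ?_⟩
  intro R Ξ V _ _ _ _ κ σ e he hI h1 h2 τ s hd hs hsR hv hS hg hO
  have i1 := hι R Ξ V κ σ e he hI (h1.trans (min_le_left _ _)) (h2.trans (min_le_left _ _)) τ s hd
    hs hsR hv hS hg (hO.trans (min_le_left _ _))
  have i2 : iota κ σ τ ≤ η / 2 := i1.trans (min_le_left _ _)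
  have i3 : iota κ σ τ / ρ ^ 3 ≤ ρ := by
    rw [div_le_iff₀ (by positivity)]
    refine (i1.trans (min_le_right _ _)).trans (le_of_eq (by ring))
  refine (cov_le κ σ τ s).trans ?_
  suffices beta κ σ τ s ≤ η / 2 by linarith
  by_cases hl : τ.lev R ≤ s
  · rw [beta_eq_zero κ σ hl]; positivity
  have hsz : 2 * τ.size ≤ 2 ^ (d + 1) := by
    have := τ.size_le_two_pow
    have : 2 ^ τ.depth ≤ 2 ^ d := Nat.pow_le_pow_right (by norm_num) (by omega)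
    rw [pow_succ]; omega
  have b1 := hβ R Ξ V κ σ τ s e ρ he hρ0 (by omega) hs ⟨by omega, hv, hS, hsz⟩ hI
  have b2 := EE_abs_le_sq κ (δ := η / 4) (by positivity)
    fun u w x => Kat κ σ τ s (τ.lev R) u w x - Kat κ σ τ s s u w x
  have b3 : beta κ σ τ s = EE κ fun u w x =>
      |Kat κ σ τ s (τ.lev R) u w x - Kat κ σ τ s s u w x| := by
    unfold beta
    congr 1
    funext u w x
    rw [Kat_of_le κ σ s le_rfl, Kat_self]
  rw [b3]
  refine b2.trans ?_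
  have q0 : 0 ≤ EE κ fun u w x => (Kat κ σ τ s (τ.lev R) u w x - Kat κ σ τ s s u w x) ^ 2 := by
    rw [← EE_const (V := V) κ 0]
    exact EE_mono κ fun _ _ _ => sq_nonneg _
  generalize (EE κ fun u w x => (Kat κ σ τ s (τ.lev R) u w x - Kat κ σ τ s s u w x) ^ 2) = q
    at b1 q0
  have c1 := h1.trans (min_le_right _ _)
  have c2 := h2.trans (min_le_right _ _)
  have c3 := hO.trans (min_le_right _ _)
  have c4 : η₀ * q ≤ (8 * C + 1) * ρ := by
    have : 2 * C * (1 / R + (ρ + iota κ σ τ / ρ ^ 3 + Om κ σ (2 ^ (d + 1)) τ)) ≤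
        2 * C * (4 * ρ) := mul_le_mul_of_nonneg_left (by linarith) (by positivity)
    have := mul_le_mul_of_nonneg_right hg q0
    linarith
  have c5 : (8 * C + 1) * ρ = η₀ * (η / 4) ^ 2 := by
    rw [hρ]; field_simp
  have c6 : q ≤ (η / 4) ^ 2 := le_of_mul_le_mul_left (c5 ▸ c4) h0
  have c7 : q / (η / 4) ≤ η / 4 := by
    rw [div_le_iff₀ (by positivity)]; nlinarith
  linarith

theorem smallCov (d : ℕ) {η₀ : ℝ} (h0 : 0 < η₀) : ∀ j, j ≤ d → ∀ η : ℝ, 0 < η →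
    ∃ δ₁ : ℝ, 0 < δ₁ ∧ SmallCov d j η₀ η δ₁
  | 0, hj, _, hη => smallCov_of hj h0 (fun _ h => ⟨1, one_pos, smallIota_zero d η₀ h⟩) hη
  | j + 1, hj, _, hη => smallCov_of hj h0 (fun η' h => by
      obtain ⟨δ₁, h1, h2⟩ := smallCov d h0 j (by omega) (η' / 2) (by positivity)
      exact ⟨δ₁, h1, smallIota_succ h h2⟩) hη

theorem sync (d : ℕ) {η : ℝ} (hη : 0 < η) : ∃ (R s : ℕ) (e : ℝ), 1 ≤ s ∧ s < R ∧ (s : ℝ) / R ≤ η ∧
    0 < e ∧ ∀ (Ξ V : Type) [Fintype Ξ] [Nonempty Ξ] [Fintype V] [Nonempty V] (κ : Ker R Ξ)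
      (σ : Path R Ξ → V → Bool), Ident κ σ (grid R) (d + 1) e →
      gen (grid R) R d s (fun T => cov κ σ T s) ≤ η := by
  classical
  obtain ⟨c₁, hc₁, g₁⟩ := gen_one Bool d
  obtain ⟨c₂, hc₂, g₂⟩ := gen_root Bool d
  obtain ⟨c₃, hc₃, g₃⟩ := gen_not_sep d
  obtain ⟨c₄, hc₄, g₄⟩ := gen_Om d
  set D := 2 ^ (d + 1) with hD
  set η₀ : ℝ := Min.min (1 / 4) (η / (10 * (c₂ + 1))) with hη₀
  have h0 : 0 < η₀ := by positivity
  have h01 : η₀ ≤ 1 / 4 := min_le_left _ _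
  have h02 : η₀ * (10 * (c₂ + 1)) ≤ η := by
    rw [← le_div_iff₀ (by positivity)]; exact min_le_right _ _
  obtain ⟨δ₁, hδ₁, hs⟩ := smallCov d h0 d le_rfl (η / (5 * (c₁ + 1))) (by positivity)
  set δ : ℝ := δ₁ * η / (10 * (c₄ + 1)) with hδ
  have hδ0 : 0 < δ := by positivity
  obtain ⟨R, hR⟩ := exists_nat_gt (1 / δ₁ + 2 / η₀ + 2 * D + 5 * c₃ * (D + 1) / η +
    10 * c₄ * D / (δ * δ₁ * η))
  have p1 : 0 ≤ 1 / δ₁ := by positivity
  have p2 : 0 ≤ 2 / η₀ := by positivity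
  have p3 : (0 : ℝ) ≤ 2 * D := by positivity
  have p4 : 0 ≤ 5 * c₃ * (D + 1) / η := by positivity
  have p5 : 0 ≤ 10 * c₄ * D / (δ * δ₁ * η) := by positivity
  have hR0 : (0 : ℝ) < R := by linarith
  have r1 : 1 / (R : ℝ) ≤ δ₁ := by
    rw [div_le_iff₀ hR0, mul_comm, ← div_le_iff₀ hδ₁]; linarith
  have r2 : 2 ≤ η₀ * R := by
    rw [mul_comm, ← div_le_iff₀ h0]; linarith
  have r4 : c₃ * (D + 1) / R ≤ η / 5 := by
    have : 5 * c₃ * (D + 1) ≤ R * η := by rw [← div_le_iff₀ hη]; linarith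
    rw [div_le_iff₀ hR0]; linarith
  have r5 : c₄ * (D / (δ * R)) / δ₁ ≤ η / 10 := by
    have : 10 * c₄ * D ≤ R * (δ * δ₁ * η) := by rw [← div_le_iff₀ (by positivity)]; linarith
    rw [div_le_iff₀ hδ₁, ← mul_div_assoc, div_le_iff₀ (by positivity)]; linarith
  set s := ⌈η₀ * R⌉₊ with hsdef
  have s1 : η₀ * R ≤ s := Nat.le_ceil _
  have s2 : (s : ℝ) < η₀ * R + 1 := Nat.ceil_lt_add_one (by positivity)
  have s3 : 1 ≤ s := by
    have : (1 : ℝ) ≤ s := by linarith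
    exact_mod_cast this
  have s4 : s + D < R := by
    have : (s : ℝ) + D < R := by nlinarith
    exact_mod_cast this
  have s5 : s < R := lt_of_le_of_lt (Nat.le_add_right _ _) s4
  have s6 : grid R (s + 1) ≤ 2 * η₀ := by
    unfold grid
    rw [div_le_iff₀ hR0]; push_cast; linarith
  have s7 : η₀ ≤ grid R (s + 1) := by
    unfold grid
    rw [le_div_iff₀ hR0]; push_cast; linarith
  refine ⟨R, s, δ₁ / R ^ D, s3, s5, ?_, by positivity, ?_⟩
  · rw [div_le_iff₀ hR0]; nlinarith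
  intro Ξ V _ _ _ _ κ σ hI
  have key : gen (grid R) R d s (fun T => cov κ σ T s) ≤ gen (grid R) R d s fun T : Tr Bool =>
      (η / (5 * (c₁ + 1)) * 1 + if T.lev R = s then 1 else 0) +
        ((if Sep D (s :: R :: T.levels) then 0 else 1) +
          δ₁⁻¹ * if s < T.lev R then Om κ σ D T else 0) := by
    refine gen_mono (adm_grid s5) le_rfl fun T hT hd => ?_
    have t0 : 0 ≤ η / (5 * (c₁ + 1)) := by positivity
    have t1 := cov_le_one κ σ T s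
    have t2 := Om_nonneg κ σ D T
    have t3 : 0 ≤ δ₁⁻¹ * Om κ σ D T := by positivity
    have t4 := hT.le_lev s5.le
    by_cases a1 : T.lev R = s
    · simp only [a1, if_true, lt_irrefl, if_false]
      split_ifs <;> linarith
    have a2 : s < T.lev R := by omega
    simp only [a1, a2, if_true, if_false]
    split_ifs with a3
    · by_cases a4 : Om κ σ D T ≤ δ₁
      · have := hs R Ξ V κ σ _ (by positivity) hI r1 (le_of_eq (div_mul_cancel₀ _ (by positivity))) T s hd s3 s5 hT a3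
          s7 a4
        linarith
      · have : 1 ≤ δ₁⁻¹ * Om κ σ D T := by
          rw [inv_mul_eq_div, le_div_iff₀ hδ₁]; linarith
        linarith
    · linarith
  refine key.trans ?_
  rw [gen_add, gen_add, gen_add, gen_mul_left, gen_mul_left, g₁ _ R s (adm_grid s5).top s5]
  have k2 := g₂ _ R s (adm_grid s5)
  have k3 := g₃ R s D s4
  have k4 := g₄ R s D δ s5 hδ0 Ξ V κ σ
  have m1 : η / (5 * (c₁ + 1)) * c₁ ≤ η / 5 := by
    rw [div_mul_eq_mul_div, div_le_div_iff₀ (by positivity) (by positivity)]; nlinarith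
  have m2 : c₂ * grid R (s + 1) ≤ η / 5 := by nlinarith
  have m4 : δ₁⁻¹ * (c₄ * (δ + D / (δ * R))) ≤ η / 5 := by
    have e1 : δ₁⁻¹ * (c₄ * (δ + D / (δ * R))) = c₄ * η / (10 * (c₄ + 1)) +
        c₄ * (D / (δ * R)) / δ₁ := by
      rw [mul_add, mul_add]
      congr 1
      · rw [hδ]; field_simp
      · ring
    have e2 : c₄ * η / (10 * (c₄ + 1)) ≤ η / 10 := by
      rw [div_le_div_iff₀ (by positivity) (by positivity)]; nlinarith
    linarith
  have m5 := mul_le_mul_of_nonneg_left k4 (inv_nonneg.2 hδ₁.le)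
  linarith

end Crest.Agent.R141
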