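import Crest.Agent.R141.Ass
import Crest.Agent.R141.Sync
import Crest.Agent.R141.PertMain

/-! The lower bound (task R141 Cavity+Lower). -/

set_option autoImplicit false

namespace Crest.Agent.R141

open Finset Crest.ProbabilityR.Diluted Filter Topology
open scoped BigOperators

theorem low_telescope {A : ℕ → ℝ} {J : ℝ} {N₀ : ℕ} (h : ∀ N, N₀ ≤ N → J ≤ A (N + 1) - A N)
    (N : ℕ) (hN : N₀ ≤ N) : A N₀ + ((N : ℝ) - N₀) * J ≤ A N := by
  induction N, hN using Nat.le_induction with
  | base => simp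
  | succ n hn ih =>
    have := h n hn
    push_cast
    nlinarith

theorem low_tendsto (c : ℝ) : Tendsto (fun N : ℕ => c / ((N : ℝ) + 1)) atTop (𝓝 0) :=
  tendsto_const_nhds.div_atTop (tendsto_atTop_add_const_right _ _ tendsto_natCast_atTop_atTop)

/-- `cavity_lb` (with `η/4`) gives `d, η'`; `sync d η'` gives `R, s, e`; `pert R (d+1) e η''` gives `P`.
For large `N` the rates are `η'`-close to their limits, so for every `H` the average over `a` in
`ass_step` is at least `I - η/4 - η'' (|I| + η + C)` (`cavity_crude` for the bad `a`).  Hence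
`Abar (N+1) - Abar N ≥ I - log 2 - η/2` for `N ≥ N₀`; telescope, `Abar_le`, divide by `N + 1`. -/
theorem FM.lower_bound {p : ℕ} (M : FM p) (hp : 1 ≤ p) {α : ℝ} (hα : 0 ≤ α) {I : ℝ}
    (hI : ∀ t : Trial, t.m = grid t.R → I ≤ M.P α t) {η : ℝ} (hη : 0 < η) :
    ∀ᶠ N : ℕ in atTop, I - η ≤ M.pres α N := by
  classical
  obtain ⟨B, hB⟩ := M.exists_bd
  have hB0 := hB.1
  have hp' : (1 : ℝ) ≤ p := by exact_mod_cast hp
  have hαp : 0 ≤ α * p := by positivity
  obtain ⟨d, η', hη', hlb⟩ := M.cavity_lb hp hα hI (η := η / 4) (by positivity)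
  obtain ⟨R, s, e, hs1, hsR, hsη, he, hsync⟩ := sync d hη'
  have : NeZero R := ⟨by omega⟩
  obtain ⟨C, hC, hC0⟩ : ∃ C : ℝ, C = |I| + (B * ((α * p + 1) + (α * p + 1) + 1) + 1) ∧ 0 < C :=
    ⟨_, rfl, by positivity⟩
  obtain ⟨P, hP⟩ := pert R (d + 1) he (η := η / 8 / C) (by positivity)
  have hδ : 0 < min η' 1 := lt_min hη' one_pos
  have ev1 : ∀ᶠ N : ℕ in atTop, |rate1 α p N - α * p| ≤ min η' 1 := by
    filter_upwards [(Metric.tendsto_nhds.1 (tendsto_rate1 α p)) _ hδ] with N hN
    rw [Real.dist_eq] at hN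
    exact hN.le
  have ev2 : ∀ᶠ N : ℕ in atTop, |rate2 α p N - α * (p - 1)| ≤ min η' 1 := by
    filter_upwards [(Metric.tendsto_nhds.1 (tendsto_rate2 α p)) _ hδ] with N hN
    rw [Real.dist_eq] at hN
    exact hN.le
  have ev3 : ∀ᶠ N : ℕ in atTop,
      ((R : ℝ) ^ 2 * Fintype.card P.J + 2 * B * p ^ 2 * α) / ((N : ℝ) + 1) ≤ η / 8 :=
    (low_tendsto _).eventually (ge_mem_nhds (by positivity))
  obtain ⟨N₀, hN₀⟩ := eventually_atTop.1 (ev1.and (ev2.and ev3))
  have step : ∀ N, N₀ ≤ N →
      I - Real.log 2 - η / 2 ≤ M.Abar R P α (N + 1) - M.Abar R P α N := by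
    intro N hN
    obtain ⟨h1, h2, h3⟩ := hN₀ N hN
    rw [le_min_iff] at h1 h2
    have r1 := rate1_nonneg hα p N
    have r2 := rate2_nonneg hα hp N
    have key := M.ass_step R P hp hB hα N (I := I - η / 4 - η / 8) fun H => by
      have pt : ∀ a : P.Λ, I - η / 4 - C *
          (if Ident (P.ker R (Fin (N + 1)) a H) spin (grid R) (d + 1) e then (0 : ℝ) else 1) ≤
          M.Site (P.ker R (Fin (N + 1)) a H) spin (grid R) (rate1 α p N) -
            M.Edge (P.ker R (Fin (N + 1)) a H) spin (grid R) (rate2 α p N) := by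
        intro a
        split_ifs with hid
        · rw [mul_zero, sub_zero]
          exact hlb R s _ _ _ _ _ _ hs1 hsR hsη r1 r2 h1.1 h2.1 (hsync _ _ _ _ hid)
        · have hc := M.cavity_crude hB (P.ker R (Fin (N + 1)) a H) spin
            (adm_grid (R := R) (s := 0) (by omega)) r1 r2
          have b1 : rate1 α p N ≤ α * p + 1 := by
            have := (abs_le.1 h1.2).2
            linarith
          have b2 : rate2 α p N ≤ α * p + 1 := by
            have := (abs_le.1 h2.2).2
            nlinarith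
          have b3 : B * (rate1 α p N + rate2 α p N + 1) ≤ B * ((α * p + 1) + (α * p + 1) + 1) :=
            mul_le_mul_of_nonneg_left (by linarith) hB0
          have := (abs_le.1 hc).1
          have := le_abs_self I
          rw [hC]
          linarith
      refine le_trans ?_ (expect_le_expect fun a _ => pt a)
      rw [expect_sub_distrib, ← mul_expect, expect_const univ_nonempty]
      have h4 := hP (Fin (N + 1)) H
      have h5 : C * (η / 8 / C) = η / 8 := by field_simp
      have h6 := mul_le_mul_of_nonneg_left h4 hC0.le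
      linarith
    linarith
  have tel := low_telescope step
  set J : ℝ := I - Real.log 2 - η / 2 with hJ
  set K : ℝ := M.Abar R P α N₀ - (N₀ + 1) * J - Fintype.card P.J with hK
  have ev4 : ∀ᶠ N : ℕ in atTop, -(η / 2) ≤ K / ((N : ℝ) + 1) :=
    (low_tendsto K).eventually (le_mem_nhds (by linarith))
  have fin : ∀ᶠ N : ℕ in atTop, I - η ≤ M.pres α (N + 1) := by
    filter_upwards [ev4, eventually_ge_atTop N₀] with N h4 hN
    have h1 := tel N hN
    have h2 := M.Abar_le R P hα N
    have hN1 : (0 : ℝ) < N + 1 := by positivity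
    rw [le_div_iff₀ hN1] at h4
    have h3 : ((N : ℝ) + 1) * (I - η) ≤ (N + 1) * M.pres α (N + 1) := by
      rw [hK, hJ] at h4
      rw [hJ] at h1
      nlinarith
    exact le_of_mul_le_mul_left h3 hN1
  obtain ⟨N₁, hN₁⟩ := eventually_atTop.1 fin
  refine eventually_atTop.2 ⟨N₁ + 1, fun N hN => ?_⟩
  obtain ⟨n, rfl⟩ : ∃ n, N = n + 1 := ⟨N - 1, by omega⟩
  exact hN₁ n (by omega)

end Crest.Agent.R141
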