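import Crest.Agent.R141.PM

/-! Step functions (task R141 PM+StepApprox). -/

set_option autoImplicit false

namespace Crest.Agent.R141

open Finset Crest.ProbabilityR.Diluted MeasureTheory
open scoped BigOperators

theorem measurable_cell (a : ℕ) : Measurable (cell a) := by
  have h1 : Measurable fun x : unitInterval => ⌊(x : ℝ) * (a + 1)⌋₊ :=
    (measurable_subtype_coe.mul_const _).nat_floor
  exact (measurable_from_nat (f := fun n : ℕ =>
    (⟨min a n, Nat.lt_succ_of_le (min_le_left _ _)⟩ : Fin (a + 1)))).comp h1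

namespace StepApprox

/-- the point `k / (a + 1)` -/
noncomputable def pnt (a k : ℕ) (h : k ≤ a + 1) : unitInterval :=
  ⟨(k : ℝ) / (a + 1), by positivity, by
    rw [div_le_one (by positivity)]; exact_mod_cast h⟩

theorem cell_spec (a : ℕ) (x : unitInterval) :
    ((cell a x : ℕ) : ℝ) / (a + 1) ≤ x ∧ (x : ℝ) ≤ ((cell a x : ℕ) + 1) / (a + 1) := by
  have ha : (0 : ℝ) < a + 1 := by positivity
  have h0 : 0 ≤ (x : ℝ) * (a + 1) := mul_nonneg x.2.1 ha.le
  have h1 := Nat.floor_le h0
  have h2 := Nat.lt_floor_add_one ((x : ℝ) * (a + 1))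
  have h3 : (x : ℝ) * (a + 1) ≤ a + 1 := by nlinarith [x.2.2]
  rw [div_le_iff₀ ha, le_div_iff₀ ha]
  simp only [cell]
  rcases le_total a ⌊(x : ℝ) * (a + 1)⌋₊ with h | h
  · rw [min_eq_left h]
    have : (a : ℝ) ≤ ⌊(x : ℝ) * (a + 1)⌋₊ := by exact_mod_cast h
    constructor <;> linarith
  · rw [min_eq_right h]
    constructor <;> linarith

theorem volume_cell (a : ℕ) (k : Fin (a + 1)) :
    volume (cell a ⁻¹' {k}) = (Fintype.card (Fin (a + 1)) : ENNReal)⁻¹ := by
  have ha : (0 : ℝ) < a + 1 := by positivity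
  have e : ENNReal.ofReal ((pnt a (k + 1) k.2 : ℝ) - pnt a k k.2.le) =
      (Fintype.card (Fin (a + 1)) : ENNReal)⁻¹ := by
    have : (pnt a (k + 1) k.2 : ℝ) - pnt a k k.2.le = ((a + 1 : ℕ) : ℝ)⁻¹ := by
      simp only [pnt]; push_cast; field_simp; ring
    rw [this, ENNReal.ofReal_inv_of_pos (by positivity), ENNReal.ofReal_natCast, Fintype.card_fin]
  apply le_antisymm
  · rw [← e, ← unitInterval.volume_Icc]
    refine measure_mono fun x hx => ?_
    have hx' : cell a x = k := hx
    have := cell_spec a x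
    rw [hx'] at this
    constructor
    · exact this.1
    · show (x : ℝ) ≤ ((k + 1 : ℕ) : ℝ) / (a + 1)
      push_cast
      exact this.2
  · rw [← e, ← unitInterval.volume_Ico]
    refine measure_mono fun x hx => ?_
    have h1 : (k : ℝ) / (a + 1) ≤ x := hx.1
    have h2 : (x : ℝ) < ((k + 1 : ℕ) : ℝ) / (a + 1) := hx.2
    rw [div_le_iff₀ ha] at h1
    rw [lt_div_iff₀ ha] at h2
    push_cast at h2
    have h3 : ⌊(x : ℝ) * (a + 1)⌋₊ = k :=
      (Nat.floor_eq_iff (mul_nonneg x.2.1 ha.le)).2 ⟨h1, h2⟩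
    show cell a x = k
    ext
    simp only [cell, h3]
    exact min_eq_right (Nat.le_of_lt_succ k.2)

/-- `c` maps `μ` to the uniform law -/
def Unif {X A : Type} [MeasurableSpace X] [MeasurableSpace A] [Fintype A] (μ : Measure X)
    (c : X → A) : Prop :=
  Measurable c ∧ ∀ k, μ (c ⁻¹' {k}) = (Fintype.card A : ENNReal)⁻¹

theorem unif_cell (a : ℕ) : Unif volume (cell a) := ⟨measurable_cell a, volume_cell a⟩

theorem Unif.pi {X A : Type} [MeasurableSpace X] [MeasurableSpace A] [Fintype A] [Nonempty A]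
    {μ : Measure X} [SigmaFinite μ] {c : X → A} (h : Unif μ c) (ι : Type) [Fintype ι]
    [DecidableEq ι] : Unif (Measure.pi fun _ : ι => μ) fun v i => c (v i) := by
  refine ⟨measurable_pi_lambda _ fun i => h.1.comp (measurable_pi_apply i), fun k => ?_⟩
  have e : (fun (v : ι → X) i => c (v i)) ⁻¹' {k} = Set.univ.pi fun i => c ⁻¹' {k i} := by
    ext v
    simp [funext_iff]
  rw [e, Measure.pi_pi]
  simp only [h.2, Finset.prod_const, Finset.card_univ, Fintype.card_fun, Nat.cast_pow]
  rw [ENNReal.inv_pow]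

theorem Unif.integral {X A : Type} [MeasurableSpace X] [MeasurableSpace A] [Fintype A]
    [MeasurableSingletonClass A] {μ : Measure X} [IsFiniteMeasure μ] {c : X → A} (h : Unif μ c)
    (F : A → ℝ) : ∫ x, F (c x) ∂μ = 𝔼 k, F k := by
  rw [← integral_map h.1.aemeasurable (measurable_of_finite F).aestronglyMeasurable,
    integral_fintype Integrable.of_finite, Fintype.expect_eq_sum_div_card, Finset.sum_div]
  refine Finset.sum_congr rfl fun k _ => ?_
  rw [Measure.real, Measure.map_apply h.1 (measurableSet_singleton k), h.2, ENNReal.toReal_inv,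
    ENNReal.toReal_natCast, smul_eq_mul, div_eq_inv_mul]

end StepApprox

/-- every cell has measure `1/(a+1)`; so `cell a` is measure preserving onto the uniform measure,
`measurePreserving_pi`, and the integral over a finite type is a sum (`integral_fintype`,
`Measure.pi_singleton`/`Measure.pi_pi`) -/
theorem integral_cell {ι : Type} [Fintype ι] [DecidableEq ι] (a : ℕ) (F : (ι → Fin (a + 1)) → ℝ) :
    ∫ v : ι → unitInterval, F (fun i => cell a (v i))
      ∂(Measure.pi fun _ : ι => (volume : Measure unitInterval)) = 𝔼 v, F v := by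
  exact ((StepApprox.unif_cell a).pi ι).integral F

/-- `powerMeans m (W ∘ cells) = fpms m W ∘ cells` by induction on the list (`integral_cell`), and
the same computation for `uniformArrays` -/
theorem MV_cell {L : Type} [Fintype L] [DecidableEq L] {r : ℕ} (m : Fin r → ℝ) (a : ℕ)
    (π : (Fin (r + 1) → Fin (a + 1)) → ℝ) (W : (L → Bool) → ℝ) :
    MV m (fun u => π fun j => cell a (u j)) W = UV m π W := by
  have key : ∀ (G : (L → Fin (r + 1) → Fin (a + 1)) → ℝ) (l : List (Fin r))
      (u : L → Fin (r + 1) → unitInterval),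
      PM.pms m l (fun u => G fun ω j => cell a (u ω j)) u =
        l.foldr (fun d acc => fpm (m d) d.succ acc) G fun ω j => cell a (u ω j) := by
    intro G l
    induction l with
    | nil => intro u; rfl
    | cons d l ih =>
      intro u
      rw [PM.pms_cons, PM.pmStep_eq, List.foldr_cons, fpm, ← integral_cell]
      congr 2
      funext v
      rw [ih]
      refine congrArg (fun w => List.foldr (fun d acc => fpm (m d) d.succ acc) G l w ^ m d) ?_
      funext ω j
      simp only [PM.rs]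
      split_ifs <;> rfl
  unfold MV UV
  rw [← (((StepApprox.unif_cell a).pi (Fin (r + 1))).pi L).integral]
  refine integral_congr_ae (Filter.Eventually.of_forall fun u => ?_)
  exact congrArg Real.log (key (fun u' => mixW W fun l => π (u' l)) _ u)

theorem FM.MP_cell {p : ℕ} (M : FM p) (α : ℝ) {r : ℕ} (m : Fin r → ℝ) (a : ℕ)
    (π : (Fin (r + 1) → Fin (a + 1)) → ℝ) :
    M.MP α m (fun u => π fun j => cell a (u j)) = M.UP α m π := by
  simp only [FM.MP, FM.UP, MV_cell]

/-- Approximate `π` in `L¹` by a bounded continuous function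
(`MeasureTheory.Integrable.exists_boundedContinuous_integral_sub_le`), clip it to `[0,1]`, use
uniform continuity on the compact cube and evaluate at the left end points of the cells. -/
theorem exists_step_approx {n : ℕ} {π : (Fin n → unitInterval) → ℝ} (hπ : Measurable π)
    (h01 : ∀ u, 0 ≤ π u ∧ π u ≤ 1) {δ : ℝ} (hδ : 0 < δ) :
    ∃ (a : ℕ) (π' : (Fin n → Fin (a + 1)) → ℝ), (∀ u, 0 ≤ π' u ∧ π' u ≤ 1) ∧
      ∫ u, |π u - π' fun j => cell a (u j)|
        ∂(Measure.pi fun _ : Fin n => (volume : Measure unitInterval)) ≤ δ := by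
  have hi : Integrable π (Measure.pi fun _ : Fin n => (volume : Measure unitInterval)) :=
    PM.integrable_of_mem hπ h01
  obtain ⟨g, hg, hgi⟩ := hi.exists_boundedContinuous_integral_sub_le (half_pos hδ)
  obtain ⟨ε, hε, hu⟩ := Metric.uniformContinuous_iff.1
    (CompactSpace.uniformContinuous_of_continuous g.continuous) _ (half_pos hδ)
  obtain ⟨a, ha⟩ := exists_nat_one_div_lt hε
  let pt : (Fin n → Fin (a + 1)) → Fin n → unitInterval := fun k j =>
    StepApprox.pnt a (k j) (k j).2.le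
  refine ⟨a, fun k => max 0 (min 1 (g (pt k))), fun k => ⟨le_max_left _ _,
    max_le zero_le_one (min_le_left _ _)⟩, ?_⟩
  have hd : ∀ u : Fin n → unitInterval, dist u (pt fun j => cell a (u j)) < ε := by
    intro u
    rw [dist_pi_lt_iff hε]
    intro j
    have h1 := StepApprox.cell_spec a (u j)
    rw [add_div] at h1
    rw [Subtype.dist_eq, Real.dist_eq]
    simp only [pt, StepApprox.pnt]
    rw [abs_lt]
    have : (0 : ℝ) < 1 / (a + 1) := by positivity
    constructor <;> linarith [h1.1, h1.2]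
  calc _ ≤ ∫ u, (‖π u - g u‖ + δ / 2)
        ∂(Measure.pi fun _ : Fin n => (volume : Measure unitInterval)) := by
        refine integral_mono_of_nonneg (Filter.Eventually.of_forall fun _ => abs_nonneg _)
          ((hi.sub hgi).norm.add (integrable_const _)) (Filter.Eventually.of_forall fun u => ?_)
        have h1 := hu (hd u)
        have h2 := h01 u
        rw [Real.dist_eq, abs_lt] at h1
        have h3 := le_abs_self (π u - g u)
        have h4 := neg_abs_le (π u - g u)
        simp only [Real.norm_eq_abs]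
        rw [abs_le]
        constructor
        · have : max 0 (min 1 (g (pt fun j => cell a (u j)))) ≤ π u + (|π u - g u| + δ / 2) :=
            max_le (by linarith [abs_nonneg (π u - g u)])
              ((min_le_right _ _).trans (by linarith))
          linarith
        · have : π u - (|π u - g u| + δ / 2) ≤ max 0 (min 1 (g (pt fun j => cell a (u j)))) :=
            le_max_of_le_right (le_min (by linarith [abs_nonneg (π u - g u)]) (by linarith))
          linarith
    _ ≤ δ := by
        rw [integral_add (f := fun u => ‖π u - g u‖) (hi.sub hgi).norm (integrable_const _)]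
        simp only [integral_const, probReal_univ, smul_eq_mul, one_mul]
        linarith

namespace StepApprox

variable {L : Type} [Fintype L] [DecidableEq L] {r : ℕ} {m : Fin r → ℝ}

theorem measurable_mixW {π : (Fin (r + 1) → unitInterval) → ℝ} (hπ : Measurable π)
    (W : (L → Bool) → ℝ) :
    Measurable fun u' : L → Fin (r + 1) → unitInterval => mixW W fun l => π (u' l) := by
  unfold mixW
  refine Finset.measurable_sum _ fun τ _ => Measurable.const_mul
    (Finset.measurable_prod _ fun l _ => ?_) _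
  have : Measurable fun u' : L → Fin (r + 1) → unitInterval => π (u' l) :=
    hπ.comp (measurable_pi_apply l)
  split_ifs
  · exact this
  · exact this.const_sub _

omit [Fintype L] [DecidableEq L] in
theorem exp_mem {W : (L → Bool) → ℝ} (hW : ∀ τ, 0 < W τ) {B : ℝ}
    (hB : ∀ τ, |Real.log (W τ)| ≤ B) (τ : L → Bool) : Real.exp (-B) ≤ W τ ∧ W τ ≤ Real.exp B :=
  ⟨(Real.le_log_iff_exp_le (hW τ)).1 (abs_le.1 (hB τ)).1,
    (Real.log_le_iff_le_exp (hW τ)).1 (abs_le.1 (hB τ)).2⟩

theorem log_pm_mem (hm : ∀ d, 0 < m d) {π : (Fin (r + 1) → unitInterval) → ℝ} (hπ : Measurable π)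
    (h01 : ∀ u, 0 ≤ π u ∧ π u ≤ 1) {W : (L → Bool) → ℝ} (hW : ∀ τ, 0 < W τ) {B : ℝ}
    (hB : ∀ τ, |Real.log (W τ)| ≤ B) (u : L → Fin (r + 1) → unitInterval) :
    -B ≤ Real.log (powerMeans m (fun u' => mixW W fun l => π (u' l)) u) ∧
      Real.log (powerMeans m (fun u' => mixW W fun l => π (u' l)) u) ≤ B :=
  PM.log_mem (powerMeans_mem hm (measurable_mixW hπ W) (Real.exp_pos _)
    (fun _ => mixW_mem (fun _ => h01 _) (exp_mem hW hB)) u)

theorem measurable_log_pm {π : (Fin (r + 1) → unitInterval) → ℝ} (hπ : Measurable π)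
    (W : (L → Bool) → ℝ) :
    Measurable fun u => Real.log (powerMeans m (fun u' => mixW W fun l => π (u' l)) u) :=
  (PM.measurable_pms (measurable_mixW hπ W) _).log

theorem abs_MV_le (hm : ∀ d, 0 < m d) {π : (Fin (r + 1) → unitInterval) → ℝ} (hπ : Measurable π)
    (h01 : ∀ u, 0 ≤ π u ∧ π u ≤ 1) {W : (L → Bool) → ℝ} (hW : ∀ τ, 0 < W τ) {B : ℝ}
    (hB : ∀ τ, |Real.log (W τ)| ≤ B) : |MV m π W| ≤ B :=
  abs_le.2 (PM.integral_mem (measurable_log_pm hπ W) (log_pm_mem hm hπ h01 hW hB))

theorem abs_MV_sub_le (hm : ∀ d, 0 < m d ∧ m d ≤ 1) {π π' : (Fin (r + 1) → unitInterval) → ℝ}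
    (hπ : Measurable π) (hπ' : Measurable π') (h01 : ∀ u, 0 ≤ π u ∧ π u ≤ 1)
    (h01' : ∀ u, 0 ≤ π' u ∧ π' u ≤ 1) {δ : ℝ}
    (hδ : ∫ u, |π u - π' u| ∂(Measure.pi fun _ : Fin (r + 1) => (volume : Measure unitInterval))
      ≤ δ) {W : (L → Bool) → ℝ} (hW : ∀ τ, 0 < W τ) {B : ℝ} (hB : ∀ τ, |Real.log (W τ)| ≤ B) :
    |MV m π W - MV m π' W| ≤ Real.exp (2 * B * (r + 1)) * Fintype.card L * δ := by
  have hm0 : ∀ d, 0 < m d := fun d => (hm d).1
  have b1 : ∀ u' : L → Fin (r + 1) → unitInterval, _ :=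
    fun u' => mixW_mem (π := fun l => π (u' l)) (fun _ => h01 _) (exp_mem hW hB)
  have b2 : ∀ u' : L → Fin (r + 1) → unitInterval, _ :=
    fun u' => mixW_mem (π := fun l => π' (u' l)) (fun _ => h01' _) (exp_mem hW hB)
  have h1 := integral_abs_log_powerMeans_sub_le hm (measurable_mixW hπ W) (measurable_mixW hπ' W)
    b1 b2
  have hD : Measurable fun u => |π u - π' u| := (hπ.sub hπ').abs
  have hDb : ∀ u, 0 ≤ |π u - π' u| ∧ |π u - π' u| ≤ 1 := fun u =>
    ⟨abs_nonneg _, abs_le.2 ⟨by linarith [h01 u, h01' u], by linarith [h01 u, h01' u]⟩⟩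
  have i1 : ∀ l : L, Integrable (fun u : L → Fin (r + 1) → unitInterval => |π (u l) - π' (u l)|)
      (uniformArrays L r) := fun l =>
    PM.integrable_of_mem (hD.comp (measurable_pi_apply l)) fun _ => hDb _
  have h2 : ∫ u, |Real.log (mixW W fun l => π (u l)) - Real.log (mixW W fun l => π' (u l))|
      ∂uniformArrays L r ≤ Real.exp (2 * B) * (Fintype.card L * δ) := by
    calc _ ≤ ∫ u, Real.exp (2 * B) * ∑ l, |π (u l) - π' (u l)| ∂uniformArrays L r := by
          refine integral_mono_of_nonneg (Filter.Eventually.of_forall fun _ => abs_nonneg _)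
            ((integrable_finsetSum _ fun l _ => i1 l).const_mul _)
            (Filter.Eventually.of_forall fun u => ?_)
          have k1 := PM.abs_log_sub_le (Real.exp_pos (-B)) (b1 u).1 (b2 u).1
          have k2 := abs_mixW_sub_le (W := W) (π := fun l => π (u l)) (π' := fun l => π' (u l))
            (fun _ => h01 _) (fun _ => h01' _) (b := Real.exp B)
            fun τ => ⟨(hW τ).le, (exp_mem hW hB τ).2⟩
          rw [Real.exp_neg, div_inv_eq_mul] at k1
          refine k1.trans ((mul_le_mul_of_nonneg_right k2 (Real.exp_pos _).le).trans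
            (le_of_eq ?_))
          rw [two_mul, Real.exp_add]
          ring
      _ ≤ _ := by
          rw [integral_const_mul, integral_finsetSum _ fun l _ => i1 l]
          refine mul_le_mul_of_nonneg_left ?_ (Real.exp_pos _).le
          have : ∀ l : L, ∫ u, |π (u l) - π' (u l)| ∂uniformArrays L r ≤ δ := fun l => by
            refine le_trans (le_of_eq ?_) hδ
            exact PM.integral_comp_mp (measurePreserving_eval
              (fun _ : L => Measure.pi fun _ : Fin (r + 1) => (volume : Measure unitInterval)) l) hD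
          simpa using Finset.sum_le_card_nsmul Finset.univ _ δ fun l _ => this l
  unfold MV
  rw [← integral_sub
    (PM.integrable_of_mem (measurable_log_pm hπ W) (log_pm_mem hm0 hπ h01 hW hB))
    (PM.integrable_of_mem (measurable_log_pm hπ' W) (log_pm_mem hm0 hπ' h01' hW hB))]
  refine abs_integral_le_integral_abs.trans (h1.trans
    ((mul_le_mul_of_nonneg_left h2 (Real.exp_pos _).le).trans (le_of_eq ?_)))
  rw [← mul_assoc, ← Real.exp_add, mul_add, mul_one]
  ring

theorem abs_MP_sub_le {p : ℕ} (M : FM p) {α : ℝ} (hα : 0 ≤ α) (hm : ∀ d, 0 < m d ∧ m d ≤ 1) :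
    ∃ K : ℝ, 0 ≤ K ∧ ∀ π π' : (Fin (r + 1) → unitInterval) → ℝ, Measurable π → Measurable π' →
      (∀ u, 0 ≤ π u ∧ π u ≤ 1) → (∀ u, 0 ≤ π' u ∧ π' u ≤ 1) → ∀ δ : ℝ,
      ∫ u, |π u - π' u| ∂(Measure.pi fun _ : Fin (r + 1) => (volume : Measure unitInterval)) ≤ δ →
      |M.MP α m π - M.MP α m π'| ≤ K * δ := by
  have hm0 : ∀ d, 0 < m d := fun d => (hm d).1
  obtain ⟨B, hB⟩ := M.exists_bd
  have hB0 := hB.1
  have hp : 0 ≤ α * p := by positivity
  set C : ℝ := p * Real.exp (2 * (B + 1) * (r + 1)) with hC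
  set x : ℝ := 2 * Real.exp (2 * B * (r + 1)) with hx
  refine ⟨C * Real.exp (α * p * (x - 1)) + |α * (p - 1 : ℝ)| * (Real.exp (2 * B * (r + 1)) * p),
    by positivity, fun π π' hπ hπ' h01 h01' δ hδ => ?_⟩
  have hδ0 : 0 ≤ δ := (integral_nonneg fun _ => abs_nonneg _).trans hδ
  have hs : ∀ π : (Fin (r + 1) → unitInterval) → ℝ, Measurable π → (∀ u, 0 ≤ π u ∧ π u ≤ 1) →
      Summable fun k : ℕ => poissonWeight (α * p) k *
        (M.pΘ.pi (Fin k)).E fun θ => M.pH.E fun h => MV m π (M.siteW h θ) := by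
    intro π hπ h01
    refine summable_poi hp (C := B + 1) fun k => PV.abs_E_le_of _ fun θ => PV.abs_E_le_of _ fun h =>
      (abs_MV_le hm0 hπ h01 (M.siteW_pos h θ) (M.abs_log_siteW_le hB h θ)).trans ?_
    have : (0 : ℝ) ≤ k := Nat.cast_nonneg k
    nlinarith
  have h1 : |(∑' k : ℕ, poissonWeight (α * p) k *
        (M.pΘ.pi (Fin k)).E fun θ => M.pH.E fun h => MV m π (M.siteW h θ)) -
      ∑' k : ℕ, poissonWeight (α * p) k *
        (M.pΘ.pi (Fin k)).E fun θ => M.pH.E fun h => MV m π' (M.siteW h θ)| ≤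
      C * Real.exp (α * p * (x - 1)) * δ := by
    rw [← (hs π hπ h01).tsum_sub (hs π' hπ' h01'), ← Real.norm_eq_abs]
    have hh := (hasSum_poi_pow (α * p) x).mul_left (C * δ)
    refine (tsum_of_norm_bounded hh fun k => ?_).trans (le_of_eq (by ring))
    rw [← mul_sub, Real.norm_eq_abs, abs_mul, abs_of_nonneg (poi_nonneg hp k)]
    have k1 : |((M.pΘ.pi (Fin k)).E fun θ => M.pH.E fun h => MV m π (M.siteW h θ)) -
        (M.pΘ.pi (Fin k)).E fun θ => M.pH.E fun h => MV m π' (M.siteW h θ)| ≤ C * δ * x ^ k := by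
      refine PV.abs_E_sub_le _ fun θ => PV.abs_E_sub_le _ fun h =>
        (abs_MV_sub_le hm hπ hπ' h01 h01' hδ (M.siteW_pos h θ) (M.abs_log_siteW_le hB h θ)).trans ?_
      have c1 : (Fintype.card (Fin k × Fin (p - 1)) : ℝ) ≤ p * 2 ^ k := by
        rw [Fintype.card_prod, Fintype.card_fin, Fintype.card_fin, mul_comm]
        exact_mod_cast Nat.mul_le_mul (Nat.sub_le p 1) Nat.lt_two_pow_self.le
      calc _ ≤ Real.exp (2 * (B * k + (B + 1)) * (r + 1)) * (p * 2 ^ k) * δ := by gcongr
        _ = _ := by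
          rw [hC, hx, mul_pow, ← Real.exp_nat_mul,
            show 2 * (B * k + (B + 1)) * (r + 1) = 2 * (B + 1) * (r + 1) + k * (2 * B * (r + 1)) by
              ring, Real.exp_add]
          ring
    calc _ ≤ poissonWeight (α * p) k * (C * δ * x ^ k) :=
          mul_le_mul_of_nonneg_left k1 (poi_nonneg hp k)
      _ = _ := by ring
  have h2 : |(M.pΘ.E fun θ => MV m π (M.w θ)) - M.pΘ.E fun θ => MV m π' (M.w θ)| ≤
      Real.exp (2 * B * (r + 1)) * p * δ :=
    PV.abs_E_sub_le _ fun θ => by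
      simpa using abs_MV_sub_le hm hπ hπ' h01 h01' hδ (M.w_pos θ) (hB.2.1 θ)
  have h3 := mul_le_mul_of_nonneg_left h2 (abs_nonneg (α * (p - 1 : ℝ)))
  rw [← abs_mul, mul_sub] at h3
  unfold FM.MP
  rw [abs_le] at h1 h3 ⊢
  constructor <;> linarith [h1.1, h1.2, h3.1, h3.2]

end StepApprox

/-- `|MV π W - MV π' W| ≤ e^{2Br} e^{2B} |L| ‖π - π'‖₁` (`integral_abs_log_powerMeans_sub_le`, `mixW_mem`,
`abs_mixW_sub_le`, `measurePreserving_eval`); sum against the Poisson weights as in `FM.realize` -/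
theorem FM.MP_approx {p : ℕ} (M : FM p) {α : ℝ} (hα : 0 ≤ α) {r : ℕ} {m : Fin r → ℝ}
    (hm : AdmissibleExponents m) {π : (Fin (r + 1) → unitInterval) → ℝ} (hπ : Measurable π)
    (h01 : ∀ u, 0 ≤ π u ∧ π u ≤ 1) {η : ℝ} (hη : 0 < η) :
    ∃ (a : ℕ) (π' : (Fin (r + 1) → Fin (a + 1)) → ℝ), (∀ u, 0 ≤ π' u ∧ π' u ≤ 1) ∧
      |M.MP α m π - M.UP α m π'| ≤ η := by
  obtain ⟨K, hK, h⟩ := StepApprox.abs_MP_sub_le M hα (m := m)
    fun d => ⟨(hm.2 d).1, (hm.2 d).2.le⟩
  obtain ⟨a, π', h1, h2⟩ := exists_step_approx hπ h01 (δ := η / (K + 1)) (by positivity)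
  refine ⟨a, π', h1, ?_⟩
  rw [← M.MP_cell]
  refine (h π (fun u => π' fun j => cell a (u j)) hπ ((measurable_of_finite π').comp
    ((StepApprox.unif_cell a).pi (Fin (r + 1))).1) h01 (fun _ => h1 _) _ h2).trans ?_
  rw [← mul_div_assoc, div_le_iff₀ (by positivity)]
  nlinarith

end Crest.Agent.R141
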