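import Crest.Agent.R141.UStep
import Crest.Agent.R141.Ass

/-! The ends of the interpolation and the upper bound (task R141 Upper). -/

set_option autoImplicit false

namespace Crest.Agent.R141

open Finset Crest.ProbabilityR.Diluted
open scoped BigOperators

/-- binomial weights sum to one -/
theorem up_binom_one (q : ℝ) (n : ℕ) :
    ∑ j ∈ range (n + 1), (n.choose j : ℝ) * q ^ j * (1 - q) ^ (n - j) = 1 := by
  have h := add_pow q (1 - q) n
  rw [add_sub_cancel, one_pow] at h
  exact Eq.trans (sum_congr rfl fun j _ => by ring) h.symm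

theorem up_abs_binom_le {q : ℝ} (h0 : 0 ≤ q) (h1 : q ≤ 1) {f : ℕ → ℕ → ℝ} {C : ℝ}
    (hf : ∀ j k, |f j k| ≤ C * (j + k + 1)) (n : ℕ) :
    |∑ j ∈ range (n + 1), (n.choose j : ℝ) * q ^ j * (1 - q) ^ (n - j) * f j (n - j)| ≤
      C * (n + 1) := by
  have h2 : 0 ≤ 1 - q := by linarith
  refine (abs_sum_le_sum_abs _ _).trans ?_
  calc _ ≤ ∑ j ∈ range (n + 1), (n.choose j : ℝ) * q ^ j * (1 - q) ^ (n - j) * (C * (n + 1)) := by
        refine sum_le_sum fun j hj => ?_
        have hj' : j ≤ n := Nat.lt_succ_iff.1 (mem_range.1 hj)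
        have hw : 0 ≤ (n.choose j : ℝ) * q ^ j * (1 - q) ^ (n - j) := by positivity
        rw [abs_mul, abs_of_nonneg hw]
        refine mul_le_mul_of_nonneg_left ?_ hw
        have := hf j (n - j)
        rwa [Nat.cast_sub hj', add_sub_cancel] at this
    _ = C * (n + 1) := by rw [← sum_mul, up_binom_one, one_mul]

/-- sums over subsets of functions of the cardinality -/
theorem up_sum_powerset (K : ℕ) (q : ℝ) (f : ℕ → ℝ) :
    ∑ S ∈ (univ : Finset (Fin K)).powerset, q ^ S.card * (1 - q) ^ (K - S.card) * f S.card =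
      ∑ j ∈ range (K + 1), (K.choose j : ℝ) * q ^ j * (1 - q) ^ (K - j) * f j := by
  rw [sum_powerset_apply_card (fun j => q ^ j * (1 - q) ^ (K - j) * f j)]
  simp only [card_univ, Fintype.card_fin, nsmul_eq_mul]
  exact sum_congr rfl fun j _ => by ring

/-- the number of successes is binomial -/
theorem up_binom_law {α : Type} [Fintype α] (pv : PV α) (P : α → Prop) [DecidablePred P] {q : ℝ}
    (hq : pv.E (fun a => if P a then 1 else 0) = q) (K : ℕ) (f : ℕ → ℝ) :
    (pv.pi (Fin K)).E (fun θ => f (univ.filter fun j => P (θ j)).card) =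
      ∑ j ∈ range (K + 1), (K.choose j : ℝ) * q ^ j * (1 - q) ^ (K - j) * f j := by
  classical
  have key : ∀ θ : Fin K → α, f (univ.filter fun j => P (θ j)).card =
      ∑ S ∈ (univ : Finset (Fin K)).powerset, f S.card *
        ∏ j, (if j ∈ S then (if P (θ j) then (1 : ℝ) else 0) else 1 - (if P (θ j) then 1 else 0)) := by
    intro θ
    rw [sum_eq_single (univ.filter fun j => P (θ j))]
    · rw [prod_eq_one, mul_one]
      intro j _
      by_cases h : P (θ j) <;> simp [h]
    · intro S _ hS
      have : ∃ j, ¬ (j ∈ S ↔ P (θ j)) := by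
        by_contra hc
        push Not at hc
        apply hS
        ext j
        simp [hc j]
      obtain ⟨j, hj⟩ := this
      rw [prod_eq_zero (mem_univ j), mul_zero]
      by_cases h1 : j ∈ S <;> by_cases h2 : P (θ j) <;> simp_all
    · intro h
      exact absurd (mem_powerset.2 (subset_univ _)) h
  simp only [key]
  rw [PV.E_sum, ← up_sum_powerset]
  refine sum_congr rfl fun S _ => ?_
  rw [PV.E_mul_left, PV.E_pi_prod pv
    (fun j a => if j ∈ S then (if P a then (1 : ℝ) else 0) else 1 - (if P a then 1 else 0))]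
  have h1 : ∀ j : Fin K, pv.E (fun a => if j ∈ S then (if P a then (1 : ℝ) else 0) else
      1 - (if P a then 1 else 0)) = if j ∈ S then q else 1 - q := by
    intro j
    by_cases h : j ∈ S
    · simp only [h, if_true, hq]
    · simp only [h, if_false]
      rw [PV.E_sub, PV.E_const, hq]
  simp only [h1]
  rw [prod_ite, prod_const, prod_const]
  have e1 : (univ.filter fun j => j ∈ S) = S := by ext; simp
  have e2 : (univ.filter fun j => j ∉ S) = Sᶜ := by ext; simp
  rw [e1, e2, card_compl, Fintype.card_fin]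
  ring

/-- iterate a one step inequality -/
theorem up_iter {ι : Type} [DecidableEq ι] (Φ : (ι → Fin 3) → ℝ) {q : ℝ} (h0 : 0 ≤ q) (h1 : q ≤ 1)
    (hΦ : ∀ kd j, q * Φ (Function.update kd j 1) + (1 - q) * Φ (Function.update kd j 2) ≤
      Φ (Function.update kd j 0)) (S : Finset ι) : ∀ kd : ι → Fin 3,
    ∑ T ∈ S.powerset, q ^ T.card * (1 - q) ^ (S.card - T.card) *
      Φ (fun j => if j ∈ S then (if j ∈ T then 1 else 2) else kd j) ≤
      Φ (fun j => if j ∈ S then 0 else kd j) := by
  induction S using Finset.induction_on with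
  | empty => intro kd; simp
  | insert a S ha ih =>
    intro kd
    have h2 : 0 ≤ 1 - q := by linarith
    rw [sum_powerset_insert ha, card_insert_of_notMem ha]
    have e1 : ∀ T ∈ S.powerset, q ^ T.card * (1 - q) ^ (S.card + 1 - T.card) *
        Φ (fun j => if j ∈ insert a S then (if j ∈ T then 1 else 2) else kd j) =
        (1 - q) * (q ^ T.card * (1 - q) ^ (S.card - T.card) *
          Φ (fun j => if j ∈ S then (if j ∈ T then 1 else 2) else Function.update kd a 2 j)) := by
      intro T hT
      have hTS := mem_powerset.1 hT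
      have hc : T.card ≤ S.card := card_le_card hTS
      have haT : a ∉ T := fun h => ha (hTS h)
      have : (fun j => if j ∈ insert a S then (if j ∈ T then (1 : Fin 3) else 2) else kd j) =
          fun j => if j ∈ S then (if j ∈ T then 1 else 2) else Function.update kd a 2 j := by
        funext j
        by_cases hj : j = a
        · subst hj; simp [ha, haT]
        · simp [hj]
      rw [this, Nat.sub_add_comm hc, pow_succ]
      ring
    have e2 : ∀ T ∈ S.powerset, q ^ (insert a T).card * (1 - q) ^ (S.card + 1 - (insert a T).card) *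
        Φ (fun j => if j ∈ insert a S then (if j ∈ insert a T then 1 else 2) else kd j) =
        q * (q ^ T.card * (1 - q) ^ (S.card - T.card) *
          Φ (fun j => if j ∈ S then (if j ∈ T then 1 else 2) else Function.update kd a 1 j)) := by
      intro T hT
      have hTS := mem_powerset.1 hT
      have haT : a ∉ T := fun h => ha (hTS h)
      have : (fun j => if j ∈ insert a S then (if j ∈ insert a T then (1 : Fin 3) else 2) else kd j) =
          fun j => if j ∈ S then (if j ∈ T then 1 else 2) else Function.update kd a 1 j := by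
        funext j
        by_cases hj : j = a
        · subst hj; simp [ha]
        · simp [hj]
      rw [this, card_insert_of_notMem haT, Nat.add_sub_add_right, pow_succ]
      ring
    rw [sum_congr rfl e1, sum_congr rfl e2, ← mul_sum, ← mul_sum]
    have a1 := mul_le_mul_of_nonneg_left (ih (Function.update kd a 1)) h0
    have a2 := mul_le_mul_of_nonneg_left (ih (Function.update kd a 2)) h2
    have a3 := hΦ (fun j => if j ∈ S then 0 else kd j) a
    have hu : ∀ k : Fin 3, Function.update (fun j => if j ∈ S then (0 : Fin 3) else kd j) a k =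
        fun j => if j ∈ S then 0 else Function.update kd a k j := by
      intro k
      funext j
      by_cases hj : j = a
      · subst hj; simp [ha]
      · simp [hj]
    have hu0 : Function.update (fun j => if j ∈ S then (0 : Fin 3) else kd j) a 0 =
        fun j => if j ∈ insert a S then 0 else kd j := by
      funext j
      by_cases hj : j = a
      · subst hj; simp
      · simp [hj]
    rw [hu 1, hu 2, hu0] at a3
    linarith

theorem up_expect_comp {ι ι' α : Type} [Fintype ι] [DecidableEq ι] [Fintype ι'] [DecidableEq ι']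
    [Fintype α] [Nonempty α] (e : ι' → ι) (he : Function.Injective e) (F : (ι' → α) → ℝ) :
    𝔼 θ : ι → α, F (fun i => θ (e i)) = 𝔼 θ, F θ := by
  rw [← PV.unif_pi_E, ← PV.unif_pi_E, PV.E_pi_comp _ e he]

theorem up_log_expect (n : ℕ) (g : (Fin n → Bool) → ℝ) :
    Real.log (𝔼 σ, Real.exp (g σ)) = Real.log (∑ σ, Real.exp (g σ)) - n * Real.log 2 := by
  have hp : 0 < ∑ σ, Real.exp (g σ) := sum_pos (fun _ _ => Real.exp_pos _) univ_nonempty
  rw [Fintype.expect_eq_sum_div_card, Real.log_div hp.ne' (by positivity)]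
  simp

namespace FM
variable {p : ℕ} (M : FM p)

section dis
variable {V : Type} [Fintype V] [DecidableEq V] [Nonempty V]

omit [Nonempty V] in
theorem up_Dis_add {K : ℕ} (F G : (Fin K → M.Θ) → (Fin K → Fin p → V) → (V → M.H) → ℝ) :
    M.Dis V K (fun θ idx h => F θ idx h + G θ idx h) = M.Dis V K F + M.Dis V K G := by
  unfold Dis
  simp only [PV.E_add, expect_add_distrib]

theorem up_Dis_theta {K : ℕ} (F : (Fin K → M.Θ) → ℝ) :
    M.Dis V K (fun θ _ _ => F θ) = (M.pΘ.pi (Fin K)).E F := by
  unfold Dis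
  simp only [PV.E_const, Fintype.expect_const]

theorem up_Dis_comp {K k : ℕ} (e : Fin k → Fin K) (he : Function.Injective e)
    (F : (Fin k → M.Θ) → (Fin k → Fin p → V) → (V → M.H) → ℝ) :
    M.Dis V K (fun θ idx h => F (fun j => θ (e j)) (fun j => idx (e j)) h) = M.Dis V k F := by
  unfold Dis
  rw [← PV.E_pi_comp _ e he]
  congr 1
  funext θ
  exact up_expect_comp e he fun idx => (M.pH.pi V).E fun h => F (fun j => θ (e j)) idx h

end dis

/-- the labels of the edge clauses -/
theorem up_edge_part (t : Trial) {K : ℕ} (S : Finset (Fin K)) (θ : Fin K → M.Θ) :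
    𝔼 v : Fin K × Fin p → t.V, Fr (Ker.pi fun l => t.κ (v l)) t.m t.s
      (fun y => ∑ j ∈ S, Real.log (M.w (θ j) fun l => t.σ (v (j, l)) (comp y (j, l))))
      (fun i l => t.x (v l) i) = ∑ j ∈ S, t.TV (M.w (θ j)) := by
  have key : ∀ v : Fin K × Fin p → t.V, Fr (Ker.pi fun l => t.κ (v l)) t.m t.s
      (fun y => ∑ j ∈ S, Real.log (M.w (θ j) fun l => t.σ (v (j, l)) (comp y (j, l))))
      (fun i l => t.x (v l) i) = ∑ j ∈ S, Fr (Ker.pi fun l => t.κ (v (j, l))) t.m t.s
        (fun y => Real.log (M.w (θ j) fun l => t.σ (v (j, l)) (comp y l)))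
        (fun i l => t.x (v (j, l)) i) := by
    intro v
    rw [Fr_pi_blocks (fun l => t.κ (v l)) Prod.fst S
      (fun j y => Real.log (M.w (θ j) fun l => t.σ (v (j, l)) (comp y (j, l))))]
    · refine sum_congr rfl fun j _ => ?_
      exact (sim_pi_comp (fun l => t.κ (v l)) (fun l : Fin p => (j, l))
        (fun a b h => (Prod.ext_iff.1 h).2) t.s).Fr le_rfl
        (fun y => Real.log (M.w (θ j) fun l => t.σ (v (j, l)) (comp y l))) _
    · intro j y y' h
      congr 2
      funext l
      rw [h (j, l) rfl]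
  simp only [key]
  rw [expect_sum_comm]
  refine sum_congr rfl fun j _ => ?_
  exact up_expect_comp (fun l : Fin p => (j, l)) (fun a b h => (Prod.ext_iff.1 h).2)
    fun v : Fin p → t.V => Fr (Ker.pi fun l => t.κ (v l)) t.m t.s
      (fun y => Real.log (M.w (θ j) fun l => t.σ (v l) (comp y l))) fun i l => t.x (v l) i

/-- No cavity clause: the Hamiltonian is a function of the spins plus a function of the labels
(`Fr_prod_add`).  Spins: `Fr_unif_last`, `log 𝔼 = log Σ - (N+1) log 2`, and the marginal law of the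
internal clauses (`PV.E_pi_comp` along `Finset.orderEmbOfFin` or `Finset.equivFin`).  Labels:
`sim_pi_curry`, `Fr_pi_sum` (terms of internal clauses are `0`, `Fr_zero_fun`), `PV.E_pi_eval`. -/
theorem Phi_mix (t : Trial) (N : ℕ) {K : ℕ} (kd : Fin K → Fin 3) (h : ∀ j, kd j ≠ 0) :
    M.Phi t N kd = M.FZ (N + 1) (univ.filter fun j => kd j = 1).card - (N + 1) * Real.log 2 +
      (univ.filter fun j => kd j = 2).card * M.edgeV t := by
  set S1 := univ.filter fun j => kd j = 1 with hS1
  set S2 := univ.filter fun j => kd j = 2 with hS2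
  let e : Fin S1.card → Fin K := S1.orderEmbOfFin rfl
  have he : Function.Injective e := (S1.orderEmbOfFin rfl).injective
  have hsum : ∀ f : Fin K → ℝ, ∑ j ∈ S1, f j = ∑ a, f (e a) := by
    intro f
    rw [← sum_image (s := univ) (g := e) (fun a _ b _ hab => he hab)]
    congr 1
    exact (S1.image_orderEmbOfFin_univ rfl).symm
  have key : ∀ (θ : Fin K → M.Θ) (idx : Fin K → Fin p → Fin (N + 1)) (hh : Fin (N + 1) → M.H),
      (𝔼 v : Fin K × Fin p → t.V,
    Fr ((Ker.unif t.R (Fin (N + 1) → Bool)).prod (Ker.pi fun l => t.κ (v l))) t.m t.s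
      (fun y =>
        ∑ j, Real.log (M.w (θ j) fun l =>
          if useSpin p (kd j) l then (y ⟨t.R - 1, by have := t.adm.lt; omega⟩).1 (idx j l)
          else t.σ (v (j, l)) (comp (pmap Prod.snd y) (j, l))) +
        ∑ i, M.hv (hh i) * spinVal ((y ⟨t.R - 1, by have := t.adm.lt; omega⟩).1 i))
      fun i => (fun _ => true, fun l => t.x (v l) i)) =
      Real.log (∑ σ : Fin (N + 1) → Bool,
        Real.exp (M.Ham (fun a => θ (e a)) (fun a => idx (e a)) hh σ)) +
        (- ((N + 1) * Real.log 2) + ∑ j ∈ S2, t.TV (M.w (θ j))) := by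
    intro θ idx hh
    rw [← M.up_edge_part t S2 θ, ← add_assoc, ← Fintype.expect_const (ι := Fin K × Fin p → t.V)
      (_ + - _), ← expect_add_distrib]
    refine expect_congr rfl fun v _ => ?_
    have hR : t.R - 1 < t.R := by have := t.adm.lt; omega
    have h1 := Fr_prod_add (m := t.m) (Ker.unif t.R (Fin (N + 1) → Bool))
      (Ker.pi fun l => t.κ (v l)) t.s
      (fun y => M.Ham (fun a => θ (e a)) (fun a => idx (e a)) hh (y ⟨t.R - 1, hR⟩))
      (fun y => ∑ j ∈ S2, Real.log (M.w (θ j) fun l => t.σ (v (j, l)) (comp y (j, l))))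
      fun i => (fun _ => true, fun l => t.x (v l) i)
    rw [Fr_unif_last t.adm ⟨t.R - 1, hR⟩ rfl, up_log_expect] at h1
    refine Eq.trans ?_ (h1.trans ?_)
    · congr 1
      funext y
      unfold Ham
      rw [← hsum fun j => Real.log (M.w (θ j) fun l => pmap Prod.fst y ⟨t.R - 1, hR⟩ (idx j l)),
        add_right_comm]
      congr 1
      rw [hS1, hS2, sum_filter, sum_filter, ← sum_add_distrib]
      refine sum_congr rfl fun j _ => ?_
      have hj := h j
      have : kd j = 1 ∨ kd j = 2 := by
        revert hj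
        generalize kd j = k
        decide +revert
      rcases this with h1 | h1
      · simp [useSpin, h1, pmap]
      · simp [useSpin, h1]
    · push_cast
      rfl
  unfold Phi
  simp only [key]
  rw [up_Dis_add, M.up_Dis_comp e he fun θ idx hh => Real.log (∑ σ : Fin (N + 1) → Bool,
    Real.exp (M.Ham θ idx hh σ)), up_Dis_theta, PV.E_add, PV.E_const, PV.E_sum]
  have : ∀ j ∈ S2, (M.pΘ.pi (Fin K)).E (fun θ => t.TV (M.w (θ j))) = M.edgeV t := fun j _ =>
    PV.E_pi_eval _ j fun θ => t.TV (M.w θ)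
  rw [sum_congr rfl this, sum_const, nsmul_eq_mul]
  unfold FZ
  ring

/-- the weight of the site `i` and of the clauses `j ∈ S` attached to it -/
noncomputable def upSW {K : ℕ} (S : Finset (Fin K)) (h : M.H) (θ : Fin K → M.Θ)
    (τ : Fin K × Fin p → Bool) : ℝ :=
  ∑ ε : Bool, M.hw h ε * ∏ j ∈ S, M.w (θ j) fun l => if l.val < p - 1 then τ (j, l) else ε

theorem upSW_pos {K : ℕ} (S : Finset (Fin K)) (h : M.H) (θ : Fin K → M.Θ)
    (τ : Fin K × Fin p → Bool) : 0 < M.upSW S h θ τ :=
  sum_pos (fun _ _ => mul_pos (M.hw_pos _ _) (prod_pos fun _ _ => M.w_pos _ _)) univ_nonempty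

theorem up_TV_comp (t : Trial) {L L' : Type} [Fintype L] [DecidableEq L] [Fintype L']
    [DecidableEq L'] (e : L' → L) (he : Function.Injective e) (W : (L' → Bool) → ℝ) :
    t.TV (fun τ : L → Bool => W fun l => τ (e l)) = t.TV W := by
  unfold Trial.TV
  rw [← up_expect_comp e he]
  refine expect_congr rfl fun v _ => ?_
  exact (sim_pi_comp (fun l => t.κ (v l)) e he t.s).Fr le_rfl
    (fun y => Real.log (W fun l => t.σ (v (e l)) (comp y l))) _

theorem up_site_part (t : Trial) {K : ℕ} (S : Finset (Fin K)) :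
    ((M.pΘ.pi (Fin K)).E fun θ => M.pH.E fun h => t.TV (M.upSW S h θ)) = M.siteV t S.card := by
  let e : Fin S.card → Fin K := S.orderEmbOfFin rfl
  have he : Function.Injective e := (S.orderEmbOfFin rfl).injective
  have hprod : ∀ f : Fin K → ℝ, ∏ j ∈ S, f j = ∏ a, f (e a) := by
    intro f
    rw [← prod_image (s := univ) (g := e) (fun a _ b _ hab => he hab)]
    congr 1
    exact (S.image_orderEmbOfFin_univ rfl).symm
  let e' : Fin S.card × Fin (p - 1) → Fin K × Fin p :=
    fun a => (e a.1, Fin.castLE (Nat.sub_le p 1) a.2)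
  have he' : Function.Injective e' := by
    intro a b hab
    have := Prod.ext_iff.1 hab
    exact Prod.ext (he this.1) (Fin.castLE_injective (Nat.sub_le p 1) this.2)
  unfold siteV
  rw [← PV.E_pi_comp _ e he]
  congr 1
  funext θ
  congr 1
  funext h
  rw [← up_TV_comp t e' he']
  congr 1
  funext τ
  unfold upSW siteW
  refine sum_congr rfl fun ε _ => ?_
  rw [hprod]
  refine congrArg _ (prod_congr rfl fun a _ => congrArg _ ?_)
  funext l
  by_cases hl : l.val < p - 1
  · rw [if_pos hl, dif_pos hl]; rfl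
  · rw [if_neg hl, dif_neg hl]

/-- integrating the spins -/
theorem up_spin_int {V : Type} [Fintype V] [DecidableEq V] {K : ℕ} (θ : Fin K → M.Θ)
    (c : Fin K → V) (h : V → M.H) (τ : Fin K × Fin p → Bool) :
    Real.log (𝔼 σ : V → Bool, Real.exp (∑ j, Real.log (M.w (θ j) fun l =>
        if l.val < p - 1 then τ (j, l) else σ (c j)) + ∑ i, M.hv (h i) * spinVal (σ i))) =
      - (Fintype.card V * Real.log 2) +
        ∑ i, Real.log (M.upSW (univ.filter fun j => c j = i) (h i) θ τ) := by
  have h1 : ∀ σ : V → Bool, Real.exp (∑ j, Real.log (M.w (θ j) fun l =>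
        if l.val < p - 1 then τ (j, l) else σ (c j)) + ∑ i, M.hv (h i) * spinVal (σ i)) =
      ∏ i, (M.hw (h i) (σ i) * ∏ j ∈ univ.filter fun j => c j = i,
        M.w (θ j) fun l => if l.val < p - 1 then τ (j, l) else σ i) := by
    intro σ
    rw [Real.exp_add, Real.exp_sum, Real.exp_sum, prod_mul_distrib, mul_comm]
    congr 1
    simp only [Real.exp_log (M.w_pos _ _)]
    rw [← prod_fiberwise (s := univ) (g := c)]
    refine prod_congr rfl fun i _ => prod_congr rfl fun j hj => ?_
    rw [(mem_filter.1 hj).2]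
  simp only [h1]
  rw [Fintype.expect_eq_sum_div_card, ← Fintype.prod_sum (fun i ε => M.hw (h i) ε *
    ∏ j ∈ univ.filter fun j => c j = i, M.w (θ j) fun l => if l.val < p - 1 then τ (j, l) else ε)]
  have hp := fun i => M.upSW_pos (univ.filter fun j => c j = i) (h i) θ τ
  change Real.log ((∏ i, M.upSW (univ.filter fun j => c j = i) (h i) θ τ) / _) = _
  rw [Real.log_div (prod_pos fun i _ => hp i).ne' (by positivity),
    Real.log_prod fun i _ => (hp i).ne']
  simp
  ring

/-- All clauses are cavity clauses.  Fix the data; let `c j = idx j (last position)`.  Integrate the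
spins (`sim_swap`, `Fr_prod_last`): `𝔼_σ ∏_i (…) = ∏_i (siteW_i/2)`, where `siteW_i` is the site weight of
the clauses `j` with `c j = i`.  `Fr_pi_blocks` with `blk (j,l) = c j` gives the sum over `i`;
enumerate the fibre `{j | c j = i}` by `Fin k`, `sim_pi_comp` (labels `(j, l)`, `l < p-1`) and
`PV.E_pi_comp` identify the average of the term `i` with `siteV t k - log 2`, `k = |c⁻¹ i|`.  Finally
`𝔼_c f(|c⁻¹ i|) = Σ_k binom(K,k) q^k (1-q)^{K-k} f k`, `q = 1/(N+1)` (induction on `K`). -/
theorem Phi_cav (hp : 1 ≤ p) (t : Trial) (N K : ℕ) :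
    M.Phi t N (fun _ : Fin K => 0) = (N + 1) * (∑ k ∈ range (K + 1), (K.choose k : ℝ) *
      (1 / (N + 1 : ℝ)) ^ k * (1 - 1 / (N + 1 : ℝ)) ^ (K - k) * M.siteV t k - Real.log 2) := by
  let z : Fin p := ⟨p - 1, by omega⟩
  have key : ∀ (θ : Fin K → M.Θ) (idx : Fin K → Fin p → Fin (N + 1)) (hh : Fin (N + 1) → M.H),
      (𝔼 v : Fin K × Fin p → t.V,
    Fr ((Ker.unif t.R (Fin (N + 1) → Bool)).prod (Ker.pi fun l => t.κ (v l))) t.m t.s
      (fun y =>
        ∑ j, Real.log (M.w (θ j) fun l =>
          if useSpin p 0 l then (y ⟨t.R - 1, by have := t.adm.lt; omega⟩).1 (idx j l)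
          else t.σ (v (j, l)) (comp (pmap Prod.snd y) (j, l))) +
        ∑ i, M.hv (hh i) * spinVal ((y ⟨t.R - 1, by have := t.adm.lt; omega⟩).1 i))
      fun i => (fun _ => true, fun l => t.x (v l) i)) =
      - ((N + 1) * Real.log 2) +
        ∑ i, t.TV (M.upSW (univ.filter fun j => idx j z = i) (hh i) θ) := by
    intro θ idx hh
    unfold Trial.TV
    rw [← expect_sum_comm, ← Fintype.expect_const (ι := Fin K × Fin p → t.V) (- _),
      ← expect_add_distrib]
    refine expect_congr rfl fun v _ => ?_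
    have hR : t.R - 1 < t.R := by have := t.adm.lt; omega
    let W : Path t.R (Fin K × Fin p → t.Ξ) → (Fin (N + 1) → Bool) → ℝ := fun y σ =>
      Real.exp (∑ j, Real.log (M.w (θ j) fun l =>
        if l.val < p - 1 then t.σ (v (j, l)) (comp y (j, l)) else σ (idx j z)) +
        ∑ i, M.hv (hh i) * spinVal (σ i))
    have h1 := (sim_swap (Ker.unif t.R (Fin (N + 1) → Bool)) (Ker.pi fun l => t.κ (v l)) t.s).Fr
      (m := t.m) le_rfl (fun y => Real.log (W (pmap Prod.fst y) (y ⟨t.R - 1, hR⟩).2))
      fun i => (fun _ => true, fun l => t.x (v l) i)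
    rw [Fr_prod_last _ t.adm ⟨t.R - 1, hR⟩ rfl W fun _ _ => Real.exp_pos _] at h1
    refine Eq.trans ?_ (h1.trans ?_)
    · congr 1
      funext y
      simp only [W, Real.log_exp]
      congr 1
      refine sum_congr rfl fun j _ => ?_
      congr 2
      funext l
      by_cases hl : l.val < p - 1
      · simp [useSpin, hl]
        rfl
      · have : l = z := Fin.ext (by have := l.isLt; simp only [z]; omega)
        simp [useSpin, hl, ← this, pmap]
    · have h2 : ∀ y, Real.log (𝔼 b, W y b) = - ((N + 1) * Real.log 2) +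
          ∑ i, Real.log (M.upSW (univ.filter fun j => idx j z = i) (hh i) θ
            fun l => t.σ (v l) (comp y l)) := by
        intro y
        have := M.up_spin_int θ (fun j => idx j z) hh fun l => t.σ (v l) (comp y l)
        simpa using this
      simp only [h2]
      rw [Fr_const_add _ t.adm, Fr_pi_blocks (fun l => t.κ (v l)) (fun l => idx l.1 z) univ
        (fun i y => Real.log (M.upSW (univ.filter fun j => idx j z = i) (hh i) θ
            fun l => t.σ (v l) (comp y l)))]
      · rfl
      · intro i y y' hy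
        unfold upSW
        congr 1
        refine sum_congr rfl fun ε _ => ?_
        congr 1
        refine prod_congr rfl fun j hj => ?_
        congr 1
        funext l
        beta_reduce
        rw [hy (j, l) (mem_filter.1 hj).2]
  unfold Phi
  simp only [key]
  unfold Dis
  simp only [PV.E_add, PV.E_const, PV.E_sum, expect_add_distrib, Fintype.expect_const]
  have h3 : ∀ (θ : Fin K → M.Θ) (S : Finset (Fin K)) (i : Fin (N + 1)),
      ((M.pH.pi (Fin (N + 1))).E fun hh => t.TV (M.upSW S (hh i) θ)) =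
      M.pH.E fun h => t.TV (M.upSW S h θ) := fun θ S i =>
    PV.E_pi_eval _ i fun h => t.TV (M.upSW S h θ)
  simp only [h3]
  rw [PV.E_expect]
  simp only [PV.E_sum, up_site_part]
  rw [expect_sum_comm]
  have h4 : ∀ i : Fin (N + 1), 𝔼 idx : Fin K → Fin p → Fin (N + 1),
      M.siteV t (univ.filter fun j => idx j z = i).card = ∑ k ∈ range (K + 1), (K.choose k : ℝ) *
      (1 / (N + 1 : ℝ)) ^ k * (1 - 1 / (N + 1 : ℝ)) ^ (K - k) * M.siteV t k := by
    intro i
    rw [← PV.unif_pi_E]
    refine up_binom_law _ (fun a : Fin p → Fin (N + 1) => a z = i) ?_ K _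
    rw [PV.unif_E, ← PV.unif_pi_E, PV.E_pi_eval _ z fun a => if a = i then (1 : ℝ) else 0,
      PV.unif_E, Fintype.expect_eq_sum_div_card]
    simp
  simp only [h4, sum_const, card_univ, Fintype.card_fin, nsmul_eq_mul]
  push_cast
  ring

/-- Iterate `ub_step`: by induction on the finset `S` of the clauses that are still cavity clauses,
`Phi kd ≥ Σ_{S' ⊆ S} (1/p)^{|S'|} (1-1/p)^{|S \ S'|} Phi (kd with 1 on S', 2 on S \ S')`
(`Finset.sum_powerset_insert`); then `Phi_mix` and `Finset.sum_powerset_apply_card`. -/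
theorem Phi_cav_ge (hp : 1 ≤ p) (hM : M.Pos) (t : Trial) (N K : ℕ) :
    ∑ j ∈ range (K + 1), (K.choose j : ℝ) * (1 / (p : ℝ)) ^ j * (1 - 1 / (p : ℝ)) ^ (K - j) *
      (M.FZ (N + 1) j - (N + 1) * Real.log 2 + ((K - j : ℕ) : ℝ) * M.edgeV t) ≤
      M.Phi t N fun _ : Fin K => 0 := by
  have hp0 : (1 : ℝ) ≤ p := by exact_mod_cast hp
  have hp1 : (0 : ℝ) < p := by linarith
  have h := up_iter (ι := Fin K) (fun kd => M.Phi t N kd) (q := 1 / (p : ℝ)) (by positivity)
    (by rw [div_le_one hp1]; exact hp0) (fun kd j => by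
      have := ub_step M hp hM t N kd j
      have h2 : 1 / (p : ℝ) * M.Phi t N (Function.update kd j 1) +
          (1 - 1 / (p : ℝ)) * M.Phi t N (Function.update kd j 2) =
          (M.Phi t N (Function.update kd j 1) + (p - 1 : ℝ) * M.Phi t N (Function.update kd j 2)) / p := by
        field_simp
      rw [h2, div_le_iff₀ hp1]
      linarith) univ fun _ => 0
  simp only [mem_univ, if_true, card_univ, Fintype.card_fin] at h
  rw [← up_sum_powerset K _ fun j =>
    M.FZ (N + 1) j - (N + 1) * Real.log 2 + ((K - j : ℕ) : ℝ) * M.edgeV t]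
  refine le_trans (le_of_eq (sum_congr rfl fun T _ => ?_)) h
  rw [M.Phi_mix t N _ fun j => by split_ifs <;> decide]
  have e1 : (univ.filter fun j => (if j ∈ T then (1 : Fin 3) else 2) = 1) = T := by
    ext j; by_cases hj : j ∈ T <;> simp [hj]
  have e2 : (univ.filter fun j => (if j ∈ T then (1 : Fin 3) else 2) = 2) = Tᶜ := by
    ext j; by_cases hj : j ∈ T <;> simp [hj]
  rw [e1, e2, card_compl, Fintype.card_fin]

theorem up_abs_siteV_le {B : ℝ} (hB : M.Bd B) (t : Trial) (k : ℕ) :
    |M.siteV t k| ≤ B * k + (B + 1) :=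
  PV.abs_E_le_of _ fun θ => PV.abs_E_le_of _ fun h =>
    abs_TV_le t fun τ => M.abs_log_siteW_le hB h θ τ

/-- Sum `Phi_cav_ge` and `Phi_cav` against `poissonWeight (α p N) K`; `poi_split` twice,
`hasSum_poi`, `hasSum_poi_mul`; bounds `abs_FZ_le`, `abs_TV_le`, `abs_log_siteW_le`. -/
theorem upper_bound (hp : 1 ≤ p) (hM : M.Pos) {α : ℝ} (hα : 0 ≤ α) (t : Trial) {N : ℕ}
    (hN : 1 ≤ N) : M.pres α N ≤ M.P α t := by
  obtain ⟨n, rfl⟩ : ∃ n, N = n + 1 := ⟨N - 1, by omega⟩
  obtain ⟨B, hB⟩ := M.exists_bd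
  have hB0 := hB.1
  have hp0 : (1 : ℝ) ≤ p := by exact_mod_cast hp
  have hp1 : (0 : ℝ) < p := by linarith
  have hn : (0 : ℝ) < n + 1 := by positivity
  have hl : 0 < Real.log 2 := Real.log_pos (by norm_num)
  have q0 : (0 : ℝ) ≤ 1 / p := by positivity
  have q1 : 1 / (p : ℝ) ≤ 1 := by rw [div_le_one hp1]; exact hp0
  have r0 : (0 : ℝ) ≤ 1 / (n + 1) := by positivity
  have r1 : 1 / (n + 1 : ℝ) ≤ 1 := by
    rw [div_le_one hn]; linarith [(Nat.cast_nonneg n : (0 : ℝ) ≤ n)]
  set a : ℝ := α * p * (n + 1) with ha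
  have ha0 : 0 ≤ a := by positivity
  set c : ℝ := (n + 1) * Real.log 2 with hc
  have hc0 : 0 ≤ c := by positivity
  set e := M.edgeV t with he
  let f : ℕ → ℕ → ℝ := fun j k => M.FZ (n + 1) j - c + k * e
  let g : ℕ → ℕ → ℝ := fun j _ => (n + 1) * M.siteV t j - c
  let C : ℝ := (B + 1) * (n + 1) + c + B + |e|
  have hFZ : ∀ j : ℕ, |M.FZ (n + 1) j| ≤ B * j + (B + 1) * (n + 1) := fun j => by
    simpa using M.abs_FZ_le hB (Nat.succ_pos n) j
  have hf : ∀ j k, |f j k| ≤ C * (j + k + 1) := by
    intro j k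
    have h1 := hFZ j
    have h2 : |f j k| ≤ |M.FZ (n + 1) j| + c + k * |e| := by
      refine (abs_add_le _ _).trans (add_le_add ((abs_sub _ _).trans ?_) ?_)
      · rw [abs_of_nonneg hc0]
      · rw [abs_mul, Nat.abs_cast]
    have hj : (0 : ℝ) ≤ j := Nat.cast_nonneg j
    have hk : (0 : ℝ) ≤ k := Nat.cast_nonneg k
    have h3 : 0 ≤ (B + 1) * (n + 1) := by positivity
    have h4 := abs_nonneg e
    have : C * (j + k + 1) - (B * j + (B + 1) * (n + 1) + c + k * |e|) =
        ((B + 1) * (n + 1) + c) * (j + k) + B * (k + 1) + |e| * (j + 1) := by simp only [C]; ring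
    have : 0 ≤ ((B + 1) * (n + 1) + c) * (j + k) + B * (k + 1) + |e| * (j + 1) := by positivity
    linarith
  have hg : ∀ j k, |g j k| ≤ C * (j + k + 1) := by
    intro j k
    have h1 := mul_le_mul_of_nonneg_left (M.up_abs_siteV_le hB t j) hn.le
    have h2 : |g j k| ≤ (n + 1) * |M.siteV t j| + c := by
      refine (abs_sub _ _).trans ?_
      rw [abs_of_nonneg hc0, abs_mul, abs_of_pos hn]
    have hj : (0 : ℝ) ≤ j := Nat.cast_nonneg j
    have hk : (0 : ℝ) ≤ k := Nat.cast_nonneg k
    have h4 := abs_nonneg e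
    have : C * (j + k + 1) - ((n + 1) * (B * j + (B + 1)) + c) =
        (n + 1) * j + (B + 1) * (n + 1) * k + c * (j + k) + (B + |e|) * (j + k + 1) := by
      simp only [C]; ring
    have : 0 ≤ (n + 1) * j + (B + 1) * (n + 1) * k + c * (j + k) + (B + |e|) * (j + k + 1) := by
      positivity
    linarith
  have main := tsum_poi_mono ha0 (up_abs_binom_le q0 q1 hf) (up_abs_binom_le r0 r1 hg) fun K => by
    refine (M.Phi_cav_ge hp hM t n K).trans (le_of_eq ?_)
    rw [M.Phi_cav hp t n K]
    simp only [g, mul_sub, sum_sub_distrib, ← sum_mul, up_binom_one, one_mul]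
    rw [mul_sum]
    congr 1
    exact sum_congr rfl fun j _ => by ring
  rw [poi_split ha0 q0 q1 hf, poi_split ha0 r0 r1 hg] at main
  have e1 : a * (1 / p) = α * (n + 1) := by rw [ha]; field_simp
  have e2 : a * (1 / (n + 1)) = α * p := by rw [ha]; field_simp
  have e3 : a * (1 - 1 / p) = (n + 1) * (α * (p - 1)) := by rw [ha]; field_simp
  have i1 : ∀ j, ∑' k, poissonWeight (a * (1 - 1 / p)) k * f j k =
      M.FZ (n + 1) j + (- c + a * (1 - 1 / p) * e) := by
    intro j
    have := ((hasSum_poi (a * (1 - 1 / p))).mul_right (M.FZ (n + 1) j - c)).add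
      ((hasSum_poi_mul (a * (1 - 1 / p))).mul_right e)
    refine Eq.trans (tsum_congr fun k => ?_) (this.tsum_eq.trans ?_)
    · simp only [f]; ring
    · ring
  have i2 : ∀ j, ∑' k, poissonWeight (a * (1 - 1 / (n + 1))) k * g j k =
      (n + 1) * M.siteV t j + - c := by
    intro j
    have := (hasSum_poi (a * (1 - 1 / (n + 1)))).mul_right ((n + 1) * M.siteV t j - c)
    refine this.tsum_eq.trans ?_
    ring
  simp only [i1, i2] at main
  rw [e1, e2, e3] at main
  have s1 : Summable fun j => poissonWeight (α * (n + 1)) j * M.FZ (n + 1) j :=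
    summable_poi (C := B + (B + 1) * (n + 1)) (by positivity) fun j => (hFZ j).trans (by
      have hj : (0 : ℝ) ≤ j := Nat.cast_nonneg j
      have : 0 ≤ (B + 1) * (n + 1) * j := by positivity
      linarith)
  have s2 : Summable fun j => poissonWeight (α * p) j * M.siteV t j :=
    summable_poi (C := B + 1) (by positivity) fun j => (M.up_abs_siteV_le hB t j).trans (by
      have hj : (0 : ℝ) ≤ j := Nat.cast_nonneg j
      linarith)
  have t1 := (s1.hasSum.add ((hasSum_poi (α * (n + 1))).mul_right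
    (- c + (n + 1) * (α * (p - 1)) * e))).tsum_eq
  have t2 := ((s2.hasSum.mul_left (n + 1 : ℝ)).add ((hasSum_poi (α * p)).mul_right (- c))).tsum_eq
  simp only [mul_add (poissonWeight _ _), mul_left_comm (poissonWeight _ _) (n + 1 : ℝ)] at main t1
  rw [t1, t2] at main
  unfold pres P
  push_cast
  rw [one_div, inv_mul_le_iff₀ hn]
  linarith

end FM

end Crest.Agent.R141
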