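import Crest.Agent.R141.Approx
import Crest.Agent.R141.StepApprox
import Crest.Agent.R141.Lower
import Crest.Agent.R141.Upper

/-! Assembly of S0192 (task R141 Law+S0192; the owner also lands `Crest/Agent/S0192.lean`). -/

set_option autoImplicit false

namespace Crest.Agent.R141

open Finset Crest.ProbabilityR.Diluted MeasureTheory Filter Topology

/-- Upper bound: for `N ≥ 1`, an admissible `(r, m, X)` and `η > 0` take `M, κ₀` from `approx_model`:
`pressure μ ν N ≤ α κ₀ + M.pres N + cη ≤ α κ₀ + UP π' + cη ≤ α κ₀ + MP + (c+1) η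
≤ trialFunctional μ ν + Cη` (`pressure_close`, `pressure_law`, `upper_bound`, `pres_le_UP`, `MP_approx`,
`trial_law`, `trial_close`; `PV.integrable_law` for the integrability under `M.law`, `M.flaw`).
So the set `S` is nonempty (`r = 0`), bounded below, `F = sInf S` (`isGLB_csInf`), `pressure N ≤ F`.
Lower bound: for a grid trial `t`, `realize` gives rational `π ∈ (0,1)`; the step function
`X u = log (π/(1-π))/2` at the cells is measurable and `tilt (X u) true = π`, so (`MP_cell`)
`M.P t + η ≥ UP = trialFunctional M.law M.flaw X ≥ F - α κ₀ - Cη`; `lower_bound`. -/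
theorem mezard_parisi (p : ℕ) (hp : Even p) (hp2 : 2 ≤ p) (α : ℝ) (hα : 0 < α)
    (μ : Measure (Inter p)) [IsProbabilityMeasure μ] (ν : Measure ℝ) [IsProbabilityMeasure ν]
    (hμ : Integrable (fun θ => supNorm θ) μ) (hν : Integrable (fun x : ℝ => x) ν)
    (hfac : HasFactorization p μ) :
    ∃ F : ℝ, Tendsto (pressure p α μ ν) atTop (nhds F) ∧
      IsGLB {B : ℝ | ∃ (r : ℕ) (m : Fin r → ℝ) (X : (Fin (r + 1) → unitInterval) → ℝ),
        AdmissibleExponents m ∧ Measurable X ∧ B = trialFunctional p α μ ν r m X} F := by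
  have hp1 : 1 ≤ p := by omega
  set S : Set ℝ := {B : ℝ | ∃ (r : ℕ) (m : Fin r → ℝ) (X : (Fin (r + 1) → unitInterval) → ℝ),
    AdmissibleExponents m ∧ Measurable X ∧ B = trialFunctional p α μ ν r m X} with hS
  set c : ℝ := 2 * p * α + α + 4 with hc
  have hc0 : 0 < c := by positivity
  -- upper bound
  have hup : ∀ N : ℕ, 1 ≤ N → ∀ B ∈ S, pressure p α μ ν N ≤ B := by
    rintro N hN B ⟨r, m, X, hm, hX, rfl⟩
    refine le_of_forall_pos_le_add fun ε hε => ?_
    have hη : 0 < ε / c := div_pos hε hc0
    obtain ⟨M, κ₀, hM, hcl, hch⟩ := approx_model hp hp2 μ ν hμ hν hfac hη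
    have hμ' : Integrable (fun θ => supNorm θ) M.law := PV.integrable_law M.pΘ _ _
    have hν' : Integrable (fun x : ℝ => x) M.flaw := PV.integrable_law M.pH _ _
    have h1 := (abs_le.1 (pressure_close hα.le hμ hμ' hν hν' hcl hch hN)).2
    have h2 := (abs_le.1 (trial_close hp1 hα.le hμ hμ' hν hν' hcl hch hm hX)).1
    rw [M.pressure_law] at h1
    rw [M.trial_law hα.le hm hX] at h2
    obtain ⟨a, π', h01, h3⟩ := M.MP_approx hα.le hm (law_measurable_tilt hX)
      (fun u => law_tilt_mem (X u)) hη
    have h4 := M.pres_le_UP (fun t => M.upper_bound hp1 hM hα.le t hN) hm h01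
    have h5 := (abs_le.1 h3).1
    have h6 : ε = c * (ε / c) := by field_simp
    set η := ε / c
    rw [h6, hc]
    nlinarith
  have hne : S.Nonempty := ⟨_, 0, Fin.elim0, fun _ => 0,
    ⟨fun d => d.elim0, fun d => d.elim0⟩, measurable_const, rfl⟩
  have hbdd : BddBelow S := ⟨_, hup 1 le_rfl⟩
  have hglb := isGLB_csInf hne hbdd
  refine ⟨sInf S, tendsto_order.2 ⟨fun a ha => ?_, fun a ha => ?_⟩, hglb⟩
  · -- lower bound
    have hε : 0 < (sInf S - a) / 2 := by linarith
    set ε := (sInf S - a) / 2 with hεd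
    have hη : 0 < ε / c := div_pos hε hc0
    obtain ⟨M, κ₀, hM, hcl, hch⟩ := approx_model hp hp2 μ ν hμ hν hfac hη
    have hμ' : Integrable (fun θ => supNorm θ) M.law := PV.integrable_law M.pΘ _ _
    have hν' : Integrable (fun x : ℝ => x) M.flaw := PV.integrable_law M.pH _ _
    have h6 : ε = c * (ε / c) := by field_simp
    set η := ε / c
    have hI : ∀ t : Trial, t.m = grid t.R →
        sInf S - α * κ₀ - (2 * p * α + 1) * η - η ≤ M.P α t := by
      intro t ht
      obtain ⟨s, r, n, π, hπ, h1⟩ := M.realize hα.le t ht hη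
      let X : (Fin (r + 1) → unitInterval) → ℝ := fun u =>
        Real.log ((π fun j => cell n (u j) : ℝ) / (1 - (π fun j => cell n (u j) : ℝ))) / 2
      have hX : Measurable X :=
        (measurable_of_finite fun v : Fin (r + 1) → Fin (n + 1) =>
          Real.log ((π v : ℝ) / (1 - (π v : ℝ))) / 2).comp
          (measurable_pi_lambda _ fun j => (measurable_cell n).comp (measurable_pi_apply j))
      have hm := adm_gridm s r
      have h2 := (abs_le.1 (trial_close hp1 hα.le hμ hμ' hν hν' hcl hch hm hX)).2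
      have h3 : (fun u => Crest.ProbabilityR.Diluted.tilt (X u) true) =
          fun u => (fun v => (π v : ℝ)) fun j => cell n (u j) := by
        funext u
        exact law_tilt_logit (by exact_mod_cast (hπ _).1) (by exact_mod_cast (hπ _).2)
      rw [M.trial_law hα.le hm hX, h3, M.MP_cell α (gridm s r) n fun v => (π v : ℝ)] at h2
      have h4 : sInf S ≤ trialFunctional p α μ ν r (gridm s r) X :=
        csInf_le hbdd ⟨r, _, X, hm, hX, rfl⟩
      linarith
    filter_upwards [M.lower_bound hp1 hα.le hI hη, eventually_ge_atTop 1] with N h1 hN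
    have h2 := (abs_le.1 (pressure_close hα.le hμ hμ' hν hν' hcl hch hN)).1
    rw [M.pressure_law] at h2
    rw [hc] at h6
    nlinarith
  · filter_upwards [eventually_ge_atTop 1] with N hN
    exact (le_csInf hne (hup N hN)).trans_lt ha

end Crest.Agent.R141
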