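import Crest.Agent.R141.ExL

/-! The nested free energy (task R141 FrL).  Everything is by `down_ind` on the level, for the levels
`s ≥ s₀` when `Adm m R s₀` (use `Adm.pos'`, `Adm.le_one`, `Adm.of_le`). -/

set_option autoImplicit false

namespace Crest.Agent.R141

open Finset
open scoped BigOperators

variable {R : ℕ} {Ξ : Type} [Fintype Ξ] (κ : Ker R Ξ) {m : ℕ → ℝ}

/-- downward induction for admissible exponents -/
theorem adm_ind {s₀ : ℕ} (hm : Adm m R s₀) {P : ℕ → Prop} (h0 : ∀ s, R ≤ s → P s)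
    (h1 : ∀ s, s₀ ≤ s → s < R → 0 < m (s + 1) → P (s + 1) → P s) : ∀ s, s₀ ≤ s → P s :=
  down_ind R (P := fun s => s₀ ≤ s → P s) (fun s hs _ => h0 s hs) fun s hs ih hs0 =>
    h1 s hs0 hs (hm.pos' (by omega) hs) (ih (by omega))

theorem step_exp_pos (s : ℕ) (Y : Path R Ξ → ℝ) (x : Path R Ξ) :
    0 < step κ s (fun y => Real.exp (Y y)) x :=
  step_pos κ s (fun _ => Real.exp_pos _) x

theorem mul_lstep {s : ℕ} (ha : 0 < m (s + 1)) (Y : Path R Ξ → ℝ) (x : Path R Ξ) :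
    m (s + 1) * lstep κ m s Y x =
      Real.log (step κ s (fun y => Real.exp (m (s + 1) * Y y)) x) := by
  unfold lstep
  rw [← mul_assoc, mul_inv_cancel₀ ha.ne', one_mul]

theorem exp_mul_lstep {s : ℕ} (ha : 0 < m (s + 1)) (Y : Path R Ξ → ℝ) (x : Path R Ξ) :
    Real.exp (m (s + 1) * lstep κ m s Y x) = step κ s (fun y => Real.exp (m (s + 1) * Y y)) x := by
  rw [mul_lstep κ ha, Real.exp_log (step_exp_pos κ s _ x)]

theorem lstep_mono {s : ℕ} (ha : 0 < m (s + 1)) {Y Y' : Path R Ξ → ℝ} {x : Path R Ξ}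
    (h : ∀ ξ, Y (upd x s ξ) ≤ Y' (upd x s ξ)) : lstep κ m s Y x ≤ lstep κ m s Y' x := by
  unfold lstep
  refine mul_le_mul_of_nonneg_left (Real.log_le_log (step_exp_pos κ s _ x) ?_) (inv_pos.2 ha).le
  exact step_mono κ s fun ξ => Real.exp_le_exp.2 (mul_le_mul_of_nonneg_left (h ξ) ha.le)

theorem lstep_meas_add {s : ℕ} (ha : 0 < m (s + 1)) {H : Path R Ξ → ℝ} (hH : Meas s H)
    (Y : Path R Ξ → ℝ) (x : Path R Ξ) :
    lstep κ m s (fun y => H y + Y y) x = H x + lstep κ m s Y x := by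
  have h1 : step κ s (fun y => Real.exp (m (s + 1) * (H y + Y y))) x =
      Real.exp (m (s + 1) * H x) * step κ s (fun y => Real.exp (m (s + 1) * Y y)) x := by
    rw [← step_meas_mul κ (G := fun y => Real.exp (m (s + 1) * H y))
      (fun a b hab => by simp only [hH a b hab])]
    simp only [mul_add, Real.exp_add]
  unfold lstep
  rw [h1, Real.log_mul (Real.exp_pos _).ne' (step_exp_pos κ s _ x).ne', Real.log_exp, mul_add,
    ← mul_assoc, inv_mul_cancel₀ ha.ne', one_mul]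

theorem lstep_const_add {s : ℕ} (ha : 0 < m (s + 1)) (c : ℝ) (Y : Path R Ξ → ℝ) (x : Path R Ξ) :
    lstep κ m s (fun y => c + Y y) x = c + lstep κ m s Y x :=
  lstep_meas_add κ ha (H := fun _ => c) (fun _ _ _ => rfl) Y x

theorem lstep_const {s : ℕ} (ha : 0 < m (s + 1)) (c : ℝ) (x : Path R Ξ) :
    lstep κ m s (fun _ => c) x = c := by
  unfold lstep
  rw [step_const, Real.log_exp, ← mul_assoc, inv_mul_cancel₀ ha.ne', one_mul]

theorem abs_lstep_sub_le {s : ℕ} (ha : 0 < m (s + 1)) {Y Y' : Path R Ξ → ℝ} {δ : ℝ}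
    (h : ∀ y, |Y y - Y' y| ≤ δ) (x : Path R Ξ) : |lstep κ m s Y x - lstep κ m s Y' x| ≤ δ := by
  have h1 : lstep κ m s Y x ≤ δ + lstep κ m s Y' x := by
    rw [← lstep_const_add κ ha]
    exact lstep_mono κ ha fun ξ => by linarith [(abs_le.1 (h (upd x s ξ))).2]
  have h2 : lstep κ m s Y' x ≤ δ + lstep κ m s Y x := by
    rw [← lstep_const_add κ ha]
    exact lstep_mono κ ha fun ξ => by linarith [(abs_le.1 (h (upd x s ξ))).1]
  exact abs_le.2 ⟨by linarith, by linarith⟩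

/-- one-step Jensen inequality -/
theorem step_le_lstep {s : ℕ} (ha : 0 < m (s + 1)) (Y : Path R Ξ → ℝ) (x : Path R Ξ) :
    step κ s Y x ≤ lstep κ m s Y x := by
  set a := m (s + 1) with ha'
  set L := lstep κ m s Y x with hL
  have h1 : step κ s (fun y => a * Y y + (1 - a * L)) x ≤
      step κ s (fun y => Real.exp (-(a * L)) * Real.exp (a * Y y)) x := by
    refine step_mono κ s fun ξ => ?_
    rw [← Real.exp_add]
    have := Real.add_one_le_exp (-(a * L) + a * Y (upd x s ξ))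
    linarith
  rw [step_add, step_mul_left, step_const, step_mul_left, ha', ← exp_mul_lstep κ ha, ← ha', ← hL,
    ← Real.exp_add, neg_add_cancel, Real.exp_zero] at h1
  have h2 : a * step κ s Y x ≤ a * L := by linarith
  exact le_of_mul_le_mul_left h2 ha

/-- power mean inequality -/
theorem step_exp_le_of {s : ℕ} {a b L : ℝ} (ha : 0 ≤ a) (hab : a ≤ b) (hb : 0 < b)
    {Y : Path R Ξ → ℝ} {x : Path R Ξ}
    (h : step κ s (fun y => Real.exp (b * Y y)) x ≤ Real.exp (b * L)) :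
    step κ s (fun y => Real.exp (a * Y y)) x ≤ Real.exp (a * L) := by
  set r := a / b with hr
  have hr0 : 0 ≤ r := div_nonneg ha hb.le
  have hr1 : r ≤ 1 := (div_le_one hb).2 hab
  have hra : r * b = a := div_mul_cancel₀ a hb.ne'
  have h1 : step κ s (fun y => Real.exp (a * Y y)) x ≤
      step κ s (fun y => Real.exp (a * L) * (1 - r) +
        Real.exp (a * L) * r * Real.exp (-(b * L)) * Real.exp (b * Y y)) x := by
    refine step_mono κ s fun ξ => ?_
    set u := Y (upd x s ξ)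
    have h2 := convexOn_exp.2 (Set.mem_univ (0 : ℝ)) (Set.mem_univ (b * (u - L)))
      (sub_nonneg.2 hr1) hr0 (by ring)
    simp only [smul_eq_mul, mul_zero, zero_add, Real.exp_zero, mul_one] at h2
    have h3 : Real.exp (a * u) = Real.exp (a * L) * Real.exp (r * (b * (u - L))) := by
      rw [← Real.exp_add, ← mul_assoc, hra]; congr 1; ring
    have h4 : Real.exp (b * (u - L)) = Real.exp (-(b * L)) * Real.exp (b * u) := by
      rw [← Real.exp_add]; congr 1; ring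
    rw [h3]
    rw [h4] at h2
    have := mul_le_mul_of_nonneg_left h2 (Real.exp_pos (a * L)).le
    linarith
  rw [step_add, step_const, step_mul_left] at h1
  have h5 : Real.exp (-(b * L)) * Real.exp (b * L) = 1 := by
    rw [← Real.exp_add, neg_add_cancel, Real.exp_zero]
  have h6 : 0 ≤ Real.exp (a * L) * r * Real.exp (-(b * L)) := by positivity
  have h7 := mul_le_mul_of_nonneg_left h h6
  rw [mul_assoc _ (Real.exp (-(b * L))) (Real.exp (b * L)), h5] at h7
  linarith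

theorem step_exp_le_lstep {s : ℕ} (hm : 0 < m (s + 1)) {a : ℝ} (ha : 0 ≤ a) (ham : a ≤ m (s + 1))
    (Y : Path R Ξ → ℝ) (x : Path R Ξ) :
    step κ s (fun y => Real.exp (a * Y y)) x ≤ Real.exp (a * lstep κ m s Y x) :=
  step_exp_le_of κ ha ham hm (exp_mul_lstep κ hm Y x).ge

theorem exp_lstep_le_step {s : ℕ} (hm : 0 < m (s + 1)) {b : ℝ} (hb : m (s + 1) ≤ b)
    (Y : Path R Ξ → ℝ) (x : Path R Ξ) :
    Real.exp (b * lstep κ m s Y x) ≤ step κ s (fun y => Real.exp (b * Y y)) x := by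
  have hb0 : 0 < b := hm.trans_le hb
  set L := b⁻¹ * Real.log (step κ s (fun y => Real.exp (b * Y y)) x) with hL
  have h1 : Real.exp (b * L) = step κ s (fun y => Real.exp (b * Y y)) x := by
    rw [hL, ← mul_assoc, mul_inv_cancel₀ hb0.ne', one_mul, Real.exp_log (step_exp_pos κ s _ x)]
  have h2 := step_exp_le_of κ hm.le hb hb0 h1.ge
  rw [← exp_mul_lstep κ hm, Real.exp_le_exp] at h2
  rw [← h1, Real.exp_le_exp]
  exact mul_le_mul_of_nonneg_left (le_of_mul_le_mul_left h2 hm) hb0.le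

theorem step_tilt (G : Path R Ξ → ℝ) (s : ℕ) (F : Path R Ξ → ℝ) (x : Path R Ξ) :
    step (tilt κ m G) s F x =
      Real.exp (-(m (s + 1) * Fr κ m s G x)) *
        step κ s (fun y => Real.exp (m (s + 1) * Fr κ m (s + 1) G y) * F y) x := by
  unfold step
  rw [mul_sum]
  refine sum_congr rfl fun ξ _ => ?_
  simp only [tilt, sub_eq_add_neg, mul_add, mul_neg, Real.exp_add]
  ring

theorem Fr_zero_fun (s : ℕ) (x : Path R Ξ) : Fr κ m s (fun _ => 0) x = 0 := by
  revert x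
  refine down_ind R (P := fun s => ∀ x, Fr κ m s (fun _ => 0) x = 0) (fun s hs x => ?_)
    (fun s hs ih x => ?_) s
  · rw [Fr_of_le κ m hs]
  · rw [Fr_succ κ m hs]
    unfold lstep
    simp only [ih, mul_zero, Real.exp_zero, step_const, Real.log_one]

theorem tilt_zero : tilt κ m (fun _ => 0) = κ := by
  ext s x ξ
  simp [tilt, Fr_zero_fun]

theorem Fr_add' {s : ℕ} (hm : Adm m R s) (H G : Path R Ξ → ℝ) : ∀ t, s ≤ t → ∀ x,
    Fr κ m t (fun y => H y + G y) x = Fr κ m t H x + Fr (tilt κ m H) m t G x := by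
  refine adm_ind hm (fun t ht x => ?_) fun t _ ht ha ih x => ?_
  · simp only [Fr_of_le _ m ht]
  · have e : Fr κ m (t + 1) (fun y => H y + G y) =
        fun y => Fr κ m (t + 1) H y + Fr (tilt κ m H) m (t + 1) G y := funext ih
    rw [Fr_succ κ m ht (fun y => H y + G y), e, Fr_succ (tilt κ m H) m ht G]
    unfold lstep
    rw [step_tilt, Real.log_mul (Real.exp_pos _).ne'
      (step_pos κ t (fun _ => mul_pos (Real.exp_pos _) (Real.exp_pos _)) x).ne', Real.log_exp]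
    simp only [mul_add, Real.exp_add]
    field_simp
    ring

theorem Fr_add {s : ℕ} (hm : Adm m R s) (H G : Path R Ξ → ℝ) (x : Path R Ξ) :
    Fr κ m s (fun y => H y + G y) x = Fr κ m s H x + Fr (tilt κ m H) m s G x :=
  Fr_add' κ hm H G s le_rfl x

theorem tilt_tilt (hm : Adm m R 0) (H G : Path R Ξ → ℝ) :
    tilt (tilt κ m H) m G = tilt κ m fun y => H y + G y := by
  ext s x ξ
  have h1 := Fr_add' κ hm H G s (Nat.zero_le _) x
  have h2 := Fr_add' κ hm H G (s + 1) (Nat.zero_le _) (upd x s ξ)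
  change κ.k s x ξ * Real.exp (m (s + 1) * (Fr κ m (s + 1) H (upd x s ξ) - Fr κ m s H x)) *
      Real.exp (m (s + 1) * (Fr (tilt κ m H) m (s + 1) G (upd x s ξ) - Fr (tilt κ m H) m s G x)) =
    κ.k s x ξ * Real.exp (m (s + 1) * (Fr κ m (s + 1) (fun y => H y + G y) (upd x s ξ) -
      Fr κ m s (fun y => H y + G y) x))
  rw [h1, h2, mul_assoc, ← Real.exp_add]
  congr 2
  ring

theorem Fr_meas_add' {s : ℕ} (hm : Adm m R s) {H : Path R Ξ → ℝ} (hH : Meas s H)
    (G : Path R Ξ → ℝ) : ∀ t, s ≤ t → ∀ x,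
    Fr κ m t (fun y => H y + G y) x = H x + Fr κ m t G x := by
  refine adm_ind hm (fun t ht x => ?_) fun t hst ht ha ih x => ?_
  · simp only [Fr_of_le _ m ht]
  · have e : Fr κ m (t + 1) (fun y => H y + G y) = fun y => H y + Fr κ m (t + 1) G y := funext ih
    rw [Fr_succ κ m ht, e, Fr_succ κ m ht G, lstep_meas_add κ ha (hH.mono hst)]

theorem Fr_meas_add {s : ℕ} (hm : Adm m R s) {H : Path R Ξ → ℝ} (hH : Meas s H)
    (G : Path R Ξ → ℝ) (x : Path R Ξ) :
    Fr κ m s (fun y => H y + G y) x = H x + Fr κ m s G x :=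
  Fr_meas_add' κ hm hH G s le_rfl x

theorem Fr_const_add {s : ℕ} (hm : Adm m R s) (c : ℝ) (G : Path R Ξ → ℝ) (x : Path R Ξ) :
    Fr κ m s (fun y => c + G y) x = c + Fr κ m s G x :=
  Fr_meas_add κ hm (H := fun _ => c) (fun _ _ _ => rfl) G x

theorem Fr_const {s : ℕ} (hm : Adm m R s) (c : ℝ) (x : Path R Ξ) :
    Fr κ m s (fun _ => c) x = c := by
  have := Fr_const_add κ hm c (fun _ => 0) x
  simpa [Fr_zero_fun] using this

theorem Fr_mono_agree {s : ℕ} (hm : Adm m R s) {G G' : Path R Ξ → ℝ} {x : Path R Ξ}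
    (h : ∀ y, Agree s y x → G y ≤ G' y) : Fr κ m s G x ≤ Fr κ m s G' x := by
  refine adm_ind hm (P := fun t => ∀ x, (∀ y, Agree t y x → G y ≤ G' y) →
    Fr κ m t G x ≤ Fr κ m t G' x) (fun t ht x h => ?_) (fun t _ ht ha ih x h => ?_) s le_rfl x h
  · simp only [Fr_of_le _ m ht]
    exact h x fun _ _ => rfl
  · rw [Fr_succ κ m ht, Fr_succ κ m ht G']
    refine lstep_mono κ ha fun ξ => ih _ fun y hy => h y fun i hi => ?_
    rw [hy i (by omega), agree_upd x le_rfl ξ i hi]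

theorem Fr_mono {s : ℕ} (hm : Adm m R s) {G G' : Path R Ξ → ℝ} (h : ∀ y, G y ≤ G' y)
    (x : Path R Ξ) : Fr κ m s G x ≤ Fr κ m s G' x :=
  Fr_mono_agree κ hm fun y _ => h y

theorem abs_Fr_sub_le {s : ℕ} (hm : Adm m R s) {G G' : Path R Ξ → ℝ} {δ : ℝ}
    (h : ∀ y, |G y - G' y| ≤ δ) (x : Path R Ξ) : |Fr κ m s G x - Fr κ m s G' x| ≤ δ := by
  have h1 : Fr κ m s G x ≤ δ + Fr κ m s G' x := by
    rw [← Fr_const_add κ hm]
    exact Fr_mono κ hm (fun y => by linarith [(abs_le.1 (h y)).2]) x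
  have h2 : Fr κ m s G' x ≤ δ + Fr κ m s G x := by
    rw [← Fr_const_add κ hm]
    exact Fr_mono κ hm (fun y => by linarith [(abs_le.1 (h y)).1]) x
  exact abs_le.2 ⟨by linarith, by linarith⟩

theorem abs_Fr_le {s : ℕ} (hm : Adm m R s) {G : Path R Ξ → ℝ} {B : ℝ} (h : ∀ y, |G y| ≤ B)
    (x : Path R Ξ) : |Fr κ m s G x| ≤ B := by
  have := abs_Fr_sub_le κ hm (G := G) (G' := fun _ => 0) (δ := B) (fun y => by simpa using h y) x
  simpa [Fr_zero_fun] using this

/-- the same bound at every level `t ≥ s` (also `t ≥ R`) -/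
theorem abs_Fr_le' {s : ℕ} (hm : Adm m R s) {G : Path R Ξ → ℝ} {B : ℝ} (h : ∀ y, |G y| ≤ B)
    {t : ℕ} (ht : s ≤ t) (x : Path R Ξ) : |Fr κ m t G x| ≤ B := by
  by_cases hR : R ≤ t
  · rw [Fr_of_le κ m hR]; exact h x
  · exact abs_Fr_le κ (hm.of_le ht (by omega)) h x

/-- Jensen (`log` is concave: `ConcaveOn.le_map_sum`, or `x - 1 ≥ log x` after normalising) -/
theorem Ex_Fr_le {s : ℕ} (hm : Adm m R s) {t : ℕ} (ht : s ≤ t) (G : Path R Ξ → ℝ) (x : Path R Ξ) :
    Ex κ s (Fr κ m t G) x ≤ Fr κ m s G x := by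
  refine adm_ind hm (P := fun u => u ≤ t → ∀ x, Ex κ u (Fr κ m t G) x ≤ Fr κ m u G x)
    (fun u hu hut x => ?_) (fun u _ hu ha ih hut x => ?_) s le_rfl ht x
  · rw [Ex_of_le κ hu, Fr_of_le κ m hu, Fr_of_le κ m (hu.trans hut)]
  · rcases hut.eq_or_lt with rfl | hlt
    · rw [Ex_of_meas κ (Fr_meas κ m G u)]
    · rw [Ex_succ κ hu, Fr_succ κ m hu G]
      exact (step_mono κ u fun ξ => ih hlt _).trans (step_le_lstep κ ha _ x)

/-- Power means increase with the exponent: for `0 < a ≤ b`,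
`a⁻¹ log E e^{aY} ≤ b⁻¹ log E e^{bY}` (Jensen for `x ↦ x^{b/a}`:
`Real.rpow_arith_mean_le_arith_mean_rpow`).  Downward induction. -/
theorem log_Ex_exp_le_Fr {s : ℕ} (hm : Adm m R s) (G : Path R Ξ → ℝ) (x : Path R Ξ) :
    (m (s + 1))⁻¹ * Real.log (Ex κ s (fun y => Real.exp (m (s + 1) * G y)) x) ≤ Fr κ m s G x := by
  have key : Ex κ s (fun y => Real.exp (m (s + 1) * G y)) x ≤
      Real.exp (m (s + 1) * Fr κ m s G x) := by
    refine adm_ind hm (P := fun t => ∀ x, Ex κ t (fun y => Real.exp (m (s + 1) * G y)) x ≤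
      Real.exp (m (s + 1) * Fr κ m t G x)) (fun t ht x => ?_) (fun t hst ht ha ih x => ?_)
      s le_rfl x
    · rw [Ex_of_le κ ht, Fr_of_le κ m ht]
    · rw [Ex_succ κ ht, Fr_succ κ m ht G]
      exact (step_mono κ t (G := fun y => Real.exp (m (s + 1) * Fr κ m (t + 1) G y))
        fun ξ => ih _).trans
        (step_exp_le_lstep κ ha hm.pos.le (hm.mono _ _ (by omega) (by omega) ht) _ x)
  have h1 := Real.log_le_log (Ex_pos κ s (fun _ => Real.exp_pos _) x) key
  rw [Real.log_exp] at h1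
  rw [inv_mul_le_iff₀ hm.pos]
  exact h1

/-- With `Y = Fr κ m t G`, `b = m t`: by the power mean inequality (downward induction from `t` to
`s`) `Fr κ m s G ≤ b⁻¹ log Ex s e^{bY}`; `Z = Y - Ex s Y x` has mean `0`, `|Z| ≤ 2B`, and by
convexity `e^{bZ} ≤ cosh(2bB) + (Z/(2B)) sinh(2bB)`, `Real.cosh_le_exp_half_sq`. -/
theorem Fr_le_Ex_Fr {s : ℕ} (hm : Adm m R s) {t : ℕ} (hst : s < t) (ht : t ≤ R)
    {G : Path R Ξ → ℝ} {B : ℝ} (h : ∀ y, |G y| ≤ B) (x : Path R Ξ) :
    Fr κ m s G x ≤ Ex κ s (Fr κ m t G) x + 2 * m t * B ^ 2 := by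
  set b := m t with hb
  have hb0 : 0 < b := hm.pos' hst ht
  set Y := Fr κ m t G with hY
  have key : Real.exp (b * Fr κ m s G x) ≤ Ex κ s (fun y => Real.exp (b * Y y)) x := by
    refine adm_ind hm (P := fun u => u ≤ t → ∀ x, Real.exp (b * Fr κ m u G x) ≤
      Ex κ u (fun y => Real.exp (b * Y y)) x) (fun u hu hut x => ?_)
      (fun u hsu hu ha ih hut x => ?_) s le_rfl hst.le x
    · rw [Ex_of_le κ hu, hY, Fr_of_le κ m hu, Fr_of_le κ m (hu.trans hut)]
    · rcases hut.eq_or_lt with rfl | hlt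
      · rw [Ex_of_meas κ (F := fun y => Real.exp (b * Y y))
          (fun y y' hy => by simp only [hY, Fr_meas κ m G u y y' hy])]
      · rw [Ex_succ κ hu, Fr_succ κ m hu G]
        exact (exp_lstep_le_step κ ha (hm.mono _ _ (by omega) hlt ht) _ x).trans
          (step_mono κ u fun ξ => ih hlt _)
  have hYB : ∀ y, |Y y| ≤ B := fun y => abs_Fr_le' κ hm h hst.le y
  have hB : 0 ≤ B := (abs_nonneg _).trans (h x)
  set μ := Ex κ s Y x with hμ
  have hμB : |μ| ≤ B := abs_Ex_le_of κ s hYB x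
  have hZ : ∀ y, |Y y - μ| ≤ 2 * B := fun y => (abs_sub _ _).trans (by linarith [hYB y])
  have h1 : Ex κ s (fun y => Real.exp (b * Y y)) x ≤
      Ex κ s (fun y => Real.exp (b * μ) * Real.cosh (2 * b * B) +
        Real.exp (b * μ) * Real.sinh (2 * b * B) / (2 * B) * (Y y - μ)) x := by
    refine Ex_mono κ s (fun y => ?_) x
    have h2 : |(Y y - μ) / (2 * B)| ≤ 1 := by
      rw [abs_div, abs_of_nonneg (by positivity : 0 ≤ 2 * B)]
      exact div_le_one_of_le₀ (hZ y) (by positivity)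
    have h3 := Real.exp_mul_le_cosh_add_mul_sinh h2 (2 * b * B)
    have h4 : (Y y - μ) / (2 * B) * (2 * b * B) = b * (Y y - μ) := by
      rcases hB.eq_or_lt with h0 | h0
      · have h5 : Y y - μ = 0 := by
          have := hZ y
          rw [← h0, mul_zero] at this
          exact abs_nonpos_iff.1 this
        simp [h5]
      · field_simp
    rw [h4] at h3
    have h6 : Real.exp (b * Y y) = Real.exp (b * μ) * Real.exp (b * (Y y - μ)) := by
      rw [← Real.exp_add]; congr 1; ring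
    rw [h6]
    refine (mul_le_mul_of_nonneg_left h3 (Real.exp_pos _).le).trans (le_of_eq ?_)
    ring
  rw [Ex_add, Ex_const, Ex_mul_left, Ex_sub, Ex_const, ← hμ, sub_self, mul_zero, add_zero] at h1
  have h7 : Real.exp (b * μ) * Real.cosh (2 * b * B) ≤
      Real.exp (b * μ) * Real.exp ((2 * b * B) ^ 2 / 2) :=
    mul_le_mul_of_nonneg_left (Real.cosh_le_exp_half_sq _) (Real.exp_pos _).le
  have h8 := (key.trans h1).trans h7
  rw [← Real.exp_add, Real.exp_le_exp] at h8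
  refine le_of_mul_le_mul_left ?_ hb0
  refine h8.trans (le_of_eq ?_)
  ring

theorem abs_log_sub_log_le {A A' c : ℝ} (hc : 0 < c) (hA : c ≤ A) (hA' : c ≤ A') :
    |Real.log A - Real.log A'| ≤ |A - A'| / c := by
  have key : ∀ A A' : ℝ, c ≤ A → c ≤ A' → Real.log A - Real.log A' ≤ |A - A'| / c := by
    intro A A' hA hA'
    have h0 : 0 < A := hc.trans_le hA
    have h0' : 0 < A' := hc.trans_le hA'
    have h1 := Real.log_le_sub_one_of_pos (div_pos h0 h0')
    rw [Real.log_div h0.ne' h0'.ne', div_sub_one h0'.ne'] at h1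
    refine h1.trans ((div_le_div_of_nonneg_right (le_abs_self _) h0'.le).trans ?_)
    exact div_le_div_of_nonneg_left (abs_nonneg _) hc hA'
  have h2 := key A' A hA' hA
  rw [abs_sub_comm] at h2
  exact abs_le.2 ⟨by linarith, key A A' hA hA'⟩

theorem lstep_close (κ' : Ker R Ξ) {s : ℕ} (ha : 0 < m (s + 1)) (ha1 : m (s + 1) ≤ 1) {δ B : ℝ}
    {x : Path R Ξ} (h : ∑ ξ, |κ.k s x ξ - κ'.k s x ξ| ≤ δ) {Y : Path R Ξ → ℝ}
    (hY : ∀ y, |Y y| ≤ B) :
    |lstep κ m s Y x - lstep κ' m s Y x| ≤ δ * Real.exp (2 * B) / m (s + 1) := by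
  set a := m (s + 1) with ha'
  have hB : 0 ≤ B := (abs_nonneg _).trans (hY x)
  have haY : ∀ y, |a * Y y| ≤ B := fun y => by
    rw [abs_mul, abs_of_pos ha]
    exact (mul_le_of_le_one_left (abs_nonneg _) ha1).trans (hY y)
  have hlow : ∀ κ'' : Ker R Ξ, Real.exp (-B) ≤ step κ'' s (fun y => Real.exp (a * Y y)) x := by
    intro κ''
    rw [← step_const κ'' s (Real.exp (-B)) x]
    exact step_mono κ'' s fun ξ => Real.exp_le_exp.2 (abs_le.1 (haY _)).1
  have hdiff : |step κ s (fun y => Real.exp (a * Y y)) x -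
      step κ' s (fun y => Real.exp (a * Y y)) x| ≤ δ * Real.exp B := by
    unfold step
    rw [← sum_sub_distrib]
    refine (abs_sum_le_sum_abs _ _).trans ?_
    refine le_trans (sum_le_sum (g := fun ξ => |κ.k s x ξ - κ'.k s x ξ| * Real.exp B)
      fun ξ _ => ?_) ?_
    · rw [← sub_mul, abs_mul, abs_of_pos (Real.exp_pos _)]
      exact mul_le_mul_of_nonneg_left (Real.exp_le_exp.2 (abs_le.1 (haY _)).2) (abs_nonneg _)
    · rw [← sum_mul]
      exact mul_le_mul_of_nonneg_right h (Real.exp_pos _).le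
  have h1 := abs_log_sub_log_le (Real.exp_pos (-B)) (hlow κ) (hlow κ')
  have h2 : δ * Real.exp B / Real.exp (-B) = δ * Real.exp (2 * B) := by
    rw [mul_div_assoc, ← Real.exp_sub]; congr 2; ring
  have h3 := h1.trans (div_le_div_of_nonneg_right hdiff (Real.exp_pos _).le)
  rw [h2] at h3
  unfold lstep
  rw [← ha', ← mul_sub, abs_mul, abs_of_pos (inv_pos.2 ha), div_eq_inv_mul]
  exact mul_le_mul_of_nonneg_left h3 (inv_pos.2 ha).le

/-- stability in the kernel: one step costs `δ e^{2B}/m (s+1)`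
(`|log A - log A'| ≤ |A - A'|/min A A'`) -/
theorem Fr_close (κ' : Ker R Ξ) {s : ℕ} (hm : Adm m R s) {δ B : ℝ} (hδ : 0 ≤ δ)
    (h : ∀ t, s ≤ t → t < R → ∀ x, ∑ ξ, |κ.k t x ξ - κ'.k t x ξ| ≤ δ) {G : Path R Ξ → ℝ}
    (hG : ∀ y, |G y| ≤ B) (x : Path R Ξ) :
    |Fr κ m s G x - Fr κ' m s G x| ≤ R * δ * Real.exp (2 * B) / m (s + 1) := by
  have hs := hm.pos
  set C := δ * Real.exp (2 * B) / m (s + 1) with hC
  have hC0 : 0 ≤ C := by positivity
  have key : |Fr κ m s G x - Fr κ' m s G x| ≤ ((R - s : ℕ) : ℝ) * C := by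
    refine adm_ind hm (P := fun t => ∀ x, |Fr κ m t G x - Fr κ' m t G x| ≤ ((R - t : ℕ) : ℝ) * C)
      (fun t ht x => ?_) (fun t hst ht ha ih x => ?_) s le_rfl x
    · simp [Fr_of_le _ m ht, Nat.sub_eq_zero_of_le ht]
    · rw [Fr_succ κ m ht, Fr_succ κ' m ht]
      have h1 := abs_lstep_sub_le κ ha ih x
      have h2 := lstep_close κ κ' ha (hm.le_one (by omega) ht) (h t hst ht x)
        (abs_Fr_le' κ' hm hG (t := t + 1) (by omega))
      have h3 : δ * Real.exp (2 * B) / m (t + 1) ≤ C :=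
        div_le_div_of_nonneg_left (by positivity) hs (hm.mono _ _ (by omega) (by omega) ht)
      have h4 : ((R - t : ℕ) : ℝ) = ((R - (t + 1) : ℕ) : ℝ) + 1 := by
        exact_mod_cast (by omega : R - t = R - (t + 1) + 1)
      have h5 := abs_sub_le (lstep κ m t (Fr κ m (t + 1) G) x) (lstep κ m t (Fr κ' m (t + 1) G) x)
        (lstep κ' m t (Fr κ' m (t + 1) G) x)
      rw [h4]
      linarith
  have h6 : ((R - s : ℕ) : ℝ) ≤ R := by exact_mod_cast Nat.sub_le R s
  refine key.trans ((mul_le_mul_of_nonneg_right h6 hC0).trans (le_of_eq ?_))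
  rw [hC]; ring

theorem abs_exp_sub_one_le {u δ : ℝ} (hδ : δ ≤ 1) (hu : |u| ≤ 2 * δ) :
    |Real.exp u - 1| ≤ 15 * δ := by
  have hδ0 : 0 ≤ δ := by linarith [abs_nonneg u]
  obtain ⟨h1, h2⟩ := abs_le.1 hu
  refine abs_le.2 ⟨by linarith [Real.add_one_le_exp u], ?_⟩
  have h3 : Real.exp u ≤ 15 / 2 := by
    have h4 : Real.exp u ≤ Real.exp 1 * Real.exp 1 := by
      rw [← Real.exp_add]; exact Real.exp_le_exp.2 (by linarith)
    have h5 := Real.exp_one_lt_d9
    have h6 := Real.exp_pos 1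
    nlinarith
  have h7 : Real.exp u * (1 - u) ≤ 1 := by
    have h8 := Real.add_one_le_exp (-u)
    have h9 : Real.exp u * Real.exp (-u) = 1 := by
      rw [← Real.exp_add, add_neg_cancel, Real.exp_zero]
    have := mul_le_mul_of_nonneg_left h8 (Real.exp_pos u).le
    linarith
  have h10 : Real.exp u * u ≤ Real.exp u * (2 * δ) :=
    mul_le_mul_of_nonneg_left h2 (Real.exp_pos u).le
  have h11 : Real.exp u * (2 * δ) ≤ 15 / 2 * (2 * δ) :=
    mul_le_mul_of_nonneg_right h3 (by positivity)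
  linarith

/-- `|e^a - 1| ≤ 15 δ` for `|a| ≤ 2δ ≤ 2` -/
theorem tilt_close {s : ℕ} (hm : Adm m R s) {G : Path R Ξ → ℝ} {δ : ℝ} (hδ : δ ≤ 1)
    (hG : ∀ y, |G y| ≤ δ) {t : ℕ} (h1 : s ≤ t) (h2 : t < R) (x : Path R Ξ) :
    ∑ ξ, |(tilt κ m G).k t x ξ - κ.k t x ξ| ≤ 15 * δ := by
  have ha : 0 < m (t + 1) := hm.pos' (by omega) h2
  have ha1 : m (t + 1) ≤ 1 := hm.le_one (by omega) h2
  refine le_trans (sum_le_sum (g := fun ξ => κ.k t x ξ * (15 * δ)) fun ξ _ => ?_) ?_
  · change |κ.k t x ξ * Real.exp (m (t + 1) * (Fr κ m (t + 1) G (upd x t ξ) - Fr κ m t G x)) -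
      κ.k t x ξ| ≤ _
    rw [← mul_sub_one, abs_mul, abs_of_nonneg (κ.nonneg _ _ _)]
    refine mul_le_mul_of_nonneg_left (abs_exp_sub_one_le hδ ?_) (κ.nonneg _ _ _)
    rw [abs_mul, abs_of_pos ha]
    refine (mul_le_of_le_one_left (abs_nonneg _) ha1).trans ((abs_sub _ _).trans ?_)
    have h3 := abs_Fr_le' κ hm hG (t := t + 1) (by omega) (upd x t ξ)
    have h4 := abs_Fr_le' κ hm hG h1 x
    linarith
  · rw [← sum_mul, κ.sum_one, one_mul]

/-- if `κ₂` dominates `c` times the image of `κ₁`, every level costs at most `log c / m (s+1)` -/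
theorem Fr_sub {Ξ₂ : Type} [Fintype Ξ₂] (κ₂ : Ker R Ξ₂) (Φ : Path R Ξ → Path R Ξ₂) {s : ℕ}
    (hm : Adm m R s) {c : ℝ} (hc : 0 < c) (hc1 : c ≤ 1)
    (h : ∀ t, s ≤ t → t < R → ∀ F : Path R Ξ₂ → ℝ, (∀ y, 0 ≤ F y) → Meas (t + 1) F →
      ∀ x, c * step κ t (fun y => F (Φ y)) x ≤ step κ₂ t F (Φ x))
    (G : Path R Ξ₂ → ℝ) (x : Path R Ξ) :
    Fr κ m s (fun y => G (Φ y)) x + R * Real.log c / m (s + 1) ≤ Fr κ₂ m s G (Φ x) := by
  have hs := hm.pos
  have hlc : Real.log c ≤ 0 := Real.log_nonpos hc.le hc1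
  set D := Real.log c / m (s + 1) with hD
  have hD0 : D ≤ 0 := div_nonpos_of_nonpos_of_nonneg hlc hs.le
  have key : Fr κ m s (fun y => G (Φ y)) x + ((R - s : ℕ) : ℝ) * D ≤ Fr κ₂ m s G (Φ x) := by
    refine adm_ind hm (P := fun t => ∀ x, Fr κ m t (fun y => G (Φ y)) x + ((R - t : ℕ) : ℝ) * D ≤
      Fr κ₂ m t G (Φ x)) (fun t ht x => ?_) (fun t hst ht ha ih x => ?_) s le_rfl x
    · simp [Fr_of_le _ m ht, Nat.sub_eq_zero_of_le ht]
    · rw [Fr_succ κ m ht, Fr_succ κ₂ m ht]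
      set Y := Fr κ m (t + 1) (fun y => G (Φ y))
      set Y₂ := Fr κ₂ m (t + 1) G with hY₂
      have h1 : ((R - (t + 1) : ℕ) : ℝ) * D + lstep κ m t Y x ≤
          lstep κ m t (fun y => Y₂ (Φ y)) x := by
        rw [← lstep_const_add κ ha]
        exact lstep_mono κ ha fun ξ => by linarith [ih (upd x t ξ)]
      have h2 := h t hst ht (fun y => Real.exp (m (t + 1) * Y₂ y)) (fun _ => (Real.exp_pos _).le)
        (fun y y' hy => by simp only [hY₂, Fr_meas κ₂ m G (t + 1) y y' hy]) x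
      have h3 := Real.log_le_log (mul_pos hc (step_exp_pos κ t _ x)) h2
      rw [Real.log_mul hc.ne' (step_exp_pos κ t _ x).ne', ← mul_lstep κ₂ ha,
        ← mul_lstep κ ha (fun y => Y₂ (Φ y))] at h3
      have h4 : m (t + 1) * D ≤ Real.log c := by
        have h5 : m (s + 1) ≤ m (t + 1) := hm.mono _ _ (by omega) (by omega) ht
        have h6 : m (s + 1) * D = Real.log c := by rw [hD]; field_simp
        nlinarith
      have h7 : D + lstep κ m t (fun y => Y₂ (Φ y)) x ≤ lstep κ₂ m t Y₂ (Φ x) := by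
        refine le_of_mul_le_mul_left ?_ ha
        linarith
      have h8 : ((R - t : ℕ) : ℝ) = ((R - (t + 1) : ℕ) : ℝ) + 1 := by
        exact_mod_cast (by omega : R - t = R - (t + 1) + 1)
      rw [h8]
      linarith
  have h9 : ((R - s : ℕ) : ℝ) ≤ R := by exact_mod_cast Nat.sub_le R s
  have h10 := mul_le_mul_of_nonpos_right h9 hD0
  rw [mul_div_assoc]
  linarith

/-- a function of the last coordinate only (`m R = 1`; then `Fr_const`-like steps) -/
theorem Fr_unif_last [Nonempty Ξ] {s : ℕ} (hm : Adm m R s) (i : Fin R) (hi : i.val = R - 1)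
    (g : Ξ → ℝ) (x : Path R Ξ) :
    Fr (Ker.unif R Ξ) m s (fun y => g (y i)) x = Real.log (𝔼 ξ, Real.exp (g ξ)) := by
  refine adm_ind hm (P := fun t => t < R → ∀ x, Fr (Ker.unif R Ξ) m t (fun y => g (y i)) x =
    Real.log (𝔼 ξ, Real.exp (g ξ))) (fun t ht ht' => absurd ht' (by omega))
    (fun t _ ht ha ih _ x => ?_) s le_rfl hm.lt x
  rw [Fr_succ _ m ht]
  by_cases hR : t + 1 < R
  · rw [show Fr (Ker.unif R Ξ) m (t + 1) (fun y => g (y i)) =
      fun _ => Real.log (𝔼 ξ, Real.exp (g ξ)) from funext (ih hR), lstep_const _ ha]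
  · have h1 : t + 1 = R := by omega
    have h2 : m (t + 1) = 1 := by rw [h1]; exact hm.top
    have h3 : i.val = t := by omega
    rw [Fr_of_le _ m h1.ge]
    unfold lstep step
    simp only [h2, inv_one, one_mul, upd, h3, if_true, Ker.unif]
    rw [← mul_sum, Fintype.expect_eq_sum_div_card, div_eq_inv_mul]

end Crest.Agent.R141
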