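import Crest.Agent.R141.Tree
import Crest.Prelude.Def_DilutedSpinGlass

/-!
Row 141: finite models, finite trials, perturbation, interpolation.  DO NOT EDIT (owner: helper18).
-/

set_option autoImplicit false

namespace Crest.Agent.R141

open Finset Crest.ProbabilityR.Diluted
open scoped BigOperators

/-- A diluted model with finitely many clause types: a clause has the weight
`1 - c ∏ φ_ℓ(s_ℓ)` with `c ∼ pC`, `φ_ℓ ∼ pΦ` independent; the field is `hv ∼ pH`. -/
structure FM (p : ℕ) where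
  C : Type
  Φ : Type
  H : Type
  [fC : Fintype C]
  [fΦ : Fintype Φ]
  [fH : Fintype H]
  pC : PV C
  pΦ : PV Φ
  pH : PV H
  c : C → ℝ
  φ : Φ → Bool → ℝ
  hv : H → ℝ
  lt_one : ∀ (a : C) (f : Fin p → Φ) (s : Fin p → Bool), |c a * ∏ l, φ (f l) (s l)| < 1

attribute [instance] FM.fC FM.fΦ FM.fH

namespace FM
variable {p : ℕ} (M : FM p)

abbrev Θ : Type := M.C × (Fin p → M.Φ)

def pΘ : PV M.Θ := M.pC.prod (M.pΦ.pi (Fin p))

/-- clause weight -/
def w (θ : M.Θ) (s : Fin p → Bool) : ℝ := 1 - M.c θ.1 * ∏ l, M.φ (θ.2 l) (s l)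

/-- field weight -/
noncomputable def hw (h : M.H) (b : Bool) : ℝ := Real.exp (M.hv h * spinVal b)

theorem w_pos (θ : M.Θ) (s : Fin p → Bool) : 0 < M.w θ s := by
  have := (abs_lt.1 (M.lt_one θ.1 θ.2 s)).2
  unfold w; linarith

theorem hw_pos (h : M.H) (b : Bool) : 0 < M.hw h b := Real.exp_pos _

/-- the positivity needed for the upper bound -/
def Pos : Prop := (∀ n : ℕ, 1 ≤ n → 0 ≤ M.pC.E fun a => M.c a ^ n) ∧ (Even p ∨ ∀ f b, 0 ≤ M.φ f b)

/-- `B` bounds the logarithms of all weights -/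
def Bd (B : ℝ) : Prop := 0 ≤ B ∧ (∀ θ s, |Real.log (M.w θ s)| ≤ B) ∧ ∀ h, |M.hv h| ≤ B

theorem exists_bd : ∃ B, M.Bd B := by
  classical
  refine ⟨∑ θ, ∑ s, |Real.log (M.w θ s)| + ∑ h, |M.hv h|, by positivity, fun θ s => ?_, fun h => ?_⟩
  · have h1 : |Real.log (M.w θ s)| ≤ ∑ s, |Real.log (M.w θ s)| :=
      single_le_sum (f := fun s => |Real.log (M.w θ s)|) (fun _ _ => abs_nonneg _) (mem_univ s)
    have h2 : ∑ s, |Real.log (M.w θ s)| ≤ ∑ θ, ∑ s, |Real.log (M.w θ s)| :=
      single_le_sum (f := fun θ => ∑ s, |Real.log (M.w θ s)|)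
        (fun _ _ => sum_nonneg fun _ _ => abs_nonneg _) (mem_univ θ)
    have h3 : 0 ≤ ∑ h, |M.hv h| := by positivity
    linarith
  · have h1 : |M.hv h| ≤ ∑ h, |M.hv h| :=
      single_le_sum (f := fun h => |M.hv h|) (fun _ _ => abs_nonneg _) (mem_univ h)
    have h3 : 0 ≤ ∑ θ, ∑ s, |Real.log (M.w θ s)| := by positivity
    linarith

/-- expectation over `K` clauses with uniform sites in `V` and over the fields -/
noncomputable def Dis (V : Type) [Fintype V] [DecidableEq V] (K : ℕ)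
    (F : (Fin K → M.Θ) → (Fin K → Fin p → V) → (V → M.H) → ℝ) : ℝ :=
  (M.pΘ.pi (Fin K)).E fun θ => 𝔼 idx : Fin K → Fin p → V, (M.pH.pi V).E fun h => F θ idx h

/-- logarithm of the Boltzmann weight -/
noncomputable def Ham {V : Type} [Fintype V] {K : ℕ} (θ : Fin K → M.Θ) (idx : Fin K → Fin p → V)
    (h : V → M.H) (σ : V → Bool) : ℝ :=
  ∑ j, Real.log (M.w (θ j) fun l => σ (idx j l)) + ∑ i, M.hv (h i) * spinVal (σ i)

/-- `E log Z` for `N` spins and `K` clauses -/
noncomputable def FZ (N K : ℕ) : ℝ :=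
  M.Dis (Fin N) K fun θ idx h => Real.log (∑ σ : Fin N → Bool, Real.exp (M.Ham θ idx h σ))

noncomputable def pres (α : ℝ) (N : ℕ) : ℝ :=
  (1 / (N : ℝ)) * ∑' K : ℕ, poissonWeight (α * N) K * M.FZ N K

/-- the weight of a cavity site with `k` clauses, as a function of the neighbouring spins -/
noncomputable def siteW {k : ℕ} (h : M.H) (θ : Fin k → M.Θ) (τ : Fin k × Fin (p - 1) → Bool) : ℝ :=
  ∑ ε : Bool, M.hw h ε *
    ∏ j, M.w (θ j) fun l => if hl : l.val < p - 1 then τ (j, ⟨l.val, hl⟩) else ε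

/-- the weight of `k` cavity clauses -/
def edgesW {k : ℕ} (θ : Fin k → M.Θ) (τ : Fin k × Fin p → Bool) : ℝ :=
  ∏ j, M.w (θ j) fun l => τ (j, l)

/-- the law of the interaction -/
noncomputable def law : MeasureTheory.Measure (Inter p) :=
  ∑ θ, ENNReal.ofReal (M.pΘ.w θ) • MeasureTheory.Measure.dirac fun s => Real.log (M.w θ s)

/-- the law of the field -/
noncomputable def flaw : MeasureTheory.Measure ℝ :=
  ∑ h, ENNReal.ofReal (M.pH.w h) • MeasureTheory.Measure.dirac (M.hv h)

end FM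

/-- A finite trial: every label draws a uniform `v : V` and then runs the system `κ v` from the
point `x v` at level `s`; its spin is `σ v` of the path. -/
structure Trial where
  R : ℕ
  Ξ : Type
  V : Type
  [fΞ : Fintype Ξ]
  [fV : Fintype V]
  [nV : Nonempty V]
  κ : V → Ker R Ξ
  σ : V → Path R Ξ → Bool
  x : V → Path R Ξ
  m : ℕ → ℝ
  s : ℕ
  adm : Adm m R s

attribute [instance] Trial.fΞ Trial.fV Trial.nV

/-- value of a trial on a positive weight `W` of the spins of the labels `L` -/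
noncomputable def Trial.TV (t : Trial) {L : Type} [Fintype L] [DecidableEq L]
    (W : (L → Bool) → ℝ) : ℝ :=
  𝔼 v : L → t.V, Fr (Ker.pi fun l => t.κ (v l)) t.m t.s
    (fun y => Real.log (W fun l => t.σ (v l) (comp y l))) fun i l => t.x (v l) i

namespace FM
variable {p : ℕ} (M : FM p)

noncomputable def siteV (t : Trial) (k : ℕ) : ℝ :=
  (M.pΘ.pi (Fin k)).E fun θ => M.pH.E fun h => t.TV (M.siteW h θ)

noncomputable def edgeV (t : Trial) : ℝ := M.pΘ.E fun θ => t.TV (M.w θ)

/-- the cavity functional of a finite trial -/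
noncomputable def P (α : ℝ) (t : Trial) : ℝ :=
  (∑' k : ℕ, poissonWeight (α * p) k * M.siteV t k) - α * (p - 1 : ℝ) * M.edgeV t

end FM

/-! ### uniform trials: the finite copy of `trialFunctional` -/

section unif
variable {L A : Type} [Fintype L] [DecidableEq L] [Fintype A] {r : ℕ}

noncomputable def fpm (m : ℝ) (lvl : Fin (r + 1)) (W : (L → Fin (r + 1) → A) → ℝ)
    (u : L → Fin (r + 1) → A) : ℝ :=
  (𝔼 v : L → A, (W fun ω j => if j = lvl then v ω else u ω j) ^ m) ^ (1 / m)

noncomputable def fpms (m : Fin r → ℝ) (W : (L → Fin (r + 1) → A) → ℝ) :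
    (L → Fin (r + 1) → A) → ℝ :=
  (List.finRange r).foldr (fun d acc => fpm (m d) d.succ acc) W

/-- mean of `W` for independent spins with `P(true) = π l` -/
def mixW (W : (L → Bool) → ℝ) (π : L → ℝ) : ℝ :=
  ∑ τ : L → Bool, W τ * ∏ l, if τ l then π l else 1 - π l

noncomputable def UV (m : Fin r → ℝ) (π : (Fin (r + 1) → A) → ℝ) (W : (L → Bool) → ℝ) : ℝ :=
  𝔼 u : L → Fin (r + 1) → A, Real.log (fpms m (fun u' => mixW W fun l => π (u' l)) u)

end unif

noncomputable def FM.UP {p : ℕ} (M : FM p) (α : ℝ) {r : ℕ} {A : Type} [Fintype A] (m : Fin r → ℝ)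
    (π : (Fin (r + 1) → A) → ℝ) : ℝ :=
  (∑' k : ℕ, poissonWeight (α * p) k *
      (M.pΘ.pi (Fin k)).E fun θ => M.pH.E fun h => UV m π (M.siteW h θ)) -
    α * (p - 1 : ℝ) * M.pΘ.E fun θ => UV m π (M.w θ)

/-! ### cavity functionals of a spin system -/

section sys
variable {R : ℕ} {Ξ : Type} [Fintype Ξ] [Nonempty Ξ] {V : Type} [Fintype V]

/-- free energy cost of the weight `W` of the spins at independent uniform sites -/
noncomputable def SV (κ : Ker R Ξ) (σ : Path R Ξ → V → Bool) (m : ℕ → ℝ) {L : Type} [Fintype L]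
    [DecidableEq L] (W : (L → Bool) → ℝ) : ℝ :=
  𝔼 v : L → V, F0 κ m fun y => Real.log (W fun l => σ y (v l))

noncomputable def FM.Site {p : ℕ} (M : FM p) (κ : Ker R Ξ) (σ : Path R Ξ → V → Bool) (m : ℕ → ℝ)
    (a : ℝ) : ℝ :=
  ∑' k : ℕ, poissonWeight a k *
    (M.pΘ.pi (Fin k)).E fun θ => M.pH.E fun h => SV κ σ m (M.siteW h θ)

noncomputable def FM.Edge {p : ℕ} (M : FM p) (κ : Ker R Ξ) (σ : Path R Ξ → V → Bool) (m : ℕ → ℝ)
    (a : ℝ) : ℝ :=
  ∑' k : ℕ, poissonWeight a k * (M.pΘ.pi (Fin k)).E fun θ => SV κ σ m (M.edgesW θ)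

/-- the trial given by independent copies of the system, started from `x` at level `s` -/
def trialOf [Nonempty V] (κ : Ker R Ξ) (σ : Path R Ξ → V → Bool) {m : ℕ → ℝ} {s : ℕ}
    (h : Adm m R s) (x : Path R Ξ) : Trial where
  R := R
  Ξ := Ξ
  V := V
  κ _ := κ
  σ v y := σ y v
  x _ := x
  m := m
  s := s
  adm := h

end sys

/-! ### the perturbation -/

section pert
variable {R E : ℕ}

/-- the sign of the edge `c` at level `i` -/
def sg (y : Path R (Fin E → Bool)) (c i : ℕ) : ℝ :=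
  if h : i < R ∧ c < E then (if y ⟨i, h.1⟩ ⟨c, h.2⟩ then 1 else -1) else 1

/-- factor of the step `h` in the mark of the role `r` -/
noncomputable def fac (h : Stp) (r : ℕ) (y : Path R (Fin E → Bool)) : ℝ :=
  if r = h.c then (sg y h.c (h.lv - 1) + sg y h.c h.lv) / 2
  else if r = h.par then (sg y h.c (h.lv - 1) - sg y h.c h.lv) / 2 else 1

noncomputable def mark (hs : List Stp) (r : ℕ) (y : Path R (Fin E → Bool)) : ℝ :=
  (hs.map fun h => fac h r y).prod

/-- observable of the role `c`; `s` is the spin at the site of the term -/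
noncomputable def gv (hs : List Stp) (c : ℕ × Bool) (s : Bool) (y : Path R (Fin E → Bool)) : ℝ :=
  mark hs c.1 y * ind s c.2

/-- weight of one perturbation term of type `P` with coefficients `θ` -/
noncomputable def termW (P : Tr Bool) (θ : ℕ → ℝ) (s : Bool) (y : Path R (Fin E → Bool)) : ℝ :=
  1 + θ 0 * gv (hist P 0 1) (0, P.first) s y +
    ((hist P 0 1).map fun h => θ h.c * gv (hist P 0 1) (h.c, h.b) s y).sum

/-- coefficients `λ` for the root role and `ε` for the others -/
def coef (lam eps : ℝ) (c : ℕ) : ℝ := if c = 0 then lam else eps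

/-- alphabet of the perturbed system: spins (read at the last level) and, for every term, a site
(read at level `0`) and signs (read at all levels) -/
abbrev Al (V J : Type) (E : ℕ) : Type := (V → Bool) × (J → V × (Fin E → Bool))

def lastI (R : ℕ) [NeZero R] : Fin R := ⟨R - 1, Nat.sub_one_lt (NeZero.ne R)⟩

variable [NeZero R] {V J : Type}

def spin (x : Path R (Al V J E)) : V → Bool := (x (lastI R)).1

def siteOf (x : Path R (Al V J E)) (j : J) : V := ((x 0).2 j).1

def marksOf (x : Path R (Al V J E)) (j : J) : Path R (Fin E → Bool) := fun i => ((x i).2 j).2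

noncomputable def pertG [Fintype J] (ty : J → Tr Bool) (lam : J → ℝ) (eps : ℝ)
    (x : Path R (Al V J E)) : ℝ :=
  ∑ j, Real.log (termW (ty j) (coef (lam j) eps) (spin x (siteOf x j)) (marksOf x j))

end pert

/-- a family of perturbations, indexed by `Λ`, that makes sense for every set of sites -/
structure Pert where
  J : Type
  Λ : Type
  [fJ : Fintype J]
  [dJ : DecidableEq J]
  [fΛ : Fintype Λ]
  [nΛ : Nonempty Λ]
  E : ℕ
  ty : J → Tr Bool
  lam : Λ → J → ℝ
  eps : ℝ
  small : ∀ a j, |lam a j| + |eps| * (ty j).size ≤ 1 / 2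

attribute [instance] Pert.fJ Pert.dJ Pert.fΛ Pert.nΛ

section
variable (R : ℕ) [NeZero R] (P : Pert) (V : Type) [Fintype V] [DecidableEq V] [Nonempty V]

/-- perturbed Hamiltonian -/
noncomputable def Pert.G (a : P.Λ) (H : (V → Bool) → ℝ) (x : Path R (Al V P.J P.E)) : ℝ :=
  H (spin x) + pertG P.ty (P.lam a) P.eps x

/-- perturbed Gibbs system -/
noncomputable def Pert.ker (a : P.Λ) (H : (V → Bool) → ℝ) : Ker R (Al V P.J P.E) :=
  tilt (Ker.unif R _) (grid R) (P.G R V a H)

/-- perturbed free energy of the system with `N + 1` spins and `K` clauses -/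
noncomputable def FM.AF {p : ℕ} (M : FM p) (N K : ℕ) : ℝ :=
  𝔼 a : P.Λ, M.Dis (Fin (N + 1)) K fun θ idx h =>
    F0 (Ker.unif R _) (grid R) (P.G R (Fin (N + 1)) a (M.Ham θ idx h))

noncomputable def FM.Abar {p : ℕ} (M : FM p) (α : ℝ) (N : ℕ) : ℝ :=
  ∑' K : ℕ, poissonWeight (α * (N + 1)) K * M.AF R P N K

end

/-- mean number of clauses at the new spin when passing from `N + 1` to `N + 2` spins -/
noncomputable def rate1 (α : ℝ) (p N : ℕ) : ℝ :=
  α * (N + 2) * (1 - (((N : ℝ) + 1) / (N + 2)) ^ p)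

/-- mean number of clauses that are removed from the system with `N + 1` spins -/
noncomputable def rate2 (α : ℝ) (p N : ℕ) : ℝ :=
  α * (N + 1) - α * (N + 2) * (((N : ℝ) + 1) / (N + 2)) ^ p

/-! ### interpolation for the upper bound -/

/-- kinds of clauses: `0` cavity, `1` internal, `2` edge.  `true`: position `l` reads a spin of the
system, `false`: it reads the label `(j, l)` -/
def useSpin (p : ℕ) (kd : Fin 3) (l : Fin p) : Bool :=
  if kd = 0 then decide (¬ l.val < p - 1) else decide (kd = 1)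

/-- interpolating free energy with `N + 1` spins and clauses of the kinds `kd` -/
noncomputable def FM.Phi {p : ℕ} (M : FM p) (t : Trial) (N : ℕ) {K : ℕ} (kd : Fin K → Fin 3) : ℝ :=
  M.Dis (Fin (N + 1)) K fun θ idx h => 𝔼 v : Fin K × Fin p → t.V,
    Fr ((Ker.unif t.R (Fin (N + 1) → Bool)).prod (Ker.pi fun l => t.κ (v l))) t.m t.s
      (fun y =>
        ∑ j, Real.log (M.w (θ j) fun l =>
          if useSpin p (kd j) l then (y ⟨t.R - 1, by have := t.adm.lt; omega⟩).1 (idx j l)
          else t.σ (v (j, l)) (comp (pmap Prod.snd y) (j, l))) +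
        ∑ i, M.hv (h i) * spinVal ((y ⟨t.R - 1, by have := t.adm.lt; omega⟩).1 i))
      fun i => (fun _ => true, fun l => t.x (v l) i)

end Crest.Agent.R141
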