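import Crest.Agent.R141.Ev

/-! Elementary facts on `ins`, `asg`, `opts`, `sopts`, `fopts` (task R141 Opts+Series).
Inductions on the tree, for all offsets `a0` and levels `s`. -/

set_option autoImplicit false

namespace Crest.Agent.R141

open Finset
open scoped BigOperators

section
variable {α : Type} {m : ℕ → ℝ} {R : ℕ}

theorem oa_wpos_wmap {β : Type} (f : α → β) (l : WL α) : wpos (wmap f l) = wmap f (wpos l) := by
  simp [wpos, wmap, List.map_map, Function.comp_def]

theorem oa_wpos_wneg (l : WL α) : wpos (wneg l) = wpos l := by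
  simp [wpos, wneg, List.map_map, Function.comp_def]

theorem oa_wpos_of_nonneg {l : WL α} (h : ∀ p ∈ l, 0 ≤ p.1) : wpos l = l := by
  induction l with
  | nil => rfl
  | cons p l ih =>
    rw [wpos_cons, ih fun q hq => h q (List.mem_cons_of_mem _ hq),
      abs_of_nonneg (h p List.mem_cons_self)]

theorem oa_wabs_of_nonneg {l : WL α} (h : ∀ p ∈ l, 0 ≤ p.1) : wabs l = wsum l fun _ => 1 := by
  rw [wabs_eq, oa_wpos_of_nonneg h]

theorem oa_wsum_one_of_one {l : WL α} (h : ∀ p ∈ l, p.1 = 1) :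
    wsum l (fun _ => 1) = l.length := by
  induction l with
  | nil => simp
  | cons p l ih =>
    rw [wsum_cons, ih fun q hq => h q (List.mem_cons_of_mem _ hq), h p List.mem_cons_self,
      List.length_cons]
    push_cast
    ring

theorem oa_wsum_wpos_nonneg (l : WL α) {Φ : α → ℝ} (h : ∀ a, 0 ≤ Φ a) : 0 ≤ wsum (wpos l) Φ := by
  induction l with
  | nil => simp
  | cons p l ih =>
    rw [wpos_cons, wsum_cons]
    exact add_nonneg (mul_nonneg (abs_nonneg _) (h _)) ih

theorem oa_single_le_wsum_wpos {l : WL α} {Φ : α → ℝ} (h : ∀ a, 0 ≤ Φ a) {p : ℝ × α} (hp : p ∈ l) :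
    |p.1| * Φ p.2 ≤ wsum (wpos l) Φ := by
  induction l with
  | nil => simp at hp
  | cons q l ih =>
    rw [wpos_cons, wsum_cons]
    rcases List.mem_cons.1 hp with rfl | hp
    · exact le_add_of_nonneg_right (oa_wsum_wpos_nonneg l h)
    · exact le_add_of_nonneg_of_le (mul_nonneg (abs_nonneg _) (h _)) (ih hp)

theorem wmem_stem {z : α} {a0 : ℝ} {s : ℕ} {T T' : Tr α} :
    wmem T' (stem m R z a0 s T) ↔ ∃ u, s ≤ u ∧ u < T.lev R ∧ T' = .node u T (.leaf z) := by
  simp only [wmem, stem, List.mem_map, List.mem_range'_1, Prod.mk.injEq]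
  constructor
  · rintro ⟨w, u, ⟨h1, h2⟩, -, h⟩
    exact ⟨u, h1, by omega, h.symm⟩
  · rintro ⟨u, h1, h2, h⟩
    exact ⟨_, u, ⟨h1, by omega⟩, rfl, h.symm⟩

theorem wsum_stem (z : α) (a0 : ℝ) (s : ℕ) (T : Tr α) (Φ : Tr α → ℝ) :
    wsum (stem m R z a0 s T) Φ = ∑ u ∈ Finset.Ico s (T.lev R),
      (m (u + 1) - if u = s then a0 else m u) * Φ (.node u T (.leaf z)) := by
  rw [Nat.Ico_eq_range']
  simp [wsum, stem, List.map_map, Function.comp_def, Finset.sum]

theorem oa_stem_nonneg {s₀ : ℕ} (hm : Adm m R s₀) (z : α) {T : Tr α} {a0 : ℝ} {s : ℕ} (hs : s₀ ≤ s)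
    (hT : T.Valid R s) (ha : a0 ≤ m (s + 1)) : ∀ p ∈ stem m R z a0 s T, 0 ≤ p.1 := by
  intro p hp
  simp only [stem, List.mem_map, List.mem_range'_1] at hp
  obtain ⟨u, ⟨h1, h2⟩, rfl⟩ := hp
  have := hT.lev_le
  dsimp only
  split_ifs with hu
  · rw [hu]; linarith
  · exact sub_nonneg.2 (hm.mono _ _ (by omega) (by omega) (by omega))

theorem ins_nonneg {s₀ : ℕ} (hm : Adm m R s₀) (z : α) {T : Tr α} {a0 : ℝ} {s : ℕ} (hs : s₀ ≤ s)
    (hT : T.Valid R s) (ha : a0 ≤ m (s + 1)) : ∀ p ∈ ins m R z a0 s T, 0 ≤ p.1 := by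
  induction T generalizing a0 s with
  | leaf a => exact oa_stem_nonneg hm z hs hT ha
  | node u a b iha ihb =>
    obtain ⟨h1, h2, h3, h4⟩ := id hT
    intro p hp
    simp only [ins, List.mem_append, wmap, List.mem_map] at hp
    rcases hp with hp | ⟨q, hq, rfl⟩ | ⟨q, hq, rfl⟩
    · exact oa_stem_nonneg hm z hs hT ha p hp
    · refine iha (hs.trans h1) h3 ?_ q hq
      split_ifs with hu
      · rw [hu]; exact ha
      · exact hm.mono _ _ (by omega) (by omega) (by omega)
    · exact ihb (hs.trans h1) h4 (hm.pos' (by omega) (by omega)).le q hq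

theorem oa_tele (a0 : ℝ) {s w : ℕ} (h : s ≤ w) :
    ∑ u ∈ Finset.Ico s w, (m (u + 1) - if u = s then a0 else m u) =
      (if w = s then a0 else m w) - a0 := by
  induction w, h using Nat.le_induction with
  | base => simp
  | succ w hw ih =>
    rw [Finset.sum_Ico_succ_top hw, ih, if_neg (show w + 1 ≠ s by omega)]
    ring

/-- telescoping -/
theorem ins_tot (hm : m R = 1) (z : α) {T : Tr α} (a0 : ℝ) {s : ℕ} (hs : s < R)
    (hT : T.Valid R s) : wsum (ins m R z a0 s T) (fun _ => 1) = T.size - a0 := by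
  induction T generalizing a0 s with
  | leaf a =>
    simp only [ins, wsum_stem, mul_one, Tr.lev, Tr.size]
    rw [oa_tele a0 hs.le, if_neg (by omega), hm]
    simp
  | node u a b iha ihb =>
    obtain ⟨h1, h2, h3, h4⟩ := hT
    simp only [ins, wsum_append, wsum_wmap, wsum_stem, mul_one, Tr.lev, Tr.size]
    rw [oa_tele a0 h1, iha _ h2 h3, ihb _ h2 h4]
    push_cast
    ring

theorem oa_stem_mem {z : α} {T T' : Tr α} {a0 : ℝ} {s : ℕ} (hT : T.Valid R s)
    (h : wmem T' (stem m R z a0 s T)) :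
    T'.Valid R s ∧ T'.size = T.size + 1 ∧ T'.depth ≤ T.depth + 1 ∧
      ∃ u, T'.levels.Perm (u :: T.levels) := by
  obtain ⟨u, h1, h2, rfl⟩ := wmem_stem.1 h
  exact ⟨⟨h1, h2.trans_le hT.lev_le, hT.of_le_lev h2.le, trivial⟩, rfl, by simp [Tr.depth], u,
    by simp [Tr.levels]⟩

theorem ins_mem {z : α} {T T' : Tr α} {a0 : ℝ} {s : ℕ} (hT : T.Valid R s)
    (h : wmem T' (ins m R z a0 s T)) :
    T'.Valid R s ∧ T'.size = T.size + 1 ∧ T'.depth ≤ T.depth + 1 ∧
      ∃ u, T'.levels.Perm (u :: T.levels) := by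
  induction T generalizing a0 s T' with
  | leaf a => exact oa_stem_mem hT h
  | node u a b iha ihb =>
    obtain ⟨h1, h2, h3, h4⟩ := id hT
    simp only [ins, wmem_append, wmem_wmap] at h
    rcases h with h | ⟨a', ha, rfl⟩ | ⟨b', hb, rfl⟩
    · exact oa_stem_mem hT h
    · obtain ⟨g1, g2, g3, v, g4⟩ := iha h3 ha
      refine ⟨⟨h1, h2, g1, h4⟩, by simp only [Tr.size]; omega, by simp only [Tr.depth]; omega,
        v, ?_⟩
      exact ((g4.append_right _).cons u).trans (List.Perm.swap _ _ _)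
    · obtain ⟨g1, g2, g3, v, g4⟩ := ihb h4 hb
      refine ⟨⟨h1, h2, h3, g1⟩, by simp only [Tr.size]; omega, by simp only [Tr.depth]; omega,
        v, ?_⟩
      exact (((g4.append_left _).trans List.perm_middle).cons u).trans (List.Perm.swap _ _ _)

theorem oa_wmem_asg_leaf {f : α → Option α} {a : α} {T' : Tr α} :
    wmem T' (asg f (.leaf a)) ↔ ∃ a', f a = some a' ∧ T' = .leaf a' := by
  cases h : f a <;> simp [asg, h]

theorem oa_wmem_opts_node {f : α → Option α} {z : α} {a b T' : Tr α} {a0 : ℝ} {s u : ℕ} :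
    wmem T' (opts m R f z a0 s (.node u a b)) ↔ wmem T' (stem m R z a0 s (.node u a b)) ∨
      (∃ a', wmem a' (opts m R f z (if u = s then a0 else m u) u a) ∧ Tr.node u a' b = T') ∨
      ∃ b', wmem b' (opts m R f z 0 u b) ∧ Tr.node u a b' = T' := by
  simp only [opts, asg, ins, wmem_append, wmem_wneg, wmem_wmap, or_and_right, exists_or]
  constructor
  · rintro ((h | h) | h | h | h)
    · exact Or.inr (Or.inl (Or.inl h))
    · exact Or.inr (Or.inr (Or.inl h))
    · exact Or.inl h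
    · exact Or.inr (Or.inl (Or.inr h))
    · exact Or.inr (Or.inr (Or.inr h))
  · rintro (h | (h | h) | h | h)
    · exact Or.inr (Or.inl h)
    · exact Or.inl (Or.inl h)
    · exact Or.inr (Or.inr (Or.inl h))
    · exact Or.inl (Or.inr h)
    · exact Or.inr (Or.inr (Or.inr h))

theorem oa_wsum_wpos_opts_node (f : α → Option α) (z : α) (a b : Tr α) (a0 : ℝ) (s u : ℕ)
    (Φ : Tr α → ℝ) : wsum (wpos (opts m R f z a0 s (.node u a b))) Φ =
      wsum (wpos (stem m R z a0 s (.node u a b))) Φ +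
      wsum (wpos (opts m R f z (if u = s then a0 else m u) u a)) (fun a' => Φ (.node u a' b)) +
      wsum (wpos (opts m R f z 0 u b)) (fun b' => Φ (.node u a b')) := by
  simp only [opts, asg, ins, wpos_append, oa_wpos_wneg, oa_wpos_wmap, wsum_append, wsum_wmap]
  ring

theorem asg_mem {f : α → Option α} {T T' : Tr α} (h : wmem T' (asg f T)) :
    T'.size = T.size ∧ T'.depth = T.depth ∧ T'.levels = T.levels ∧ T'.lev R = T.lev R ∧
      ∀ s, T.Valid R s → T'.Valid R s := by
  induction T generalizing T' with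
  | leaf a =>
    obtain ⟨a', -, rfl⟩ := oa_wmem_asg_leaf.1 h
    exact ⟨rfl, rfl, rfl, rfl, fun _ _ => trivial⟩
  | node u a b iha ihb =>
    simp only [asg, wmem_append, wmem_wmap] at h
    rcases h with ⟨a', ha, rfl⟩ | ⟨b', hb, rfl⟩
    · obtain ⟨g1, g2, g3, -, g5⟩ := iha ha
      exact ⟨by simp only [Tr.size, g1], by simp only [Tr.depth, g2],
        by simp only [Tr.levels, g3], rfl, fun s hs => ⟨hs.1, hs.2.1, g5 _ hs.2.2.1, hs.2.2.2⟩⟩
    · obtain ⟨g1, g2, g3, -, g5⟩ := ihb hb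
      exact ⟨by simp only [Tr.size, g1], by simp only [Tr.depth, g2],
        by simp only [Tr.levels, g3], rfl, fun s hs => ⟨hs.1, hs.2.1, hs.2.2.1, g5 _ hs.2.2.2⟩⟩

theorem asg_weight (f : α → Option α) (T : Tr α) : ∀ p ∈ asg f T, p.1 = 1 := by
  induction T with
  | leaf a =>
    intro p hp
    cases h : f a with
    | none => simp [asg, h] at hp
    | some a' =>
      simp only [asg, h, Option.elim, List.mem_singleton] at hp
      rw [hp]
  | node u a b iha ihb =>
    intro p hp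
    simp only [asg, List.mem_append, wmap, List.mem_map] at hp
    rcases hp with ⟨q, hq, rfl⟩ | ⟨q, hq, rfl⟩
    · exact iha q hq
    · exact ihb q hq

theorem asg_length_le (f : α → Option α) (T : Tr α) : (asg f T).length ≤ T.size := by
  induction T with
  | leaf a => cases h : f a <;> simp [asg, h, Tr.size]
  | node u a b iha ihb =>
    simp only [asg, List.length_append, wmap, List.length_map, Tr.size]
    omega

theorem wabs_opts_le {s₀ : ℕ} (hm : Adm m R s₀) (f : α → Option α) (z : α) {T : Tr α} {a0 : ℝ}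
    {s : ℕ} (hs : s₀ ≤ s) (hsR : s < R) (hT : T.Valid R s) (h0 : 0 ≤ a0) (ha : a0 ≤ m (s + 1)) :
    wabs (opts m R f z a0 s T) ≤ 2 * T.size := by
  rw [opts, wabs_append, wabs_wneg, oa_wabs_of_nonneg (ins_nonneg hm z hs hT ha),
    ins_tot hm.top z a0 hsR hT, oa_wabs_of_nonneg fun p hp => by rw [asg_weight f T p hp]; norm_num,
    oa_wsum_one_of_one (asg_weight f T)]
  have : ((asg f T).length : ℝ) ≤ T.size := by exact_mod_cast asg_length_le f T
  linarith

theorem opts_mem {f : α → Option α} {z : α} {T T' : Tr α} {a0 : ℝ} {s : ℕ} (hT : T.Valid R s)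
    (h : wmem T' (opts m R f z a0 s T)) :
    T'.Valid R s ∧ T'.size ≤ T.size + 1 ∧ T.levels ⊆ T'.levels ∧
      ∃ u, T'.levels ⊆ u :: T.levels := by
  simp only [opts, wmem_append, wmem_wneg] at h
  rcases h with h | h
  · obtain ⟨g1, -, g3, -, g5⟩ := asg_mem (R := R) h
    exact ⟨g5 s hT, by omega, by rw [g3]; exact List.Subset.refl _, 0,
      by rw [g3]; exact List.subset_cons_self _ _⟩
  · obtain ⟨g1, g2, -, u, g4⟩ := ins_mem hT h
    exact ⟨g1, g2.le, List.Subset.trans (List.subset_cons_self _ _) g4.symm.subset, u, g4.subset⟩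

theorem oa_ev_node_one {Ξ : Type} [Fintype Ξ] (κ : Ker R Ξ) {φ : α → Path R Ξ → ℝ} {z : α}
    (hz : ∀ y, φ z y = 1) (u : ℕ) (T : Tr α) :
    ev κ φ (.node u T (.leaf z)) = Ex κ u (ev κ φ T) := by
  have : φ z = fun _ => 1 := funext hz
  funext x
  simp only [ev, this, Ex_const, mul_one]

theorem oa_map_facts {β : Type} (f : α → β) (O : Tr α) : (O.map f).size = O.size ∧
    (O.map f).levels = O.levels ∧ (O.map f).lev R = O.lev R ∧
    ∀ s, ((O.map f).Valid R s ↔ O.Valid R s) := by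
  induction O with
  | leaf o => exact ⟨rfl, rfl, rfl, fun _ => Iff.rfl⟩
  | node u a c iha ihc =>
    obtain ⟨a1, a2, -, a4⟩ := iha
    obtain ⟨c1, c2, -, c4⟩ := ihc
    refine ⟨?_, ?_, rfl, fun s => ?_⟩
    · simp only [Tr.map, Tr.size, a1, c1]
    · simp only [Tr.map, Tr.levels, a2, c2]
    · simp only [Tr.map, Tr.Valid, a4, c4]

/-- observables that do not see the new leaf and the relabelling keep their value
(`Ex_Ex`, `Ex_const`) -/
theorem opts_ev {Ξ : Type} [Fintype Ξ] (κ : Ker R Ξ) {φ : α → Path R Ξ → ℝ} {f : α → Option α}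
    {z : α} (hz : ∀ y, φ z y = 1) (hf : ∀ a a', f a = some a' → φ a' = φ a) {T T' : Tr α}
    {a0 : ℝ} {s : ℕ} (h : wmem T' (opts m R f z a0 s T)) :
    Ex κ s (ev κ φ T') = Ex κ s (ev κ φ T) := by
  induction T generalizing a0 s T' with
  | leaf a =>
    simp only [opts, wmem_append, wmem_wneg, ins] at h
    rcases h with h | h
    · obtain ⟨a', ha, rfl⟩ := oa_wmem_asg_leaf.1 h
      simp only [ev, hf a a' ha]
    · obtain ⟨u, h1, -, rfl⟩ := wmem_stem.1 h
      rw [oa_ev_node_one κ hz, Ex_Ex κ h1]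
  | node u a b iha ihb =>
    rcases oa_wmem_opts_node.1 h with h | ⟨a', ha, rfl⟩ | ⟨b', hb, rfl⟩
    · obtain ⟨v, h1, -, rfl⟩ := wmem_stem.1 h
      rw [oa_ev_node_one κ hz, Ex_Ex κ h1]
    · simp only [ev, iha ha]
    · simp only [ev, ihb hb]

end

section
variable {m : ℕ → ℝ} {R : ℕ} {h : Stp}

theorem oa_asgF_eq_some {l l' : Lb} (hl : h.asgF l = some l') :
    l.2 = none ∧ l' = (l.1, some (h.c, h.b)) := by
  obtain ⟨o, _ | r⟩ := l
  · simp only [Stp.asgF, Option.some.injEq] at hl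
    exact ⟨rfl, hl.symm⟩
  · simp [Stp.asgF] at hl

theorem sopts_roles {T T' : Tr Lb} {a0 : ℝ} {s : ℕ} (hT : wmem T' (sopts m R h a0 s T)) :
    (roles T').Perm (h.c :: roles T) := by
  have hst : ∀ {T T' : Tr Lb} {a0 : ℝ} {s : ℕ}, wmem T' (stem m R h.newL a0 s T) →
      (roles T').Perm (h.c :: roles T) := by
    intro T T' a0 s hT
    obtain ⟨u, -, -, rfl⟩ := wmem_stem.1 hT
    exact List.perm_append_singleton _ _
  unfold sopts at hT
  induction T generalizing a0 s T' with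
  | leaf l =>
    simp only [opts, wmem_append, wmem_wneg, ins] at hT
    rcases hT with hT | hT
    · obtain ⟨a', ha, rfl⟩ := oa_wmem_asg_leaf.1 hT
      obtain ⟨h1, rfl⟩ := oa_asgF_eq_some ha
      simp [roles, h1]
    · exact hst hT
  | node u a b iha ihb =>
    rcases oa_wmem_opts_node.1 hT with hT | ⟨a', ha, rfl⟩ | ⟨b', hb, rfl⟩
    · exact hst hT
    · exact (iha ha).append_right _
    · exact ((ihb hb).append_left _).trans List.perm_middle

/-- free leaves minus `size - a0` -/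
theorem sopts_tot (hm : m R = 1) {T : Tr Lb} (a0 : ℝ) {s : ℕ} (hs : s < R) (hT : T.Valid R s) :
    wsum (sopts m R h a0 s T) (fun _ => 1) = a0 - (roles T).length := by
  have h1 : ∀ T : Tr Lb, wsum (asg h.asgF T) (fun _ => 1) = T.size - (roles T).length := by
    intro T
    induction T with
    | leaf l =>
      obtain ⟨o, _ | r⟩ := l <;> simp [asg, Stp.asgF, roles, Tr.size]
    | node u a b iha ihb =>
      simp only [asg, wsum_append, wsum_wmap, iha, ihb, roles, Tr.size, List.length_append]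
      push_cast
      ring
  rw [sopts, opts, wsum_append, wsum_wneg, ins_tot hm _ a0 hs hT, h1]
  ring

theorem oa_wmem_fstem {T T' : Tr Lb} {a0 : ℝ} {s : ℕ} (hT : wmem T' (fstem m R h a0 s T)) :
    s ≤ h.lv ∧ h.lv < T.lev R ∧ T' = .node h.lv T (.leaf h.newL) := by
  unfold fstem at hT
  by_cases hc : s ≤ h.lv ∧ h.lv < T.lev R
  · rw [if_pos hc] at hT
    simp only [wmem_cons, not_wmem_nil, or_false] at hT
    exact ⟨hc.1, hc.2, hT⟩
  · rw [if_neg hc] at hT
    exact absurd hT (not_wmem_nil _)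

theorem oa_wmem_fopts_node {a b T' : Tr Lb} {a0 : ℝ} {s u : ℕ}
    (hT : wmem T' (fopts m R h a0 s (.node u a b))) :
    wmem T' (fstem m R h a0 s (.node u a b)) ∨
      (∃ a', (wmem a' (fopts m R h (if u = s then a0 else m u) u a) ∨
        (u = h.lv ∧ wmem a' (sopts m R h (if u = s then a0 else m u) u a))) ∧
          Tr.node u a' b = T') ∨
      ∃ b', (wmem b' (fopts m R h 0 u b) ∨ (u = h.lv ∧ wmem b' (sopts m R h 0 u b))) ∧
        Tr.node u a b' = T' := by
  rw [fopts, wmem_append] at hT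
  rcases hT with hT | hT
  · exact Or.inl hT
  right
  by_cases hp : h.par ∈ roles a
  · rw [if_pos hp, wmem_append, wmem_wmap] at hT
    rcases hT with ⟨a', h1, h2⟩ | hT
    · exact Or.inl ⟨a', Or.inl h1, h2⟩
    · by_cases hu : u = h.lv
      · rw [if_pos hu, wmem_wmap] at hT
        obtain ⟨b', h1, h2⟩ := hT
        exact Or.inr ⟨b', Or.inr ⟨hu, h1⟩, h2⟩
      · rw [if_neg hu] at hT
        exact absurd hT (not_wmem_nil _)
  · rw [if_neg hp, wmem_append, wmem_wmap] at hT
    rcases hT with ⟨b', h1, h2⟩ | hT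
    · exact Or.inr ⟨b', Or.inl h1, h2⟩
    · by_cases hu : u = h.lv
      · rw [if_pos hu, wmem_wmap] at hT
        obtain ⟨a', h1, h2⟩ := hT
        exact Or.inl ⟨a', Or.inr ⟨hu, h1⟩, h2⟩
      · rw [if_neg hu] at hT
        exact absurd hT (not_wmem_nil _)

theorem oa_wsum_wpos_fstem_le (T : Tr Lb) (a0 : ℝ) (s : ℕ) {Φ : Tr Lb → ℝ} (hΦ : ∀ T', 0 ≤ Φ T') :
    wsum (wpos (fstem m R h a0 s T)) Φ ≤ wsum (wpos (stem m R h.newL a0 s T)) Φ := by
  unfold fstem
  by_cases hc : s ≤ h.lv ∧ h.lv < T.lev R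
  · rw [if_pos hc]
    simp only [wpos_cons, wpos_nil, wsum_cons, wsum_nil, add_zero, abs_neg]
    refine oa_single_le_wsum_wpos hΦ (p := (m (h.lv + 1) - (if h.lv = s then a0 else m h.lv),
      .node h.lv T (.leaf h.newL))) ?_
    simp only [stem, List.mem_map, List.mem_range'_1]
    exact ⟨h.lv, ⟨hc.1, by omega⟩, rfl⟩
  · rw [if_neg hc]
    exact oa_wsum_wpos_nonneg _ hΦ

theorem fopts_mem {T T' : Tr Lb} {a0 : ℝ} {s : ℕ} (hT : wmem T' (fopts m R h a0 s T)) :
    wmem T' (sopts m R h a0 s T) := by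
  unfold sopts
  induction T generalizing a0 s T' with
  | leaf l =>
    obtain ⟨h1, h2, rfl⟩ := oa_wmem_fstem hT
    simp only [opts, wmem_append, wmem_wneg, ins]
    exact Or.inr (wmem_stem.2 ⟨_, h1, h2, rfl⟩)
  | node u a b iha ihb =>
    rw [oa_wmem_opts_node]
    rcases oa_wmem_fopts_node hT with hT | ⟨a', ha, rfl⟩ | ⟨b', hb, rfl⟩
    · obtain ⟨h1, h2, rfl⟩ := oa_wmem_fstem hT
      exact Or.inl (wmem_stem.2 ⟨_, h1, h2, rfl⟩)
    · exact Or.inr (Or.inl ⟨a', ha.elim iha (fun h => h.2), rfl⟩)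
    · exact Or.inr (Or.inr ⟨b', hb.elim ihb (fun h => h.2), rfl⟩)

/-- the filtered options are a part of all options, with the same weights -/
theorem wsum_wpos_fopts_le (T : Tr Lb) (a0 : ℝ) (s : ℕ) {Φ : Tr Lb → ℝ} (hΦ : ∀ T', 0 ≤ Φ T') :
    wsum (wpos (fopts m R h a0 s T)) Φ ≤ wsum (wpos (sopts m R h a0 s T)) Φ := by
  induction T generalizing a0 s Φ with
  | leaf l =>
    have h1 := oa_wsum_wpos_fstem_le (m := m) (R := R) (h := h) (.leaf l) a0 s hΦ
    have h2 := oa_wsum_wpos_nonneg (asg h.asgF (.leaf l)) hΦ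
    simp only [sopts, opts, fopts, ins, wpos_append, wsum_append, oa_wpos_wneg]
    linarith
  | node u a b iha ihb =>
    have h1 := oa_wsum_wpos_fstem_le (m := m) (R := R) (h := h) (.node u a b) a0 s hΦ
    have h2 := iha (if u = s then a0 else m u) u (Φ := fun a' => Φ (.node u a' b)) fun _ => hΦ _
    have h3 := ihb 0 u (Φ := fun b' => Φ (.node u a b')) fun _ => hΦ _
    have h4 := oa_wsum_wpos_nonneg (sopts m R h (if u = s then a0 else m u) u a)
      (Φ := fun a' => Φ (.node u a' b)) fun _ => hΦ _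
    have h5 := oa_wsum_wpos_nonneg (sopts m R h 0 u b)
      (Φ := fun b' => Φ (.node u a b')) fun _ => hΦ _
    rw [sopts, oa_wsum_wpos_opts_node]
    unfold sopts at h2 h3 h4 h5
    rw [fopts]
    by_cases hp : h.par ∈ roles a
    · rw [if_pos hp]
      by_cases hu : u = h.lv
      · rw [if_pos hu]
        simp only [wpos_append, wsum_append, oa_wpos_wmap, wsum_wmap, sopts]
        linarith
      · rw [if_neg hu]
        simp only [wpos_append, wsum_append, oa_wpos_wmap, wsum_wmap, wpos_nil, wsum_nil]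
        linarith
    · rw [if_neg hp]
      by_cases hu : u = h.lv
      · rw [if_pos hu]
        simp only [wpos_append, wsum_append, oa_wpos_wmap, wsum_wmap, sopts]
        linarith
      · rw [if_neg hu]
        simp only [wpos_append, wsum_append, oa_wpos_wmap, wsum_wmap, wpos_nil, wsum_nil]
        linarith

theorem fopts_lv {T T' : Tr Lb} {a0 : ℝ} {s : ℕ} (hT : wmem T' (fopts m R h a0 s T)) :
    h.lv ∈ T'.levels := by
  induction T generalizing a0 s T' with
  | leaf l =>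
    obtain ⟨-, -, rfl⟩ := oa_wmem_fstem hT
    simp [Tr.levels]
  | node u a b iha ihb =>
    rcases oa_wmem_fopts_node hT with hT | ⟨a', ha, rfl⟩ | ⟨b', hb, rfl⟩
    · obtain ⟨-, -, rfl⟩ := oa_wmem_fstem hT
      simp [Tr.levels]
    · rcases ha with ha | ha
      · simp [Tr.levels, iha ha]
      · simp [Tr.levels, ha.1]
    · rcases hb with hb | hb
      · simp [Tr.levels, ihb hb]
      · simp [Tr.levels, hb.1]

/-- validity from a higher level `t ≤ h.lv` is preserved -/
theorem fopts_valid {T T' : Tr Lb} {a0 : ℝ} {s t : ℕ} (hT : wmem T' (fopts m R h a0 s T))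
    (ht : t ≤ h.lv) (hv : T.Valid R t) : T'.Valid R t := by
  have hst : wmem T' (fstem m R h a0 s T) → T'.Valid R t := by
    intro hT
    obtain ⟨-, h2, rfl⟩ := oa_wmem_fstem hT
    exact ⟨ht, h2.trans_le hv.lev_le, hv.of_le_lev h2.le, trivial⟩
  cases T with
  | leaf l => exact hst hT
  | node u a b =>
    obtain ⟨h1, h2, h3, h4⟩ := id hv
    rcases oa_wmem_fopts_node hT with hT | ⟨a', ha, rfl⟩ | ⟨b', hb, rfl⟩
    · exact hst hT
    · exact ⟨h1, h2, (opts_mem h3 (ha.elim fopts_mem fun h => h.2)).1, h4⟩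
    · exact ⟨h1, h2, h3, (opts_mem h4 (hb.elim fopts_mem fun h => h.2)).1⟩

theorem useq_mem {hs : List Stp} {T T' : Tr Lb} {a0 : ℝ} {s : ℕ} (hT : T.Valid R s)
    (h : wmem T' (useq m R a0 s hs T)) : T'.Valid R s ∧ T'.size ≤ T.size + hs.length := by
  induction hs generalizing T with
  | nil =>
    simp only [useq, wmem_cons, not_wmem_nil, or_false] at h
    subst h
    exact ⟨hT, le_rfl⟩
  | cons g hs ih =>
    simp only [useq, wmem_wbind] at h
    obtain ⟨T1, h1, h2⟩ := h
    obtain ⟨g1, g2, -⟩ := opts_mem hT h1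
    obtain ⟨g3, g4⟩ := ih g1 h2
    exact ⟨g3, by rw [List.length_cons]; omega⟩

theorem fseq_mem {hs : List Stp} {T T' : Tr Lb} {a0 : ℝ} {s : ℕ}
    (h : wmem T' (fseq m R a0 s hs T)) : wmem T' (useq m R a0 s hs T) := by
  induction hs generalizing T with
  | nil => exact h
  | cons g hs ih =>
    simp only [useq, fseq, wmem_wbind] at h ⊢
    obtain ⟨T1, h1, h2⟩ := h
    exact ⟨T1, fopts_mem h1, ih h2⟩

theorem fseq_valid {hs : List Stp} {T T' : Tr Lb} {a0 : ℝ} {s t : ℕ}
    (h : wmem T' (fseq m R a0 s hs T)) (ht : ∀ h ∈ hs, t ≤ h.lv) (hv : T.Valid R t) :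
    T'.Valid R t := by
  induction hs generalizing T with
  | nil =>
    simp only [fseq, wmem_cons, not_wmem_nil, or_false] at h
    subst h
    exact hv
  | cons g hs ih =>
    simp only [fseq, wmem_wbind] at h
    obtain ⟨T1, h1, h2⟩ := h
    exact ih h2 (fun g' hg' => ht g' (List.mem_cons_of_mem _ hg'))
      (fopts_valid h1 (ht g List.mem_cons_self) hv)

theorem oa_seq_step (hm : Adm m R 0) (g : Stp) (n : ℕ) {T : Tr Lb} (hT : T.Valid R 0) :
    wsum (wpos (sopts m R g 0 0 T)) (fun _ => (2 * (T.size + (n + 1 : ℕ) : ℝ)) ^ n) ≤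
      (2 * (T.size + (n + 1 : ℕ) : ℝ)) ^ (n + 1) := by
  have h1 := wsum_mul_right (wpos (sopts m R g 0 0 T)) ((2 * (T.size + (n + 1 : ℕ) : ℝ)) ^ n)
    fun _ => 1
  simp only [one_mul] at h1
  rw [h1, ← wabs_eq, pow_succ']
  refine mul_le_mul_of_nonneg_right ((wabs_opts_le hm _ _ le_rfl hm.lt hT le_rfl
    hm.pos.le).trans ?_) (by positivity)
  have : (0 : ℝ) ≤ (n + 1 : ℕ) := Nat.cast_nonneg _
  linarith

theorem wabs_useq_le (hm : Adm m R 0) (hs : List Stp) {T : Tr Lb} (hT : T.Valid R 0) :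
    wabs (useq m R 0 0 hs T) ≤ (2 * (T.size + hs.length : ℝ)) ^ hs.length := by
  induction hs generalizing T with
  | nil => simp [useq]
  | cons g hs ih =>
    rw [useq, wabs_wbind]
    refine le_trans (wsum_wpos_le fun T1 h1 => ?_) (oa_seq_step hm g hs.length hT)
    obtain ⟨g1, g2, -⟩ := opts_mem hT h1
    refine (ih g1).trans ?_
    have : (T1.size : ℝ) ≤ T.size + 1 := by exact_mod_cast g2
    refine pow_le_pow_left₀ (by positivity) ?_ _
    push_cast
    linarith

theorem wabs_fseq_le (hm : Adm m R 0) (hs : List Stp) {T : Tr Lb} (hT : T.Valid R 0) :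
    wabs (fseq m R 0 0 hs T) ≤ (2 * (T.size + hs.length : ℝ)) ^ hs.length := by
  induction hs generalizing T with
  | nil => simp [fseq]
  | cons g hs ih =>
    rw [fseq, wabs_wbind]
    refine le_trans (wsum_wpos_le fun T1 h1 => ?_)
      ((wsum_wpos_fopts_le T 0 0 fun _ => by positivity).trans (oa_seq_step hm g hs.length hT))
    obtain ⟨g1, g2, -⟩ := opts_mem hT (fopts_mem h1)
    refine (ih g1).trans ?_
    have : (T1.size : ℝ) ≤ T.size + 1 := by exact_mod_cast g2
    refine pow_le_pow_left₀ (by positivity) ?_ _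
    push_cast
    linarith

theorem oa_fopts_old {Ξ : Type} [Fintype Ξ] (κ : Ker R Ξ) (φ : Bool → Path R Ξ → ℝ)
    {T T' : Tr Lb} {a0 : ℝ} {s t : ℕ} (hT : wmem T' (fopts m R h a0 s T)) (ht : t ≤ h.lv) :
    Ex κ t (ev κ (oldF φ) T') = Ex κ t (ev κ (oldF φ) T) := by
  have hz : ∀ y, oldF φ h.newL y = 1 := fun _ => rfl
  have hf : ∀ a a', h.asgF a = some a' → oldF φ a' = oldF φ a := by
    intro a a' ha
    obtain ⟨-, rfl⟩ := oa_asgF_eq_some ha
    rfl
  have hst : wmem T' (fstem m R h a0 s T) →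
      Ex κ t (ev κ (oldF φ) T') = Ex κ t (ev κ (oldF φ) T) := by
    intro hT
    obtain ⟨-, -, rfl⟩ := oa_wmem_fstem hT
    rw [oa_ev_node_one κ hz, Ex_Ex κ ht]
  cases T with
  | leaf l => exact hst hT
  | node u a b =>
    rcases oa_wmem_fopts_node hT with hT | ⟨a', ha, rfl⟩ | ⟨b', hb, rfl⟩
    · exact hst hT
    · simp only [ev, opts_ev κ hz hf (ha.elim fopts_mem fun h => h.2)]
    · simp only [ev, opts_ev κ hz hf (hb.elim fopts_mem fun h => h.2)]

/-- Old observables keep their value at every level `t ≤ h.lv` from which the tree is valid.  For one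
step: induction on `T`; the new node sits at the level `h.lv ≥ t` (`Ex_Ex`), the inner cases use the
induction hypothesis at the level of the root and `opts_ev`. -/
theorem fseq_old {Ξ : Type} [Fintype Ξ] (κ : Ker R Ξ) (φ : Bool → Path R Ξ → ℝ) {hs : List Stp}
    {T T' : Tr Lb} {a0 : ℝ} {s t : ℕ} (h : wmem T' (fseq m R a0 s hs T))
    (ht : ∀ h ∈ hs, t ≤ h.lv) : Ex κ t (ev κ (oldF φ) T') = Ex κ t (ev κ (oldF φ) T) := by
  induction hs generalizing T with
  | nil =>
    simp only [fseq, wmem_cons, not_wmem_nil, or_false] at h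
    rw [h]
  | cons g hs ih =>
    simp only [fseq, wmem_wbind] at h
    obtain ⟨T1, h1, h2⟩ := h
    rw [ih h2 (fun g' hg' => ht g' (List.mem_cons_of_mem _ hg')),
      oa_fopts_old κ φ h1 (ht g List.mem_cons_self)]

theorem roles_oldT (O : Tr Bool) : roles (oldT O) = [] := by
  induction O with
  | leaf o => rfl
  | node u a c iha ihc =>
    change roles (oldT a) ++ roles (oldT c) = []
    rw [iha, ihc]; rfl

theorem roles_rootT (b : Bool) (O : Tr Bool) : roles (rootT b O) = [0] := by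
  induction O with
  | leaf o => rfl
  | node u a c iha _ =>
    change roles (rootT b a) ++ roles (oldT c) = [0]
    rw [iha, roles_oldT]; rfl

theorem rootT_facts (b : Bool) (O : Tr Bool) : (rootT b O).size = O.size ∧
    (rootT b O).levels = O.levels ∧ (rootT b O).lev R = O.lev R ∧
    ∀ s, ((rootT b O).Valid R s ↔ O.Valid R s) := by
  induction O with
  | leaf o => exact ⟨rfl, rfl, rfl, fun _ => Iff.rfl⟩
  | node u a c iha _ =>
    obtain ⟨a1, a2, -, a4⟩ := iha
    obtain ⟨c1, c2, -, c4⟩ := oa_map_facts (R := R) (fun o => ((some o, none) : Lb)) c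
    refine ⟨?_, ?_, rfl, fun s => ?_⟩
    · simp only [rootT, oldT, Tr.size, a1, c1]
    · simp only [rootT, oldT, Tr.levels, a2, c2]
    · simp only [rootT, oldT, Tr.Valid, a4, c4]

theorem oldT_facts (O : Tr Bool) : (oldT O).size = O.size ∧ (oldT O).levels = O.levels ∧
    (oldT O).lev R = O.lev R ∧ ∀ s, ((oldT O).Valid R s ↔ O.Valid R s) := by
  exact oa_map_facts _ O

theorem ev_oldF_oldT {Ξ : Type} [Fintype Ξ] (κ : Ker R Ξ) (φ : Bool → Path R Ξ → ℝ)
    (O : Tr Bool) : ev κ (oldF φ) (oldT O) = ev κ φ O := by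
  induction O with
  | leaf o => rfl
  | node u a c iha ihc =>
    change (fun x => Ex κ u (ev κ (oldF φ) (oldT a)) x * Ex κ u (ev κ (oldF φ) (oldT c)) x) = _
    rw [iha, ihc]; rfl

theorem ev_oldF_rootT {Ξ : Type} [Fintype Ξ] (κ : Ker R Ξ) (φ : Bool → Path R Ξ → ℝ) (b : Bool)
    (O : Tr Bool) : ev κ (oldF φ) (rootT b O) = ev κ φ O := by
  induction O with
  | leaf o => rfl
  | node u a c iha _ =>
    change (fun x => Ex κ u (ev κ (oldF φ) (rootT b a)) x * Ex κ u (ev κ (oldF φ) (oldT c)) x) = _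
    rw [iha, ev_oldF_oldT]; rfl

end

end Crest.Agent.R141
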