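import Crest.Agent.R141.Realize

/-! Toolkit for `powerMeans` (task R141 PM+StepApprox).  All statements follow by induction on the
list in `foldr` (state them for an arbitrary `l : List (Fin r)`). -/

set_option autoImplicit false

namespace Crest.Agent.R141

open Finset Crest.ProbabilityR.Diluted MeasureTheory
open scoped BigOperators

variable {L : Type} [Fintype L] {r : ℕ} {m : Fin r → ℝ}

instance : IsProbabilityMeasure (uniformArrays L r) := by
  unfold uniformArrays; infer_instance

namespace PM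

/-- the law of the fresh uniforms -/
noncomputable abbrev nu (L : Type) [Fintype L] : Measure (L → unitInterval) :=
  Measure.pi fun _ : L => (volume : Measure unitInterval)

/-- resample the level `lvl` -/
def rs (lvl : Fin (r + 1)) (u : L → Fin (r + 1) → unitInterval) (v : L → unitInterval) :
    L → Fin (r + 1) → unitInterval := fun ω j => if j = lvl then v ω else u ω j

omit [Fintype L] in
theorem measurable_rs (lvl : Fin (r + 1)) :
    Measurable fun z : (L → Fin (r + 1) → unitInterval) × (L → unitInterval) => rs lvl z.1 z.2 := by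
  refine measurable_pi_lambda _ fun ω => measurable_pi_lambda _ fun j => ?_
  unfold rs
  split_ifs
  · fun_prop
  · fun_prop

omit [Fintype L] in
theorem measurable_rs_right (lvl : Fin (r + 1)) (u : L → Fin (r + 1) → unitInterval) :
    Measurable (rs lvl u) :=
  (measurable_rs lvl).comp (measurable_const.prodMk measurable_id)

theorem pmStep_eq (c : ℝ) (lvl : Fin (r + 1)) (W : (L → Fin (r + 1) → unitInterval) → ℝ)
    (u : L → Fin (r + 1) → unitInterval) :
    pmStep c lvl W u = (∫ v, W (rs lvl u v) ^ c ∂nu L) ^ (1 / c) := rfl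

/-- the nested means along a list of levels -/
noncomputable def pms (m : Fin r → ℝ) (l : List (Fin r))
    (W : (L → Fin (r + 1) → unitInterval) → ℝ) : (L → Fin (r + 1) → unitInterval) → ℝ :=
  l.foldr (fun d acc => pmStep (m d) d.succ acc) W

theorem pms_cons (d : Fin r) (l : List (Fin r)) (W : (L → Fin (r + 1) → unitInterval) → ℝ) :
    pms m (d :: l) W = pmStep (m d) d.succ (pms m l W) := rfl

theorem measurable_pmStep' {Z : Type} [MeasurableSpace Z] (c : ℝ) (lvl : Fin (r + 1))
    {W : Z → (L → Fin (r + 1) → unitInterval) → ℝ} (hW : Measurable fun z : Z × _ => W z.1 z.2) :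
    Measurable fun z : Z × (L → Fin (r + 1) → unitInterval) => pmStep c lvl (W z.1) z.2 := by
  have h1 : Measurable fun x : (Z × (L → Fin (r + 1) → unitInterval)) × (L → unitInterval) =>
      W x.1.1 (rs lvl x.1.2 x.2) ^ c :=
    (hW.comp (measurable_fst.fst.prodMk ((measurable_rs lvl).comp
      (measurable_fst.snd.prodMk measurable_snd)))).pow_const c
  exact (h1.stronglyMeasurable.integral_prod_right' (ν := nu L)).measurable.pow_const (1 / c)

theorem measurable_pms' {Z : Type} [MeasurableSpace Z]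
    {W : Z → (L → Fin (r + 1) → unitInterval) → ℝ} (hW : Measurable fun z : Z × _ => W z.1 z.2)
    (l : List (Fin r)) :
    Measurable fun z : Z × (L → Fin (r + 1) → unitInterval) => pms m l (W z.1) z.2 := by
  induction l with
  | nil => exact hW
  | cons d l ih => exact measurable_pmStep' (W := fun z => pms m l (W z)) _ _ ih

theorem measurable_pms {W : (L → Fin (r + 1) → unitInterval) → ℝ} (hW : Measurable W)
    (l : List (Fin r)) : Measurable (pms m l W) :=
  (measurable_pms' (m := m) (Z := Unit) (W := fun _ => W) (hW.comp measurable_snd) l).comp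
    ((measurable_const (a := ())).prodMk measurable_id)

theorem integrable_of_mem {X : Type} [MeasurableSpace X] {μ : Measure X} [IsFiniteMeasure μ]
    {f : X → ℝ} (hf : Measurable f) {a b : ℝ} (h : ∀ x, a ≤ f x ∧ f x ≤ b) : Integrable f μ :=
  Integrable.of_mem_Icc a b hf.aemeasurable (Filter.Eventually.of_forall h)

theorem integral_mem {X : Type} [MeasurableSpace X] {μ : Measure X} [IsProbabilityMeasure μ]
    {f : X → ℝ} (hf : Measurable f) {a b : ℝ} (h : ∀ x, a ≤ f x ∧ f x ≤ b) :
    a ≤ ∫ x, f x ∂μ ∧ ∫ x, f x ∂μ ≤ b := by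
  have hi := integrable_of_mem (μ := μ) hf h
  constructor
  · simpa using integral_mono (integrable_const a) hi fun x => (h x).1
  · simpa using integral_mono hi (integrable_const b) fun x => (h x).2

theorem integral_comp_mp {X Y : Type} [MeasurableSpace X] [MeasurableSpace Y] {μ : Measure X}
    {ν : Measure Y} {f : X → Y} (hf : MeasurePreserving f μ ν) {g : Y → ℝ} (hg : Measurable g) :
    ∫ x, g (f x) ∂μ = ∫ y, g y ∂ν := by
  rw [← hf.map_eq, integral_map hf.measurable.aemeasurable hg.aestronglyMeasurable]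

theorem rpow_mem {c : ℝ} (hc : 0 < c) {a b x : ℝ} (ha : 0 < a) (h : a ≤ x ∧ x ≤ b) :
    a ^ c ≤ x ^ c ∧ x ^ c ≤ b ^ c :=
  ⟨Real.rpow_le_rpow ha.le h.1 hc.le, Real.rpow_le_rpow (ha.le.trans h.1) h.2 hc.le⟩

theorem int_mem {c : ℝ} (hc : 0 < c) (lvl : Fin (r + 1))
    {W : (L → Fin (r + 1) → unitInterval) → ℝ} (hW : Measurable W) {a b : ℝ} (ha : 0 < a)
    (h : ∀ u, a ≤ W u ∧ W u ≤ b) (u : L → Fin (r + 1) → unitInterval) :
    a ^ c ≤ ∫ v, W (rs lvl u v) ^ c ∂nu L ∧ ∫ v, W (rs lvl u v) ^ c ∂nu L ≤ b ^ c :=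
  integral_mem ((hW.comp (measurable_rs_right lvl u)).pow_const c) fun _ => rpow_mem hc ha (h _)

theorem pmStep_mem {c : ℝ} (hc : 0 < c) (lvl : Fin (r + 1))
    {W : (L → Fin (r + 1) → unitInterval) → ℝ} (hW : Measurable W) {a b : ℝ} (ha : 0 < a)
    (h : ∀ u, a ≤ W u ∧ W u ≤ b) (u : L → Fin (r + 1) → unitInterval) :
    a ≤ pmStep c lvl W u ∧ pmStep c lvl W u ≤ b := by
  have hb : 0 ≤ b := ha.le.trans ((h u).1.trans (h u).2)
  have h1 := rpow_mem (one_div_pos.2 hc) (Real.rpow_pos_of_pos ha c) (int_mem hc lvl hW ha h u)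
  rwa [one_div, Real.rpow_rpow_inv ha.le hc.ne', Real.rpow_rpow_inv hb hc.ne', ← one_div] at h1

theorem pms_mem (hm : ∀ d, 0 < m d) {W : (L → Fin (r + 1) → unitInterval) → ℝ}
    (hW : Measurable W) {a b : ℝ} (ha : 0 < a) (h : ∀ u, a ≤ W u ∧ W u ≤ b) (l : List (Fin r)) :
    ∀ u, a ≤ pms m l W u ∧ pms m l W u ≤ b := by
  induction l with
  | nil => exact h
  | cons d l ih => exact pmStep_mem (hm d) _ (measurable_pms hW l) ha ih

theorem log_pmStep {c : ℝ} (hc : 0 < c) (lvl : Fin (r + 1))
    {W : (L → Fin (r + 1) → unitInterval) → ℝ} (hW : Measurable W) {a b : ℝ} (ha : 0 < a)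
    (h : ∀ u, a ≤ W u ∧ W u ≤ b) (u : L → Fin (r + 1) → unitInterval) :
    Real.log (pmStep c lvl W u) = 1 / c * Real.log (∫ v, W (rs lvl u v) ^ c ∂nu L) :=
  Real.log_rpow ((Real.rpow_pos_of_pos ha c).trans_le (int_mem hc lvl hW ha h u).1) _

theorem log_pmStep_le {e : ℝ} (he : 0 < e) (lvl : Fin (r + 1))
    {W W' : (L → Fin (r + 1) → unitInterval) → ℝ}
    (hW : Measurable W) (hW' : Measurable W') {a b : ℝ} (ha : 0 < a) (h : ∀ u, a ≤ W u ∧ W u ≤ b)
    (h' : ∀ u, a ≤ W' u ∧ W' u ≤ b) {c : ℝ} (hc : ∀ u, Real.log (W u) ≤ c + Real.log (W' u))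
    (u : L → Fin (r + 1) → unitInterval) :
    Real.log (pmStep e lvl W u) ≤ c + Real.log (pmStep e lvl W' u) := by
  rw [log_pmStep he lvl hW ha h, log_pmStep he lvl hW' ha h']
  have p1 := (Real.rpow_pos_of_pos ha e).trans_le (int_mem he lvl hW ha h u).1
  have p2 := (Real.rpow_pos_of_pos ha e).trans_le (int_mem he lvl hW' ha h' u).1
  have key : ∫ v, W (rs lvl u v) ^ e ∂nu L ≤
      Real.exp (c * e) * ∫ v, W' (rs lvl u v) ^ e ∂nu L := by
    rw [← integral_const_mul]
    refine integral_mono
      (integrable_of_mem ((hW.comp (measurable_rs_right lvl u)).pow_const e)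
        fun _ => rpow_mem he ha (h _))
      ((integrable_of_mem ((hW'.comp (measurable_rs_right lvl u)).pow_const e)
        fun _ => rpow_mem he ha (h' _)).const_mul _) fun v => ?_
    beta_reduce
    rw [Real.rpow_def_of_pos (ha.trans_le (h _).1), Real.rpow_def_of_pos (ha.trans_le (h' _).1),
      ← Real.exp_add, ← add_mul]
    exact Real.exp_le_exp.2 (mul_le_mul_of_nonneg_right (hc _) he.le)
  have h2 := Real.log_le_log p1 key
  rw [Real.log_mul (Real.exp_pos _).ne' p2.ne', Real.log_exp] at h2
  calc _ ≤ 1 / e * (c * e + Real.log (∫ v, W' (rs lvl u v) ^ e ∂nu L)) :=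
        mul_le_mul_of_nonneg_left h2 (one_div_pos.2 he).le
    _ = _ := by field_simp

theorem abs_log_sub_le {a x y : ℝ} (ha : 0 < a) (hx : a ≤ x) (hy : a ≤ y) :
    |Real.log x - Real.log y| ≤ |x - y| / a := by
  have key : ∀ x y : ℝ, a ≤ x → a ≤ y → Real.log x - Real.log y ≤ |x - y| / a := by
    intro x y hx hy
    have hx0 := ha.trans_le hx
    have hy0 := ha.trans_le hy
    rw [← Real.log_div hx0.ne' hy0.ne']
    calc _ ≤ x / y - 1 := Real.log_le_sub_one_of_pos (div_pos hx0 hy0)
      _ = (x - y) / y := by field_simp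
      _ ≤ |x - y| / y := div_le_div_of_nonneg_right (le_abs_self _) hy0.le
      _ ≤ |x - y| / a := div_le_div_of_nonneg_left (abs_nonneg _) ha hy
  rw [abs_le]
  have := key y x hy hx
  rw [abs_sub_comm] at this
  exact ⟨by linarith, key x y hx hy⟩

theorem abs_exp_sub_le {c s t : ℝ} (hs : s ≤ c) (ht : t ≤ c) :
    |Real.exp s - Real.exp t| ≤ Real.exp c * |s - t| := by
  have key : ∀ s t : ℝ, s ≤ c → Real.exp s - Real.exp t ≤ Real.exp c * |s - t| := by
    intro s t hs
    have h1 := Real.add_one_le_exp (t - s)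
    have h2 : Real.exp t = Real.exp s * Real.exp (t - s) := by rw [← Real.exp_add]; ring_nf
    have h3 := Real.exp_pos s
    calc _ ≤ Real.exp s * (s - t) := by rw [h2]; nlinarith
      _ ≤ Real.exp s * |s - t| := mul_le_mul_of_nonneg_left (le_abs_self _) h3.le
      _ ≤ _ := mul_le_mul_of_nonneg_right (Real.exp_le_exp.2 hs) (abs_nonneg _)
  rw [abs_le]
  have := key t s ht
  rw [abs_sub_comm] at this
  exact ⟨by linarith, key s t hs⟩

theorem log_mem {B x : ℝ} (h : Real.exp (-B) ≤ x ∧ x ≤ Real.exp B) :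
    -B ≤ Real.log x ∧ Real.log x ≤ B := by
  have hx := (Real.exp_pos _).trans_le h.1
  exact ⟨(Real.le_log_iff_exp_le hx).2 h.1, (Real.log_le_iff_le_exp hx).2 h.2⟩

theorem abs_log_mem {B x y : ℝ} (h : Real.exp (-B) ≤ x ∧ x ≤ Real.exp B)
    (h' : Real.exp (-B) ≤ y ∧ y ≤ Real.exp B) :
    0 ≤ |Real.log x - Real.log y| ∧ |Real.log x - Real.log y| ≤ 2 * B := by
  have h1 := log_mem h
  have h2 := log_mem h'
  exact ⟨abs_nonneg _, abs_le.2 ⟨by linarith, by linarith⟩⟩

theorem abs_log_pmStep_sub_le {e : ℝ} (he : 0 < e) (he1 : e ≤ 1) (lvl : Fin (r + 1))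
    {W W' : (L → Fin (r + 1) → unitInterval) → ℝ} (hW : Measurable W) (hW' : Measurable W') {B : ℝ}
    (h : ∀ u, Real.exp (-B) ≤ W u ∧ W u ≤ Real.exp B)
    (h' : ∀ u, Real.exp (-B) ≤ W' u ∧ W' u ≤ Real.exp B) (u : L → Fin (r + 1) → unitInterval) :
    |Real.log (pmStep e lvl W u) - Real.log (pmStep e lvl W' u)| ≤ Real.exp (2 * B) *
      ∫ v, |Real.log (W (rs lvl u v)) - Real.log (W' (rs lvl u v))| ∂nu L := by
  have ha := Real.exp_pos (-B)
  have hB : 0 ≤ B := by
    have := log_mem (h u)
    linarith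
  have m1 : Measurable fun v => W (rs lvl u v) := hW.comp (measurable_rs_right lvl u)
  have m2 : Measurable fun v => W' (rs lvl u v) := hW'.comp (measurable_rs_right lvl u)
  have i1 := integrable_of_mem (μ := nu L) (m1.pow_const e) fun _ => rpow_mem he ha (h _)
  have i2 := integrable_of_mem (μ := nu L) (m2.pow_const e) fun _ => rpow_mem he ha (h' _)
  have i3 : Integrable (fun v => |Real.log (W (rs lvl u v)) - Real.log (W' (rs lvl u v))|)
      (nu L) := integrable_of_mem (m1.log.sub m2.log).abs fun _ => abs_log_mem (h _) (h' _)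
  set I := ∫ v, |Real.log (W (rs lvl u v)) - Real.log (W' (rs lvl u v))| ∂nu L with hI
  have hI0 : 0 ≤ I := integral_nonneg fun _ => abs_nonneg _
  have k1 : |∫ v, W (rs lvl u v) ^ e ∂nu L - ∫ v, W' (rs lvl u v) ^ e ∂nu L| ≤
      Real.exp (B * e) * e * I := by
    rw [← integral_sub i1 i2, hI, ← integral_const_mul]
    refine abs_integral_le_integral_abs.trans (integral_mono (i1.sub i2).abs (i3.const_mul _)
      fun v => ?_)
    beta_reduce
    rw [Real.rpow_def_of_pos (ha.trans_le (h _).1), Real.rpow_def_of_pos (ha.trans_le (h' _).1)]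
    refine (abs_exp_sub_le (c := B * e) (mul_le_mul_of_nonneg_right (log_mem (h _)).2 he.le)
      (mul_le_mul_of_nonneg_right (log_mem (h' _)).2 he.le)).trans (le_of_eq ?_)
    rw [← sub_mul, abs_mul, abs_of_pos he]
    ring
  have k2 := abs_log_sub_le (Real.rpow_pos_of_pos ha e) (int_mem he lvl hW ha h u).1
    (int_mem he lvl hW' ha h' u).1
  rw [log_pmStep he lvl hW ha h, log_pmStep he lvl hW' ha h', ← mul_sub, abs_mul,
    abs_of_pos (one_div_pos.2 he)]
  have k3 : Real.exp (-B) ^ e = (Real.exp (B * e))⁻¹ := by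
    rw [← Real.exp_mul, ← Real.exp_neg, neg_mul]
  rw [k3, div_inv_eq_mul] at k2
  have k4 : Real.exp (B * e) * Real.exp (B * e) ≤ Real.exp (2 * B) := by
    rw [← Real.exp_add]
    exact Real.exp_le_exp.2 (by nlinarith)
  calc _ ≤ 1 / e * (Real.exp (B * e) * e * I * Real.exp (B * e)) :=
        mul_le_mul_of_nonneg_left (k2.trans (mul_le_mul_of_nonneg_right k1 (Real.exp_pos _).le))
          (one_div_pos.2 he).le
    _ = Real.exp (B * e) * Real.exp (B * e) * I := by field_simp
    _ ≤ _ := mul_le_mul_of_nonneg_right k4 hI0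

theorem measurePreserving_resample_one (lvl : Fin (r + 1)) :
    MeasurePreserving (fun z : (Fin (r + 1) → unitInterval) × unitInterval =>
        (fun j => if j = lvl then z.2 else z.1 j : Fin (r + 1) → unitInterval))
      ((Measure.pi fun _ : Fin (r + 1) => (volume : Measure unitInterval)).prod volume)
      (Measure.pi fun _ : Fin (r + 1) => (volume : Measure unitInterval)) := by
  have hm : Measurable fun z : (Fin (r + 1) → unitInterval) × unitInterval =>
      (fun j => if j = lvl then z.2 else z.1 j : Fin (r + 1) → unitInterval) := by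
    refine measurable_pi_lambda _ fun j => ?_
    split_ifs
    · fun_prop
    · fun_prop
  refine ⟨hm, (Measure.pi_eq fun s hs => ?_).symm⟩
  rw [Measure.map_apply hm (MeasurableSet.univ_pi hs)]
  have e : (fun z : (Fin (r + 1) → unitInterval) × unitInterval =>
      (fun j => if j = lvl then z.2 else z.1 j : Fin (r + 1) → unitInterval)) ⁻¹' Set.univ.pi s =
      (Set.univ.pi (Function.update s lvl Set.univ)) ×ˢ s lvl := by
    ext z
    simp only [Set.mem_preimage, Set.mem_pi, Set.mem_univ, true_imp_iff, Set.mem_prod]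
    constructor
    · intro h
      refine ⟨fun j => ?_, by simpa using h lvl⟩
      by_cases hj : j = lvl
      · subst hj; simp
      · simpa [hj] using h j
    · rintro ⟨h1, h2⟩ j
      by_cases hj : j = lvl
      · subst hj; simpa using h2
      · simpa [hj] using h1 j
  rw [e, Measure.prod_prod, Measure.pi_pi, ← Finset.mul_prod_erase _ _ (Finset.mem_univ lvl),
    ← Finset.mul_prod_erase _ (fun j => volume (s j)) (Finset.mem_univ lvl), mul_comm]
  simp only [Function.update_self, measure_univ, one_mul]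
  congr 1
  exact Finset.prod_congr rfl fun j hj => by rw [Function.update_of_ne (Finset.ne_of_mem_erase hj)]

end PM

/-- joint measurability in a parameter (`StronglyMeasurable.integral_prod_right'`,
`Measurable.pow_const`, `measurable_pi_lambda`) -/
theorem measurable_powerMeans {Z : Type} [MeasurableSpace Z]
    {W : Z → (L → Fin (r + 1) → unitInterval) → ℝ} (hW : Measurable fun z : Z × _ => W z.1 z.2) :
    Measurable fun z : Z × (L → Fin (r + 1) → unitInterval) => powerMeans m (W z.1) z.2 := by
  exact PM.measurable_pms' hW _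

theorem powerMeans_mem (hm : ∀ d, 0 < m d) {W : (L → Fin (r + 1) → unitInterval) → ℝ}
    (hW : Measurable W) {a b : ℝ} (ha : 0 < a) (h : ∀ u, a ≤ W u ∧ W u ≤ b)
    (u : L → Fin (r + 1) → unitInterval) : a ≤ powerMeans m W u ∧ powerMeans m W u ≤ b := by
  exact PM.pms_mem hm hW ha h _ u

/-- monotone and homogeneous -/
theorem log_powerMeans_le (hm : ∀ d, 0 < m d) {W W' : (L → Fin (r + 1) → unitInterval) → ℝ}
    (hW : Measurable W) (hW' : Measurable W') {a b : ℝ} (ha : 0 < a) (h : ∀ u, a ≤ W u ∧ W u ≤ b)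
    (h' : ∀ u, a ≤ W' u ∧ W' u ≤ b) {c : ℝ} (hc : ∀ u, Real.log (W u) ≤ c + Real.log (W' u))
    (u : L → Fin (r + 1) → unitInterval) :
    Real.log (powerMeans m W u) ≤ c + Real.log (powerMeans m W' u) := by
  have key : ∀ (l : List (Fin r)) u,
      Real.log (PM.pms m l W u) ≤ c + Real.log (PM.pms m l W' u) := by
    intro l
    induction l with
    | nil => exact hc
    | cons d l ih =>
      exact PM.log_pmStep_le (hm d) _ (PM.measurable_pms hW l) (PM.measurable_pms hW' l) ha
        (PM.pms_mem hm hW ha h l) (PM.pms_mem hm hW' ha h' l) ih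
  exact key _ u

/-- resampling one level preserves the law of the arrays: the map
`(u, v) ↦ fun ω j => if j = lvl then v ω else u ω j` is measure preserving (check on boxes with
`Measure.pi_eq`, or use `measurePreserving_arrowProdEquivProdArrow`, `measurePreserving_pi` and the
one-label statement) -/
theorem measurePreserving_resample (lvl : Fin (r + 1)) :
    MeasurePreserving (fun z : (L → Fin (r + 1) → unitInterval) × (L → unitInterval) =>
        (fun ω j => if j = lvl then z.2 ω else z.1 ω j : L → Fin (r + 1) → unitInterval))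
      ((uniformArrays L r).prod (Measure.pi fun _ : L => (volume : Measure unitInterval)))
      (uniformArrays L r) := by
  have h1 := (measurePreserving_arrowProdEquivProdArrow (Fin (r + 1) → unitInterval) unitInterval L
    (fun _ => Measure.pi fun _ : Fin (r + 1) => (volume : Measure unitInterval))
    (fun _ => volume)).symm
  exact (measurePreserving_pi _ _ fun _ : L => PM.measurePreserving_resample_one lvl).comp h1

/-- `L¹` Lipschitz bound in logarithmic scale.  One step, for `W, W' ∈ [e^{-B}, e^B]`, `0 < m ≤ 1`: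
`|log pm W - log pm W'| = |log ∫ W^m - log ∫ W'^m|/m ≤ e^{mB} ∫ |W^m - W'^m|/m ≤ e^{2B} ∫ |log W - log W'|`
(`|e^{mx} - e^{my}| ≤ m e^{mB} |x - y|`); integrate with `measurePreserving_resample` and Fubini. -/
theorem integral_abs_log_powerMeans_sub_le (hm : ∀ d, 0 < m d ∧ m d ≤ 1)
    {W W' : (L → Fin (r + 1) → unitInterval) → ℝ} (hW : Measurable W) (hW' : Measurable W') {B : ℝ}
    (h : ∀ u, Real.exp (-B) ≤ W u ∧ W u ≤ Real.exp B)
    (h' : ∀ u, Real.exp (-B) ≤ W' u ∧ W' u ≤ Real.exp B) :
    ∫ u, |Real.log (powerMeans m W u) - Real.log (powerMeans m W' u)| ∂uniformArrays L r ≤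
      Real.exp (2 * B * r) * ∫ u, |Real.log (W u) - Real.log (W' u)| ∂uniformArrays L r := by
  have hm0 : ∀ d, 0 < m d := fun d => (hm d).1
  have ha := Real.exp_pos (-B)
  have key : ∀ l : List (Fin r),
      ∫ u, |Real.log (PM.pms m l W u) - Real.log (PM.pms m l W' u)| ∂uniformArrays L r ≤
      Real.exp (2 * B * l.length) * ∫ u, |Real.log (W u) - Real.log (W' u)| ∂uniformArrays L r := by
    intro l
    induction l with
    | nil => simp [PM.pms]
    | cons d l ih =>
      have g1 := PM.measurable_pms (m := m) hW l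
      have g2 := PM.measurable_pms (m := m) hW' l
      have b1 := PM.pms_mem hm0 hW ha h l
      have b2 := PM.pms_mem hm0 hW' ha h' l
      have hD : Measurable fun u => |Real.log (PM.pms m l W u) - Real.log (PM.pms m l W' u)| :=
        (g1.log.sub g2.log).abs
      have hi : Integrable (fun z : (L → Fin (r + 1) → unitInterval) × (L → unitInterval) =>
          |Real.log (PM.pms m l W (PM.rs d.succ z.1 z.2)) -
            Real.log (PM.pms m l W' (PM.rs d.succ z.1 z.2))|)
          ((uniformArrays L r).prod (PM.nu L)) :=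
        PM.integrable_of_mem (hD.comp (PM.measurable_rs _)) fun _ => PM.abs_log_mem (b1 _) (b2 _)
      have e1 := integral_prod _ hi
      have e2 := PM.integral_comp_mp (measurePreserving_resample (L := L) d.succ) hD
      calc _ ≤ ∫ u, Real.exp (2 * B) * ∫ v, |Real.log (PM.pms m l W (PM.rs d.succ u v)) -
            Real.log (PM.pms m l W' (PM.rs d.succ u v))| ∂PM.nu L ∂uniformArrays L r := by
            refine integral_mono (PM.integrable_of_mem
              ((PM.measurable_pms hW _).log.sub (PM.measurable_pms hW' _).log).abs fun u =>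
                PM.abs_log_mem (PM.pms_mem hm0 hW ha h _ u) (PM.pms_mem hm0 hW' ha h' _ u))
              (hi.integral_prod_left.const_mul _) fun u => ?_
            exact PM.abs_log_pmStep_sub_le (hm0 d) (hm d).2 _ g1 g2 b1 b2 u
        _ = Real.exp (2 * B) * ∫ u, |Real.log (PM.pms m l W u) - Real.log (PM.pms m l W' u)|
            ∂uniformArrays L r := by rw [integral_const_mul, ← e1, ← e2]; rfl
        _ ≤ Real.exp (2 * B) * (Real.exp (2 * B * l.length) *
            ∫ u, |Real.log (W u) - Real.log (W' u)| ∂uniformArrays L r) :=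
            mul_le_mul_of_nonneg_left ih (Real.exp_pos _).le
        _ = _ := by
            rw [← mul_assoc, ← Real.exp_add, List.length_cons]
            push_cast
            ring_nf
  have := key (List.finRange r)
  rw [List.length_finRange] at this
  exact this

/-- value of a measurable trial, `π u` = probability of the spin `true` -/
noncomputable def MV [DecidableEq L] (m : Fin r → ℝ) (π : (Fin (r + 1) → unitInterval) → ℝ)
    (W : (L → Bool) → ℝ) : ℝ :=
  ∫ u, Real.log (powerMeans m (fun u' => mixW W fun l => π (u' l)) u) ∂uniformArrays L r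

noncomputable def FM.MP {p : ℕ} (M : FM p) (α : ℝ) {r : ℕ} (m : Fin r → ℝ)
    (π : (Fin (r + 1) → unitInterval) → ℝ) : ℝ :=
  (∑' k : ℕ, poissonWeight (α * p) k *
      (M.pΘ.pi (Fin k)).E fun θ => M.pH.E fun h => MV m π (M.siteW h θ)) -
    α * (p - 1 : ℝ) * M.pΘ.E fun θ => MV m π (M.w θ)

/-- the cell of `x` in the partition of `[0,1]` into `a + 1` equal intervals -/
noncomputable def cell (a : ℕ) (x : unitInterval) : Fin (a + 1) :=
  ⟨min a ⌊(x : ℝ) * (a + 1)⌋₊, Nat.lt_succ_of_le (min_le_left _ _)⟩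

end Crest.Agent.R141
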