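import Crest.Agent.R141.Cavity

/-! Finite trials versus uniform trials (task R141 Realize).

Suggested common lemma `TV_eq_UV`.  Let `t` be a trial, `r = t.R - t.s - 1`, `A` a finite nonempty type,
`g₀ : A → t.V` with `𝔼_a f (g₀ a) = 𝔼_v f v`, and `g : t.V → ℕ → Path → A → t.Ξ` with `g v i` depending only
on the coordinates `< i` and `Σ_ξ (κ v).k i x ξ · f ξ = 𝔼_a f (g v i x a)` for `t.s ≤ i < t.R - 1`.
For `u : Fin (r+1) → A` put `v = g₀ (u 0)`, `y_0 = t.x v`, `y_{d+1} = upd y_d (s+d) (g v (s+d) y_d (u (d+1)))`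
and `π u = Σ_ξ (κ v).k (R-1) y_r ξ · ind (σ v (upd y_r (R-1) ξ)) true ∈ [0,1]`.  Then
`t.TV W = UV (fun d => t.m (t.s+1+d)) π W` for every positive `W`: by downward induction on `d ≤ r`,
`log (foldr over (finRange r).drop d) u = Fr (pi κ) m (s+d) (log W ..) (fun i l => y_d (u l) i)`;
at `d = r` the last step has exponent `1` and gives `mixW` (expand `W = Σ_τ W τ ∏ ind`); in the
step, `y_d` does not depend on `u (d+1), …`, and `x^m = exp (m log x)`. -/

set_option autoImplicit false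

namespace Crest.Agent.R141

open Finset Crest.ProbabilityR.Diluted
open scoped BigOperators

/-- the exponents `(s+1)/R, …, (R-1)/R` with `R = s + r + 1` -/
noncomputable def gridm (s r : ℕ) (d : Fin r) : ℝ := grid (s + r + 1) (s + 1 + d)

theorem adm_gridm (s r : ℕ) : AdmissibleExponents (gridm s r) := by
  have hR : (0 : ℝ) < ((s + r + 1 : ℕ) : ℝ) := by exact_mod_cast Nat.succ_pos _
  refine ⟨fun d d' h => ?_, fun d => ⟨?_, ?_⟩⟩
  · unfold gridm grid
    refine div_lt_div_of_pos_right ?_ hR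
    have : d.val < d'.val := h
    exact_mod_cast (by omega : s + 1 + d.val < s + 1 + d'.val)
  · unfold gridm grid
    refine div_pos ?_ hR
    exact_mod_cast (by omega : 0 < s + 1 + d.val)
  · unfold gridm grid
    rw [div_lt_one hR]
    have := d.2
    exact_mod_cast (by omega : s + 1 + d.val < s + r + 1)

section prodlaw
variable {L X Y : Type} [Fintype L] [DecidableEq L] [Fintype X] [Fintype Y]

/-- images of product laws -/
theorem rz_pi_push (p : L → X → ℝ) (q : L → Y → ℝ) (f : L → X → Y)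
    (h : ∀ l (φ : Y → ℝ), ∑ x, p l x * φ (f l x) = ∑ y, q l y * φ y) (Φ : (L → Y) → ℝ) :
    ∑ x : L → X, (∏ l, p l (x l)) * Φ (fun l => f l (x l)) =
      ∑ y : L → Y, (∏ l, q l (y l)) * Φ y := by
  classical
  have h1 : ∀ x : L → X, Φ (fun l => f l (x l)) =
      ∑ y : L → Y, (∏ l, if y l = f l (x l) then (1 : ℝ) else 0) * Φ y := by
    intro x
    rw [sum_eq_single (fun l => f l (x l))]
    · simp
    · intro y _ hy
      obtain ⟨l, hl⟩ := Function.ne_iff.1 hy
      rw [prod_eq_zero (mem_univ l) (if_neg hl), zero_mul]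
    · simp
  have h2 : ∀ y : L → Y,
      ∑ x : L → X, (∏ l, p l (x l)) * (∏ l, if y l = f l (x l) then (1 : ℝ) else 0) =
        ∏ l, q l (y l) := by
    intro y
    simp only [← prod_mul_distrib]
    rw [← Fintype.prod_sum (fun l x => p l x * if y l = f l x then (1 : ℝ) else 0)]
    refine prod_congr rfl fun l _ => ?_
    rw [h l (fun z => if y l = z then (1 : ℝ) else 0)]
    simp
  simp only [h1, mul_sum]
  rw [sum_comm]
  refine sum_congr rfl fun y _ => ?_
  rw [← h2, sum_mul]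
  simp only [mul_assoc]

theorem rz_expect_eq (φ : X → ℝ) : 𝔼 x, φ x = ∑ x, (Fintype.card X : ℝ)⁻¹ * φ x := by
  rw [Fintype.expect_eq_sum_div_card, ← mul_sum, div_eq_inv_mul]

theorem rz_expect_pi (Φ : (L → X) → ℝ) :
    𝔼 x, Φ x = ∑ x : L → X, (∏ _l : L, (Fintype.card X : ℝ)⁻¹) * Φ x := by
  rw [rz_expect_eq]
  simp

theorem rz_expect_push (q : L → Y → ℝ) (f : L → X → Y)
    (h : ∀ l (φ : Y → ℝ), ∑ y, q l y * φ y = 𝔼 x, φ (f l x)) (Φ : (L → Y) → ℝ) :
    𝔼 x : L → X, Φ (fun l => f l (x l)) = ∑ y : L → Y, (∏ l, q l (y l)) * Φ y := by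
  rw [rz_expect_pi]
  exact rz_pi_push (fun _ _ => (Fintype.card X : ℝ)⁻¹) q f
    (fun l φ => by rw [h, rz_expect_eq]) Φ

theorem rz_expect_push' (f : L → X → Y)
    (h : ∀ l (φ : Y → ℝ), 𝔼 x, φ (f l x) = 𝔼 y, φ y) (Φ : (L → Y) → ℝ) :
    𝔼 x : L → X, Φ (fun l => f l (x l)) = 𝔼 y, Φ y := by
  rw [rz_expect_push (fun _ _ => (Fintype.card Y : ℝ)⁻¹) f
    (fun l φ => by rw [h, rz_expect_eq]) Φ, rz_expect_pi]

theorem rz_expect_eval [Nonempty X] (j : L) (φ : X → ℝ) : 𝔼 x : L → X, φ (x j) = 𝔼 a, φ a := by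
  have hc : (Fintype.card X : ℝ) ≠ 0 := by exact_mod_cast Fintype.card_ne_zero
  rw [rz_expect_pi]
  have h1 : ∀ x : L → X, (∏ _l : L, (Fintype.card X : ℝ)⁻¹) * φ (x j) =
      ∏ l, (Fintype.card X : ℝ)⁻¹ * if l = j then φ (x l) else 1 := by
    intro x
    rw [prod_mul_distrib, prod_ite_eq']
    simp
  simp only [h1]
  rw [← Fintype.prod_sum (fun l x => (Fintype.card X : ℝ)⁻¹ * if l = j then φ x else 1),
    prod_eq_single j]
  · simp [rz_expect_eq]
  · intro l _ hl
    simp [hl, hc]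
  · simp

/-- total variation distance of product laws -/
theorem rz_tv_pi (p q : L → X → ℝ) (hp0 : ∀ l x, 0 ≤ p l x) (hp1 : ∀ l, ∑ x, p l x = 1)
    (hq0 : ∀ l x, 0 ≤ q l x) (hq1 : ∀ l, ∑ x, q l x = 1) :
    ∑ x : L → X, |∏ l, p l (x l) - ∏ l, q l (x l)| ≤ ∑ l, ∑ x, |p l x - q l x| := by
  have key : ∀ S : Finset L, ∑ x : L → X,
      |∏ l, (if l ∈ S then p l (x l) else q l (x l)) - ∏ l, q l (x l)| ≤
        ∑ l ∈ S, ∑ x, |p l x - q l x| := by
    intro S
    induction S using Finset.induction_on with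
    | empty => simp
    | insert a S ha ih =>
      rw [sum_insert ha]
      have h1 : ∀ x : L → X,
          |∏ l, (if l ∈ insert a S then p l (x l) else q l (x l)) -
            ∏ l, (if l ∈ S then p l (x l) else q l (x l))| =
          ∏ l, (if l = a then |p l (x l) - q l (x l)| else
            if l ∈ S then p l (x l) else q l (x l)) := by
        intro x
        rw [← mul_prod_erase univ _ (mem_univ a), ← mul_prod_erase univ _ (mem_univ a),
          ← mul_prod_erase univ _ (mem_univ a)]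
        have h2 : ∏ l ∈ univ.erase a, (if l ∈ insert a S then p l (x l) else q l (x l)) =
            ∏ l ∈ univ.erase a, (if l ∈ S then p l (x l) else q l (x l)) :=
          prod_congr rfl fun l hl => by simp [(mem_erase.1 hl).1]
        have h3 : ∏ l ∈ univ.erase a, (if l = a then |p l (x l) - q l (x l)| else
            if l ∈ S then p l (x l) else q l (x l)) =
            ∏ l ∈ univ.erase a, (if l ∈ S then p l (x l) else q l (x l)) :=
          prod_congr rfl fun l hl => by rw [if_neg (mem_erase.1 hl).1]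
        have h4 : 0 ≤ ∏ l ∈ univ.erase a, (if l ∈ S then p l (x l) else q l (x l)) :=
          prod_nonneg fun l _ => by split_ifs; exacts [hp0 _ _, hq0 _ _]
        rw [h2, h3, ← sub_mul, abs_mul, abs_of_nonneg h4]
        simp [ha]
      have h5 : ∑ x : L → X, ∏ l, (if l = a then |p l (x l) - q l (x l)| else
            if l ∈ S then p l (x l) else q l (x l)) = ∑ x, |p a x - q a x| := by
        rw [← Fintype.prod_sum (fun l x => if l = a then |p l x - q l x| else
            if l ∈ S then p l x else q l x), prod_eq_single a]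
        · simp
        · intro l _ hl
          by_cases hS : l ∈ S <;> simp [hl, hS, hp1, hq1]
        · simp
      refine le_trans (sum_le_sum fun x _ => abs_sub_le _
        (∏ l, (if l ∈ S then p l (x l) else q l (x l))) _) ?_
      rw [sum_add_distrib]
      simp only [h1]
      rw [h5]
      linarith
  simpa using key univ

end prodlaw

/-- `mixW` is a mean of `W` -/
theorem mixW_mem {L : Type} [Fintype L] [DecidableEq L] {W : (L → Bool) → ℝ} {π : L → ℝ}
    (hπ : ∀ l, 0 ≤ π l ∧ π l ≤ 1) {a b : ℝ} (hW : ∀ τ, a ≤ W τ ∧ W τ ≤ b) :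
    a ≤ mixW W π ∧ mixW W π ≤ b := by
  have h0 : ∀ τ : L → Bool, 0 ≤ ∏ l, if τ l then π l else 1 - π l := fun τ =>
    prod_nonneg fun l _ => by split_ifs; exacts [(hπ l).1, sub_nonneg.2 (hπ l).2]
  have h1 : ∑ τ : L → Bool, ∏ l, (if τ l then π l else 1 - π l) = 1 := by
    rw [← Fintype.prod_sum (fun l (b : Bool) => if b then π l else 1 - π l)]
    simp
  unfold mixW
  constructor
  · calc a = ∑ τ : L → Bool, a * ∏ l, (if τ l then π l else 1 - π l) := by
          rw [← mul_sum, h1, mul_one]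
      _ ≤ _ := sum_le_sum fun τ _ => mul_le_mul_of_nonneg_right (hW τ).1 (h0 τ)
  · calc _ ≤ ∑ τ : L → Bool, b * ∏ l, (if τ l then π l else 1 - π l) :=
          sum_le_sum fun τ _ => mul_le_mul_of_nonneg_right (hW τ).2 (h0 τ)
      _ = b := by rw [← mul_sum, h1, mul_one]

/-- change one coordinate at a time (`mixW` is affine in `π l`) -/
theorem abs_mixW_sub_le {L : Type} [Fintype L] [DecidableEq L] {W : (L → Bool) → ℝ} {π π' : L → ℝ}
    (hπ : ∀ l, 0 ≤ π l ∧ π l ≤ 1) (hπ' : ∀ l, 0 ≤ π' l ∧ π' l ≤ 1) {b : ℝ}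
    (hW : ∀ τ, 0 ≤ W τ ∧ W τ ≤ b) : |mixW W π - mixW W π'| ≤ b * ∑ l, |π l - π' l| := by
  have hb : 0 ≤ b := (hW fun _ => true).1.trans (hW _).2
  have h1 : ∀ ρ : L → ℝ, ∑ τ : L → Bool, ∏ l, (if τ l then ρ l else 1 - ρ l) = 1 := by
    intro ρ
    rw [← Fintype.prod_sum (fun l (b : Bool) => if b then ρ l else 1 - ρ l)]
    simp
  have h2 := rz_tv_pi (fun l (b : Bool) => if b then π l else 1 - π l)
    (fun l (b : Bool) => if b then π' l else 1 - π' l)
    (fun l b => by split_ifs; exacts [(hπ l).1, sub_nonneg.2 (hπ l).2]) (fun l => by simp)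
    (fun l b => by split_ifs; exacts [(hπ' l).1, sub_nonneg.2 (hπ' l).2]) (fun l => by simp)
  have h3 : ∑ l, ∑ x : Bool, |(if x then π l else 1 - π l) - if x then π' l else 1 - π' l| =
      2 * ∑ l, |π l - π' l| := by
    rw [mul_sum]
    refine sum_congr rfl fun l _ => ?_
    simp only [Fintype.sum_bool, if_true, Bool.false_eq_true, if_false]
    rw [show 1 - π l - (1 - π' l) = -(π l - π' l) by ring, abs_neg]
    ring
  have h4 : mixW W π - mixW W π' = ∑ τ : L → Bool, (W τ - b / 2) *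
      (∏ l, (if τ l then π l else 1 - π l) - ∏ l, (if τ l then π' l else 1 - π' l)) := by
    unfold mixW
    simp only [sub_mul, mul_sub, sum_sub_distrib, ← mul_sum, h1]
    ring
  rw [h4]
  calc _ ≤ ∑ τ : L → Bool, b / 2 *
      |∏ l, (if τ l then π l else 1 - π l) - ∏ l, (if τ l then π' l else 1 - π' l)| := by
        refine (abs_sum_le_sum_abs _ _).trans (sum_le_sum fun τ _ => ?_)
        rw [abs_mul]
        refine mul_le_mul_of_nonneg_right ?_ (abs_nonneg _)
        rw [abs_le]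
        constructor <;> linarith [(hW τ).1, (hW τ).2]
    _ ≤ b / 2 * (2 * ∑ l, |π l - π' l|) := by
        rw [← mul_sum, ← h3]
        exact mul_le_mul_of_nonneg_left h2 (by linarith)
    _ = _ := by ring

section fpm
variable {L A : Type} [Fintype L] [DecidableEq L] [Fintype A] [Nonempty A] {r : ℕ}

theorem rz_fpm_pos (m : ℝ) (lvl : Fin (r + 1)) {W : (L → Fin (r + 1) → A) → ℝ}
    (hW : ∀ u, 0 < W u) (u : L → Fin (r + 1) → A) : 0 < fpm m lvl W u :=
  Real.rpow_pos_of_pos (expect_pos (fun _ _ => Real.rpow_pos_of_pos (hW _) _) univ_nonempty) _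

theorem rz_log_fpm (m : ℝ) (lvl : Fin (r + 1)) {W : (L → Fin (r + 1) → A) → ℝ}
    (hW : ∀ u, 0 < W u) (u : L → Fin (r + 1) → A) :
    Real.log (fpm m lvl W u) = m⁻¹ * Real.log (𝔼 v : L → A,
      Real.exp (m * Real.log (W fun ω j => if j = lvl then v ω else u ω j))) := by
  unfold fpm
  rw [Real.log_rpow (expect_pos (fun _ _ => Real.rpow_pos_of_pos (hW _) _) univ_nonempty), one_div]
  congr 2
  refine expect_congr rfl fun v _ => ?_
  rw [Real.rpow_def_of_pos (hW _), mul_comm]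

theorem rz_log_fpm_le {m : ℝ} (hm : 0 < m) (lvl : Fin (r + 1)) {W W' : (L → Fin (r + 1) → A) → ℝ}
    (hW : ∀ u, 0 < W u) (hW' : ∀ u, 0 < W' u) {δ : ℝ}
    (h : ∀ u, Real.log (W u) ≤ Real.log (W' u) + δ) (u : L → Fin (r + 1) → A) :
    Real.log (fpm m lvl W u) ≤ Real.log (fpm m lvl W' u) + δ := by
  rw [rz_log_fpm m lvl hW, rz_log_fpm m lvl hW']
  have h1 : (𝔼 v : L → A, Real.exp (m * Real.log (W fun ω j => if j = lvl then v ω else u ω j))) ≤
      (𝔼 v : L → A, Real.exp (m * Real.log (W' fun ω j => if j = lvl then v ω else u ω j))) *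
        Real.exp (m * δ) := by
    rw [expect_mul]
    refine expect_le_expect fun v _ => ?_
    rw [← Real.exp_add, ← mul_add]
    exact Real.exp_le_exp.2 (mul_le_mul_of_nonneg_left (h _) hm.le)
  have h2 := Real.log_le_log (expect_pos (fun _ _ => Real.exp_pos _) univ_nonempty) h1
  rw [Real.log_mul (expect_pos (fun _ _ => Real.exp_pos _) univ_nonempty).ne' (Real.exp_pos _).ne',
    Real.log_exp] at h2
  have h3 := mul_le_mul_of_nonneg_left h2 (inv_pos.2 hm).le
  rwa [mul_add, ← mul_assoc, inv_mul_cancel₀ hm.ne', one_mul] at h3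

theorem rz_foldr_pos (m : Fin r → ℝ) {W : (L → Fin (r + 1) → A) → ℝ} (hW : ∀ u, 0 < W u)
    (ds : List (Fin r)) (u : L → Fin (r + 1) → A) :
    0 < ds.foldr (fun d acc => fpm (m d) d.succ acc) W u := by
  induction ds generalizing u with
  | nil => exact hW u
  | cons d ds ih => exact rz_fpm_pos _ _ ih u

theorem rz_foldr_le {m : Fin r → ℝ} (hm : ∀ d, 0 < m d) {W W' : (L → Fin (r + 1) → A) → ℝ}
    (hW : ∀ u, 0 < W u) (hW' : ∀ u, 0 < W' u) {δ : ℝ}
    (h : ∀ u, Real.log (W u) ≤ Real.log (W' u) + δ) (ds : List (Fin r))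
    (u : L → Fin (r + 1) → A) :
    Real.log (ds.foldr (fun d acc => fpm (m d) d.succ acc) W u) ≤
      Real.log (ds.foldr (fun d acc => fpm (m d) d.succ acc) W' u) + δ := by
  induction ds generalizing u with
  | nil => exact h u
  | cons d ds ih =>
    exact rz_log_fpm_le (hm d) _ (rz_foldr_pos m hW ds) (rz_foldr_pos m hW' ds) ih u

theorem rz_foldr_one (m : Fin r → ℝ) (ds : List (Fin r)) (u : L → Fin (r + 1) → A) :
    ds.foldr (fun d acc => fpm (m d) d.succ acc) (fun _ => 1) u = 1 := by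
  induction ds generalizing u with
  | nil => rfl
  | cons d ds ih =>
    rw [List.foldr_cons, show ds.foldr (fun d acc => fpm (m d) d.succ acc)
      (fun _ : L → Fin (r + 1) → A => (1 : ℝ)) = fun _ => 1 from funext ih]
    simp [fpm]

end fpm

/-- power means are monotone and homogeneous -/
theorem abs_log_fpms_sub_le {L A : Type} [Fintype L] [DecidableEq L] [Fintype A] [Nonempty A]
    {r : ℕ} {m : Fin r → ℝ} (hm : ∀ d, 0 < m d) {W W' : (L → Fin (r + 1) → A) → ℝ}
    (hW : ∀ u, 0 < W u) (hW' : ∀ u, 0 < W' u) {δ : ℝ}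
    (h : ∀ u, |Real.log (W u) - Real.log (W' u)| ≤ δ) (u : L → Fin (r + 1) → A) :
    0 < fpms m W u ∧ |Real.log (fpms m W u) - Real.log (fpms m W' u)| ≤ δ := by
  refine ⟨rz_foldr_pos m hW _ u, ?_⟩
  have h1 := rz_foldr_le hm hW hW' (δ := δ) (fun u => by linarith [(abs_le.1 (h u)).2])
    (List.finRange r) u
  have h2 := rz_foldr_le hm hW' hW (δ := δ) (fun u => by linarith [(abs_le.1 (h u)).1])
    (List.finRange r) u
  unfold fpms
  rw [abs_le]
  constructor <;> linarith

theorem rz_exp_bounds {x B : ℝ} (hx : 0 < x) (h : |Real.log x| ≤ B) :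
    Real.exp (-B) ≤ x ∧ x ≤ Real.exp B := by
  constructor
  · rw [← Real.exp_log hx]; exact Real.exp_le_exp.2 (abs_le.1 h).1
  · rw [← Real.exp_log hx]; exact Real.exp_le_exp.2 (abs_le.1 h).2

theorem rz_abs_expect_le {X : Type} [Fintype X] [Nonempty X] {f : X → ℝ} {B : ℝ}
    (h : ∀ x, |f x| ≤ B) : |𝔼 x, f x| ≤ B :=
  (abs_expect_le _ _).trans (expect_le univ_nonempty fun x _ => h x)

theorem abs_UV_le {L A : Type} [Fintype L] [DecidableEq L] [Fintype A] [Nonempty A] {r : ℕ}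
    {m : Fin r → ℝ} (hm : ∀ d, 0 < m d) {π : (Fin (r + 1) → A) → ℝ} (hπ : ∀ u, 0 ≤ π u ∧ π u ≤ 1)
    {W : (L → Bool) → ℝ} (hW : ∀ τ, 0 < W τ) {B : ℝ} (hB : ∀ τ, |Real.log (W τ)| ≤ B) :
    |UV m π W| ≤ B := by
  unfold UV
  refine rz_abs_expect_le fun u => ?_
  have h1 : ∀ u' : L → Fin (r + 1) → A, Real.exp (-B) ≤ mixW W (fun l => π (u' l)) ∧
      mixW W (fun l => π (u' l)) ≤ Real.exp B := fun u' =>
    mixW_mem (fun l => hπ _) fun τ => rz_exp_bounds (hW τ) (hB τ)
  have h2 := (abs_log_fpms_sub_le hm (W := fun u' => mixW W fun l => π (u' l)) (W' := fun _ => 1)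
    (fun u' => (Real.exp_pos _).trans_le (h1 u').1) (fun _ => one_pos) (δ := B) (fun u' => by
      rw [Real.log_one, sub_zero, abs_le]
      constructor
      · rw [Real.le_log_iff_exp_le ((Real.exp_pos _).trans_le (h1 u').1)]; exact (h1 u').1
      · rw [Real.log_le_iff_le_exp ((Real.exp_pos _).trans_le (h1 u').1)]; exact (h1 u').2) u).2
  have h3 : fpms m (fun _ : L → Fin (r + 1) → A => (1 : ℝ)) u = 1 := rz_foldr_one m _ u
  rwa [h3, Real.log_one, sub_zero] at h2

section realize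
variable (t : Trial) {A : Type} {r : ℕ} (g₀ : A → t.V)
  (g : t.V → ℕ → Path t.R t.Ξ → A → t.Ξ)

/-- the path driven by the uniform variables `u` -/
noncomputable def rzY (u : Fin (r + 1) → A) : ℕ → Path t.R t.Ξ
  | 0 => t.x (g₀ (u 0))
  | d + 1 => upd (rzY u d) (t.s + d)
      (g (g₀ (u 0)) (t.s + d) (rzY u d) (if h : d + 1 < r + 1 then u ⟨d + 1, h⟩ else u 0))

/-- the conditional probability of the spin `true` -/
noncomputable def rzPi (u : Fin (r + 1) → A) : ℝ :=
  ∑ ξ, (t.κ (g₀ (u 0))).k (t.s + r) (rzY t g₀ g u r) ξ *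
    ind (t.σ (g₀ (u 0)) (upd (rzY t g₀ g u r) (t.s + r) ξ)) true

theorem rzY_congr {u u' : Fin (r + 1) → A} (d : ℕ) (h : ∀ j : Fin (r + 1), j.val ≤ d → u j = u' j) :
    rzY t g₀ g u d = rzY t g₀ g u' d := by
  have h0 : u 0 = u' 0 := h 0 (Nat.zero_le _)
  induction d with
  | zero => simp only [rzY, h0]
  | succ d ih =>
    have h1 := ih fun j hj => h j (by omega)
    simp only [rzY, h0, h1]
    congr 2
    split_ifs with hd
    · exact h _ le_rfl
    · rfl

theorem rzPi_mem (u : Fin (r + 1) → A) : 0 ≤ rzPi t g₀ g u ∧ rzPi t g₀ g u ≤ 1 := by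
  have h0 : ∀ a b : Bool, 0 ≤ ind a b ∧ ind a b ≤ 1 := fun a b => by
    unfold ind; split_ifs <;> norm_num
  refine ⟨sum_nonneg fun ξ _ => mul_nonneg ((t.κ _).nonneg _ _ _) (h0 _ _).1, ?_⟩
  refine le_trans (sum_le_sum fun ξ _ => mul_le_of_le_one_right ((t.κ _).nonneg _ _ _) (h0 _ _).2) ?_
  rw [(t.κ _).sum_one]

theorem rz_upd_pi {R : ℕ} {L Ξ : Type} (y : L → Path R Ξ) (s : ℕ) (ξ : L → Ξ) :
    upd (fun i l => y l i) s ξ = fun i l => upd (y l) s (ξ l) i := by
  funext i l
  unfold upd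
  split_ifs <;> rfl

theorem rz_mixW_pos {L : Type} [Fintype L] [DecidableEq L] {W : (L → Bool) → ℝ} {π : L → ℝ}
    (hπ : ∀ l, 0 ≤ π l ∧ π l ≤ 1) (hW : ∀ τ, 0 < W τ) : 0 < mixW W π := by
  obtain ⟨τ₀, -, h₀⟩ := exists_min_image univ W univ_nonempty
  obtain ⟨τ₁, -, h₁⟩ := exists_max_image univ W univ_nonempty
  exact (hW τ₀).trans_le (mixW_mem hπ fun τ => ⟨h₀ τ (mem_univ _), h₁ τ (mem_univ _)⟩).1

variable [Fintype A] [Nonempty A]

theorem rz_level (hr : t.R = t.s + r + 1)
    (hg : ∀ v i x, t.s ≤ i → i < t.s + r → ∀ φ : t.Ξ → ℝ,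
      ∑ ξ, (t.κ v).k i x ξ * φ ξ = 𝔼 a, φ (g v i x a))
    {L : Type} [Fintype L] [DecidableEq L] {W : (L → Bool) → ℝ} (hW : ∀ τ, 0 < W τ) :
    ∀ d, d ≤ r → ∀ u : L → Fin (r + 1) → A,
      Real.log ((((List.finRange r).drop d).foldr
        (fun (e : Fin r) acc => fpm (t.m (t.s + 1 + e)) e.succ acc)
        (fun u' => mixW W fun l => rzPi t g₀ g (u' l))) u) =
      Fr (Ker.pi fun l => t.κ (g₀ (u l 0))) t.m (t.s + d)
        (fun y => Real.log (W fun l => t.σ (g₀ (u l 0)) (comp y l)))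
        (fun i l => rzY t g₀ g (u l) d i) := by
  have hpos : ∀ u' : L → Fin (r + 1) → A, 0 < mixW W fun l => rzPi t g₀ g (u' l) := fun u' =>
    rz_mixW_pos (fun l => rzPi_mem t g₀ g _) hW
  intro d hd
  induction hd using Nat.decreasingInduction with
  | self =>
    intro u
    rw [List.drop_eq_nil_of_le (by simp), List.foldr_nil, Fr_succ _ _ (by omega),
      Fr_of_le _ _ (by omega)]
    unfold lstep step
    rw [← hr, t.adm.top, inv_one, one_mul]
    congr 1
    simp only [one_mul, Real.exp_log (hW _), rz_upd_pi]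
    have := rz_pi_push (fun l => (t.κ (g₀ (u l 0))).k (t.s + r) (rzY t g₀ g (u l) r))
      (fun l (b : Bool) => if b then rzPi t g₀ g (u l) else 1 - rzPi t g₀ g (u l))
      (fun l ξ => t.σ (g₀ (u l 0)) (upd (rzY t g₀ g (u l) r) (t.s + r) ξ)) (fun l φ => by
        have h1 : ∀ b : Bool, φ b = φ false + ind b true * (φ true - φ false) := by
          intro b; cases b <;> simp [ind]
        have h2 := (t.κ (g₀ (u l 0))).sum_one (t.s + r) (rzY t g₀ g (u l) r)
        rw [sum_congr rfl fun ξ _ => by rw [h1]]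
        simp only [mul_add, sum_add_distrib, ← mul_assoc, ← sum_mul, h2, Fintype.sum_bool, if_true,
          Bool.false_eq_true, if_false]
        unfold rzPi
        ring) W
    unfold mixW
    simp only [mul_comm (W _)]
    exact this.symm
  | of_succ d hd ih =>
    intro u
    have hlen : d < (List.finRange r).length := by simpa using hd
    rw [List.drop_eq_getElem_cons hlen, List.foldr_cons,
      rz_log_fpm _ _ (rz_foldr_pos (fun e : Fin r => t.m (t.s + 1 + e)) hpos _),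
      Fr_succ _ _ (by omega)]
    unfold lstep step
    have he : ((List.finRange r)[d]'hlen) = ⟨d, hd⟩ := by simp
    rw [he]
    have hm : t.s + 1 + d = t.s + d + 1 := by omega
    simp only [hm, ih]
    congr 2
    have h0 : ((0 : Fin (r + 1)) = (⟨d, hd⟩ : Fin r).succ) = False := by
      simp
    simp only [h0, if_false]
    have hY : ∀ (v : L → A) (l : L),
        rzY t g₀ g (fun j => if j = (⟨d, hd⟩ : Fin r).succ then v l else u l j) (d + 1) =
          upd (rzY t g₀ g (u l) d) (t.s + d)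
            (g (g₀ (u l 0)) (t.s + d) (rzY t g₀ g (u l) d) (v l)) := by
      intro v l
      have h1 : rzY t g₀ g (fun j => if j = (⟨d, hd⟩ : Fin r).succ then v l else u l j) d =
          rzY t g₀ g (u l) d := rzY_congr t g₀ g d fun j hj => by
        rw [if_neg]
        rintro rfl
        simp at hj
      rw [rzY, h1]
      simp only [h0, if_false]
      rw [dif_pos (by omega), if_pos (Fin.ext (by simp))]
    simp only [hY, ← rz_upd_pi]
    exact rz_expect_push (fun l => (t.κ (g₀ (u l 0))).k (t.s + d) (rzY t g₀ g (u l) d))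
      (fun l => g (g₀ (u l 0)) (t.s + d) (rzY t g₀ g (u l) d))
      (fun l φ => hg _ _ _ (by omega) (by omega) φ)
      (fun ξ => Real.exp (t.m (t.s + d + 1) * Fr (Ker.pi fun l => t.κ (g₀ (u l 0))) t.m (t.s + d + 1)
        (fun y => Real.log (W fun l => t.σ (g₀ (u l 0)) (comp y l)))
        (upd (fun i l => rzY t g₀ g (u l) d i) (t.s + d) ξ)))

theorem TV_eq_UV (hr : t.R = t.s + r + 1) (hg₀ : ∀ φ : t.V → ℝ, 𝔼 a, φ (g₀ a) = 𝔼 v, φ v)
    (hg : ∀ v i x, t.s ≤ i → i < t.s + r → ∀ φ : t.Ξ → ℝ,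
      ∑ ξ, (t.κ v).k i x ξ * φ ξ = 𝔼 a, φ (g v i x a))
    {L : Type} [Fintype L] [DecidableEq L] {W : (L → Bool) → ℝ} (hW : ∀ τ, 0 < W τ) :
    t.TV W = UV (fun d : Fin r => t.m (t.s + 1 + d)) (rzPi t g₀ g) W := by
  unfold Trial.TV UV fpms
  have h1 := rz_level t g₀ g hr hg hW 0 (Nat.zero_le _)
  simp only [List.drop_zero] at h1
  simp only [h1]
  exact (rz_expect_push' (fun (_ : L) (u : Fin (r + 1) → A) => g₀ (u 0))
    (fun _ φ => by rw [rz_expect_eval 0 (fun a => φ (g₀ a)), hg₀])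
    (fun v => Fr (Ker.pi fun l => t.κ (v l)) t.m t.s
      (fun y => Real.log (W fun l => t.σ (v l) (comp y l))) fun i l => t.x (v l) i)).symm

end realize

/-- the uniform variables read off from the start label and the path -/
def rzU {A : Type} {r : ℕ} (v : A) (x : Path (r + 1) (A × Bool)) : Fin (r + 1) → A :=
  Fin.cons v fun d : Fin r => (x d.castSucc).1

/-- the trial that realises a uniform trial -/
noncomputable def rzT {A : Type} [Fintype A] [Nonempty A] {r : ℕ} {m : Fin r → ℝ}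
    (hm : AdmissibleExponents m) {π : (Fin (r + 1) → A) → ℝ} (hπ : ∀ u, 0 ≤ π u ∧ π u ≤ 1) :
    Trial where
  R := r + 1
  Ξ := A × Bool
  V := A
  κ v :=
    { k i x ξ := (Fintype.card A : ℝ)⁻¹ *
        if i < r then (if ξ.2 then 0 else 1) else (if ξ.2 then π (rzU v x) else 1 - π (rzU v x))
      nonneg i x ξ := by
        refine mul_nonneg (by positivity) ?_
        split_ifs
        exacts [le_rfl, zero_le_one, (hπ _).1, sub_nonneg.2 (hπ _).2]
      sum_one i x := by
        have : (Fintype.card A : ℝ) ≠ 0 := by exact_mod_cast Fintype.card_ne_zero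
        rw [Fintype.sum_prod_type]
        by_cases hi : i < r <;> simp [hi, ← mul_add, this]
      adapted i x y hxy := by
        funext ξ
        by_cases hi : i < r
        · simp only [hi, if_true]
        · have : rzU v x = rzU v y := by
            unfold rzU
            congr 1
            funext d
            rw [hxy _ (by have := d.2; simp; omega)]
          simp only [this] }
  σ _ y := (y (Fin.last r)).2
  x v := fun _ => (v, false)
  m i := if h : i - 1 < r then m ⟨i - 1, h⟩ else 1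
  s := 0
  adm :=
    { lt := Nat.succ_pos r
      pos := by
        split_ifs
        exacts [(hm.2 _).1, one_pos]
      mono i j hi hij hj := by
        split_ifs with h1 h2 h2
        · exact hm.1.monotone (by simp only [Fin.mk_le_mk]; omega)
        · exact (hm.2 _).2.le
        · omega
        · exact le_rfl
      top := by simp }

/-- `R = r + 1`, `s = 0`, `V = A`, `Ξ = A × Bool`; below the last level the kernel is uniform on
`A × {false}`, at the last level it has the weights `π`, `1 - π` on `(a₀, true)`, `(a₀, false)`;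
`m' (d+1) = m d`, `m' (r+1) = 1` -/
theorem exists_trial_UV {A : Type} [Fintype A] [Nonempty A] {r : ℕ} {m : Fin r → ℝ}
    (hm : AdmissibleExponents m) {π : (Fin (r + 1) → A) → ℝ} (hπ : ∀ u, 0 ≤ π u ∧ π u ≤ 1) :
    ∃ t : Trial, ∀ (L : Type) [Fintype L] [DecidableEq L] (W : (L → Bool) → ℝ), (∀ τ, 0 < W τ) →
      t.TV W = UV m π W := by
  refine ⟨rzT hm hπ, fun L _ _ W hW => ?_⟩
  have hc : (Fintype.card A : ℝ) ≠ 0 := by exact_mod_cast Fintype.card_ne_zero
  let g : A → ℕ → Path (r + 1) (A × Bool) → A → A × Bool := fun _ _ _ a => (a, false)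
  rw [TV_eq_UV (rzT hm hπ) (r := r) (A := A) (fun a => a) g (by simp [rzT]) (fun _ => rfl) ?_ hW]
  · congr 1
    · funext d
      have : 0 + 1 + d.val - 1 = d.val := by omega
      simp only [rzT, this, d.2, dif_pos, Fin.eta]
    · funext u
      have hY : ∀ d, d ≤ r → ∀ i : Fin r, i.val < d →
          rzY (rzT hm hπ) (fun a => a) g u d i.castSucc = (u i.succ, false) := by
        intro d
        induction d with
        | zero => intro _ i hi; omega
        | succ d ih =>
          intro hd i hi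
          change (if (i.castSucc : Fin (r + 1)).val = 0 + d then
            ((if h : d + 1 < r + 1 then u ⟨d + 1, h⟩ else u 0), false) else
              rzY (rzT hm hπ) (fun a => a) g u d i.castSucc) = _
          by_cases hid : i.val = d
          · refine (if_pos (by simpa using hid)).trans ?_
            rw [dif_pos (by omega)]
            congr 2
            exact Fin.ext (by simp [hid])
          · exact (if_neg (by simpa using hid)).trans (ih (by omega) i (by omega))
      have hU : rzU (u 0) (rzY (rzT hm hπ) (fun a => a) g u r) = u := by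
        funext j
        refine Fin.cases rfl (fun i => ?_) j
        simp only [rzU, Fin.cons_succ]
        rw [hY r le_rfl i i.2]
      change ∑ ξ : A × Bool, ((Fintype.card A : ℝ)⁻¹ *
        if 0 + r < r then (if ξ.2 then 0 else 1) else
          (if ξ.2 then π (rzU (u 0) (rzY (rzT hm hπ) (fun a => a) g u r)) else
            1 - π (rzU (u 0) (rzY (rzT hm hπ) (fun a => a) g u r)))) *
        ind ((upd (R := r + 1) (rzY (rzT hm hπ) (fun a => a) g u r) (0 + r) ξ (Fin.last r)).2) true = π u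
      rw [hU, Fintype.sum_prod_type]
      simp [upd, ind, hc]
  · intro v i x _ hi φ
    have hi' : i < r := by simpa [rzT] using hi
    change ∑ ξ : A × Bool, ((Fintype.card A : ℝ)⁻¹ *
        if i < r then (if ξ.2 then 0 else 1) else
          (if ξ.2 then π (rzU v x) else 1 - π (rzU v x))) * φ ξ = 𝔼 a : A, φ (a, false)
    rw [Fintype.sum_prod_type, rz_expect_eq]
    simp [hi']

theorem FM.pres_le_UP {p : ℕ} (M : FM p) {α : ℝ} {x : ℝ} (h : ∀ t : Trial, x ≤ M.P α t) {A : Type}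
    [Fintype A] [Nonempty A] {r : ℕ} {m : Fin r → ℝ} (hm : AdmissibleExponents m)
    {π : (Fin (r + 1) → A) → ℝ} (hπ : ∀ u, 0 ≤ π u ∧ π u ≤ 1) : x ≤ M.UP α m π := by
  obtain ⟨t, ht⟩ := exists_trial_UV hm hπ
  refine (h t).trans (le_of_eq ?_)
  unfold FM.P FM.UP FM.siteV FM.edgeV
  simp only [ht _ _ (M.siteW_pos _ _), ht _ _ (M.w_pos _)]

/-- a map with prescribed fibre sizes -/
theorem rz_exists_fib {X : Type} [Fintype X] (n : X → ℕ) {N : ℕ} (hN : ∑ x, n x = N) :
    ∃ G : Fin N → X, ∀ φ : X → ℝ, ∑ a, φ (G a) = ∑ x, (n x : ℝ) * φ x := by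
  have hc : Fintype.card (Σ x : X, Fin (n x)) = N := by simp [hN]
  let e := Fintype.equivFinOfCardEq hc
  refine ⟨fun a => (e.symm a).1, fun φ => ?_⟩
  rw [Equiv.sum_comp e.symm (fun z => φ z.1), Fintype.sum_sigma]
  simp

/-- empirical approximation of a probability vector -/
theorem rz_exists_emp {X : Type} [Fintype X] (w : PV X) {N : ℕ} (hN : 0 < N) :
    ∃ (G : Fin N → X) (e : PV X), (∀ φ : X → ℝ, ∑ x, e.w x * φ x = 𝔼 a, φ (G a)) ∧
      ∑ x, |w.w x - e.w x| ≤ 2 * Fintype.card X / N := by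
  classical
  have hN' : (0 : ℝ) < N := by exact_mod_cast hN
  obtain ⟨x₀⟩ : Nonempty X := by
    by_contra hX
    rw [not_nonempty_iff] at hX
    have := w.sum_one
    simp at this
  let f : X → ℕ := fun x => ⌊(N : ℝ) * w.w x⌋₊
  have hf1 : ∀ x, (f x : ℝ) ≤ N * w.w x := fun x => Nat.floor_le (mul_nonneg hN'.le (w.nonneg x))
  have hf2 : ∀ x, N * w.w x ≤ (f x : ℝ) + 1 := fun x => (Nat.lt_floor_add_one _).le
  have hs : ∑ x, (N : ℝ) * w.w x = N := by rw [← mul_sum, w.sum_one, mul_one]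
  have hfN : ∑ x, f x ≤ N := by
    have : ((∑ x, f x : ℕ) : ℝ) ≤ N := by
      push_cast
      rw [← hs]
      exact sum_le_sum fun x _ => hf1 x
    exact_mod_cast this
  have hrest : ((N - ∑ x, f x : ℕ) : ℝ) ≤ Fintype.card X := by
    rw [Nat.cast_sub hfN]
    push_cast
    have : ∑ x, (N : ℝ) * w.w x ≤ ∑ x, ((f x : ℝ) + 1) := sum_le_sum fun x _ => hf2 x
    rw [hs, sum_add_distrib] at this
    simp only [sum_const, card_univ, nsmul_eq_mul, mul_one] at this
    linarith
  let n : X → ℕ := fun x => f x + if x = x₀ then N - ∑ x, f x else 0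
  have hn : ∑ x, n x = N := by
    simp only [n, sum_add_distrib, sum_ite_eq', mem_univ, if_true]
    omega
  obtain ⟨G, hG⟩ := rz_exists_fib n hn
  refine ⟨G, ⟨fun x => (n x : ℝ) / N, fun x => by positivity, ?_⟩, fun φ => ?_, ?_⟩
  · rw [← sum_div, ← Nat.cast_sum, hn, div_self hN'.ne']
  · change ∑ x, (n x : ℝ) / N * φ x = _
    rw [Fintype.expect_eq_sum_div_card, hG, sum_div, Fintype.card_fin]
    exact sum_congr rfl fun x _ => by ring
  · have h1 : ∀ x, |w.w x - (n x : ℝ) / N| ≤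
        (1 + if x = x₀ then (Fintype.card X : ℝ) else 0) / N := by
      intro x
      rw [le_div_iff₀ hN', ← abs_of_pos hN', ← abs_mul, abs_of_pos hN', sub_mul,
        div_mul_cancel₀ _ hN'.ne', abs_le]
      have h2 := hf1 x
      have h3 := hf2 x
      have h4 : (0 : ℝ) ≤ ((N - ∑ x, f x : ℕ) : ℝ) := Nat.cast_nonneg _
      simp only [n, Nat.cast_add]
      split_ifs
      · constructor <;> linarith
      · simp only [Nat.cast_zero]
        constructor <;> linarith
    refine (sum_le_sum fun x _ => h1 x).trans (le_of_eq ?_)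
    rw [← sum_div, sum_add_distrib]
    simp only [sum_const, card_univ, nsmul_eq_mul, mul_one, sum_ite_eq', mem_univ, if_true]
    ring

/-- conditional law of the coordinate `i` -/
def rzPV {R : ℕ} {Ξ : Type} [Fintype Ξ] (κ : Ker R Ξ) (i : ℕ) (x : Path R Ξ) : PV Ξ :=
  ⟨κ.k i x, κ.nonneg i x, κ.sum_one i x⟩

/-- apply a map of probability vectors to all conditional laws -/
def rzKer {R : ℕ} {Ξ : Type} [Fintype Ξ] (e : PV Ξ → PV Ξ) (κ : Ker R Ξ) : Ker R Ξ where
  k i x := (e (rzPV κ i x)).w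
  nonneg _ _ := (e _).nonneg
  sum_one _ _ := (e _).sum_one
  adapted i x y hxy := by
    have : rzPV κ i x = rzPV κ i y := by
      unfold rzPV
      congr 1
      exact κ.adapted i x y hxy
    simp only [this]

theorem rz_abs_log_sub_le {x y c : ℝ} (hc : 0 < c) (hx : c ≤ x) (hy : c ≤ y) :
    |Real.log x - Real.log y| ≤ |x - y| / c := by
  have key : ∀ {x y : ℝ}, c ≤ x → c ≤ y → Real.log x - Real.log y ≤ |x - y| / c := by
    intro x y hx hy
    have hx0 : 0 < x := hc.trans_le hx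
    have hy0 : 0 < y := hc.trans_le hy
    rw [← Real.log_div hx0.ne' hy0.ne']
    refine (Real.log_le_sub_one_of_pos (div_pos hx0 hy0)).trans ?_
    rw [div_sub_one hy0.ne']
    exact (div_le_div_of_nonneg_right (le_abs_self _) hy0.le).trans
      (div_le_div_of_nonneg_left (abs_nonneg _) hc hy)
  rw [abs_le]
  constructor
  · have := key hy hx
    rw [abs_sub_comm] at this
    linarith
  · exact key hx hy

theorem rz_UV_close {L A : Type} [Fintype L] [DecidableEq L] [Fintype A] [Nonempty A] {r : ℕ}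
    {m : Fin r → ℝ} (hm : ∀ d, 0 < m d) {π π' : (Fin (r + 1) → A) → ℝ}
    (hπ : ∀ u, 0 ≤ π u ∧ π u ≤ 1) (hπ' : ∀ u, 0 ≤ π' u ∧ π' u ≤ 1) {δ : ℝ}
    (h : ∀ u, |π u - π' u| ≤ δ) {W : (L → Bool) → ℝ} (hW : ∀ τ, 0 < W τ) {B : ℝ}
    (hB : ∀ τ, |Real.log (W τ)| ≤ B) :
    |UV m π W - UV m π' W| ≤ Fintype.card L * δ * Real.exp (2 * B) := by
  unfold UV
  rw [← expect_sub_distrib]
  refine rz_abs_expect_le fun u => (abs_log_fpms_sub_le hm
    (fun u' => rz_mixW_pos (fun l => hπ _) hW) (fun u' => rz_mixW_pos (fun l => hπ' _) hW)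
    (fun u' => ?_) u).2
  have hb := fun τ => rz_exp_bounds (hW τ) (hB τ)
  refine (rz_abs_log_sub_le (Real.exp_pos (-B)) (mixW_mem (fun l => hπ _) hb).1
    (mixW_mem (fun l => hπ' _) hb).1).trans ?_
  rw [div_le_iff₀ (Real.exp_pos _)]
  refine (abs_mixW_sub_le (fun l => hπ _) (fun l => hπ' _) fun τ => ⟨(hW τ).le, (hb τ).2⟩).trans ?_
  have h1 : ∑ l, |π (u' l) - π' (u' l)| ≤ Fintype.card L * δ := by
    refine (sum_le_sum fun l _ => h (u' l)).trans (le_of_eq ?_)
    simp
  rw [mul_assoc, ← Real.exp_add, show 2 * B + -B = B by ring, mul_comm]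
  exact mul_le_mul_of_nonneg_right h1 (Real.exp_pos _).le

/-- approximation of a trial by a rational uniform trial -/
theorem rz_approx (t : Trial) (ht : t.m = grid t.R) {δ : ℝ} (hδ : 0 < δ) :
    ∃ (s r a : ℕ) (π : (Fin (r + 1) → Fin (a + 1)) → ℚ), (∀ u, 0 < π u ∧ π u < 1) ∧
      ∀ (L : Type) [Fintype L] [DecidableEq L] (W : (L → Bool) → ℝ) (B : ℝ), (∀ τ, 0 < W τ) →
        (∀ τ, |Real.log (W τ)| ≤ B) →
        |UV (gridm s r) (fun u => (π u : ℝ)) W - t.TV W| ≤
          δ * ((t.R / t.m (t.s + 1) + 1) * (Fintype.card L * Real.exp (2 * B))) := by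
  obtain ⟨r, hr⟩ : ∃ r, t.R = t.s + r + 1 := ⟨t.R - t.s - 1, by have := t.adm.lt; omega⟩
  obtain ⟨c, hc⟩ := exists_nat_gt (2 * Fintype.card t.Ξ / δ)
  have hV : 0 < Fintype.card t.V := Fintype.card_pos
  obtain ⟨a, ha⟩ : ∃ a, a + 1 = Fintype.card t.V * (c + 1) :=
    ⟨Fintype.card t.V * (c + 1) - 1, Nat.sub_add_cancel (Nat.mul_pos hV (Nat.succ_pos c))⟩
  have hδ' : 2 * Fintype.card t.Ξ / ((a + 1 : ℕ) : ℝ) ≤ δ := by
    have h1 : (c : ℝ) ≤ ((a + 1 : ℕ) : ℝ) := by
      have : c ≤ a + 1 := by rw [ha]; nlinarith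
      exact_mod_cast this
    rw [div_le_iff₀ (by positivity)]
    rw [div_lt_iff₀ hδ] at hc
    nlinarith
  obtain ⟨g₀, hg₀⟩ := rz_exists_fib (fun _ : t.V => c + 1) (N := a + 1) (by simp [ha])
  choose G e hG he using fun w : PV t.Ξ => rz_exists_emp w (Nat.succ_pos a)
  let t' : Trial := { t with κ := fun v => rzKer e (t.κ v) }
  let g : t.V → ℕ → Path t.R t.Ξ → Fin (a + 1) → t.Ξ := fun v i x => G (rzPV (t.κ v) i x)
  have hπ : ∀ u : Fin (r + 1) → Fin (a + 1), ∃ q : ℚ, (0 < q ∧ q < 1) ∧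
      |(q : ℝ) - rzPi t' g₀ g u| ≤ δ := by
    intro u
    obtain ⟨h0, h1⟩ := rzPi_mem t' g₀ g u
    obtain ⟨q, hq1, hq2⟩ := exists_rat_btwn
      (show max (rzPi t' g₀ g u - δ) 0 < min (rzPi t' g₀ g u + δ) 1 by
        rw [max_lt_iff, lt_min_iff, lt_min_iff]
        refine ⟨⟨?_, ?_⟩, ?_, ?_⟩ <;> linarith)
    rw [max_lt_iff] at hq1
    rw [lt_min_iff] at hq2
    refine ⟨q, ⟨by exact_mod_cast hq1.2, by exact_mod_cast hq2.2⟩, ?_⟩
    rw [abs_le]
    constructor <;> linarith [hq1.1, hq2.1]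
  choose π hπ01 hπc using hπ
  refine ⟨t.s, r, a, π, hπ01, fun L _ _ W B hW hB => ?_⟩
  have h1 : t'.TV W = UV (gridm t.s r) (rzPi t' g₀ g) W := by
    rw [TV_eq_UV t' g₀ g hr (fun φ => ?_) (fun v i x _ _ φ => hG _ φ) hW]
    · congr 1
      funext d
      change t.m (t.s + 1 + d) = _
      rw [ht, hr]
      rfl
    · have h2 : (Fintype.card t.V : ℝ) ≠ 0 := by exact_mod_cast hV.ne'
      have h3 : ((c + 1 : ℕ) : ℝ) ≠ 0 := by exact_mod_cast Nat.succ_ne_zero c
      rw [Fintype.expect_eq_sum_div_card, Fintype.expect_eq_sum_div_card, hg₀, ← mul_sum,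
        Fintype.card_fin, ha, Nat.cast_mul, mul_comm (Fintype.card t.V : ℝ),
        mul_div_mul_left _ _ h3]
  have h2 := rz_UV_close (fun d => ((adm_gridm t.s r).2 d).1) (π := fun u => (π u : ℝ))
    (fun u => ⟨by exact_mod_cast (hπ01 u).1.le, by exact_mod_cast (hπ01 u).2.le⟩)
    (rzPi_mem t' g₀ g) hπc hW hB
  have h3 : |t'.TV W - t.TV W| ≤
      t.R * (Fintype.card L * δ) * Real.exp (2 * B) / t.m (t.s + 1) := by
    unfold Trial.TV
    rw [← expect_sub_distrib]
    refine rz_abs_expect_le fun v => ?_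
    rw [abs_sub_comm]
    refine Fr_close _ _ t.adm (by positivity) (fun i _ _ x => ?_) (fun y => hB _) _
    refine (rz_tv_pi (fun l => (t.κ (v l)).k i (comp x l))
      (fun l => (rzKer e (t.κ (v l))).k i (comp x l)) (fun l => (t.κ _).nonneg _ _)
      (fun l => (t.κ _).sum_one _ _) (fun l => (rzKer e _).nonneg _ _)
      (fun l => (rzKer e _).sum_one _ _)).trans ?_
    refine (sum_le_sum fun l _ => (he (rzPV (t.κ (v l)) i (comp x l))).trans hδ').trans (le_of_eq ?_)
    simp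
  rw [← h1] at h2
  refine (abs_sub_le _ (t'.TV W) _).trans ((add_le_add h2 h3).trans (le_of_eq ?_))
  ring

/-- Given `δ > 0` take `A = Fin (a+1)` with `|V| ∣ a + 1` and `a` large.  For a probability vector `w`
on `Ξ` choose (as a function of `w` only) `G w : A → Ξ` whose empirical law is `δ`-close to `w` in `ℓ¹`
(fibres of size `⌊(a+1) w ξ⌋`, the rest goes to one point).  Let `κ' v` have the empirical laws of
`G ((κ v).k i x)`; it is adapted.  `TV_eq_UV` for the trial `t'` with `κ'`; the product kernels over `L`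
are `|L| δ`-close, so `|t.TV W - t'.TV W| ≤ R |L| δ e^{2B} R` (`Fr_close`).  Replace `π` by a rational
`π' ∈ (0,1)` with `|π - π'| ≤ δ`: `abs_mixW_sub_le`, `abs_log_fpms_sub_le` give
`|UV π - UV π'| ≤ |L| δ e^{2B}`.  For the site weights `|L| ≤ k p`, `B_k = B k + B + 1`, and
`Σ_k poi k · k e^{2 B_k} < ∞` (`hasSum_poi_pow`, `k ≤ 2^k`). -/
theorem FM.realize {p : ℕ} (M : FM p) {α : ℝ} (hα : 0 ≤ α) (t : Trial) (ht : t.m = grid t.R)
    {η : ℝ} (hη : 0 < η) : ∃ (s r a : ℕ) (π : (Fin (r + 1) → Fin (a + 1)) → ℚ),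
      (∀ u, 0 < π u ∧ π u < 1) ∧ M.UP α (gridm s r) (fun u => (π u : ℝ)) ≤ M.P α t + η := by
  obtain ⟨B, hB⟩ := M.exists_bd
  have hB0 := hB.1
  set c : ℝ := t.R / t.m (t.s + 1) + 1 with hc
  have hc0 : 0 ≤ c := by have := t.adm.pos; positivity
  set x : ℝ := 2 * Real.exp (2 * B) with hx
  set C₁ : ℝ := c * p * Real.exp (2 * (B + 1)) with hC₁
  set C₂ : ℝ := |α * (p - 1 : ℝ)| * (c * (p * Real.exp (2 * B))) with hC₂
  set C : ℝ := C₁ * Real.exp (α * p * (x - 1)) + C₂ + 1 with hC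
  have hC0 : 0 < C := by positivity
  obtain ⟨s, r, a, π, hπ, h⟩ := rz_approx t ht (div_pos hη hC0)
  refine ⟨s, r, a, π, hπ, ?_⟩
  set δ : ℝ := η / C with hδ
  have hδ0 : 0 < δ := div_pos hη hC0
  have hπ' : ∀ u, 0 ≤ (π u : ℝ) ∧ (π u : ℝ) ≤ 1 := fun u =>
    ⟨by exact_mod_cast (hπ u).1.le, by exact_mod_cast (hπ u).2.le⟩
  have hm : ∀ d, 0 < gridm s r d := fun d => ((adm_gridm s r).2 d).1
  have hap : 0 ≤ α * p := by positivity
  have hbk : ∀ k : ℕ, B * k + (B + 1) ≤ (B + 1) * (k + 1) := fun k => by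
    have : (0 : ℝ) ≤ k := Nat.cast_nonneg k
    nlinarith
  set U : ℕ → ℝ := fun k => (M.pΘ.pi (Fin k)).E fun θ => M.pH.E fun h =>
    UV (gridm s r) (fun u => (π u : ℝ)) (M.siteW h θ) with hU
  have hUs : Summable fun k => poissonWeight (α * p) k * U k :=
    summable_poi hap (C := B + 1) fun k => (PV.abs_E_le_of _ fun θ => PV.abs_E_le_of _ fun h =>
      abs_UV_le hm hπ' (M.siteW_pos h θ) (M.abs_log_siteW_le hB h θ)).trans (hbk k)
  have hTs : Summable fun k => poissonWeight (α * p) k * M.siteV t k :=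
    summable_poi hap (C := B + 1) fun k => (PV.abs_E_le_of _ fun θ => PV.abs_E_le_of _ fun h =>
      FM.abs_TV_le t (M.abs_log_siteW_le hB h θ)).trans (hbk k)
  have hUT : ∀ k, U k ≤ M.siteV t k + δ * C₁ * x ^ k := by
    intro k
    have h1 : |U k - M.siteV t k| ≤ δ * (c * (Fintype.card (Fin k × Fin (p - 1)) *
        Real.exp (2 * (B * k + (B + 1))))) :=
      PV.abs_E_sub_le _ fun θ => PV.abs_E_sub_le _ fun hh =>
        h _ _ _ (M.siteW_pos hh θ) (M.abs_log_siteW_le hB hh θ)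
    have h2 : (Fintype.card (Fin k × Fin (p - 1)) : ℝ) ≤ 2 ^ k * p := by
      rw [Fintype.card_prod, Fintype.card_fin, Fintype.card_fin]
      have : k * (p - 1) ≤ 2 ^ k * p := Nat.mul_le_mul Nat.lt_two_pow_self.le (Nat.sub_le _ _)
      exact_mod_cast this
    have h3 : Real.exp (2 * (B * k + (B + 1))) = Real.exp (2 * B) ^ k * Real.exp (2 * (B + 1)) := by
      rw [← Real.exp_nat_mul, ← Real.exp_add]
      congr 1
      ring
    have h4 : δ * (c * (Fintype.card (Fin k × Fin (p - 1)) *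
        Real.exp (2 * (B * k + (B + 1))))) ≤ δ * C₁ * x ^ k := by
      calc _ ≤ δ * (c * ((2 ^ k * p) * Real.exp (2 * (B * k + (B + 1))))) := by gcongr
        _ = _ := by rw [h3, hC₁, hx, mul_pow]; ring
    linarith [(abs_le.1 h1).2]
  have hP := (hasSum_poi_pow (α * p) x).mul_left (δ * C₁)
  have hsite : ∑' k, poissonWeight (α * p) k * U k ≤
      (∑' k, poissonWeight (α * p) k * M.siteV t k) + δ * C₁ * Real.exp (α * p * (x - 1)) := by
    refine hasSum_le (fun k => ?_) hUs.hasSum (hTs.hasSum.add hP)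
    have := mul_le_mul_of_nonneg_left (hUT k) (poi_nonneg hap k)
    linarith
  have hedge : |(M.pΘ.E fun θ => UV (gridm s r) (fun u => (π u : ℝ)) (M.w θ)) - M.edgeV t| ≤
      δ * (c * (Fintype.card (Fin p) * Real.exp (2 * B))) :=
    PV.abs_E_sub_le _ fun θ => h _ _ _ (M.w_pos θ) (hB.2.1 θ)
  rw [Fintype.card_fin] at hedge
  have h5 : |α * (p - 1 : ℝ) *
      ((M.pΘ.E fun θ => UV (gridm s r) (fun u => (π u : ℝ)) (M.w θ)) - M.edgeV t)| ≤ δ * C₂ := by
    rw [abs_mul, hC₂, mul_left_comm]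
    exact mul_le_mul_of_nonneg_left hedge (abs_nonneg _)
  have h6 : δ * C = η := div_mul_cancel₀ _ hC0.ne'
  have h7 := (abs_le.1 h5).1
  unfold FM.UP FM.P
  rw [hC] at h6
  change (∑' k, poissonWeight (α * p) k * U k) - _ ≤ _
  nlinarith

end Crest.Agent.R141
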