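import Crest.Agent.R141.Deriv
import Crest.Agent.R141.Opts

/-! Expansion of the free energy in trees (task R141 Opts+Series). -/

set_option autoImplicit false

namespace Crest.Agent.R141

open Finset
open scoped BigOperators

variable {R : ℕ} {m : ℕ → ℝ} {s : ℕ}

theorem insN_mem {j : ℕ} {T : Tr Unit} (h : wmem T (insN m R s j)) :
    T.Valid R s ∧ T.size = j + 1 ∧ T.depth ≤ j := by
  induction j generalizing T with
  | zero =>
    simp only [insN, wmem_cons, not_wmem_nil, or_false] at h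
    subst h
    exact ⟨trivial, rfl, le_rfl⟩
  | succ j ih =>
    simp only [insN, wmem_wbind] at h
    obtain ⟨T1, h1, h2⟩ := h
    obtain ⟨g1, g2, g3⟩ := ih h1
    obtain ⟨g4, g5, g6, -⟩ := ins_mem g1 h2
    exact ⟨g4, by omega, by omega⟩

theorem insN_nonneg (hm : Adm m R s) (j : ℕ) : ∀ p ∈ insN m R s j, 0 ≤ p.1 := by
  induction j with
  | zero =>
    intro p hp
    simp only [insN, List.mem_singleton] at hp
    rw [hp]; norm_num
  | succ j ih =>
    intro p hp
    simp only [insN, wbind, List.mem_flatMap, List.mem_map] at hp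
    obtain ⟨q, hq, r, hr, rfl⟩ := hp
    exact mul_nonneg (ih q hq)
      (ins_nonneg hm () le_rfl (insN_mem (j := j) ⟨q.1, hq⟩).1 hm.pos.le r hr)

theorem insN_tot (hm : Adm m R s) (j : ℕ) : wsum (insN m R s j) (fun _ => 1) = j.factorial := by
  induction j with
  | zero => simp [insN]
  | succ j ih =>
    rw [insN, wsum_wbind, wsum_congr (Ψ := fun _ => ((j : ℝ) + 1) * 1) fun T hT => ?_,
      wsum_mul_left, ih, Nat.factorial_succ]
    · push_cast; ring
    · obtain ⟨g1, g2, -⟩ := insN_mem hT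
      rw [ins_tot hm.top () 0 hm.lt g1, g2]
      push_cast; ring

theorem wpos_insN (hm : Adm m R s) (j : ℕ) : wpos (insN m R s j) = insN m R s j := by
  exact oa_wpos_of_nonneg (insN_nonneg hm j)

/-- Taylor's formula with Cauchy's remainder, for a chain of derivatives on `[0,1]`: apply the mean
value theorem (`exists_hasDerivAt_eq_slope`) to
`t ↦ Σ_{j ≤ n} f j t (1-t)^j / j!`, whose derivative is `f (n+1) t (1-t)^n / n!`. -/
theorem taylor_cauchy (f : ℕ → ℝ → ℝ) (hf : ∀ j t, 0 ≤ t → t ≤ 1 → HasDerivAt (f j) (f (j + 1) t) t)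
    (n : ℕ) : ∃ ξ, 0 < ξ ∧ ξ < 1 ∧ f 0 1 - ∑ j ∈ range (n + 1), f j 0 / j.factorial =
      f (n + 1) ξ * (1 - ξ) ^ n / n.factorial := by
  have hd : ∀ n t, 0 ≤ t → t ≤ 1 → HasDerivAt
      (fun t => ∑ j ∈ range (n + 1), f j t * (1 - t) ^ j / j.factorial)
      (f (n + 1) t * (1 - t) ^ n / n.factorial) t := by
    intro n t h0 h1
    induction n with
    | zero => simpa using hf 0 t h0 h1
    | succ n ih =>
      simp only [sum_range_succ _ (n + 1)]
      have h2 : HasDerivAt (fun t : ℝ => (1 - t) ^ (n + 1)) (((n + 1 : ℕ) : ℝ) * (1 - t) ^ n * (-1))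
          t := ((hasDerivAt_id t).const_sub 1).pow (n + 1)
      have h3 := ih.add (((hf (n + 1) t h0 h1).mul h2).div_const ((n + 1).factorial : ℝ))
      refine HasDerivAt.congr_deriv h3 ?_
      have h4 : (n.factorial : ℝ) ≠ 0 := by exact_mod_cast n.factorial_ne_zero
      rw [Nat.factorial_succ]
      push_cast
      field_simp
      ring
  obtain ⟨ξ, hξ, h⟩ := exists_hasDerivAt_eq_slope
    (fun t => ∑ j ∈ range (n + 1), f j t * (1 - t) ^ j / j.factorial)
    (fun t => f (n + 1) t * (1 - t) ^ n / n.factorial) (zero_lt_one' ℝ)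
    (fun t ht => (hd n t ht.1 ht.2).continuousAt.continuousWithinAt)
    (fun t ht => hd n t ht.1.le ht.2.le)
  refine ⟨ξ, hξ.1, hξ.2, ?_⟩
  rw [h, sum_range_succ' (fun j => f j 1 * (1 - 1) ^ j / j.factorial)]
  simp

theorem oa_hasDerivAt_wsum {α : Type} {l : WL α} {Φ : ℝ → α → ℝ} {Φ' : α → ℝ} {t : ℝ}
    (h : ∀ a, wmem a l → HasDerivAt (fun t => Φ t a) (Φ' a) t) :
    HasDerivAt (fun t => wsum l (Φ t)) (wsum l Φ') t := by
  induction l with
  | nil => simpa using hasDerivAt_const t (0 : ℝ)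
  | cons p l ih =>
    simp only [wsum_cons]
    exact ((h p.2 (by simp)).const_mul p.1).add (ih fun a ha => h a (by simp [ha]))

theorem oa_asg_none {α : Type} (T : Tr α) : asg (fun _ => none) T = [] := by
  induction T with
  | leaf a => rfl
  | node u a b iha ihb => simp [asg, iha, ihb, wmap]

/-- `G t = log (1 + t g)`, `γ t = g/(1 + t g)`, `d/dt γ + γ² = 0`, `κ_t = tilt κ m (G t)`.
`f 0 t = Fr κ m s (G t) x`, `f (j+1) t = (-1)^j wsum (insN j) (T ↦ Ex κ_t s (ev κ_t γ_t T) x)` is a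
chain of derivatives (`hasDerivAt_Fr`, `hasDerivAt_Ex_ev` with `f = fun _ => none`, `a0 = 0`;
`asg (fun _ => none) T = []`), `f 0 0 = 0`, `κ_0 = κ` (`tilt_zero`), and
`|f (n+1) ξ| ≤ n! (c/(1 - c ξ))^{n+1}` (`abs_wsum_le`, `abs_ev_le`, `insN_tot`); finally
`(1-ξ)/(1-cξ) ≤ 1` and `1/(1 - cξ) ≤ 1/(1-c)`. -/
theorem Fr_series {Ξ : Type} [Fintype Ξ] (κ : Ker R Ξ) (hm : Adm m R s) {g : Path R Ξ → ℝ} {c : ℝ}
    (hc : c < 1) (hg : ∀ y, |g y| ≤ c) (n : ℕ) (x : Path R Ξ) :
    |Fr κ m s (fun y => Real.log (1 + g y)) x - ∑ j ∈ range n, (-1) ^ j / (j + 1).factorial *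
      wsum (insN m R s j) fun T => Ex κ s (ev κ (fun _ => g) T) x| ≤ c ^ (n + 1) / (1 - c) := by
  have hc0 : 0 ≤ c := (abs_nonneg _).trans (hg x)
  have hpos : ∀ t : ℝ, 0 ≤ t → t ≤ 1 → ∀ y, 1 - c * t ≤ 1 + t * g y := by
    intro t h0 _ y
    nlinarith [mul_le_mul_of_nonneg_left (abs_le.1 (hg y)).1 h0]
  have hct : ∀ t : ℝ, 0 ≤ t → t ≤ 1 → 1 - c ≤ 1 - c * t := by
    intro t _ h1
    nlinarith [mul_le_mul_of_nonneg_left h1 hc0]
  let G : ℝ → Path R Ξ → ℝ := fun t y => Real.log (1 + t * g y)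
  let φ : ℝ → Unit → Path R Ξ → ℝ := fun t _ y => g y / (1 + t * g y)
  let V : ℝ → Tr Unit → ℝ := fun t T =>
    Ex (tilt κ m (G t)) s (ev (tilt κ m (G t)) (φ t) T) x
  let f : ℕ → ℝ → ℝ := fun j t => match j with
    | 0 => Fr κ m s (G t) x
    | j + 1 => (-1) ^ j * wsum (insN m R s j) (V t)
  have hf : ∀ j t, 0 ≤ t → t ≤ 1 → HasDerivAt (f j) (f (j + 1) t) t := by
    intro j t h0 h1
    have hp : ∀ y, 0 < 1 + t * g y := fun y => by linarith [hpos t h0 h1 y, hct t h0 h1]
    have hl : ∀ y, HasDerivAt (fun t : ℝ => 1 + t * g y) (g y) t := fun y => by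
      simpa using ((hasDerivAt_id t).mul_const (g y)).const_add 1
    have hG : ∀ y, HasDerivAt (fun t => G t y) (φ t () y) t := fun y => (hl y).log (hp y).ne'
    cases j with
    | zero =>
      have := hasDerivAt_Fr κ hm hG le_rfl x
      convert this using 1
      simp [f, insN, V, ev]
    | succ j =>
      have hφ : ∀ a y, HasDerivAt (fun t => φ t a y) (-(φ t a y * φ t () y)) t := by
        intro a y
        have := (hasDerivAt_const t (g y)).div (hl y) (hp y).ne'
        refine HasDerivAt.congr_deriv this ?_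
        have := (hp y).ne'
        simp only [φ]
        field_simp
        ring
      have h2 : HasDerivAt (fun t => wsum (insN m R s j) (V t))
          (wsum (insN m R s j) fun T => -1 * wsum (ins m R () 0 s T) (V t)) t := by
        refine oa_hasDerivAt_wsum fun T hT => ?_
        have := hasDerivAt_Ex_ev κ hm hG hφ (f := fun _ => none) (z := ()) rfl
          (fun a y => by simp) T le_rfl hm.lt (insN_mem hT).1 0 x
        convert this using 1
        simp [opts, oa_asg_none, V]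
      have h3 := h2.const_mul ((-1 : ℝ) ^ j)
      refine HasDerivAt.congr_deriv h3 ?_
      simp only [f, insN, wsum_wbind, wsum_mul_left]
      ring
  obtain ⟨ξ, h0, h1, h⟩ := taylor_cauchy f hf n
  have hG0 : G 0 = fun _ => 0 := by funext y; simp [G]
  have hφ0 : φ 0 = fun _ => g := by funext a y; simp [φ]
  have e1 : f 0 1 = Fr κ m s (fun y => Real.log (1 + g y)) x := by simp [f, G]
  have e2 : ∑ j ∈ range (n + 1), f j 0 / j.factorial = ∑ j ∈ range n,
      (-1) ^ j / (j + 1).factorial *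
        wsum (insN m R s j) fun T => Ex κ s (ev κ (fun _ => g) T) x := by
    rw [sum_range_succ']
    simp only [f, V, hG0, hφ0, tilt_zero, Fr_zero_fun, zero_div, add_zero]
    exact sum_congr rfl fun j _ => by ring
  rw [← e1, ← e2, h]
  have hcξ : 0 < 1 - c * ξ := by linarith [hct ξ h0.le h1.le]
  have hb : ∀ a y, |φ ξ a y| ≤ c / (1 - c * ξ) := by
    intro a y
    have h2 := hpos ξ h0.le h1.le y
    simp only [φ]
    rw [abs_div, abs_of_pos (hcξ.trans_le h2)]
    exact div_le_div₀ hc0 (hg y) hcξ h2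
  have h3 : |wsum (insN m R s n) (V ξ)| ≤ n.factorial * (c / (1 - c * ξ)) ^ (n + 1) := by
    refine (abs_wsum_le (B := (c / (1 - c * ξ)) ^ (n + 1)) fun T hT => ?_).trans (le_of_eq ?_)
    · refine abs_Ex_le_of _ s (fun y => ?_) x
      rw [← (insN_mem hT).2.1]
      exact abs_ev_le _ hb T y
    · rw [wabs_eq, wpos_insN hm, insN_tot hm]
  have h4 : (0 : ℝ) < n.factorial := by exact_mod_cast n.factorial_pos
  have h5 : 0 ≤ 1 - ξ := by linarith
  have h6 : |f (n + 1) ξ| = |wsum (insN m R s n) (V ξ)| := by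
    simp [f, abs_mul]
  rw [abs_div, abs_mul, h6, abs_of_pos h4, abs_of_nonneg (pow_nonneg h5 n), div_le_iff₀ h4]
  have h7 : (1 - ξ) ^ n ≤ (1 - c * ξ) ^ n :=
    pow_le_pow_left₀ h5 (by nlinarith) n
  calc |wsum (insN m R s n) (V ξ)| * (1 - ξ) ^ n
      ≤ n.factorial * (c / (1 - c * ξ)) ^ (n + 1) * (1 - c * ξ) ^ n :=
        mul_le_mul h3 h7 (pow_nonneg h5 n) (by positivity)
    _ = c ^ (n + 1) / (1 - c * ξ) * n.factorial := by
        rw [div_pow]; field_simp; ring
    _ ≤ c ^ (n + 1) / (1 - c) * n.factorial := by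
        have := hct ξ h0.le h1.le
        have : 0 < 1 - c := by linarith
        gcongr

end Crest.Agent.R141
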