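import Crest.Agent.R141.Model
import Crest.Agent.R141.Proj
import Crest.Agent.R141.Deriv

/-! One perturbation term attached to a system: definitions (owner: helper18, do not edit). -/

set_option autoImplicit false

namespace Crest.Agent.R141

open Finset
open scoped BigOperators

variable {R : ℕ} [NeZero R] {Ξ : Type} [Fintype Ξ] [Nonempty Ξ] {V : Type} [Fintype V] [Nonempty V]
  (E : ℕ) (κ : Ker R Ξ) (σ : Path R Ξ → V → Bool) (m : ℕ → ℝ)

/-- spin at the site of the term -/
def xs (y : Path R (Ξ × (V × (Fin E → Bool)))) : Bool := σ (pmap Prod.fst y) (y 0).2.1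

/-- signs of the term -/
def xm (y : Path R (Ξ × (V × (Fin E → Bool)))) : Path R (Fin E → Bool) := fun i => (y i).2.2

noncomputable def xW (P : Tr Bool) (θ : ℕ → ℝ) (y : Path R (Ξ × (V × (Fin E → Bool)))) : ℝ :=
  termW P θ (xs E σ y) (xm E y)

/-- the system `κ` together with one term, tilted by the weight of the term -/
noncomputable def xker (P : Tr Bool) (θ : ℕ → ℝ) : Ker R (Ξ × (V × (Fin E → Bool))) :=
  tilt (κ.prod (Ker.unif R _)) m fun y => Real.log (xW E σ P θ y)

/-- leaf observables: old labels look at the site `u`, a role `c` has the value `g_c / W` -/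
noncomputable def xlf (P : Tr Bool) (θ : ℕ → ℝ) (u : V) (l : Lb)
    (y : Path R (Ξ × (V × (Fin E → Bool)))) : ℝ :=
  oldF (fun b y => spinF σ u b (pmap Prod.fst y)) l y *
    roleF (fun c y => gv (hist P 0 1) c (xs E σ y) (xm E y) / xW E σ P θ y) l y

noncomputable def Psi (P : Tr Bool) (θ : ℕ → ℝ) (u : V) (T : Tr Lb) : ℝ :=
  E0 (xker E κ σ m P θ) (ev (xker E κ σ m P θ) (xlf E σ P θ u) T)

end Crest.Agent.R141
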