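import Crest.Agent.R141.Basic

/-!
Row 141: trees of replicas, weighted lists of trees.  DO NOT EDIT (owner: helper18).

`node u a b`: the replicas of `a` and those of `b` share the coordinates `< u` and are conditionally
independent afterwards.  `ev κ φ T` is the conditional expectation of the product of the leaf
observables.
-/

set_option autoImplicit false

namespace Crest.Agent.R141

open Finset
open scoped BigOperators

inductive Tr (α : Type) : Type
  | leaf : α → Tr α
  | node : ℕ → Tr α → Tr α → Tr α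

namespace Tr
variable {α β : Type}

/-- number of leaves -/
def size : Tr α → ℕ
  | leaf _ => 1
  | node _ a b => a.size + b.size

def depth : Tr α → ℕ
  | leaf _ => 0
  | node _ a b => max a.depth b.depth + 1

/-- level of the root (`R` for a leaf) -/
def lev (R : ℕ) : Tr α → ℕ
  | leaf _ => R
  | node u _ _ => u

/-- levels are in `[s, R)` and weakly increase away from the root -/
def Valid (R : ℕ) : ℕ → Tr α → Prop
  | _, leaf _ => True
  | s, node u a b => s ≤ u ∧ u < R ∧ Valid R u a ∧ Valid R u b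

def levels : Tr α → List ℕ
  | leaf _ => []
  | node u a b => u :: (a.levels ++ b.levels)

def map (f : α → β) : Tr α → Tr β
  | leaf a => leaf (f a)
  | node u a b => node u (a.map f) (b.map f)

/-- label of the leftmost leaf -/
def first : Tr α → α
  | leaf a => a
  | node _ a _ => a.first

theorem size_pos : ∀ T : Tr α, 0 < T.size
  | leaf _ => Nat.one_pos
  | node _ a _ => Nat.add_pos_left a.size_pos _

theorem size_le_two_pow : ∀ T : Tr α, T.size ≤ 2 ^ T.depth
  | leaf _ => le_rfl
  | node _ a b => by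
      have ha := a.size_le_two_pow
      have hb := b.size_le_two_pow
      have h1 : 2 ^ a.depth ≤ 2 ^ max a.depth b.depth :=
        Nat.pow_le_pow_right (by norm_num) (le_max_left _ _)
      have h2 : 2 ^ b.depth ≤ 2 ^ max a.depth b.depth :=
        Nat.pow_le_pow_right (by norm_num) (le_max_right _ _)
      simp only [size, depth, pow_succ]
      omega

theorem Valid.mono {R s t : ℕ} (h : s ≤ t) : ∀ {T : Tr α}, Valid R t T → Valid R s T
  | leaf _, _ => trivial
  | node _ _ _, ⟨h1, h2⟩ => ⟨h.trans h1, h2⟩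

theorem Valid.le_lev {R s : ℕ} (hs : s ≤ R) : ∀ {T : Tr α}, Valid R s T → s ≤ T.lev R
  | leaf _, _ => hs
  | node _ _ _, h => h.1

theorem Valid.lev_le {R s : ℕ} : ∀ {T : Tr α}, Valid R s T → T.lev R ≤ R
  | leaf _, _ => le_rfl
  | node _ _ _, h => h.2.1.le

theorem Valid.of_le_lev {R s t : ℕ} : ∀ {T : Tr α}, Valid R s T → t ≤ T.lev R → Valid R t T
  | leaf _, _, _ => trivial
  | node _ _ _, h, ht => ⟨ht, h.2⟩

end Tr

/-- the value of a tree of replicas with leaf observables `φ` -/
def ev {R : ℕ} {Ξ : Type} [Fintype Ξ] {α : Type} (κ : Ker R Ξ) (φ : α → Path R Ξ → ℝ) :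
    Tr α → Path R Ξ → ℝ
  | .leaf a => φ a
  | .node u a b => fun x => Ex κ u (ev κ φ a) x * Ex κ u (ev κ φ b) x

/-! ### weighted lists -/

abbrev WL (α : Type) : Type := List (ℝ × α)

section wl
variable {α β : Type}

def wsum (l : WL α) (Φ : α → ℝ) : ℝ := (l.map fun p => p.1 * Φ p.2).sum

/-- total variation of the weights -/
def wabs (l : WL α) : ℝ := (l.map fun p => |p.1|).sum

def wmap (f : α → β) (l : WL α) : WL β := l.map fun p => (p.1, f p.2)

def wneg (l : WL α) : WL α := l.map fun p => (-p.1, p.2)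

def wbind (l : WL α) (f : α → WL β) : WL β :=
  l.flatMap fun p => (f p.2).map fun q => (p.1 * q.1, q.2)

def wmem (a : α) (l : WL α) : Prop := ∃ w, (w, a) ∈ l

@[simp] theorem wsum_nil (Φ : α → ℝ) : wsum [] Φ = 0 := rfl

@[simp] theorem wsum_cons (p : ℝ × α) (l : WL α) (Φ : α → ℝ) :
    wsum (p :: l) Φ = p.1 * Φ p.2 + wsum l Φ := by simp [wsum]

@[simp] theorem wsum_append (l l' : WL α) (Φ : α → ℝ) :
    wsum (l ++ l') Φ = wsum l Φ + wsum l' Φ := by simp [wsum]

@[simp] theorem wsum_wmap (f : α → β) (l : WL α) (Φ : β → ℝ) :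
    wsum (wmap f l) Φ = wsum l fun a => Φ (f a) := by
  simp [wsum, wmap, List.map_map, Function.comp_def]

@[simp] theorem wsum_wneg (l : WL α) (Φ : α → ℝ) : wsum (wneg l) Φ = -wsum l Φ := by
  induction l with
  | nil => simp [wneg]
  | cons p l ih =>
    have : wneg (p :: l) = (-p.1, p.2) :: wneg l := rfl
    rw [this, wsum_cons, wsum_cons, ih]; ring

theorem wsum_add (l : WL α) (Φ Ψ : α → ℝ) :
    wsum l (fun a => Φ a + Ψ a) = wsum l Φ + wsum l Ψ := by
  induction l with
  | nil => simp
  | cons p l ih => simp only [wsum_cons, ih]; ring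

theorem wsum_mul_left (l : WL α) (c : ℝ) (Φ : α → ℝ) :
    wsum l (fun a => c * Φ a) = c * wsum l Φ := by
  induction l with
  | nil => simp
  | cons p l ih => simp only [wsum_cons, ih]; ring

theorem wsum_mul_right (l : WL α) (c : ℝ) (Φ : α → ℝ) :
    wsum l (fun a => Φ a * c) = wsum l Φ * c := by
  induction l with
  | nil => simp
  | cons p l ih => simp only [wsum_cons, ih]; ring

theorem wsum_sub (l : WL α) (Φ Ψ : α → ℝ) :
    wsum l (fun a => Φ a - Ψ a) = wsum l Φ - wsum l Ψ := by
  induction l with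
  | nil => simp
  | cons p l ih => simp only [wsum_cons, ih]; ring

theorem wsum_finset_sum {ι : Type} (l : WL α) (S : Finset ι) (Φ : ι → α → ℝ) :
    wsum l (fun a => ∑ i ∈ S, Φ i a) = ∑ i ∈ S, wsum l (Φ i) := by
  induction l with
  | nil => simp
  | cons p l ih => simp only [wsum_cons, ih, mul_sum, sum_add_distrib]

@[simp] theorem wsum_wbind (l : WL α) (f : α → WL β) (Φ : β → ℝ) :
    wsum (wbind l f) Φ = wsum l fun a => wsum (f a) Φ := by
  induction l with
  | nil => simp [wbind]
  | cons p l ih =>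
    have : wbind (p :: l) f = ((f p.2).map fun q => (p.1 * q.1, q.2)) ++ wbind l f := by
      simp [wbind]
    rw [this, wsum_append, ih, wsum_cons]
    congr 1
    generalize f p.2 = l'
    induction l' with
    | nil => simp
    | cons q l' ih' => simp only [List.map_cons, wsum_cons, ih']; ring

@[simp] theorem not_wmem_nil (a : α) : ¬ wmem a ([] : WL α) := by simp [wmem]

@[simp] theorem wmem_cons (a : α) (p : ℝ × α) (l : WL α) :
    wmem a (p :: l) ↔ a = p.2 ∨ wmem a l := by
  constructor
  · rintro ⟨w, hw⟩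
    rcases List.mem_cons.1 hw with h | h
    · left; rw [← h]
    · right; exact ⟨w, h⟩
  · rintro (h | ⟨w, h⟩)
    · exact ⟨p.1, by rw [h]; exact List.mem_cons_self⟩
    · exact ⟨w, List.mem_cons_of_mem _ h⟩

@[simp] theorem wmem_append (a : α) (l l' : WL α) : wmem a (l ++ l') ↔ wmem a l ∨ wmem a l' := by
  simp [wmem, exists_or]

@[simp] theorem wmem_wmap (f : α → β) (b : β) (l : WL α) :
    wmem b (wmap f l) ↔ ∃ a, wmem a l ∧ f a = b := by
  simp only [wmem, wmap, List.mem_map, Prod.mk.injEq]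
  constructor
  · rintro ⟨w, p, hp, -, h⟩; exact ⟨p.2, ⟨p.1, hp⟩, h⟩
  · rintro ⟨a, ⟨w, hw⟩, h⟩; exact ⟨w, (w, a), hw, rfl, h⟩

@[simp] theorem wmem_wneg (a : α) (l : WL α) : wmem a (wneg l) ↔ wmem a l := by
  simp only [wmem, wneg, List.mem_map, Prod.mk.injEq]
  constructor
  · rintro ⟨w, p, hp, -, h⟩; exact ⟨p.1, h ▸ hp⟩
  · rintro ⟨w, hw⟩; exact ⟨-w, (w, a), hw, rfl, rfl⟩

@[simp] theorem wmem_wbind (b : β) (l : WL α) (f : α → WL β) :
    wmem b (wbind l f) ↔ ∃ a, wmem a l ∧ wmem b (f a) := by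
  simp only [wmem, wbind, List.mem_flatMap, List.mem_map, Prod.mk.injEq]
  constructor
  · rintro ⟨w, p, hp, q, hq, -, h⟩; exact ⟨p.2, ⟨p.1, hp⟩, q.1, h ▸ hq⟩
  · rintro ⟨a, ⟨w, hw⟩, w', hw'⟩; exact ⟨w * w', (w, a), hw, (w', b), hw', rfl, rfl⟩

theorem wsum_congr {l : WL α} {Φ Ψ : α → ℝ} (h : ∀ a, wmem a l → Φ a = Ψ a) :
    wsum l Φ = wsum l Ψ := by
  induction l with
  | nil => simp
  | cons p l ih =>
    rw [wsum_cons, wsum_cons, h p.2 (by simp), ih fun a ha => h a (by simp [ha])]

@[simp] theorem wabs_nil : wabs ([] : WL α) = 0 := rfl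

@[simp] theorem wabs_cons (p : ℝ × α) (l : WL α) : wabs (p :: l) = |p.1| + wabs l := by
  simp [wabs]

@[simp] theorem wabs_append (l l' : WL α) : wabs (l ++ l') = wabs l + wabs l' := by simp [wabs]

@[simp] theorem wabs_wmap (f : α → β) (l : WL α) : wabs (wmap f l) = wabs l := by
  simp [wabs, wmap, List.map_map, Function.comp_def]

@[simp] theorem wabs_wneg (l : WL α) : wabs (wneg l) = wabs l := by
  simp [wabs, wneg, List.map_map, Function.comp_def]

theorem wabs_nonneg (l : WL α) : 0 ≤ wabs l := by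
  induction l with
  | nil => simp
  | cons p l ih => rw [wabs_cons]; positivity

/-- the list with the absolute values of the weights -/
def wpos (l : WL α) : WL α := l.map fun p => (|p.1|, p.2)

@[simp] theorem wpos_nil : wpos ([] : WL α) = [] := rfl

@[simp] theorem wpos_cons (p : ℝ × α) (l : WL α) : wpos (p :: l) = (|p.1|, p.2) :: wpos l := rfl

@[simp] theorem wpos_append (l l' : WL α) : wpos (l ++ l') = wpos l ++ wpos l' := by simp [wpos]

theorem wabs_eq (l : WL α) : wabs l = wsum (wpos l) fun _ => 1 := by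
  simp [wabs, wsum, wpos, List.map_map, Function.comp_def]

theorem wabs_wbind (l : WL α) (f : α → WL β) :
    wabs (wbind l f) = wsum (wpos l) fun a => wabs (f a) := by
  induction l with
  | nil => simp [wbind]
  | cons p l ih =>
    have : wbind (p :: l) f = ((f p.2).map fun q => (p.1 * q.1, q.2)) ++ wbind l f := by
      simp [wbind]
    rw [this, wabs_append, ih, wpos_cons, wsum_cons]
    congr 1
    generalize f p.2 = l'
    induction l' with
    | nil => simp
    | cons q l' ih' => simp only [List.map_cons, wabs_cons, ih', abs_mul]; ring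

theorem wsum_wpos_le {l : WL α} {Φ Ψ : α → ℝ} (h : ∀ a, wmem a l → Φ a ≤ Ψ a) :
    wsum (wpos l) Φ ≤ wsum (wpos l) Ψ := by
  induction l with
  | nil => simp
  | cons p l ih =>
    rw [wpos_cons, wsum_cons, wsum_cons]
    exact add_le_add (mul_le_mul_of_nonneg_left (h p.2 (by simp)) (abs_nonneg _))
      (ih fun a ha => h a (by simp [ha]))

theorem abs_wsum_le' (l : WL α) (Φ : α → ℝ) : |wsum l Φ| ≤ wsum (wpos l) fun a => |Φ a| := by
  induction l with
  | nil => simp
  | cons p l ih =>
    rw [wpos_cons, wsum_cons, wsum_cons]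
    refine (abs_add_le _ _).trans (add_le_add (by rw [abs_mul]) ih)

theorem abs_wsum_le {l : WL α} {Φ : α → ℝ} {B : ℝ} (h : ∀ a, wmem a l → |Φ a| ≤ B) :
    |wsum l Φ| ≤ wabs l * B := by
  refine (abs_wsum_le' l Φ).trans ((wsum_wpos_le h).trans (le_of_eq ?_))
  rw [wabs_eq, ← wsum_mul_right]
  simp

end wl

/-! ### the derivative operators -/

section ops
variable {α : Type}

/-- a new leaf `z` branches off above the root of `T`, at a level in `[s, lev T)` -/
def stem (m : ℕ → ℝ) (R : ℕ) (z : α) (a0 : ℝ) (s : ℕ) (T : Tr α) : WL (Tr α) :=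
  (List.range' s (T.lev R - s)).map fun u =>
    (m (u + 1) - (if u = s then a0 else m u), Tr.node u T (Tr.leaf z))

/-- all ways to insert a new leaf `z` (levels `≥ s`, offset `a0` at level `s`) -/
def ins (m : ℕ → ℝ) (R : ℕ) (z : α) : ℝ → ℕ → Tr α → WL (Tr α)
  | a0, s, .leaf a => stem m R z a0 s (.leaf a)
  | a0, s, .node u a b =>
      stem m R z a0 s (.node u a b) ++
        (wmap (fun a' => .node u a' b) (ins m R z (if u = s then a0 else m u) u a) ++
          wmap (fun b' => .node u a b') (ins m R z 0 u b))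

/-- all ways to relabel one leaf `a` by `f a` (when defined) -/
def asg (f : α → Option α) : Tr α → WL (Tr α)
  | .leaf a => (f a).elim [] fun a' => [(1, .leaf a')]
  | .node u a b => wmap (fun a' => .node u a' b) (asg f a) ++ wmap (fun b' => .node u a b') (asg f b)

def opts (m : ℕ → ℝ) (R : ℕ) (f : α → Option α) (z : α) (a0 : ℝ) (s : ℕ) (T : Tr α) : WL (Tr α) :=
  asg f T ++ wneg (ins m R z a0 s T)

/-- `j` successive insertions, starting from one leaf -/
def insN (m : ℕ → ℝ) (R s : ℕ) : ℕ → WL (Tr Unit)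
  | 0 => [(1, .leaf ())]
  | j + 1 => wbind (insN m R s j) (ins m R () 0 s)

/-- weight of a node at level `u` below a node (or the start) at level `s` -/
def wt (m : ℕ → ℝ) (u s : ℕ) : ℝ := if u = s then m (s + 1) else m (u + 1) - m u

/-- weighted sum over all labelled trees of depth `≤ d` that are valid from level `s` -/
def gen [Fintype α] (m : ℕ → ℝ) (R : ℕ) : ℕ → ℕ → (Tr α → ℝ) → ℝ
  | 0, _, Φ => ∑ a, Φ (.leaf a)
  | d + 1, s, Φ => ∑ a, Φ (.leaf a) +
      ∑ u ∈ Finset.Ico s R, wt m u s * gen m R d u fun a => gen m R d u fun b => Φ (.node u a b)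

end ops

/-! ### roles -/

/-- leaf label: an optional old label and an optional role (id, spin value) -/
abbrev Lb : Type := Option Bool × Option (ℕ × Bool)

/-- a new role `c` with spin value `b` that has to meet the role `par` at level `lv` -/
structure Stp where
  c : ℕ
  par : ℕ
  lv : ℕ
  b : Bool

def Stp.newL (h : Stp) : Lb := (none, some (h.c, h.b))

def Stp.asgF (h : Stp) (l : Lb) : Option Lb :=
  match l.2 with
  | none => some (l.1, some (h.c, h.b))
  | some _ => none

/-- ids of the roles in a tree -/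
def roles : Tr Lb → List ℕ
  | .leaf l => (l.2.map Prod.fst).toList
  | .node _ a b => roles a ++ roles b

/-- all ways to place the role of `h` -/
def sopts (m : ℕ → ℝ) (R : ℕ) (h : Stp) (a0 : ℝ) (s : ℕ) (T : Tr Lb) : WL (Tr Lb) :=
  opts m R h.asgF h.newL a0 s T

def fstem (m : ℕ → ℝ) (R : ℕ) (h : Stp) (a0 : ℝ) (s : ℕ) (T : Tr Lb) : WL (Tr Lb) :=
  if s ≤ h.lv ∧ h.lv < T.lev R then
    [(-(m (h.lv + 1) - (if h.lv = s then a0 else m h.lv)), .node h.lv T (.leaf h.newL))]
  else []

/-- the ways to place the role of `h` in a tree containing `h.par` such that the two roles meet at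
level `h.lv` -/
def fopts (m : ℕ → ℝ) (R : ℕ) (h : Stp) : ℝ → ℕ → Tr Lb → WL (Tr Lb)
  | a0, s, .leaf l => fstem m R h a0 s (.leaf l)
  | a0, s, .node u a b =>
      fstem m R h a0 s (.node u a b) ++
        if h.par ∈ roles a then
          wmap (fun a' => .node u a' b) (fopts m R h (if u = s then a0 else m u) u a) ++
            if u = h.lv then wmap (fun b' => .node u a b') (sopts m R h 0 u b) else []
        else
          wmap (fun b' => .node u a b') (fopts m R h 0 u b) ++
            if u = h.lv then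
              wmap (fun a' => .node u a' b) (sopts m R h (if u = s then a0 else m u) u a)
            else []

/-- all roles of a list, unfiltered -/
def useq (m : ℕ → ℝ) (R : ℕ) (a0 : ℝ) (s : ℕ) : List Stp → Tr Lb → WL (Tr Lb)
  | [], T => [(1, T)]
  | h :: hs, T => wbind (sopts m R h a0 s T) (useq m R a0 s hs)

/-- all roles of a list, filtered -/
def fseq (m : ℕ → ℝ) (R : ℕ) (a0 : ℝ) (s : ℕ) : List Stp → Tr Lb → WL (Tr Lb)
  | [], T => [(1, T)]
  | h :: hs, T => wbind (fopts m R h a0 s T) (fseq m R a0 s hs)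

/-- the steps that build the tree `P` from its leftmost leaf, which has the id `ρ`; new ids are
`n, n+1, …` in depth-first order -/
def hist : Tr Bool → ℕ → ℕ → List Stp
  | .leaf _, _, _ => []
  | .node u a c, ρ, n => ⟨n, ρ, u, c.first⟩ :: (hist a ρ (n + 1) ++ hist c n (n + a.size))

/-- `P` with the ids of `hist` -/
def idtree : Tr Bool → ℕ → ℕ → Tr (ℕ × Bool)
  | .leaf b, ρ, _ => .leaf (ρ, b)
  | .node u a c, ρ, n => .node u (idtree a ρ (n + 1)) (idtree c n (n + a.size))

/-- shift the level of every node by its id -/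
def shf : Tr Bool → ℕ → Tr Bool
  | .leaf b, _ => .leaf b
  | .node u a c, n => .node (u + n) (shf a (n + 1)) (shf c (n + a.size))

def oldT (O : Tr Bool) : Tr Lb := O.map fun o => (some o, none)

/-- `O` with the role `(0, b)` on its leftmost leaf -/
def rootT (b : Bool) : Tr Bool → Tr Lb
  | .leaf o => .leaf (some o, some (0, b))
  | .node u a c => .node u (rootT b a) (oldT c)

/-- the single leaf with the role `(0, b)` -/
def dotT (b : Bool) : Tr Lb := .leaf (none, some (0, b))

/-- any two elements are equal or more than `D` apart -/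
def Sep (D : ℕ) (Λ : List ℕ) : Prop := ∀ a ∈ Λ, ∀ b ∈ Λ, a = b ∨ a + D < b ∨ b + D < a

/-! ### observables of a spin system -/

section obs
variable {R : ℕ} {Ξ : Type}

def oldF (φ : Bool → Path R Ξ → ℝ) (l : Lb) (x : Path R Ξ) : ℝ := l.1.elim 1 fun b => φ b x

def roleF (ψ : ℕ × Bool → Path R Ξ → ℝ) (l : Lb) (x : Path R Ξ) : ℝ := l.2.elim 1 fun c => ψ c x

variable [Fintype Ξ] [Nonempty Ξ] {V : Type} [Fintype V]
  (κ : Ker R Ξ) (σ : Path R Ξ → V → Bool)

/-- `1[σ_u = b]` -/
def spinF (u : V) (b : Bool) (x : Path R Ξ) : ℝ := ind (σ x u) b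

/-- old labels look at the site `u`, roles at the site `w` -/
def lfv (u w : V) (l : Lb) (x : Path R Ξ) : ℝ :=
  oldF (spinF σ u) l x * roleF (fun c => spinF σ w c.2) l x

/-- average over two sites and the path -/
noncomputable def EE (F : V → V → Path R Ξ → ℝ) : ℝ := 𝔼 u, 𝔼 w, E0 κ (F u w)

noncomputable def val (T : Tr Lb) : ℝ := EE κ fun u w => ev κ (lfv σ u w) T

/-- approximate Ghirlanda–Guerra type identities, in the weak form that is used -/
def Ident (m : ℕ → ℝ) (d : ℕ) (e : ℝ) : Prop :=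
  ∀ P O : Tr Bool, P.depth ≤ d → O.depth ≤ d → P.Valid R 1 → O.Valid R 1 →
    |wsum (fseq m R 0 0 (hist P 0 1) (rootT P.first O)) (val κ σ)| ≤
      |wsum (fseq m R 0 0 (hist P 0 1) (dotT P.first)) (val κ σ)| + e

def yv (τ : Tr Bool) (u : V) : Path R Ξ → ℝ := ev κ (spinF σ u) τ

def zv (τ : Tr Bool) (u w : V) : Path R Ξ → ℝ :=
  ev κ (fun b x => spinF σ u b x * spinF σ w b x) τ

/-- internal covariance -/
noncomputable def iota (τ : Tr Bool) : ℝ :=
  EE κ fun u w x => |zv κ σ τ u w x - yv κ σ τ u x * yv κ σ τ w x|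

/-- covariance along the stem from level `s` -/
noncomputable def beta (τ : Tr Bool) (s : ℕ) : ℝ :=
  EE κ fun u w x => |Ex κ s (fun y => yv κ σ τ u y * yv κ σ τ w y) x -
    Ex κ s (yv κ σ τ u) x * Ex κ s (yv κ σ τ w) x|

/-- total covariance given the coordinates `< s` -/
noncomputable def cov (τ : Tr Bool) (s : ℕ) : ℝ :=
  EE κ fun u w x => |Ex κ s (zv κ σ τ u w) x - Ex κ s (yv κ σ τ u) x * Ex κ s (yv κ σ τ w) x|

noncomputable def fD (D s : ℕ) (a : Tr Bool) : ℝ :=
  𝔼 u, E0 κ fun x => |Ex κ (s + D) (yv κ σ a u) x - Ex κ s (yv κ σ a u) x|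

/-- error caused by shifting levels by at most `D` -/
noncomputable def Om (D : ℕ) : Tr Bool → ℝ
  | .leaf _ => 0
  | .node u a b => fD κ σ D u a + fD κ σ D u b + Om D a + Om D b

end obs

/-- realise the equation lemmas once, in this module -/
theorem force_eqns : True := by
  have := @ev.eq_def
  have := @ev.eq_1
  have := @ev.eq_2
  have := @shf.eq_def
  have := @shf.eq_1
  have := @shf.eq_2
  have := @ins.eq_def
  have := @ins.eq_1
  have := @ins.eq_2
  have := @asg.eq_def
  have := @asg.eq_1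
  have := @asg.eq_2
  have := @Tr.lev.eq_1
  have := @Tr.lev.eq_2
  trivial

end Crest.Agent.R141
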