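import Crest.Agent.R141.Model
import Crest.Agent.R141.Series

/-! One interpolation step (task R141 UStep). -/

set_option autoImplicit false

namespace Crest.Agent.R141

open Finset Crest.ProbabilityR.Diluted
open scoped BigOperators

theorem pow_ineq_nonneg {p : ℕ} (hp : 1 ≤ p) {x y : ℝ} (hx : 0 ≤ x) (hy : 0 ≤ y) :
    p * (x * y ^ (p - 1)) ≤ x ^ p + (p - 1 : ℝ) * y ^ p := by
  have h := pow_add_mul_le_add_pow (a := y) (b := x - y) hy (by linarith) p
  have h2 : y ^ p = y ^ (p - 1) * y := by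
    rw [← pow_succ, Nat.sub_add_cancel hp]
  rw [add_sub_cancel] at h
  rw [h2] at h ⊢
  nlinarith

/-- weighted AM-GM for `x, y ≥ 0`; for even `p` apply it to `|x|, |y|` -/
theorem pow_ineq {p : ℕ} (hp : 1 ≤ p) {x y : ℝ} (h : Even p ∨ (0 ≤ x ∧ 0 ≤ y)) :
    p * (x * y ^ (p - 1)) ≤ x ^ p + (p - 1 : ℝ) * y ^ p := by
  rcases h with h | h
  · have h1 := pow_ineq_nonneg hp (abs_nonneg x) (abs_nonneg y)
    rw [h.pow_abs, h.pow_abs] at h1
    refine le_trans ?_ h1
    refine mul_le_mul_of_nonneg_left ?_ (Nat.cast_nonneg _)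
    rw [← abs_pow, ← abs_mul]
    exact le_abs_self _
  · exact pow_ineq_nonneg hp h.1 h.2

namespace UStep

theorem exists_lt_one_bound {ι : Type} [Finite ι] (f : ι → ℝ) (h : ∀ i, f i < 1) :
    ∃ ρ : ℝ, 0 ≤ ρ ∧ ρ < 1 ∧ ∀ i, f i ≤ ρ := by
  cases isEmpty_or_nonempty ι with
  | inl hι => exact ⟨0, le_rfl, one_pos, fun i => hι.elim i⟩
  | inr hι =>
    obtain ⟨i0, hi0⟩ := Finite.exists_max f
    exact ⟨max 0 (f i0), le_max_left _ _, max_lt one_pos (h i0),
      fun i => (hi0 i).trans (le_max_right _ _)⟩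

theorem E_wsum {α β : Type} [Fintype α] (p : PV α) (l : WL β) (F : α → β → ℝ) :
    p.E (fun a => wsum l (F a)) = wsum l fun T => p.E fun a => F a T := by
  induction l with
  | nil => simp only [wsum_nil]; exact p.E_const 0
  | cons q l ih => simp only [wsum_cons, PV.E_add, PV.E_mul_left, ih]

theorem wsum_nonneg {β : Type} {l : WL β} (hl : ∀ q ∈ l, 0 ≤ q.1) {F : β → ℝ}
    (hF : ∀ T, 0 ≤ F T) : 0 ≤ wsum l F := by
  induction l with
  | nil => simp
  | cons q l ih =>
    rw [wsum_cons]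
    exact add_nonneg (mul_nonneg (hl q List.mem_cons_self) (hF _))
      (ih fun q' hq' => hl q' (List.mem_cons_of_mem _ hq'))

theorem prod_kd0 {p : ℕ} (hp : 1 ≤ p) (X Y : ℝ) :
    (∏ l : Fin p, if useSpin p 0 l then X else Y) = X * Y ^ (p - 1) := by
  obtain ⟨q, rfl⟩ : ∃ q, p = q + 1 := ⟨p - 1, by omega⟩
  rw [Fin.prod_univ_castSucc]
  have h1 : ∀ i : Fin q, useSpin (q + 1) 0 i.castSucc = false := by
    intro i
    simp [useSpin]
  have h2 : useSpin (q + 1) 0 (Fin.last q) = true := by simp [useSpin]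
  simp [h1, h2, mul_comm]

theorem prod_kd1 {p : ℕ} (X Y : ℝ) :
    (∏ l : Fin p, if useSpin p 1 l then X else Y) = X ^ p := by
  have h1 : ∀ i : Fin p, useSpin p 1 i = true := by
    intro i
    simp [useSpin]
  simp [h1]

theorem prod_kd2 {p : ℕ} (X Y : ℝ) :
    (∏ l : Fin p, if useSpin p 2 l then X else Y) = Y ^ p := by
  have h1 : ∀ i : Fin p, useSpin p 2 i = false := by
    intro i
    simp only [useSpin]
    rfl
  simp [h1]

/-- factorisation of the tree value of one clause -/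
theorem tree_factor {R p : ℕ} {Ξ Ξ' Ω : Type} [Fintype Ξ] [Fintype Ξ'] [Fintype Ω]
    (κ : Ker R Ξ) (κ' : Fin p → Ker R Ξ') (s : ℕ) (x : Path R Ξ) (x' : Fin p → Path R Ξ')
    (T : Tr Unit) (q : PV Ω) (χ : Ω → ((Unit → Path R Ξ → ℝ) →* ℝ))
    (hq : ∀ φ, Ex κ s (ev κ φ T) x = q.E fun ω => χ ω φ)
    (b : Fin p → Bool) (A : Fin p → Path R Ξ → ℝ) (B : Fin p → Path R Ξ' → ℝ) :
    Ex (κ.prod (Ker.pi κ')) s (ev (κ.prod (Ker.pi κ'))
      (fun _ y => ∏ l, if b l then A l (pmap Prod.fst y) else B l (comp (pmap Prod.snd y) l)) T)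
      (fun i => (x i, fun l => x' l i)) =
    q.E fun ω => ∏ l, if b l then χ ω (fun _ => A l)
      else Ex (κ' l) s (ev (κ' l) (fun _ => B l) T) (x' l) := by
  set φ1 : Unit → Path R Ξ → ℝ := ∏ l, if b l then (fun _ => A l) else 1 with hφ1
  set ψ : Fin p → Unit → Path R Ξ' → ℝ := fun l => if b l then (fun _ _ => 1) else fun _ => B l
    with hψ
  have h1 : (fun (_ : Unit) (y : Path R (Ξ × (Fin p → Ξ'))) =>
      ∏ l, if b l then A l (pmap Prod.fst y) else B l (comp (pmap Prod.snd y) l)) =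
      fun a y => φ1 a (pmap Prod.fst y) *
        (fun a (z : Path R (Fin p → Ξ')) => ∏ l, ψ l a (comp z l)) a (pmap Prod.snd y) := by
    funext a y
    simp only [hφ1, hψ, Finset.prod_apply, ← prod_mul_distrib]
    refine prod_congr rfl fun l _ => ?_
    cases b l <;> simp
  have h2 : ev (κ.prod (Ker.pi κ')) (fun a y => φ1 a (pmap Prod.fst y) *
        (fun a (z : Path R (Fin p → Ξ')) => ∏ l, ψ l a (comp z l)) a (pmap Prod.snd y)) T =
      fun y => ev κ φ1 T (pmap Prod.fst y) *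
        (fun z : Path R (Fin p → Ξ') => ∏ l, ev (κ' l) (ψ l) T (comp z l)) (pmap Prod.snd y) := by
    funext y
    rw [ev_prod_mul κ (Ker.pi κ') φ1
      (fun a (z : Path R (Fin p → Ξ')) => ∏ l, ψ l a (comp z l)) T y]
    congr 1
    exact ev_pi_prod κ' ψ T _
  rw [h1, h2, Ex_prod_mul κ (Ker.pi κ') s (ev κ φ1 T)
    (fun z : Path R (Fin p → Ξ') => ∏ l, ev (κ' l) (ψ l) T (comp z l)), Ex_pi_prod]
  have h3 : pmap Prod.fst (fun i => (x i, fun l => x' l i) : Path R (Ξ × (Fin p → Ξ'))) = x := rfl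
  rw [h3, hq, ← PV.E_mul_right]
  congr 1
  funext ω
  rw [hφ1, map_prod, ← prod_mul_distrib]
  refine prod_congr rfl fun l _ => ?_
  have h4 : comp (pmap Prod.snd (fun i => (x i, fun l => x' l i) : Path R (Ξ × (Fin p → Ξ')))) l
    = x' l := rfl
  rw [h4, hψ]
  cases hb : b l
  · simp [hb]
  · have : ev (κ' l) (fun (_ : Unit) _ => (1 : ℝ)) T = fun _ => 1 := funext fun y => ev_one _ _ _
    simp only [hb, if_true, this, Ex_const, mul_one]

/-- the average of the tree value of one clause of kind `kd` (without the coefficient) -/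
noncomputable def U {p : ℕ} (M : FM p) (t : Trial) {Ξ V : Type} [Fintype Ξ] [Fintype V]
    [Nonempty V] (κ : Ker t.R Ξ) (σ : Path t.R Ξ → V → Bool) (x : Path t.R Ξ) (kd : Fin 3)
    (T : Tr Unit) : ℝ :=
  (M.pΦ.pi (Fin p)).E fun f => ((PV.unif V).pi (Fin p)).E fun idx =>
    ((PV.unif t.V).pi (Fin p)).E fun v =>
      Ex (κ.prod (Ker.pi fun l => t.κ (v l))) t.s (ev (κ.prod (Ker.pi fun l => t.κ (v l)))
        (fun _ y => ∏ l, M.φ (f l) (if useSpin p kd l then σ (pmap Prod.fst y) (idx l)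
          else t.σ (v l) (comp (pmap Prod.snd y) l))) T) fun i => (x i, fun l => t.x (v l) i)

theorem U_ineq {p : ℕ} (M : FM p) (hp : 1 ≤ p) (hM : M.Pos) (t : Trial) {Ξ V : Type} [Fintype Ξ]
    [Fintype V] [Nonempty V] (κ : Ker t.R Ξ) (σ : Path t.R Ξ → V → Bool) (x : Path t.R Ξ)
    (T : Tr Unit) :
    0 ≤ U M t κ σ x 1 T + (p - 1 : ℝ) * U M t κ σ x 2 T - p * U M t κ σ x 0 T := by
  obtain ⟨Ω, _, q, χ, hq, -, hχ⟩ := ev_rep κ T t.s x
  set X : Ω → ℝ := fun ω => M.pΦ.E fun f => (PV.unif V).E fun i =>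
    χ ω (fun _ y => M.φ f (σ y i)) with hX
  set Y : ℝ := M.pΦ.E fun f => (PV.unif t.V).E fun v =>
    Ex (t.κ v) t.s (ev (t.κ v) (fun _ y => M.φ f (t.σ v y)) T) (t.x v) with hY
  have key : ∀ kd, U M t κ σ x kd T = q.E fun ω => ∏ l, if useSpin p kd l then X ω else Y := by
    intro kd
    have h1 : ∀ (f : Fin p → M.Φ) (idx : Fin p → V) (v : Fin p → t.V),
        Ex (κ.prod (Ker.pi fun l => t.κ (v l))) t.s (ev (κ.prod (Ker.pi fun l => t.κ (v l)))
          (fun _ y => ∏ l, M.φ (f l) (if useSpin p kd l then σ (pmap Prod.fst y) (idx l)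
            else t.σ (v l) (comp (pmap Prod.snd y) l))) T) (fun i => (x i, fun l => t.x (v l) i)) =
        q.E fun ω => ∏ l, if useSpin p kd l then χ ω (fun _ y => M.φ (f l) (σ y (idx l)))
          else Ex (t.κ (v l)) t.s (ev (t.κ (v l)) (fun _ y => M.φ (f l) (t.σ (v l) y)) T)
            (t.x (v l)) := by
      intro f idx v
      rw [← tree_factor κ (fun l => t.κ (v l)) t.s x (fun l => t.x (v l)) T q χ hq (useSpin p kd)
        (fun l y => M.φ (f l) (σ y (idx l))) (fun l y => M.φ (f l) (t.σ (v l) y))]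
      congr 2
      funext _ y
      refine prod_congr rfl fun l _ => ?_
      split_ifs <;> rfl
    unfold U
    simp only [h1]
    simp only [PV.E_comm _ q]
    congr 1
    funext ω
    have h2 : ∀ (f : Fin p → M.Φ) (idx : Fin p → V),
        (((PV.unif t.V).pi (Fin p)).E fun v => ∏ l, if useSpin p kd l then
          χ ω (fun _ y => M.φ (f l) (σ y (idx l)))
          else Ex (t.κ (v l)) t.s (ev (t.κ (v l)) (fun _ y => M.φ (f l) (t.σ (v l) y)) T)
            (t.x (v l))) = ∏ l, if useSpin p kd l then χ ω (fun _ y => M.φ (f l) (σ y (idx l)))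
          else (PV.unif t.V).E fun v =>
            Ex (t.κ v) t.s (ev (t.κ v) (fun _ y => M.φ (f l) (t.σ v y)) T) (t.x v) := by
      intro f idx
      rw [PV.E_pi_prod (PV.unif t.V) (fun l v => if useSpin p kd l then
          χ ω (fun _ y => M.φ (f l) (σ y (idx l)))
          else Ex (t.κ v) t.s (ev (t.κ v) (fun _ y => M.φ (f l) (t.σ v y)) T) (t.x v))]
      refine prod_congr rfl fun l _ => ?_
      split_ifs
      · exact PV.E_const _ _
      · rfl
    have h3 : ∀ (f : Fin p → M.Φ),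
        (((PV.unif V).pi (Fin p)).E fun idx => ∏ l, if useSpin p kd l then
          χ ω (fun _ y => M.φ (f l) (σ y (idx l)))
          else (PV.unif t.V).E fun v =>
            Ex (t.κ v) t.s (ev (t.κ v) (fun _ y => M.φ (f l) (t.σ v y)) T) (t.x v)) =
        ∏ l, if useSpin p kd l then (PV.unif V).E fun i => χ ω (fun _ y => M.φ (f l) (σ y i))
          else (PV.unif t.V).E fun v =>
            Ex (t.κ v) t.s (ev (t.κ v) (fun _ y => M.φ (f l) (t.σ v y)) T) (t.x v) := by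
      intro f
      rw [PV.E_pi_prod (PV.unif V) (fun l i => if useSpin p kd l then
          χ ω (fun _ y => M.φ (f l) (σ y i))
          else (PV.unif t.V).E fun v =>
            Ex (t.κ v) t.s (ev (t.κ v) (fun _ y => M.φ (f l) (t.σ v y)) T) (t.x v))]
      refine prod_congr rfl fun l _ => ?_
      split_ifs
      · rfl
      · exact PV.E_const _ _
    simp only [h2, h3]
    rw [PV.E_pi_prod M.pΦ (fun l f => if useSpin p kd l then
          (PV.unif V).E fun i => χ ω (fun _ y => M.φ f (σ y i))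
          else (PV.unif t.V).E fun v =>
            Ex (t.κ v) t.s (ev (t.κ v) (fun _ y => M.φ f (t.σ v y)) T) (t.x v))]
    refine prod_congr rfl fun l _ => ?_
    split_ifs <;> rfl
  rw [key, key, key]
  simp only [prod_kd0 hp, prod_kd1, prod_kd2]
  rw [← PV.E_mul_left, ← PV.E_mul_left, ← PV.E_add, ← PV.E_sub]
  refine PV.E_nonneg _ fun ω => sub_nonneg.2 (pow_ineq hp ?_)
  rcases hM.2 with h | h
  · exact Or.inl h
  · refine Or.inr ⟨?_, ?_⟩
    · exact PV.E_nonneg _ fun f => PV.E_nonneg _ fun i => hχ ω _ fun _ _ => h _ _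
    · exact PV.E_nonneg _ fun f => PV.E_nonneg _ fun v =>
        Ex_nonneg _ _ (fun y => ev_nonneg _ (fun _ _ => h _ _) _ _) _

/-- truncated expansion of the added clause -/
theorem clause_series {p : ℕ} (M : FM p) (t : Trial) {Ξ V : Type}
    [Fintype Ξ] [Fintype V] [Nonempty V] (κ : Ker t.R Ξ) (σ : Path t.R Ξ → V → Bool)
    (x : Path t.R Ξ) {ρ : ℝ} (hρ : ρ < 1)
    (hb : ∀ (a : M.C) (f : Fin p → M.Φ) (s : Fin p → Bool), |M.c a * ∏ l, M.φ (f l) (s l)| ≤ ρ)
    (kd : Fin 3) (n : ℕ) :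
    |(M.pΘ.E fun θ => 𝔼 idx : Fin p → V, 𝔼 v : Fin p → t.V,
      Fr (κ.prod (Ker.pi fun l => t.κ (v l))) t.m t.s
        (fun y => Real.log (M.w θ fun l => if useSpin p kd l then σ (pmap Prod.fst y) (idx l)
          else t.σ (v l) (comp (pmap Prod.snd y) l)))
        fun i => (x i, fun l => t.x (v l) i)) +
      ∑ j ∈ range n, (M.pC.E fun a => M.c a ^ (j + 1)) / (j + 1).factorial *
        wsum (insN t.m t.R t.s j) (U M t κ σ x kd)| ≤ ρ ^ (n + 1) / (1 - ρ) := by
  have hS : -∑ j ∈ range n, (M.pC.E fun a => M.c a ^ (j + 1)) / (j + 1).factorial *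
        wsum (insN t.m t.R t.s j) (U M t κ σ x kd) =
      M.pΘ.E fun θ => ((PV.unif V).pi (Fin p)).E fun idx => ((PV.unif t.V).pi (Fin p)).E fun v =>
        ∑ j ∈ range n, (-1) ^ j / (j + 1).factorial * wsum (insN t.m t.R t.s j) fun T =>
          Ex (κ.prod (Ker.pi fun l => t.κ (v l))) t.s (ev (κ.prod (Ker.pi fun l => t.κ (v l)))
            (fun _ y => -M.c θ.1 * ∏ l, M.φ (θ.2 l) (if useSpin p kd l then
              σ (pmap Prod.fst y) (idx l) else t.σ (v l) (comp (pmap Prod.snd y) l))) T)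
            fun i => (x i, fun l => t.x (v l) i) := by
    simp only [PV.E_sum, PV.E_mul_left, E_wsum]
    rw [← sum_neg_distrib]
    refine sum_congr rfl fun j _ => ?_
    rw [← wsum_mul_left, ← wsum_mul_left, ← neg_one_mul, ← wsum_mul_left]
    refine wsum_congr fun T hT => ?_
    have hsz : T.size = j + 1 := (insN_mem hT).2.1
    have h1 : ∀ (θ : M.Θ) (idx : Fin p → V) (v : Fin p → t.V),
        ev (κ.prod (Ker.pi fun l => t.κ (v l)))
            (fun _ y => -M.c θ.1 * ∏ l, M.φ (θ.2 l) (if useSpin p kd l then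
              σ (pmap Prod.fst y) (idx l) else t.σ (v l) (comp (pmap Prod.snd y) l))) T =
        fun y => (-M.c θ.1) ^ (j + 1) * ev (κ.prod (Ker.pi fun l => t.κ (v l)))
            (fun _ y => ∏ l, M.φ (θ.2 l) (if useSpin p kd l then
              σ (pmap Prod.fst y) (idx l) else t.σ (v l) (comp (pmap Prod.snd y) l))) T y := by
      intro θ idx v
      funext y
      rw [← hsz]
      exact ev_const_mul _ _ _ _ _
    simp only [h1, Ex_mul_left, PV.E_mul_left]
    unfold FM.pΘ U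
    rw [PV.E_prod]
    simp only [PV.E_mul_left, PV.E_mul_right]
    have h2 : (M.pC.E fun a => (-M.c a) ^ (j + 1)) =
        (-1) ^ (j + 1) * M.pC.E fun a => M.c a ^ (j + 1) := by
      rw [← PV.E_mul_left]
      congr 1
      funext a
      rw [neg_pow]
    rw [h2]
    have h3 : ((-1 : ℝ)) ^ j * (-1) ^ j = 1 := by
      rw [← mul_pow]; simp
    have h4 : ((M.pC.E fun a => M.c a ^ (j + 1)) / (j + 1).factorial * U M t κ σ x kd T) *
        ((-1 : ℝ) ^ j * (-1) ^ j) =
        (M.pC.E fun a => M.c a ^ (j + 1)) / (j + 1).factorial * U M t κ σ x kd T := by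
      rw [h3, mul_one]
    unfold U at h4
    rw [pow_succ]
    linear_combination h4
  rw [← sub_neg_eq_add, hS]
  refine PV.abs_E_sub_le _ fun θ => ?_
  rw [← PV.unif_pi_E]
  refine PV.abs_E_sub_le _ fun idx => ?_
  rw [← PV.unif_pi_E]
  refine PV.abs_E_sub_le _ fun v => ?_
  have h := Fr_series (κ.prod (Ker.pi fun l => t.κ (v l))) t.adm
    (g := fun y => -M.c θ.1 * ∏ l, M.φ (θ.2 l) (if useSpin p kd l then
      σ (pmap Prod.fst y) (idx l) else t.σ (v l) (comp (pmap Prod.snd y) l))) hρ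
    (fun y => by rw [neg_mul, abs_neg]; exact hb _ _ _) n fun i => (x i, fun l => t.x (v l) i)
  convert h using 5
  unfold FM.w
  congr 1
  ring

end UStep

open UStep in
/-- The added clause.  `κ` is any system with spins `σ`; the clause gets `p` fresh labels.  Let
`A kd` be the expression below.  With `ρ < 1` a bound for `|c ∏ φ|` (finitely many values),
`Fr_series` with `g = -c u`, `u = ∏_l φ (θ.2 l) (…)`, `ev_const_mul`, `insN_mem`:
`A kd = - Σ_{j<n} (E c^{j+1})/(j+1)! · wsum (insN j) (T ↦ U kd T) ± ρ^{n+1}/(1-ρ)`, where `U kd T` is the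
average over `θ.2, idx, v` of `Ex s (ev u T)`.  `u` is a product of a function of the first component
(`∏` over the positions with `useSpin`) and of functions of the labels, so (`ev_prod_mul`,
`Ex_prod_mul`, `ev_pi_prod`, `Ex_pi_prod`, `ev_rep κ T s x`, `map_prod`, independence `PV.E_pi_prod`)
`U kd T = E_ω X_ω^{#spin positions} · Y^{#label positions}`, `X_ω = E_f 𝔼_i χ ω (fun _ y => φ f (σ y i))`,
`Y = E_f 𝔼_v Ex (t.κ v) s (ev (fun _ y => φ f (t.σ v y)) T) (t.x v)`.  `pow_ineq` (if `φ ≥ 0` then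
`X, Y ≥ 0`), `insN_nonneg`, `M.Pos`; let `n → ∞`. -/
theorem clause_ineq {p : ℕ} (M : FM p) (hp : 1 ≤ p) (hM : M.Pos) (t : Trial) {Ξ V : Type}
    [Fintype Ξ] [Fintype V] [Nonempty V] (κ : Ker t.R Ξ) (σ : Path t.R Ξ → V → Bool)
    (x : Path t.R Ξ) (A : Fin 3 → ℝ)
    (hA : ∀ kd, A kd = M.pΘ.E fun θ => 𝔼 idx : Fin p → V, 𝔼 v : Fin p → t.V,
      Fr (κ.prod (Ker.pi fun l => t.κ (v l))) t.m t.s
        (fun y => Real.log (M.w θ fun l => if useSpin p kd l then σ (pmap Prod.fst y) (idx l)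
          else t.σ (v l) (comp (pmap Prod.snd y) l)))
        fun i => (x i, fun l => t.x (v l) i)) :
    A 1 + (p - 1 : ℝ) * A 2 ≤ p * A 0 := by
  obtain ⟨ρ, hρ0, hρ, hb⟩ := exists_lt_one_bound
    (fun z : M.C × (Fin p → M.Φ) × (Fin p → Bool) => |M.c z.1 * ∏ l, M.φ (z.2.1 l) (z.2.2 l)|)
    fun z => M.lt_one _ _ _
  have hp1 : (1 : ℝ) ≤ p := by exact_mod_cast hp
  have hn : ∀ n : ℕ, A 1 + (p - 1 : ℝ) * A 2 - p * A 0 ≤ 2 * p / (1 - ρ) * ρ ^ (n + 1) := by
    intro n
    have h := fun kd => clause_series M t κ σ x hρ (fun a f s => hb (a, f, s)) kd n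
    simp only [← hA] at h
    set S : Fin 3 → ℝ := fun kd => ∑ j ∈ range n, (M.pC.E fun a => M.c a ^ (j + 1)) /
      (j + 1).factorial * wsum (insN t.m t.R t.s j) (U M t κ σ x kd) with hS
    have hpos : 0 ≤ S 1 + (p - 1 : ℝ) * S 2 - p * S 0 := by
      simp only [hS, mul_sum, ← sum_add_distrib, ← sum_sub_distrib]
      refine sum_nonneg fun j _ => ?_
      have h1 := wsum_nonneg (insN_nonneg t.adm j) (U_ineq M hp hM t κ σ x)
      rw [wsum_sub, wsum_add, wsum_mul_left, wsum_mul_left] at h1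
      have h2 : 0 ≤ (M.pC.E fun a => M.c a ^ (j + 1)) / (j + 1).factorial :=
        div_nonneg (hM.1 _ (by omega)) (Nat.cast_nonneg _)
      have := mul_nonneg h2 h1
      linarith
    have h0 := (abs_le.1 (h 0)).1
    have h1 := (abs_le.1 (h 1)).2
    have h2 := (abs_le.1 (h 2)).2
    change _ ≤ A 0 + S 0 at h0
    change A 1 + S 1 ≤ _ at h1
    change A 2 + S 2 ≤ _ at h2
    have h0' := mul_le_mul_of_nonneg_left h0 (by linarith : (0 : ℝ) ≤ p)
    have h2' := mul_le_mul_of_nonneg_left h2 (by linarith : (0 : ℝ) ≤ p - 1)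
    have e : 2 * p / (1 - ρ) * ρ ^ (n + 1) = 2 * p * (ρ ^ (n + 1) / (1 - ρ)) := by ring
    rw [e]
    linarith
  have hlim : Filter.Tendsto (fun n : ℕ => 2 * p / (1 - ρ) * ρ ^ (n + 1)) Filter.atTop
      (nhds (2 * p / (1 - ρ) * 0)) :=
    ((tendsto_pow_atTop_nhds_zero_of_lt_one hρ0 hρ).comp
      (Filter.tendsto_add_atTop_nat 1)).const_mul _
  have := ge_of_tendsto' hlim hn
  linarith

namespace UStep

/-- resampling the data of one clause -/
theorem resample {Θ I H W ι L L₁ L₂ : Type} [Fintype Θ] [Fintype I] [Fintype H] [Fintype W]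
    [Fintype ι] [DecidableEq ι] [Fintype L] [DecidableEq L] [Fintype L₁] [DecidableEq L₁]
    [Fintype L₂] [DecidableEq L₂] (pΘ : PV Θ) (pI : PV I) (pH : PV H) (pW : PV W) (j : ι)
    (e₁ : L₁ → L) (e₂ : L₂ → L) (h₁ : Function.Injective e₁) (h₂ : Function.Injective e₂)
    (hd : ∀ a b, e₁ a ≠ e₂ b)
    (Δ : (ι → Θ) → (ι → I) → H → (L₁ → W) → Θ → I → (L₂ → W) → ℝ)
    (hθ : ∀ θ a, Δ (Function.update θ j a) = Δ θ)
    (hi : ∀ θ idx b, Δ θ (Function.update idx j b) = Δ θ idx) :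
    ((pΘ.pi ι).E fun θ => (pI.pi ι).E fun idx => pH.E fun h => (pW.pi L).E fun v =>
      Δ θ idx h (fun i => v (e₁ i)) (θ j) (idx j) (fun i => v (e₂ i))) =
    (pΘ.pi ι).E fun θ => (pI.pi ι).E fun idx => pH.E fun h => (pW.pi L₁).E fun v₁ =>
      pΘ.E fun a => pI.E fun b => (pW.pi L₂).E fun v₂ => Δ θ idx h v₁ a b v₂ := by
  have s1 : ∀ θ idx h a b, ((pW.pi L).E fun v =>
      Δ θ idx h (fun i => v (e₁ i)) a b (fun i => v (e₂ i))) =
      (pW.pi L₁).E fun v₁ => (pW.pi L₂).E fun v₂ => Δ θ idx h v₁ a b v₂ :=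
    fun θ idx h a b => pW.E_pi_two e₁ e₂ h₁ h₂ hd fun v₁ v₂ => Δ θ idx h v₁ a b v₂
  simp only [s1]
  have s2 : ∀ θ a, ((pI.pi ι).E fun idx => pH.E fun h => (pW.pi L₁).E fun v₁ =>
      (pW.pi L₂).E fun v₂ => Δ θ idx h v₁ a (idx j) v₂) =
      (pI.pi ι).E fun idx => pH.E fun h => (pW.pi L₁).E fun v₁ => pI.E fun b =>
        (pW.pi L₂).E fun v₂ => Δ θ idx h v₁ a b v₂ := by
    intro θ a
    rw [pI.E_pi_update j]
    congr 1
    funext idx
    simp only [hi, Function.update_self]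
    rw [pI.E_comm pH]
    congr 1
    funext h
    rw [pI.E_comm (pW.pi L₁)]
  simp only [s2]
  rw [pΘ.E_pi_update j]
  congr 1
  funext θ
  simp only [hθ, Function.update_self]
  rw [pΘ.E_comm (pI.pi ι)]
  congr 1
  funext idx
  rw [pΘ.E_comm pH]
  congr 1
  funext h
  rw [pΘ.E_comm (pW.pi L₁)]

section
variable {p : ℕ} (M : FM p) (t : Trial) (N : ℕ) {K : ℕ} (kd : Fin K → Fin 3) (j : Fin K)

/-- the labels of the other clauses -/
abbrev Oth (p : ℕ) {K : ℕ} (j : Fin K) : Type := {l : Fin K × Fin p // l.1 ≠ j}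

/-- the last level -/
def lastL : Fin t.R := ⟨t.R - 1, by have := t.adm.lt; omega⟩

/-- the system without the labels of the clause `j` -/
noncomputable def K1 (v : Oth p j → t.V) : Ker t.R ((Fin (N + 1) → Bool) × (Oth p j → t.Ξ)) :=
  (Ker.unif t.R (Fin (N + 1) → Bool)).prod (Ker.pi fun l => t.κ (v l))

/-- the Hamiltonian without the clause `j` -/
noncomputable def Hr (θ : Fin K → M.Θ) (idx : Fin K → Fin p → Fin (N + 1))
    (h : Fin (N + 1) → M.H) (v : Oth p j → t.V)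
    (y : Path t.R ((Fin (N + 1) → Bool) × (Oth p j → t.Ξ))) : ℝ :=
  ∑ j' : {j' : Fin K // j' ≠ j}, Real.log (M.w (θ j'.1) fun l =>
      if useSpin p (kd j'.1) l then (y (lastL t)).1 (idx j'.1 l)
      else t.σ (v ⟨(j'.1, l), j'.2⟩) (comp (pmap Prod.snd y) ⟨(j'.1, l), j'.2⟩)) +
    ∑ i, M.hv (h i) * spinVal ((y (lastL t)).1 i)

/-- the starting point -/
def x1 (v : Oth p j → t.V) : Path t.R ((Fin (N + 1) → Bool) × (Oth p j → t.Ξ)) :=
  fun i => (fun _ => true, fun l => t.x (v l) i)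

/-- the cost of the clause `j` -/
noncomputable def D (k : Fin 3) (θ : Fin K → M.Θ) (idx : Fin K → Fin p → Fin (N + 1))
    (h : Fin (N + 1) → M.H) (v : Oth p j → t.V) (a : M.Θ) (b : Fin p → Fin (N + 1))
    (v₂ : Fin p → t.V) : ℝ :=
  Fr ((tilt (K1 t N j v) t.m (Hr M t N kd j θ idx h v)).prod (Ker.pi fun l => t.κ (v₂ l))) t.m t.s
    (fun y => Real.log (M.w a fun l => if useSpin p k l then
        (fun (z : Path t.R ((Fin (N + 1) → Bool) × (Oth p j → t.Ξ))) => (z (lastL t)).1)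
          (pmap Prod.fst y) (b l)
      else t.σ (v₂ l) (comp (pmap Prod.snd y) l)))
    fun i => (x1 t N j v i, fun l => t.x (v₂ l) i)

/-- the common part -/
noncomputable def C (θ : Fin K → M.Θ) (idx : Fin K → Fin p → Fin (N + 1))
    (h : Fin (N + 1) → M.H) (v : Oth p j → t.V) (v₂ : Fin p → t.V) : ℝ :=
  Fr ((K1 t N j v).prod (Ker.pi fun l => t.κ (v₂ l))) t.m t.s
    (fun y => Hr M t N kd j θ idx h v (pmap Prod.fst y))
    fun i => (x1 t N j v i, fun l => t.x (v₂ l) i)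

theorem Hr_update_θ (θ : Fin K → M.Θ) (a : M.Θ) :
    Hr M t N kd j (Function.update θ j a) = Hr M t N kd j θ := by
  funext idx h v y
  unfold Hr
  congr 1
  refine sum_congr rfl fun j' _ => ?_
  rw [Function.update_of_ne j'.2]

theorem Hr_update_idx (θ : Fin K → M.Θ) (idx : Fin K → Fin p → Fin (N + 1))
    (b : Fin p → Fin (N + 1)) :
    Hr M t N kd j θ (Function.update idx j b) = Hr M t N kd j θ idx := by
  funext h v y
  unfold Hr
  congr 1
  refine sum_congr rfl fun j' _ => ?_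
  rw [Function.update_of_ne j'.2]

theorem split (k : Fin 3) (θ : Fin K → M.Θ) (idx : Fin K → Fin p → Fin (N + 1))
    (h : Fin (N + 1) → M.H) (v : Fin K × Fin p → t.V) :
    Fr ((Ker.unif t.R (Fin (N + 1) → Bool)).prod (Ker.pi fun l => t.κ (v l))) t.m t.s
      (fun y =>
        ∑ j', Real.log (M.w (θ j') fun l =>
          if useSpin p (Function.update kd j k j') l then (y (lastL t)).1 (idx j' l)
          else t.σ (v (j', l)) (comp (pmap Prod.snd y) (j', l))) +
        ∑ i, M.hv (h i) * spinVal ((y (lastL t)).1 i))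
      (fun i => (fun _ => true, fun l => t.x (v l) i)) =
    C M t N kd j θ idx h (fun l => v l.1) (fun l => v (j, l)) +
      D M t N kd j k θ idx h (fun l => v l.1) (θ j) (idx j) (fun l => v (j, l)) := by
  have hs := ((sim_refl (Ker.unif t.R (Fin (N + 1) → Bool)) t.s).prod_map
    (sim_pi_two (fun l => t.κ (v l)) (fun l : Oth p j => l.1) (fun l : Fin p => (j, l))
      Subtype.val_injective (fun a b hab => (Prod.mk.inj hab).2)
      (fun a b hab => a.2 (congrArg Prod.fst hab)) t.s)).comp_pmap (sim_assoc _ _ _ t.s)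
  unfold C D
  rw [← tilt_prod_fst, ← Fr_add _ t.adm]
  have := hs.Fr (m := t.m) le_rfl (fun y => Hr M t N kd j θ idx h (fun l => v l.1)
    (pmap Prod.fst y) + Real.log (M.w (θ j) fun l => if useSpin p k l then
        (fun (z : Path t.R ((Fin (N + 1) → Bool) × (Oth p j → t.Ξ))) => (z (lastL t)).1)
          (pmap Prod.fst y) (idx j l)
      else t.σ (v (j, l)) (comp (pmap Prod.snd y) l))) (fun i => (fun _ => true, fun l => t.x (v l) i))
  refine Eq.trans ?_ this
  congr 1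
  funext y
  rw [Fintype.sum_eq_add_sum_subtype_ne _ j, Function.update_self]
  unfold Hr
  have e : ∀ j' : {j' : Fin K // j' ≠ j}, Function.update kd j k j'.1 = kd j'.1 :=
    fun j' => Function.update_of_ne j'.2 _ _
  simp only [e]
  rw [add_assoc, add_comm]
  rfl

theorem Phi_eq (k : Fin 3) :
    M.Phi t N (Function.update kd j k) =
      ((M.pΘ.pi (Fin K)).E fun θ => ((PV.unif (Fin p → Fin (N + 1))).pi (Fin K)).E fun idx =>
        (M.pH.pi (Fin (N + 1))).E fun h => ((PV.unif t.V).pi (Fin K × Fin p)).E fun v =>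
          C M t N kd j θ idx h (fun l => v l.1) (fun l => v (j, l))) +
      (M.pΘ.pi (Fin K)).E fun θ => ((PV.unif (Fin p → Fin (N + 1))).pi (Fin K)).E fun idx =>
        (M.pH.pi (Fin (N + 1))).E fun h => ((PV.unif t.V).pi (Oth p j)).E fun v₁ =>
          M.pΘ.E fun a => 𝔼 b : Fin p → Fin (N + 1), 𝔼 v₂ : Fin p → t.V,
            D M t N kd j k θ idx h v₁ a b v₂ := by
  have hr := resample M.pΘ (PV.unif (Fin p → Fin (N + 1))) (M.pH.pi (Fin (N + 1))) (PV.unif t.V) j
    (fun l : Oth p j => l.1) (fun l : Fin p => (j, l))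
    Subtype.val_injective (fun a b hab => (Prod.mk.inj hab).2)
    (fun a b hab => a.2 (congrArg Prod.fst hab)) (D M t N kd j k)
    (fun θ a => by funext idx h v a' b v₂; unfold D; rw [Hr_update_θ])
    (fun θ idx b => by funext h v a' b' v₂; unfold D; rw [Hr_update_idx])
  simp only [PV.unif_E, PV.unif_pi_E (ι := Fin p)] at hr
  rw [← hr]
  simp only [← PV.E_add]
  unfold FM.Phi FM.Dis
  congr 1
  funext θ
  rw [← PV.unif_pi_E]
  congr 1
  funext idx
  congr 1
  funext h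
  beta_reduce
  rw [← PV.unif_pi_E]
  congr 1
  funext v
  exact split M t N kd j k θ idx h v

end

end UStep

open UStep in
/-- Isolate the clause `j`: resample `θ j`, `idx j` (`PV.E_pi_update`, `PV.unif_pi_E`), split the labels
into `{l // l.1 ≠ j}` and `Fin p` (`PV.E_pi_two`, `sim_pi_two`, `Sim.prod_map`, `sim_assoc`), then
`Fr_add` and `tilt_prod_fst`: `Phi (update kd j k) = (common part) + average of A k` for the system
`κ = tilt (unif.prod (pi of the other labels)) m (rest of the Hamiltonian)`; `clause_ineq`. -/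
theorem ub_step {p : ℕ} (M : FM p) (hp : 1 ≤ p) (hM : M.Pos) (t : Trial) (N : ℕ) {K : ℕ}
    (kd : Fin K → Fin 3) (j : Fin K) :
    M.Phi t N (Function.update kd j 1) + (p - 1 : ℝ) * M.Phi t N (Function.update kd j 2) ≤
      p * M.Phi t N (Function.update kd j 0) := by
  rw [Phi_eq, Phi_eq, Phi_eq]
  have key : ∀ θ idx h v₁, (M.pΘ.E fun a => 𝔼 b : Fin p → Fin (N + 1), 𝔼 v₂ : Fin p → t.V,
        D M t N kd j 1 θ idx h v₁ a b v₂) + (p - 1 : ℝ) *
      (M.pΘ.E fun a => 𝔼 b : Fin p → Fin (N + 1), 𝔼 v₂ : Fin p → t.V,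
        D M t N kd j 2 θ idx h v₁ a b v₂) ≤
      p * M.pΘ.E fun a => 𝔼 b : Fin p → Fin (N + 1), 𝔼 v₂ : Fin p → t.V,
        D M t N kd j 0 θ idx h v₁ a b v₂ := fun θ idx h v₁ =>
    clause_ineq M hp hM t (tilt (K1 t N j v₁) t.m (Hr M t N kd j θ idx h v₁))
      (fun z => (z (lastL t)).1) (x1 t N j v₁)
      (fun k => M.pΘ.E fun a => 𝔼 b : Fin p → Fin (N + 1), 𝔼 v₂ : Fin p → t.V,
        D M t N kd j k θ idx h v₁ a b v₂) fun _ => rfl
  have h := (M.pΘ.pi (Fin K)).E_mono fun θ =>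
    ((PV.unif (Fin p → Fin (N + 1))).pi (Fin K)).E_mono fun idx =>
      (M.pH.pi (Fin (N + 1))).E_mono fun h =>
        ((PV.unif t.V).pi (Oth p j)).E_mono fun v₁ => key θ idx h v₁
  simp only [PV.E_add, PV.E_mul_left] at h
  linarith

end Crest.Agent.R141
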